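import Vale.Agent.P128.Basic0
import Vale.Agent.P071.Weyl

/-!
# P128 Wey

Weyl lemma for the Cauchy-Riemann operator. With `∇ φ = φ_x + i φ_y` (`grad_eq`): applying the
hypothesis to `φ_x` and `φ_y` gives `∫ f Δφ = ∫ f (∇ φ_x - i ∇ φ_y) = 0`, so `re f`, `im f` have smooth
representatives by `Vale.Agent.P071.weyl` (`μ = 0`). For the smooth representative `g`, integrate by
parts (`integral_mul_fderiv_eq_neg_fderiv_mul_of_integrable` after a cutoff, or
`integral_bilinear_hasLineDerivAt_right_eq_neg_left_of_integrable`) to get `g_x + i g_y = 0` weakly,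
hence pointwise (`IsOpen.ae_eq_zero_of_integral_contDiff_smul_eq_zero`), hence `g` is holomorphic.
-/

namespace Vale.Agent.P128

open Set Metric MeasureTheory Filter Topology Complex
open scoped ENNReal ContDiff RealInnerProductSpace Gradient Real ComplexConjugate

variable {Ω K L A S T U O X Γ P M₀ K₀ K₁ : Set ℂ} {u v w g hh ψ η : ℂ → ℝ} {G : ℂ → ℂ}
  {π₀ π₁ : ℂ → Set ℂ} {x y z c p q e a₀ F : ℂ} {lam H r s R a b t M Θ ρ ε δ d : ℝ} {n : ℕ}

theorem wey_int {k j : ℂ → ℂ} {C : Set ℂ} (hk : LocallyIntegrableOn k U) (hj : Continuous j)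
    (hC : IsCompact C) (hCU : C ⊆ U) (h0 : ∀ z ∉ C, j z = 0) : Integrable fun z => k z * j z := by
  refine (integrableOn_iff_integrable_of_support_subset (s := C)
    fun z hz => by_contra fun hh => hz (by simp [h0 z hh])).1 ?_
  exact (hk.integrableOn_compact_subset hCU hC).mul_continuousOn hj.continuousOn hC

theorem wey_fd0 {φ : ℂ → ℝ} (hz : z ∉ tsupport φ) (v : ℂ) : fderiv ℝ φ z v = 0 := by
  have : fderiv ℝ φ z = 0 := by_contra fun hh => hz (support_fderiv_subset ℝ hh)
  simp [this]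

theorem wey_supp (φ : ℂ → ℝ) (v : ℂ) : tsupport (fun z => fderiv ℝ φ z v) ⊆ tsupport φ :=
  closure_minimal (fun _ hz => by_contra fun hh => hz (wey_fd0 hh v)) (isClosed_tsupport φ)

theorem wey_cd {φ : ℂ → ℝ} (hφ : ContDiff ℝ ∞ φ) (v : ℂ) :
    ContDiff ℝ ∞ fun z => fderiv ℝ φ z v :=
  (hφ.fderiv_right (m := ∞) le_rfl).clm_apply contDiff_const

theorem wey_cgrad {φ : ℂ → ℝ} (hφ : ContDiff ℝ ∞ φ) : Continuous (∇ φ) := by
  have h1 := (wey_cd hφ 1).continuous
  have h2 := (wey_cd hφ I).continuous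
  rw [funext (grad_eq φ)]
  fun_prop

theorem wey_grad0 {φ : ℂ → ℝ} (hz : z ∉ tsupport φ) : ∇ φ z = 0 := by
  simp [grad_eq, wey_fd0 hz]

theorem wey_lap {f : ℂ → ℂ} (hf : LocallyIntegrableOn f U)
    (h : ∀ φ : ℂ → ℝ, ContDiff ℝ ∞ φ → HasCompactSupport φ → tsupport φ ⊆ U →
      ∫ z in U, f z * ∇ φ z = 0) {φ : ℂ → ℝ} (hφ : ContDiff ℝ ∞ φ) (hc : HasCompactSupport φ)
    (hs : tsupport φ ⊆ U) :
    IntegrableOn (fun z => f z * (P071.lap φ z : ℝ)) U ∧
      ∫ z in U, f z * (P071.lap φ z : ℝ) = 0 := by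
  have c : ∀ v : ℂ, HasCompactSupport fun z => fderiv ℝ φ z v := fun v =>
    hc.of_isClosed_subset (isClosed_tsupport _) (wey_supp φ v)
  have i : ∀ v : ℂ, IntegrableOn (fun z => f z * ∇ (fun z => fderiv ℝ φ z v) z) U := fun v =>
    (wey_int hf (wey_cgrad (wey_cd hφ v)) (c v) ((wey_supp φ v).trans hs)
      fun z hz => wey_grad0 hz).integrableOn
  have e : (fun z => f z * (P071.lap φ z : ℝ)) = fun z =>
      f z * ∇ (fun z => fderiv ℝ φ z 1) z - I * (f z * ∇ (fun z => fderiv ℝ φ z I) z) := by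
    funext z
    have := P071.dx_dy_comm (f := φ) (z := z) (hφ.contDiffAt.of_le P071.weyl_two_le)
    rw [grad_eq, grad_eq, P071.lap]
    change f z * _ = f z * (((P071.dx (P071.dx φ) z : ℝ) : ℂ) + I * (P071.dy (P071.dx φ) z : ℝ)) -
      I * (f z * (((P071.dx (P071.dy φ) z : ℝ) : ℂ) + I * (P071.dy (P071.dy φ) z : ℝ)))
    rw [this]
    push_cast
    linear_combination (f z * (P071.dy (P071.dy φ) z : ℝ)) * I_mul_I
  rw [e]
  refine ⟨(i 1).sub ((i I).const_mul I), ?_⟩
  rw [integral_sub (i 1) ((i I).const_mul I), integral_const_mul,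
    h _ (wey_cd hφ 1) (c 1) ((wey_supp φ 1).trans hs),
    h _ (wey_cd hφ I) (c I) ((wey_supp φ I).trans hs)]
  simp

theorem wey_ibp {k : ℂ → ℂ} (hU : IsOpen U) (hk : ContDiffOn ℝ ∞ k U) {φ : ℂ → ℝ}
    (hφ : ContDiff ℝ ∞ φ) (hc : HasCompactSupport φ) (hs : tsupport φ ⊆ U) (v : ℂ) :
    Integrable (fun z => fderiv ℝ k z v * φ z) ∧ Integrable (fun z => k z * fderiv ℝ φ z v) ∧
      ∫ z, k z * fderiv ℝ φ z v = -∫ z, fderiv ℝ k z v * φ z := by
  have l1 : LocallyIntegrableOn k U := hk.continuousOn.locallyIntegrableOn hU.measurableSet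
  have l2 : LocallyIntegrableOn (fun z => fderiv ℝ k z v) U :=
    ((hk.continuousOn_fderiv_of_isOpen hU (by simp)).clm_apply
      continuousOn_const).locallyIntegrableOn hU.measurableSet
  have c1 : Continuous fun z => (φ z : ℂ) := continuous_ofReal.comp hφ.continuous
  have c2 : Continuous fun z => ((fderiv ℝ φ z v : ℝ) : ℂ) :=
    continuous_ofReal.comp (wey_cd hφ v).continuous
  have z1 : ∀ z ∉ tsupport φ, (φ z : ℂ) = 0 := fun z hz => by
    simp [image_eq_zero_of_notMem_tsupport hz]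
  have i1 := wey_int l2 c1 hc hs z1
  have i2 := wey_int l1 c2 hc hs fun z hz => by simp [wey_fd0 hz]
  have i3 := wey_int l1 c1 hc hs z1
  have d : ∀ z, DifferentiableAt ℝ φ z := fun z => hφ.differentiable (by simp) z
  have e : ∀ z, fderiv ℝ (fun z => (φ z : ℂ)) z v = (fderiv ℝ φ z v : ℝ) := fun z => by
    have := (ofRealCLM.hasFDerivAt.comp z (d z).hasFDerivAt).fderiv
    exact congrArg (fun L : ℂ →L[ℝ] ℂ => L v) this
  refine ⟨i1, i2, ?_⟩
  have := integral_mul_fderiv_eq_neg_fderiv_mul_of_integrable (μ := volume) (v := v) (f := k)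
    (g := fun z => (φ z : ℂ)) i1 (by simpa only [e] using i2) i3
    (fun z hz => (hk.contDiffAt (hU.mem_nhds (hs ?_))).differentiableAt (by simp))
    fun z _ => ofRealCLM.differentiableAt.comp z (d z)
  · simpa only [e] using this
  · have : Function.support (fun z => (φ z : ℂ)) ⊆ tsupport φ :=
      fun w hw => by_contra fun hh => hw (z1 w hh)
    exact closure_minimal this (isClosed_tsupport φ) hz

theorem wey {f : ℂ → ℂ} (hU : IsOpen U) (hf : LocallyIntegrableOn f U)
    (h : ∀ φ : ℂ → ℝ, ContDiff ℝ ∞ φ → HasCompactSupport φ → tsupport φ ⊆ U →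
      ∫ z in U, f z * ∇ φ z = 0) :
    ∃ k : ℂ → ℂ, DifferentiableOn ℂ k U ∧ ∀ᵐ z : ℂ, z ∈ U → f z = k z := by
  have part : ∀ Λ : ℂ →L[ℝ] ℝ, ∃ g : ℂ → ℝ, ContDiffOn ℝ ∞ g U ∧
      ∀ᵐ z ∂(volume.restrict U), Λ (f z) = g z := by
    intro Λ
    have l : LocallyIntegrableOn (fun z => Λ (f z)) U := fun z hz => by
      obtain ⟨t, ht, hi⟩ := hf z hz
      exact ⟨t, ht, Λ.integrable_comp hi⟩
    obtain ⟨g, h1, h2, -⟩ := P071.weyl hU le_rfl l fun φ hφ hc hs => by
      obtain ⟨i, e⟩ := wey_lap hf h hφ hc hs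
      have := Λ.integral_comp_comm i
      rw [e, map_zero] at this
      refine Eq.trans (integral_congr_ae (Eventually.of_forall fun z => ?_)) this
      simp only [zero_mul, add_zero]
      rw [mul_comm (f z), ← real_smul, map_smul, smul_eq_mul, mul_comm]
    exact ⟨g, h1, h2⟩
  obtain ⟨g₁, a1, a2⟩ := part reCLM
  obtain ⟨g₂, b1, b2⟩ := part imCLM
  have hk : ContDiffOn ℝ ∞ (fun z => (g₁ z : ℂ) + g₂ z * I) U :=
    (ofRealCLM.contDiff.comp_contDiffOn a1).add
      ((ofRealCLM.contDiff.comp_contDiffOn b1).mul contDiffOn_const)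
  set k := fun z => (g₁ z : ℂ) + g₂ z * I with hkd
  have he : ∀ᵐ z ∂(volume.restrict U), f z = k z := by
    filter_upwards [a2, b2] with z x1 x2
    simp only [reCLM_apply, imCLM_apply] at x1 x2
    rw [hkd]
    simp only [← x1, ← x2, re_add_im]
  have cf := hk.continuousOn_fderiv_of_isOpen hU (by simp)
  have cB : ContinuousOn (fun z => fderiv ℝ k z 1 + I * fderiv ℝ k z I) U :=
    (cf.clm_apply continuousOn_const).add
      (continuousOn_const.mul (cf.clm_apply continuousOn_const))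
  have h0 := hU.ae_eq_zero_of_integral_contDiff_smul_eq_zero (μ := volume)
    (cB.locallyIntegrableOn hU.measurableSet) fun φ hφ hc hs => by
      obtain ⟨i1, j1, e1⟩ := wey_ibp hU hk hφ hc hs 1
      obtain ⟨i2, j2, e2⟩ := wey_ibp hU hk hφ hc hs I
      have t1 := h φ hφ hc hs
      have t2 : ∫ z in U, f z * ∇ φ z = ∫ z in U, k z * ∇ φ z := by
        refine integral_congr_ae ?_
        filter_upwards [he] with z hz
        rw [hz]
      rw [t2, setIntegral_eq_integral_of_forall_compl_eq_zero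
        fun z hz => by rw [wey_grad0 fun hh => hz (hs hh), mul_zero]] at t1
      have t3 : ∫ z, k z * ∇ φ z =
          (∫ z, k z * fderiv ℝ φ z 1) + I * ∫ z, k z * fderiv ℝ φ z I := by
        rw [← integral_const_mul, ← integral_add j1 (j2.const_mul I)]
        refine integral_congr_ae (Eventually.of_forall fun z => ?_)
        simp only [grad_eq]
        ring
      have t4 : ∫ z, φ z • (fderiv ℝ k z 1 + I * fderiv ℝ k z I) =
          (∫ z, fderiv ℝ k z 1 * φ z) + I * ∫ z, fderiv ℝ k z I * φ z := by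
        rw [← integral_const_mul, ← integral_add i1 (i2.const_mul I)]
        refine integral_congr_ae (Eventually.of_forall fun z => ?_)
        simp only [real_smul]
        ring
      rw [t4]
      rw [t3, e1, e2] at t1
      linear_combination -t1
  have h1 : EqOn (fun z => fderiv ℝ k z 1 + I * fderiv ℝ k z I) (fun _ => 0) U :=
    Measure.eqOn_open_of_ae_eq ((ae_restrict_iff' hU.measurableSet).2 h0) hU cB continuousOn_const
  refine ⟨k, fun z hz => ?_, (ae_restrict_iff' hU.measurableSet).1 he⟩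
  refine (differentiableAt_complex_iff_differentiableAt_real.2
    ⟨(hk.contDiffAt (hU.mem_nhds hz)).differentiableAt (by simp), ?_⟩).differentiableWithinAt
  have := h1 hz
  simp only at this
  rw [smul_eq_mul]
  linear_combination (-I) * this + fderiv ℝ k z I * I_mul_I

end Vale.Agent.P128
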