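import Vale.Agent.P128.Basic

/-!
# P128 Adm

Bookkeeping for admissible and quiet scales.
-/

namespace Vale.Agent.P128

open Set Metric MeasureTheory Filter Topology Complex
open scoped ENNReal ContDiff RealInnerProductSpace Gradient Real ComplexConjugate

variable {Ω K L A S T U O X Γ P M₀ K₀ K₁ : Set ℂ} {u v w g hh ψ η : ℂ → ℝ} {G : ℂ → ℂ}
  {π₀ π₁ : ℂ → Set ℂ} {x y z c p q e a₀ F : ℂ} {lam H r s R a b t M Θ ρ ε δ d : ℝ} {n : ℕ}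

theorem Adm.mono {ε' : ℝ} (h : Adm Ω lam x R ε) (hl : 0 ≤ lam) (hε : 0 < ε) (hε' : 0 < ε')
    (hρ : 0 < ρ) (h1 : ρ / ε' ≤ R / ε) (h2 : lam * ρ ≤ ε' ^ 2) : Adm Ω lam x ρ ε' :=
  have _ := hl
  have _ := hε
  have _ := hε'
  ⟨hρ, (closedBall_subset_closedBall h1).trans h.2.1, h2⟩

theorem Quiet.mono {ε' : ℝ} (h : Quiet Ω lam u K x R ε) (hl : 0 ≤ lam) (hε : 0 < ε) (hε' : ε ≤ ε')
    (hρ : 0 < ρ) (hR : ρ ≤ R) : Quiet Ω lam u K x ρ ε' := by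
  have h0 : 0 < ε' := hε.trans_le hε'
  have h1 : ρ / ε' ≤ R / ε := div_le_div₀ h.1.1.le hR hε hε'
  refine ⟨h.1.mono hl hε h0 hρ h1 ?_, fun r hr hr' => (h.2 r hr (hr'.trans h1)).trans ?_⟩
  · calc lam * ρ ≤ lam * R := mul_le_mul_of_nonneg_left hR hl
      _ ≤ ε ^ 2 := h.1.2.2
      _ ≤ ε' ^ 2 := pow_le_pow_left₀ hε.le hε' 2
  · exact mul_le_mul_of_nonneg_right hε' hr.le

theorem adm_lt (hε : 0 < ε) (hδ : 0 < δ) : ∀ᶠ R in 𝓝[>] (0 : ℝ), R / ε < δ := by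
  have : ∀ᶠ R in 𝓝 (0 : ℝ), R < δ * ε := eventually_lt_nhds (mul_pos hδ hε)
  filter_upwards [nhdsWithin_le_nhds this] with R hR
  rwa [div_lt_iff₀ hε]

theorem adm_small (hΩ : IsOpen Ω) (hx : x ∈ Ω) (lam : ℝ) (hε : 0 < ε) :
    ∀ᶠ R in 𝓝[>] (0 : ℝ), Adm Ω lam x R ε := by
  obtain ⟨δ, hδ, hb⟩ := Metric.isOpen_iff.1 hΩ x hx
  have h1 : ∀ᶠ R in 𝓝 (0 : ℝ), lam * R < ε ^ 2 := by
    have : Tendsto (fun R : ℝ => lam * R) (𝓝 0) (𝓝 (lam * 0)) :=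
      (continuous_const.mul continuous_id).tendsto 0
    rw [mul_zero] at this
    exact this.eventually (eventually_lt_nhds (by positivity))
  filter_upwards [adm_lt hε hδ, nhdsWithin_le_nhds h1, self_mem_nhdsWithin] with R h2 h3 h4
  exact ⟨h4, (closedBall_subset_ball h2).trans hb, h3.le⟩

theorem quiet_small (hΩ : IsOpen Ω) (hx : x ∈ Ω) (lam : ℝ) (hε : 0 < ε)
    (hD : Tendsto (fun r => Dr u K x r / r) (𝓝[>] 0) (𝓝 0)) :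
    ∀ᶠ R in 𝓝[>] (0 : ℝ), Quiet Ω lam u K x R ε := by
  have h1 := hD.eventually (eventually_lt_nhds hε)
  rw [eventually_nhdsWithin_iff, Metric.eventually_nhds_iff] at h1
  obtain ⟨δ, hδ, hb⟩ := h1
  filter_upwards [adm_small hΩ hx lam hε, adm_lt hε hδ] with R h2 h3
  refine ⟨h2, fun ρ hρ hρ' => ?_⟩
  have := hb (y := ρ) (by rw [Real.dist_eq, sub_zero, abs_of_pos hρ]; exact hρ'.trans_lt h3) hρ
  rw [div_lt_iff₀ hρ] at this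
  exact this.le

end Vale.Agent.P128
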