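import Vale.Agent.P128.Basic0

/-!
# P128 Basic

Small API used everywhere. All proofs are short. `vol_null`: `Measure.hausdorffMeasure_zero_or_top`
and volume of `ℂ` is a multiple of `μH[2]` (or `dimH`). `ae_diff`: Rademacher
(`LipschitzOnWith.ae_differentiableWithinAt_of_mem`) on countably many balls. `grad_tr`: three cases; if
`|u z| = M` the truncation has a global extremum at `z` (`IsLocalMax.fderiv_eq_zero`). `lip_glue`: near a
point of the sphere, a segment from an inner to an outer point crosses the sphere inside a small ball.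
-/

namespace Vale.Agent.P128

open Set Metric MeasureTheory Filter Topology Complex
open scoped ENNReal ContDiff RealInnerProductSpace Gradient Real ComplexConjugate

variable {Ω K L A S T U O X Γ P M₀ K₀ K₁ : Set ℂ} {u v w g hh ψ η : ℂ → ℝ} {G : ℂ → ℂ}
  {π₀ π₁ : ℂ → Set ℂ} {x y z c p q e a₀ F : ℂ} {lam H r s R a b t M Θ ρ ε δ d : ℝ} {n : ℕ}

theorem meas_gK (hK : IsClosed K) (u : ℂ → ℝ) : Measurable (gK K u) :=
  (meas_grad u).indicator hK.measurableSet.compl

theorem gK_of_mem (u : ℂ → ℝ) (hz : z ∈ K) : gK K u z = 0 :=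
  indicator_of_notMem (by simpa using hz) _

theorem gK_of_notMem (u : ℂ → ℝ) (hz : z ∉ K) : gK K u z = ∇ u z :=
  indicator_of_mem (show z ∈ Kᶜ from hz) _

theorem gK_congr (hK : IsClosed K) (h : ∀ z ∉ K, u z = v z) : gK K u = gK K v := by
  funext z
  by_cases hz : z ∈ K
  · rw [gK_of_mem u hz, gK_of_mem v hz]
  · rw [gK_of_notMem u hz, gK_of_notMem v hz]
    refine Filter.EventuallyEq.gradient_eq ?_
    filter_upwards [hK.isOpen_compl.mem_nhds hz] with w hw using h w hw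

theorem Dn_mono_set (u : ℂ → ℝ) (K : Set ℂ) (h : S ⊆ T) : Dn u K S ≤ Dn u K T :=
  lintegral_mono_set h

theorem Dn_anti (u : ℂ → ℝ) (h : K ⊆ L) (S : Set ℂ) : Dn u L S ≤ Dn u K S := by
  refine lintegral_mono fun z => ?_
  by_cases hz : z ∈ L
  · simp [gK_of_mem u hz]
  · rw [gK_of_notMem u hz, gK_of_notMem u fun h' => hz (h h')]

theorem Dn_closedBall (u : ℂ → ℝ) (K : Set ℂ) (x : ℂ) (r : ℝ) :
    Dn u K (closedBall x r) = Dn u K (ball x r) := by
  refine setLIntegral_congr ?_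
  refine (ae_eq_of_subset_of_measure_ge ball_subset_closedBall ?_ ?_ ?_).symm
  · rw [Measure.addHaar_closedBall_eq_addHaar_ball]
  · exact measurableSet_ball.nullMeasurableSet
  · exact measure_closedBall_lt_top.ne

theorem vol_null (h : μH[1] S ≠ ⊤) : volume S = 0 := by
  have h2 : μH[(Module.finrank ℝ ℂ : ℝ)] S = 0 :=
    (Measure.hausdorffMeasure_zero_or_top (by rw [Complex.finrank_real_complex]; norm_num)
      S).resolve_right h
  exact Measure.absolutelyContinuous_isAddHaarMeasure (volume : Measure ℂ)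
    (μH[(Module.finrank ℝ ℂ : ℝ)]) h2

theorem len_finite (h : S.Finite) : μH[1] S = 0 := by
  have := Measure.nullSingletonClass_hausdorff ℂ (d := 1) one_pos
  exact h.measure_zero _

theorem Pre.null (h : Pre Ω u K) : volume (K ∩ Ω) = 0 := by
  refine measure_null_of_locally_null _ fun x hx => ?_
  obtain ⟨r, hr, hb⟩ := Metric.nhds_basis_closedBall.mem_iff.1 (h.1.mem_nhds hx.2)
  refine ⟨K ∩ closedBall x r, ?_, vol_null (h.2.2.2 x r hb).2⟩
  filter_upwards [mem_nhdsWithin_of_mem_nhds (closedBall_mem_nhds x hr), self_mem_nhdsWithin]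
    with w hw hw' using ⟨hw'.1, hw⟩

theorem Pre.isOpen (h : Pre Ω u K) : IsOpen (Ω \ K) := h.1.sdiff h.2.1

theorem Pre.lip (h : Pre Ω u K) : LocallyLipschitzOn (Ω \ K) u :=
  lip_of_contDiffOn h.isOpen h.2.2.1

theorem Pre.diff (h : Pre Ω u K) (hz : z ∈ Ω \ K) : DifferentiableAt ℝ u z :=
  (h.2.2.1.contDiffAt (h.isOpen.mem_nhds hz)).differentiableAt one_ne_zero

theorem Pre.contGrad (h : Pre Ω u K) : ContinuousOn (∇ u) (Ω \ K) :=
  (InnerProductSpace.toDual ℝ ℂ).symm.continuous.comp_continuousOn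
    (h.2.2.1.continuousOn_fderiv_of_isOpen h.isOpen le_rfl)

theorem basic_enorm_sq (a : ℂ) : ‖a‖ₑ ^ 2 = ENNReal.ofReal (‖a‖ ^ 2) := by
  rw [ENNReal.ofReal_pow (norm_nonneg _), ofReal_norm]

theorem Dr_eq (hK : IsClosed K) (u : ℂ → ℝ) (x : ℂ) (r : ℝ) :
    Dr u K x r = ∫ z in ball x r, ‖gK K u z‖ ^ 2 := by
  rw [integral_eq_lintegral_of_nonneg_ae (Eventually.of_forall fun z => by positivity)
    ((meas_gK hK u).norm.pow_const 2).aestronglyMeasurable]
  simp only [Dr, Dn, basic_enorm_sq]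

theorem intOn_of_Dn (hK : IsClosed K) (h : Dn u K S ≠ ⊤) :
    IntegrableOn (fun z => ‖gK K u z‖ ^ 2) S ∧ MemLp (gK K u) 2 (volume.restrict S) := by
  have h1 : IntegrableOn (fun z => ‖gK K u z‖ ^ 2) S := by
    refine ⟨((meas_gK hK u).norm.pow_const 2).aestronglyMeasurable, ?_⟩
    rw [hasFiniteIntegral_iff_ofReal (Eventually.of_forall fun z => by positivity)]
    simpa only [Dn, basic_enorm_sq, lt_top_iff_ne_top] using h
  exact ⟨h1, (memLp_two_iff_integrable_sq_norm (meas_gK hK u).aestronglyMeasurable).2 h1⟩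

theorem basic_Dn_of_int (h : IntegrableOn (fun z => ‖gK K u z‖ ^ 2) S) : Dn u K S ≠ ⊤ := by
  have h1 := h.2
  rw [hasFiniteIntegral_iff_ofReal (Eventually.of_forall fun z => by positivity)] at h1
  simpa only [Dn, basic_enorm_sq, lt_top_iff_ne_top] using h1

theorem Dr_nonneg (u : ℂ → ℝ) (K : Set ℂ) (x : ℂ) (r : ℝ) : 0 ≤ Dr u K x r :=
  ENNReal.toReal_nonneg

theorem Lr_nonneg (K : Set ℂ) (x : ℂ) (r : ℝ) : 0 ≤ Lr K x r := ENNReal.toReal_nonneg

theorem Pre.Dr_mono (h : Pre Ω u K) (hb : closedBall x r ⊆ Ω) (hs : ball y ρ ⊆ closedBall x r) :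
    Dr u K y ρ ≤ Dr u K x r := by
  unfold Dr
  rw [← Dn_closedBall u K x r]
  exact ENNReal.toReal_mono (h.2.2.2 x r hb).1 (Dn_mono_set u K hs)

theorem Lr_mono (h : μH[1] (K ∩ closedBall x r) ≠ ⊤) (hs : ball y ρ ⊆ ball x r) :
    Lr K y ρ ≤ Lr K x r :=
  ENNReal.toReal_mono
    (ne_top_of_le_ne_top h (measure_mono (inter_subset_inter_right _ ball_subset_closedBall)))
    (measure_mono (inter_subset_inter_right _ hs))

theorem Lr_le_Lc (h : μH[1] (K ∩ closedBall x r) ≠ ⊤) : Lr K x r ≤ Lc K x r :=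
  ENNReal.toReal_mono h (measure_mono (inter_subset_inter_right _ ball_subset_closedBall))

theorem Lc_le_Lr (h : μH[1] (K ∩ closedBall x r) ≠ ⊤) (hs : closedBall y ρ ⊆ ball x r) :
    Lc K y ρ ≤ Lr K x r :=
  ENNReal.toReal_mono
    (ne_top_of_le_ne_top h (measure_mono (inter_subset_inter_right _ ball_subset_closedBall)))
    (measure_mono (inter_subset_inter_right _ hs))

theorem Lc_eq_Lr (h : (K ∩ sphere x r).Finite) : Lc K x r = Lr K x r := by
  unfold Lc Lr
  congr 1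
  refine le_antisymm ?_ (measure_mono (inter_subset_inter_right _ ball_subset_closedBall))
  rw [← ball_union_sphere, inter_union_distrib_left]
  refine (measure_union_le _ _).trans ?_
  rw [len_finite h, add_zero]

theorem Pre.En_eq (h : Pre Ω u K) (hb : closedBall x r ⊆ Ω) :
    En u K (closedBall x r) = ENNReal.ofReal (Dr u K x r + Lc K x r) := by
  obtain ⟨h1, h2⟩ := h.2.2.2 x r hb
  unfold En Dr Lc
  rw [← Dn_closedBall, ENNReal.ofReal_add ENNReal.toReal_nonneg ENNReal.toReal_nonneg,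
    ENNReal.ofReal_toReal h1, ENNReal.ofReal_toReal h2]

theorem MM.pre (h : MM Ω lam u K π₀) : Pre Ω u K := by
  obtain ⟨_, _, h1, _⟩ := h.1.2
  exact h1.1

theorem NP.pre (h : NP Ω lam u K) : Pre Ω u K := by
  obtain ⟨_, _, h1, _⟩ := h.2
  exact h1.1

theorem NP.nh0 (h : NP Ω 0 u K) : NH Ω u K (fun _ => 0) 0 := by
  obtain ⟨k, H, ⟨h1, h2, h3, h4⟩, h5, -⟩ := h.2
  have hH : H = 0 := by
    have : H ^ 2 = 0 := le_antisymm (by simpa using h5) (sq_nonneg H)
    simpa using this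
  have hk : k = fun _ => 0 := funext fun z => by simpa [hH] using h3 z
  subst hk
  exact ⟨h1, h2, fun z => by simp, h4⟩

theorem NP.el0 (h : NP Ω 0 u K) (hψ : Test Ω K ψ) : ∫ z, ⟪gK K u z, gK K ψ z⟫ = 0 := by
  simpa using h.nh0.2.2.2 ψ hψ

/-- Off the supporting ball the gradient of a test function vanishes. -/
theorem gK_eq_zero_off (h : ∀ z ∉ closedBall x r, ψ z = 0) (hz : z ∉ closedBall x r) :
    gK K ψ z = 0 := by
  by_cases hK : z ∈ K
  · exact gK_of_mem ψ hK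
  · rw [gK_of_notMem ψ hK, Filter.EventuallyEq.gradient_eq (f := fun _ => (0 : ℝ))]
    · exact gradient_fun_const _ _
    · filter_upwards [isClosed_closedBall.isOpen_compl.mem_nhds hz] with w hw using h w hw

theorem Test.memLp (hK : IsClosed K) (h : Test Ω K ψ) : MemLp (gK K ψ) 2 volume := by
  simpa using (intOn_of_Dn hK h.2.2.2).2

theorem Test.mono (hK : K ⊆ L) (h : Test Ω K ψ) : Test Ω L ψ :=
  ⟨h.1.mono (sdiff_subset_sdiff_right hK), h.2.1, h.2.2.1,
    ne_top_of_le_ne_top h.2.2.2 (Dn_anti ψ hK _)⟩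

theorem basic_gK_smul (K : Set ℂ) (ψ : ℂ → ℝ) (t : ℝ) (z : ℂ) :
    gK K (fun z => t * ψ z) z = (t : ℂ) * gK K ψ z := by
  by_cases hz : z ∈ K
  · simp [gK_of_mem _ hz]
  · rw [gK_of_notMem _ hz, gK_of_notMem _ hz, grad_smul]

theorem Test.smul (h : Test Ω K ψ) (t : ℝ) : Test Ω K (fun z => t * ψ z) := by
  obtain ⟨h1, ⟨M, hM⟩, ⟨x, r, hb, h0⟩, h4⟩ := h
  refine ⟨lip_mul (LC.lip fun z _ => Eventually.of_forall fun _ => rfl) h1, ⟨|t| * M, fun z => ?_⟩,
    ⟨x, r, hb, fun z hz => by simp [h0 z hz]⟩, ?_⟩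
  · rw [abs_mul]
    exact mul_le_mul_of_nonneg_left (hM z) (abs_nonneg t)
  · unfold Dn at h4 ⊢
    simp only [basic_gK_smul, enorm_mul, mul_pow]
    rw [lintegral_const_mul' _ _ (by simp)]
    exact ENNReal.mul_ne_top (by simp) h4

theorem Test.add (hK : IsClosed K) (h : Test univ K ψ) (h' : Test univ K η) :
    Test univ K (fun z => ψ z + η z) ∧
      ∀ᵐ z : ℂ, gK K (fun z => ψ z + η z) z = gK K ψ z + gK K η z := by
  have hU : IsOpen (univ \ K) := isOpen_univ.sdiff hK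
  have hae : ∀ᵐ z : ℂ, gK K (fun z => ψ z + η z) z = gK K ψ z + gK K η z := by
    filter_upwards [ae_diff hU h.1, ae_diff hU h'.1] with z h1 h2
    by_cases hz : z ∈ K
    · simp [gK_of_mem _ hz]
    · rw [gK_of_notMem _ hz, gK_of_notMem _ hz, gK_of_notMem _ hz,
        grad_add (h1 ⟨trivial, hz⟩) (h2 ⟨trivial, hz⟩)]
  refine ⟨?_, hae⟩
  have hm : MemLp (gK K fun z => ψ z + η z) 2 volume :=
    ((h.memLp hK).add (h'.memLp hK)).ae_eq (by filter_upwards [hae] with z hz using hz.symm)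
  obtain ⟨h1, ⟨M, hM⟩, ⟨x, r, -, h0⟩, -⟩ := h
  obtain ⟨h1', ⟨M', hM'⟩, ⟨x', r', -, h0'⟩, -⟩ := h'
  obtain ⟨R, hR⟩ := ((isBounded_closedBall (x := x) (r := r)).union
    (isBounded_closedBall (x := x') (r := r'))).subset_closedBall 0
  refine ⟨lip_add h1 h1', ⟨M + M', fun z => (abs_add_le _ _).trans (add_le_add (hM z) (hM' z))⟩,
    ⟨0, R, subset_univ _, fun z hz => ?_⟩, basic_Dn_of_int ?_⟩
  · show ψ z + η z = 0
    rw [h0 z fun k => hz (hR (Or.inl k)), h0' z fun k => hz (hR (Or.inr k)), add_zero]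
  · exact ((memLp_two_iff_integrable_sq_norm hm.1).1 hm).integrableOn

theorem test_of_contDiff (hη : ContDiff ℝ 1 η) (hb : closedBall x r ⊆ Ω)
    (h0 : ∀ z ∉ closedBall x r, η z = 0) : Test Ω K η := by
  have hc : HasCompactSupport η := HasCompactSupport.intro (isCompact_closedBall x r) h0
  obtain ⟨M, hM⟩ := hη.continuous.bounded_above_of_compact_support hc
  refine ⟨(lip_of_contDiffOn isOpen_univ hη.contDiffOn).mono (subset_univ _), ⟨M, hM⟩,
    ⟨x, r, hb, h0⟩, ne_top_of_le_ne_top (basic_Dn_of_int ?_) (Dn_anti η (empty_subset K) _)⟩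
  have e : gK ∅ η = ∇ η := funext fun z => gK_of_notMem η (notMem_empty z)
  have hg : Continuous (∇ η) :=
    (InnerProductSpace.toDual ℝ ℂ).symm.continuous.comp (hη.continuous_fderiv one_ne_zero)
  refine (Continuous.integrable_of_hasCompactSupport (by rw [e]; fun_prop)
    (HasCompactSupport.intro (isCompact_closedBall x r) fun z hz => ?_)).integrableOn
  simp [gK_eq_zero_off h0 hz]

theorem Pre.inner_int (h : Pre Ω u K) (hψ : Test Ω K ψ) :
    Integrable (fun z => ⟪gK K u z, gK K ψ z⟫) := by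
  obtain ⟨x, r, hb, h0⟩ := hψ.2.2.1
  have h1 := (intOn_of_Dn h.2.1 (h.2.2.2 x r hb).1).1
  have h2 := (intOn_of_Dn h.2.1 hψ.2.2.2).1.mono_set (subset_univ (closedBall x r))
  refine (integrableOn_iff_integrable_of_support_subset (s := closedBall x r) fun z hz => ?_).1 ?_
  · by_contra hz'
    exact hz (by simp [gK_eq_zero_off h0 hz'])
  · refine Integrable.mono' (h1.add h2)
      ((meas_gK h.2.1 u).inner (meas_gK h.2.1 ψ)).aestronglyMeasurable
      (Eventually.of_forall fun z => ?_)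
    have k := norm_inner_le_norm (𝕜 := ℝ) (gK K u z) (gK K ψ z)
    show _ ≤ ‖gK K u z‖ ^ 2 + ‖gK K ψ z‖ ^ 2
    nlinarith [sq_nonneg (‖gK K u z‖ - ‖gK K ψ z‖), mul_nonneg (norm_nonneg (gK K u z))
      (norm_nonneg (gK K ψ z))]

theorem Sq.sub {Ω : ℕ → Set ℂ} {lam : ℕ → ℝ} {u : ℕ → ℂ → ℝ} {K : ℕ → Set ℂ}
    {π₀ : ℕ → ℂ → Set ℂ} (h : Sq Ω lam u K π₀) {φ : ℕ → ℕ} (hφ : StrictMono φ) :
    Sq (fun j => Ω (φ j)) (fun j => lam (φ j)) (fun j => u (φ j)) (fun j => K (φ j))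
      (fun j => π₀ (φ j)) :=
  ⟨fun j => h.1 (φ j), fun R => hφ.tendsto_atTop.eventually (h.2.1 R),
    h.2.2.comp hφ.tendsto_atTop⟩

theorem HC.mem {K : ℕ → Set ℂ} (h : HC K K₀) (hK : IsClosed K₀) {y : ℕ → ℂ}
    (hy : ∀ᶠ j in atTop, y j ∈ K j) (hl : Tendsto y atTop (𝓝 z)) : z ∈ K₀ := by
  rw [← hK.closure_eq, Metric.mem_closure_iff]
  intro ε hε
  obtain ⟨j, h1, h2, h3, h4⟩ := ((h (‖z‖ + 1) (ε / 2) (half_pos hε)).and (hy.and
    ((hl.eventually (ball_mem_nhds z (half_pos hε))).and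
      (hl.norm.eventually_le_const (lt_add_one ‖z‖))))).exists
  obtain ⟨w, hw, hw'⟩ := h1.2 (y j) ⟨h2, by simpa using h4⟩
  refine ⟨w, hw, ?_⟩
  have k1 : dist (y j) z < ε / 2 := h3
  have k2 := dist_triangle_left z w (y j)
  rw [← dist_eq_norm] at hw'
  linarith

end Vale.Agent.P128
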