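import Vale.Agent.P128.Glue0
import Vale.Agent.P128.Basic

/-!
# P128 Apex

Cones with an arbitrary apex, labels only. For `z ≠ F` let `k z = F + τ z • (z - F)` be the point where
the ray from `F` through `z` meets the circle: `τ = (-b + √(b² + a (s² - ‖F - x‖²)))/a` with
`a = ‖z - F‖²`, `b = ⟪F - x, z - F⟫`; `k` is continuous off `F`, `τ ≥ 1` on the closed ball, `k z = z` on
the circle. Labels: `σ₀ (k z)` on the closed ball, `σ` outside (`LC.precomp`, `lc_glue`).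
-/

namespace Vale.Agent.P128

open Set Metric MeasureTheory Filter Topology Complex
open scoped ENNReal ContDiff RealInnerProductSpace Gradient Real ComplexConjugate

variable {Ω K L A S T U O X Γ P M₀ K₀ K₁ : Set ℂ} {u v w g hh ψ η : ℂ → ℝ} {G : ℂ → ℂ}
  {π₀ π₁ : ℂ → Set ℂ} {x y z c p q e a₀ F : ℂ} {lam H r s R a b t M Θ ρ ε δ d : ℝ} {n : ℕ}

theorem apex_alg {a b c : ℝ} (ha : 0 < a) (hc : 0 < c) :
    a * ((-b + √(b ^ 2 + a * c)) / a) ^ 2 + 2 * b * ((-b + √(b ^ 2 + a * c)) / a) = c ∧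
      (a + 2 * b ≤ c → 1 ≤ (-b + √(b ^ 2 + a * c)) / a) ∧
      (a + 2 * b = c → (-b + √(b ^ 2 + a * c)) / a = 1) := by
  have h0 : 0 ≤ b ^ 2 + a * c := by positivity
  refine ⟨?_, fun h => ?_, fun h => ?_⟩
  · have h1 := Real.sq_sqrt h0
    field_simp
    linarith
  · rw [le_div_iff₀ ha]
    have h1 : a + b ≤ √(b ^ 2 + a * c) := Real.le_sqrt_of_sq_le (by nlinarith)
    linarith
  · have h1 : 0 < a + b := by linarith
    rw [show b ^ 2 + a * c = (a + b) ^ 2 by rw [← h]; ring, Real.sqrt_sq h1.le]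
    field_simp
    ring

theorem apex_ray (hF : F ∈ ball x s) : ∃ τ : ℂ → ℝ, ContinuousOn τ {F}ᶜ ∧ ∀ z ≠ F,
    F + τ z • (z - F) ∈ sphere x s ∧ (z ∈ closedBall x s → 1 ≤ τ z) ∧
      (z ∈ sphere x s → τ z = 1) := by
  rw [mem_ball_iff_norm] at hF
  have hc : 0 < s ^ 2 - ‖F - x‖ ^ 2 := by nlinarith [norm_nonneg (F - x)]
  have hs : 0 ≤ s := (norm_nonneg _).trans hF.le
  refine ⟨fun z => (-⟪F - x, z - F⟫ + √(⟪F - x, z - F⟫ ^ 2 +
    ‖z - F‖ ^ 2 * (s ^ 2 - ‖F - x‖ ^ 2))) / ‖z - F‖ ^ 2, ?_, fun z hz => ?_⟩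
  · refine ContinuousOn.div (Continuous.continuousOn (by fun_prop)) (by fun_prop) fun z hz => ?_
    exact pow_ne_zero 2 (norm_ne_zero_iff.2 (sub_ne_zero.2 hz))
  have ha : 0 < ‖z - F‖ ^ 2 := pow_pos (norm_pos_iff.2 (sub_ne_zero.2 hz)) 2
  obtain ⟨h1, h2, h3⟩ := apex_alg (b := ⟪F - x, z - F⟫) ha hc
  have e : ‖z - x‖ ^ 2 = ‖F - x‖ ^ 2 + 2 * ⟪F - x, z - F⟫ + ‖z - F‖ ^ 2 := by
    rw [← norm_add_sq_real, sub_add_sub_cancel']
  refine ⟨?_, fun h => h2 ?_, fun h => h3 ?_⟩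
  · rw [mem_sphere_iff_norm, ← sq_eq_sq₀ (norm_nonneg _) hs, add_sub_right_comm, norm_add_sq_real,
      inner_smul_right, norm_smul, mul_pow, Real.norm_eq_abs, sq_abs]
    linarith
  · have h4 := pow_le_pow_left₀ (norm_nonneg _) (mem_closedBall_iff_norm.1 h) 2
    linarith
  · rw [mem_sphere_iff_norm.1 h] at e
    linarith

theorem apex {β : Type} {σ σ₀ : ℂ → β} (hK : IsClosed K) (hσ : LC Kᶜ σ) (hF : F ∈ ball x s)
    (hT : T ⊆ sphere x s) (hTf : T.Finite) (h0 : LC (sphere x s \ T) σ₀)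
    (he : ∀ z ∈ sphere x s \ K, z ∉ T → σ₀ z = σ z) :
    IsClosed ((K \ ball x s) ∪ cone F T) ∧
      ∃ σ₁ : ℂ → β, LC ((K \ ball x s) ∪ cone F T)ᶜ σ₁ ∧
        ∀ z ∉ K, z ∉ closedBall x s → σ₁ z = σ z := by
  classical
  obtain ⟨τ, hc, hτ⟩ := apex_ray hF
  have hne : ∀ z ∈ ((K \ ball x s) ∪ cone F T)ᶜ, z ≠ F := fun z hz e =>
    hz (Or.inr (Or.inl e))
  refine ⟨(hK.sdiff isOpen_ball).union (cone_closed hTf F).isClosed,
    fun z => if z ∈ closedBall x s then σ₀ (F + τ z • (z - F)) else σ z,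
    lc_glue (x := x) (s := s) ?_ ?_, fun z _ hz => if_neg hz⟩
  · refine (h0.precomp (k := fun z => F + τ z • (z - F)) ?_ fun z hz => ?_).congr
      fun z hz => if_pos hz.2
    · exact continuousOn_const.add ((hc.mono fun z hz => hne z hz.1).smul (by fun_prop))
    · obtain ⟨h1, h2, -⟩ := hτ z (hne z hz.1)
      have h3 := h2 hz.2
      have h4 : 0 < τ z := by linarith
      refine ⟨h1, fun h => hz.1 (Or.inr (Or.inr (mem_iUnion₂.2 ⟨_, h, ?_⟩)))⟩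
      rw [segment_eq_image']
      refine ⟨(τ z)⁻¹, ⟨by positivity, inv_le_one_of_one_le₀ h3⟩, ?_⟩
      simp only [add_sub_cancel_left, smul_smul, inv_mul_cancel₀ h4.ne', one_smul, add_sub_cancel]
  · refine (hσ.mono fun z hz h => hz.1 (Or.inl ⟨h, hz.2⟩)).congr fun z hz => ?_
    split_ifs with h
    · have h1 : z ∈ sphere x s := le_antisymm h (not_lt.1 hz.2)
      rw [(hτ z (hne z hz.1)).2.2 h1, one_smul, add_sub_cancel]
      exact he z ⟨h1, fun h2 => hz.1 (Or.inl ⟨h2, hz.2⟩)⟩ fun h2 =>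
        hz.1 (Or.inr (Or.inr (mem_iUnion₂.2 ⟨z, h2, right_mem_segment ℝ F z⟩)))
    · rfl

theorem FM.apex {β : Type} {σ σ₀ : ℂ → β} (h : FM K σ) (hF : F ∈ ball x s) (hT : T ⊆ sphere x s)
    (hTf : T.Finite) (h0 : LC (sphere x s \ T) σ₀)
    (he : ∀ z ∈ sphere x s \ K, z ∉ T → σ₀ z = σ z) (hf : (K ∩ sphere x s).Finite) :
    Lr K x s ≤ ∑ p ∈ hTf.toFinset, ‖p - F‖ := by
  obtain ⟨hc, σ₁, h1, h2⟩ := Vale.Agent.P128.apex h.1 h.2.2.1 hF hT hTf h0 he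
  have h3 := h.2.2.2.2 x s _ σ₁ (pos_of_mem_ball hF) hc h1 (fun z hz =>
    ⟨fun h => h.elim (fun h => h.1) fun h => absurd ((cone_sub hF hT).1 h) hz,
      fun h => Or.inl ⟨h, fun h' => hz (ball_subset_closedBall h')⟩⟩) h2
  have h4 : ((K \ ball x s) ∪ cone F T) ∩ closedBall x s ⊆ (K ∩ sphere x s) ∪ cone F T :=
    fun z hz => hz.1.imp_left fun h => ⟨h.1, le_antisymm hz.2 (not_lt.1 h.2)⟩
  refine ENNReal.toReal_le_of_le_ofReal (Finset.sum_nonneg fun _ _ => norm_nonneg _) ?_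
  refine (measure_mono (inter_subset_inter_right _ ball_subset_closedBall)).trans
    (h3.trans ((measure_mono h4).trans ((measure_union_le _ _).trans ?_)))
  rw [len_finite hf, zero_add]
  exact cone_len hTf F

theorem FM.cone {β : Type} {σ : ℂ → β} (h : FM K σ) (hs : 0 < s) (hf : (K ∩ sphere x s).Finite) :
    Lr K x s ≤ Nn K x s * s := by
  refine (h.apex (mem_ball_self hs) inter_subset_right hf
    (h.2.2.1.mono fun z hz h' => hz.2 ⟨h', hz.1⟩) (fun _ _ _ => rfl) hf).trans_eq ?_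
  rw [Finset.sum_congr rfl fun p hp => mem_sphere_iff_norm.1 (hf.mem_toFinset.1 hp).2,
    Finset.sum_const, nsmul_eq_mul, Nn, ncard_eq_toFinset_card _ hf]

end Vale.Agent.P128
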