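import Vale.Agent.P128.Defs

/-!
# P128 ArcJ

Hoelder continuity up to the vertex. From `p (s + h) - p s = ∫ p'` (or the mean value inequality) with
`h = s (s/r)^(6γ/7)/2` one gets `‖p' s - e‖ ≤ C' (s/r)^(γ/7)` on `(0, r/2]`. For `s < t`: if `t - s ≤ s²/r`
use the local bound, `(t - s)/s ≤ ((t - s)/r)^(1/2)`; otherwise `s, t ≤ 2 (r (t - s))^(1/2)`. So
`α = min (1/12) (γ/14)` works. `g t = p (r t/2)` for `t > 0`, `g 0 = x`.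
`arc_join`: `g t = g₁ (1 - 2t)` for `t ≤ 1/2`, `g₂ (2t - 1)` for `t ≥ 1/2`.
-/

namespace Vale.Agent.P128

open Set Metric MeasureTheory Filter Topology Complex
open scoped ENNReal ContDiff RealInnerProductSpace Gradient Real ComplexConjugate

variable {Ω K L A S T U O X Γ P M₀ K₀ K₁ : Set ℂ} {u v w g hh ψ η : ℂ → ℝ} {G : ℂ → ℂ}
  {π₀ π₁ : ℂ → Set ℂ} {x y z c p q e a₀ F : ℂ} {lam H r s R a b t M Θ ρ ε δ d : ℝ} {n : ℕ}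

theorem arcj_hold {α D : ℝ} {f : ℝ → ℂ} (hα : 0 < α) (hD : 0 ≤ D)
    (h₁ : ∀ s ∈ Icc (0 : ℝ) (1 / 2), ∀ t ∈ Icc (0 : ℝ) (1 / 2), ‖f s - f t‖ ≤ D * |s - t| ^ α)
    (h₂ : ∀ s ∈ Icc (1 / 2 : ℝ) 1, ∀ t ∈ Icc (1 / 2 : ℝ) 1, ‖f s - f t‖ ≤ D * |s - t| ^ α) :
    ∀ s ∈ Icc (0 : ℝ) 1, ∀ t ∈ Icc (0 : ℝ) 1, ‖f s - f t‖ ≤ 2 * D * |s - t| ^ α := by
  have mix : ∀ s ∈ Icc (0 : ℝ) (1 / 2), ∀ t ∈ Icc (1 / 2 : ℝ) 1,
      ‖f s - f t‖ ≤ 2 * D * |s - t| ^ α := by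
    intro s hs t ht
    have a1 := h₁ s hs (1 / 2) ⟨by norm_num, le_rfl⟩
    have a2 := h₂ (1 / 2) ⟨le_rfl, by norm_num⟩ t ht
    have b1 : |s - 1 / 2| ^ α ≤ |s - t| ^ α := by
      refine Real.rpow_le_rpow (abs_nonneg _) ?_ hα.le
      rw [abs_of_nonpos (by linarith [hs.2]), abs_of_nonpos (by linarith [hs.2, ht.1])]
      linarith [ht.1]
    have b2 : |1 / 2 - t| ^ α ≤ |s - t| ^ α := by
      refine Real.rpow_le_rpow (abs_nonneg _) ?_ hα.le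
      rw [abs_of_nonpos (by linarith [ht.1]), abs_of_nonpos (by linarith [hs.2, ht.1])]
      linarith [hs.2]
    have c1 := mul_le_mul_of_nonneg_left b1 hD
    have c2 := mul_le_mul_of_nonneg_left b2 hD
    have c3 := norm_sub_le_norm_sub_add_norm_sub (f s) (f (1 / 2)) (f t)
    linarith
  intro s hs t ht
  have h0 : 0 ≤ D * |s - t| ^ α := by positivity
  rcases le_total s (1 / 2) with a | a <;> rcases le_total t (1 / 2) with b | b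
  · linarith [h₁ s ⟨hs.1, a⟩ t ⟨ht.1, b⟩]
  · exact mix s ⟨hs.1, a⟩ t ⟨b, ht.2⟩
  · rw [norm_sub_rev, abs_sub_comm]
    exact mix t ⟨ht.1, b⟩ s ⟨a, hs.2⟩
  · linarith [h₂ s ⟨a, hs.2⟩ t ⟨b, ht.2⟩]

theorem arcj_bd {α C D a b s t : ℝ} {k p q : ℂ} (hk : ‖k‖ = 2) (hC : |C| ≤ D)
    (h : ‖p - q‖ ≤ C * |a - b| ^ α) (e : |a - b| = 2 * |s - t|) :
    ‖k * p - k * q‖ ≤ 2 * 2 ^ α * D * |s - t| ^ α := by
  rw [e, Real.mul_rpow (by norm_num) (abs_nonneg _)] at h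
  have h1 := mul_le_mul_of_nonneg_right ((le_abs_self C).trans hC)
    (show 0 ≤ (2 : ℝ) ^ α * |s - t| ^ α by positivity)
  rw [← mul_sub, norm_mul, hk]
  linarith

theorem arc_join {α : ℝ} {g₁ g₁' g₂ g₂' : ℝ → ℂ} (hα : 0 < α) (hα1 : α ≤ 1) (h₁ : IsArc α g₁ g₁')
    (h₂ : IsArc α g₂ g₂') (e₁ : g₁ 0 = x) (e₂ : g₂ 0 = x) (hd : g₁' 0 = -g₂' 0)
    (hi : g₁ '' Icc 0 1 ∩ g₂ '' Icc 0 1 = {x}) :
    ∃ g g' : ℝ → ℂ, IsArc α g g' ∧ g '' Icc 0 1 = g₁ '' Icc 0 1 ∪ g₂ '' Icc 0 1 ∧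
      x ∈ g '' Ioo 0 1 := by
  obtain ⟨i₁, d₁, C₁, c₁⟩ := h₁
  obtain ⟨i₂, d₂, C₂, c₂⟩ := h₂
  obtain ⟨g, gL, gR⟩ : ∃ g : ℝ → ℂ, (∀ t ≤ 1 / 2, g t = g₁ (1 - 2 * t)) ∧
      ∀ t, 1 / 2 ≤ t → g t = g₂ (2 * t - 1) := by
    refine ⟨fun t => if t ≤ 1 / 2 then g₁ (1 - 2 * t) else g₂ (2 * t - 1), fun t ht => if_pos ht,
      fun t ht => ?_⟩
    rcases ht.eq_or_lt with rfl | h
    · simp [e₁, e₂]
    · exact if_neg (not_le.2 h)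
  obtain ⟨g', gL', gR'⟩ : ∃ g' : ℝ → ℂ, (∀ t ≤ 1 / 2, g' t = -2 * g₁' (1 - 2 * t)) ∧
      ∀ t, 1 / 2 ≤ t → g' t = 2 * g₂' (2 * t - 1) := by
    refine ⟨fun t => if t ≤ 1 / 2 then -2 * g₁' (1 - 2 * t) else 2 * g₂' (2 * t - 1),
      fun t ht => if_pos ht, fun t ht => ?_⟩
    rcases ht.eq_or_lt with rfl | h
    · simp [hd]
    · exact if_neg (not_le.2 h)
  have mL : ∀ t ∈ Icc (0 : ℝ) (1 / 2), 1 - 2 * t ∈ Icc (0 : ℝ) 1 := fun t ht =>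
    ⟨by linarith [ht.2], by linarith [ht.1]⟩
  have mR : ∀ t ∈ Icc (1 / 2 : ℝ) 1, 2 * t - 1 ∈ Icc (0 : ℝ) 1 := fun t ht =>
    ⟨by linarith [ht.1], by linarith [ht.2]⟩
  have z0 : (0 : ℝ) ∈ Icc (0 : ℝ) 1 := ⟨le_rfl, zero_le_one⟩
  have DL : ∀ t, HasDerivWithinAt g (g' t) (Icc 0 (1 / 2)) t := by
    intro t
    by_cases ht : t ∈ Icc (0 : ℝ) (1 / 2)
    · have a : HasDerivWithinAt (fun t : ℝ => 1 - 2 * t) (-2) (Icc 0 (1 / 2)) t := by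
        simpa using (((hasDerivAt_id t).const_mul 2).const_sub 1).hasDerivWithinAt
      have b := (d₁ _ (mL t ht)).1.scomp t a mL
      refine (b.congr (fun s hs => gL s hs.2) (gL t ht.2)).congr_deriv ?_
      rw [gL' t ht.2]
      simp
    · exact HasFDerivWithinAt.of_notMem_closure (by rwa [closure_Icc])
  have DR : ∀ t, HasDerivWithinAt g (g' t) (Icc (1 / 2) 1) t := by
    intro t
    by_cases ht : t ∈ Icc (1 / 2 : ℝ) 1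
    · have a : HasDerivWithinAt (fun t : ℝ => 2 * t - 1) 2 (Icc (1 / 2) 1) t := by
        simpa using (((hasDerivAt_id t).const_mul 2).sub_const 1).hasDerivWithinAt
      have b := (d₂ _ (mR t ht)).1.scomp t a mR
      refine (b.congr (fun s hs => gR s hs.1) (gR t ht.1)).congr_deriv ?_
      rw [gR' t ht.1]
      simp
    · exact HasFDerivWithinAt.of_notMem_closure (by rwa [closure_Icc])
  have mix : ∀ s ∈ Icc (0 : ℝ) (1 / 2), ∀ t ∈ Icc (1 / 2 : ℝ) 1, g s = g t → s = t := by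
    intro s hs t ht h
    rw [gL s hs.2, gR t ht.1] at h
    have a : g₁ (1 - 2 * s) ∈ g₁ '' Icc 0 1 ∩ g₂ '' Icc 0 1 :=
      ⟨⟨_, mL s hs, rfl⟩, ⟨_, mR t ht, h.symm⟩⟩
    rw [hi, mem_singleton_iff] at a
    have b1 := i₁ (mL s hs) z0 (a.trans e₁.symm)
    have b2 := i₂ (mR t ht) z0 ((h.symm.trans a).trans e₂.symm)
    linarith
  refine ⟨g, g', ⟨fun s hs t ht h => ?_, fun t ht => ⟨?_, ?_⟩,
    2 * (2 * 2 ^ α * (|C₁| + |C₂|)), arcj_hold hα (by positivity) (fun s hs t ht => ?_)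
      fun s hs t ht => ?_⟩, ?_, 1 / 2, ⟨by norm_num, by norm_num⟩, ?_⟩
  · rcases le_total s (1 / 2) with a | a <;> rcases le_total t (1 / 2) with b | b
    · rw [gL s a, gL t b] at h
      linarith [i₁ (mL s ⟨hs.1, a⟩) (mL t ⟨ht.1, b⟩) h]
    · exact mix s ⟨hs.1, a⟩ t ⟨b, ht.2⟩ h
    · exact (mix t ⟨ht.1, b⟩ s ⟨a, hs.2⟩ h.symm).symm
    · rw [gR s a, gR t b] at h
      linarith [i₂ (mR s ⟨a, hs.2⟩) (mR t ⟨b, ht.2⟩) h]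
  · rw [← Icc_union_Icc_eq_Icc (show (0 : ℝ) ≤ 1 / 2 by norm_num) (show (1 / 2 : ℝ) ≤ 1 by norm_num)]
    exact (DL t).union (DR t)
  · rcases le_total t (1 / 2) with b | b
    · rw [gL' t b]
      exact mul_ne_zero (by norm_num) (d₁ _ (mL t ⟨ht.1, b⟩)).2
    · rw [gR' t b]
      exact mul_ne_zero (by norm_num) (d₂ _ (mR t ⟨b, ht.2⟩)).2
  · rw [gL' s hs.2, gL' t ht.2]
    refine arcj_bd (by simp) (by linarith [abs_nonneg C₂]) (c₁ _ (mL s hs) _ (mL t ht)) ?_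
    rw [show 1 - 2 * s - (1 - 2 * t) = -2 * (s - t) by ring, abs_mul]
    simp
  · rw [gR' s hs.1, gR' t ht.1]
    refine arcj_bd (by simp) (by linarith [abs_nonneg C₁]) (c₂ _ (mR s hs) _ (mR t ht)) ?_
    rw [show 2 * s - 1 - (2 * t - 1) = 2 * (s - t) by ring, abs_mul]
    simp
  · ext z
    constructor
    · rintro ⟨t, ht, rfl⟩
      rcases le_total t (1 / 2) with b | b
      · exact Or.inl ⟨_, mL t ⟨ht.1, b⟩, (gL t b).symm⟩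
      · exact Or.inr ⟨_, mR t ⟨b, ht.2⟩, (gR t b).symm⟩
    · rintro (⟨t, ht, rfl⟩ | ⟨t, ht, rfl⟩)
      · refine ⟨(1 - t) / 2, ⟨by linarith [ht.2], by linarith [ht.1]⟩, ?_⟩
        rw [gL _ (by linarith [ht.1]), show 1 - 2 * ((1 - t) / 2) = t by ring]
      · refine ⟨(1 + t) / 2, ⟨by linarith [ht.1], by linarith [ht.2]⟩, ?_⟩
        rw [gR _ (by linarith [ht.1]), show 2 * ((1 + t) / 2) - 1 = t by ring]
  · rw [gL _ le_rfl, ← e₁]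
    norm_num

end Vale.Agent.P128
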