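import Vale.Agent.P128.Eil
import Vale.Agent.P071.Green

/-!
# P128 Pol

Polar coordinates. Use `Vale.Agent.P071.integrableOn_polar`, `integral_ball_polar`
(angles `-π..π`; shift with `Function.Periodic.intervalIntegral_add_eq`) and
`Complex.lintegral_comp_polarCoord_symm`. Pointwise `ut ^ 2 + un ^ 2 = s ^ 2 * ‖gK‖ ^ 2`.
-/

namespace Vale.Agent.P128

open Set Metric MeasureTheory Filter Topology Complex
open scoped ENNReal ContDiff RealInnerProductSpace Gradient Real ComplexConjugate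

variable {Ω K L A S T U O X Γ P M₀ K₀ K₁ : Set ℂ} {u v w g hh ψ η : ℂ → ℝ} {G : ℂ → ℂ}
  {π₀ π₁ : ℂ → Set ℂ} {x y z c p q e a₀ F : ℂ} {lam H r s R a b t M Θ ρ ε δ d : ℝ} {n : ℕ}

theorem pol_ex (θ : ℝ) : ex θ = (Real.cos θ : ℂ) + (Real.sin θ : ℂ) * I := by
  rw [ex, exp_mul_I]; simp

theorem pol_ex_cont : Continuous ex := by unfold ex; fun_prop

theorem pol_ex_per : Function.Periodic ex (2 * π) := fun θ => by
  simp only [pol_ex, Real.cos_add_two_pi, Real.sin_add_two_pi]

theorem pol_inner (g : ℂ) (θ : ℝ) :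
    ⟪g, ex θ⟫ = g.re * Real.cos θ + g.im * Real.sin θ ∧
      ⟪g, I * ex θ⟫ = g.im * Real.cos θ - g.re * Real.sin θ := by
  rw [Complex.inner, Complex.inner, pol_ex]
  constructor <;> simp [-ofReal_cos, -ofReal_sin] <;> ring

theorem ut_un_sq (u : ℂ → ℝ) (K : Set ℂ) (x : ℂ) (s θ : ℝ) :
    ut u K x s θ ^ 2 + un u K x s θ ^ 2 = s ^ 2 * ‖gK K u (circleMap x s θ)‖ ^ 2 := by
  rw [ut, un, (pol_inner _ _).1, (pol_inner _ _).2, Complex.sq_norm, Complex.normSq_apply]
  linear_combination (s ^ 2 * ((gK K u (circleMap x s θ)).re ^ 2 +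
    (gK K u (circleMap x s θ)).im ^ 2)) * Real.sin_sq_add_cos_sq θ

theorem un_ut_eq (u : ℂ → ℝ) (K : Set ℂ) (x : ℂ) (s θ : ℝ) :
    (un u K x s θ : ℂ) - I * ut u K x s θ = s * conj (gK K u (circleMap x s θ)) * ex θ := by
  rw [ut, un, (pol_inner _ _).1, (pol_inner _ _).2, pol_ex]
  apply Complex.ext <;> simp [-ofReal_cos, -ofReal_sin] <;> ring

theorem ut_per (u : ℂ → ℝ) (K : Set ℂ) (x : ℂ) (s : ℝ) :
    Function.Periodic (ut u K x s) (2 * π) ∧ Function.Periodic (un u K x s) (2 * π) := by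
  constructor <;> intro θ <;> simp only [ut, un, periodic_circleMap x s θ, pol_ex_per θ]

theorem A2_nonneg (u : ℂ → ℝ) (K : Set ℂ) (x : ℂ) (s : ℝ) :
    0 ≤ A2 u K x s ∧ 0 ≤ B2 u K x s :=
  ⟨intervalIntegral.integral_nonneg (by positivity) fun _ _ => sq_nonneg _,
    intervalIntegral.integral_nonneg (by positivity) fun _ _ => sq_nonneg _⟩

theorem pol_cm (x : ℂ) : Continuous fun q : ℝ × ℝ => circleMap x q.1 q.2 := by
  unfold circleMap; fun_prop

theorem meas_ut (hK : IsClosed K) (u : ℂ → ℝ) (x : ℂ) :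
    Measurable (fun q : ℝ × ℝ => ut u K x q.1 q.2) ∧
      Measurable (fun q : ℝ × ℝ => un u K x q.1 q.2) := by
  have h1 : Measurable fun q : ℝ × ℝ => gK K u (circleMap x q.1 q.2) :=
    (meas_gK hK u).comp (pol_cm x).measurable
  have h2 : Measurable fun q : ℝ × ℝ => ex q.2 := pol_ex_cont.measurable.comp measurable_snd
  exact ⟨measurable_fst.mul (h1.inner (h2.const_mul I)), measurable_fst.mul (h1.inner h2)⟩

theorem pol_meas_int {E : Type} [NormedAddCommGroup E] [NormedSpace ℝ E] [MeasurableSpace E]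
    [BorelSpace E] [SecondCountableTopology E] {f : ℝ × ℝ → E} (hf : Measurable f) :
    Measurable fun s : ℝ => ∫ θ in (0 : ℝ)..2 * π, f (s, θ) := by
  simp only [intervalIntegral.integral_of_le (show (0 : ℝ) ≤ 2 * π by positivity)]
  exact (hf.stronglyMeasurable.integral_prod_right' (ν := volume.restrict (Ioc 0 (2 * π)))).measurable

theorem meas_E2 (hK : IsClosed K) (u : ℂ → ℝ) (x : ℂ) :
    Measurable (A2 u K x) ∧ Measurable (B2 u K x) ∧ Measurable (E2 u K x) ∧
      Measurable (Zc u K x) := by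
  obtain ⟨h1, h2⟩ := meas_ut hK u x
  have hA : Measurable (A2 u K x) := pol_meas_int (h1.pow_const 2)
  have hB : Measurable (B2 u K x) := pol_meas_int (h2.pow_const 2)
  refine ⟨hA, hB, hA.add hB, ?_⟩
  have h3 : Measurable fun q : ℝ × ℝ => conj (ex q.2) :=
    (Complex.continuous_conj.comp (pol_ex_cont.comp continuous_snd)).measurable
  have h4 : Measurable fun q : ℝ × ℝ =>
      ((un u K x q.1 q.2 : ℂ) - I * ut u K x q.1 q.2) ^ 2 * conj (ex q.2) :=
    (((Complex.measurable_ofReal.comp h2).sub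
      ((Complex.measurable_ofReal.comp h1).const_mul I)).pow_const 2).mul h3
  exact (Complex.measurable_ofReal.inv).mul (pol_meas_int h4)

theorem pol_dom {f k : ℝ → ℝ} (hf : Measurable f) (hp : Function.Periodic f (2 * π))
    (hk : IntervalIntegrable k volume 0 (2 * π)) (h : ∀ θ, f θ ^ 2 ≤ k θ) (a b : ℝ) :
    IntervalIntegrable f volume a b ∧ IntervalIntegrable (fun θ => f θ ^ 2) volume a b := by
  have h2 : (2 * π) ≠ 0 := by positivity
  have hp2 : Function.Periodic (fun θ => f θ ^ 2) (2 * π) := fun θ => by simp only [hp θ]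
  refine ⟨hp.intervalIntegrable₀ h2 ?_ a b, hp2.intervalIntegrable₀ h2 ?_ a b⟩
  · refine (hk.add (intervalIntegrable_const (c := (1 : ℝ)))).mono_fun'
      hf.aestronglyMeasurable (Eventually.of_forall fun θ => ?_)
    have := h θ
    simp only [Real.norm_eq_abs]
    nlinarith [sq_abs (f θ), sq_nonneg (|f θ| - 1), abs_nonneg (f θ)]
  · refine hk.mono_fun' (hf.pow_const 2).aestronglyMeasurable (Eventually.of_forall fun θ => ?_)
    simp only [Real.norm_eq_abs, abs_pow, sq_abs]
    exact h θ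

theorem Good.int (hK : IsClosed K) (hg : Good u K x s) (a b : ℝ) :
    IntervalIntegrable (ut u K x s) volume a b ∧ IntervalIntegrable (un u K x s) volume a b ∧
      IntervalIntegrable (fun θ => ut u K x s θ ^ 2) volume a b ∧
      IntervalIntegrable (fun θ => un u K x s θ ^ 2) volume a b := by
  obtain ⟨h1, h2⟩ := meas_ut hK u x
  have hk := hg.2.2.const_mul (s ^ 2)
  have m1 : Measurable (ut u K x s) := h1.comp (measurable_prodMk_left (x := s))
  have m2 : Measurable (un u K x s) := h2.comp (measurable_prodMk_left (x := s))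
  have e1 := pol_dom m1 (ut_per u K x s).1 hk
    (fun θ => by nlinarith [ut_un_sq u K x s θ, sq_nonneg (un u K x s θ)]) a b
  have e2 := pol_dom m2 (ut_per u K x s).2 hk
    (fun θ => by nlinarith [ut_un_sq u K x s θ, sq_nonneg (ut u K x s θ)]) a b
  exact ⟨e1.1, e2.1, e1.2, e2.2⟩

theorem A2_shift (u : ℂ → ℝ) (K : Set ℂ) (x : ℂ) (s a : ℝ) :
    ∫ θ in a..a + 2 * π, ut u K x s θ ^ 2 = A2 u K x s ∧
      ∫ θ in a..a + 2 * π, un u K x s θ ^ 2 = B2 u K x s := by
  have p1 : Function.Periodic (fun θ => ut u K x s θ ^ 2) (2 * π) := fun θ => by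
    simp only [(ut_per u K x s).1 θ]
  have p2 : Function.Periodic (fun θ => un u K x s θ ^ 2) (2 * π) := fun θ => by
    simp only [(ut_per u K x s).2 θ]
  have q1 := p1.intervalIntegral_add_eq a 0
  have q2 := p2.intervalIntegral_add_eq a 0
  rw [zero_add] at q1 q2
  exact ⟨q1, q2⟩

theorem Good.E2_eq (hK : IsClosed K) (hg : Good u K x s) :
    E2 u K x s = ∫ θ in (0 : ℝ)..2 * π, s ^ 2 * ‖gK K u (circleMap x s θ)‖ ^ 2 := by
  obtain ⟨-, -, h1, h2⟩ := hg.int hK 0 (2 * π)
  rw [E2, A2, B2, ← intervalIntegral.integral_add h1 h2]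
  simp only [ut_un_sq]

theorem pol_lper {k : ℝ → ℝ≥0∞} (hp : Function.Periodic k (2 * π)) :
    ∫⁻ θ in Ioo (-π) π, k θ = ∫⁻ θ in Ioo 0 (2 * π), k θ := by
  have : Fact (0 < 2 * π) := ⟨by positivity⟩
  have h1 := AddCircle.lintegral_preimage (2 * π) (-π) hp.lift
  have h2 := AddCircle.lintegral_preimage (2 * π) 0 hp.lift
  rw [zero_add, ← h1, show -π + 2 * π = π by ring] at h2
  rw [restrict_Ioo_eq_restrict_Ioc, restrict_Ioo_eq_restrict_Ioc]
  exact h2.symm

theorem lpolar {f : ℂ → ℝ≥0∞} (hf : Measurable f) (x : ℂ) (b : ℝ) :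
    ∫⁻ z in ball x b, f z =
      ∫⁻ s in Ioo 0 b, ENNReal.ofReal s * ∫⁻ θ in Ioo 0 (2 * π), f (circleMap x s θ) := by
  have hm : Measurable fun q : ℝ × ℝ => ENNReal.ofReal q.1 * f (circleMap x q.1 q.2) :=
    (ENNReal.measurable_ofReal.comp measurable_fst).mul (hf.comp (pol_cm x).measurable)
  have hS : MeasurableSet (Ioo 0 b ×ˢ Ioo (-π) π) := measurableSet_Ioo.prod measurableSet_Ioo
  have key : ∀ p ∈ _root_.polarCoord.target,
      ENNReal.ofReal p.1 • (ball x b).indicator f (x + Complex.polarCoord.symm p) =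
        (Ioo 0 b ×ˢ Ioo (-π) π).indicator
          (fun p : ℝ × ℝ => ENNReal.ofReal p.1 * f (circleMap x p.1 p.2)) p := by
    intro p hp
    rw [P071.polar_symm_eq]
    have h1 : 0 < p.1 := hp.1
    have h2 : p.2 ∈ Ioo (-π) π := hp.2
    have : circleMap x p.1 p.2 ∈ ball x b ↔ p ∈ Ioo 0 b ×ˢ Ioo (-π) π := by
      rw [mem_ball, dist_eq_norm, circleMap_sub_center, norm_circleMap_zero, abs_of_pos h1]
      exact ⟨fun h => ⟨⟨h1, h⟩, h2⟩, fun h => h.1.2⟩
    by_cases h : p ∈ Ioo 0 b ×ˢ Ioo (-π) π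
    · rw [indicator_of_mem h, indicator_of_mem (this.2 h), smul_eq_mul]
    · rw [indicator_of_notMem h, indicator_of_notMem (fun h' => h (this.1 h')), smul_zero]
  rw [← lintegral_indicator measurableSet_ball, ← lintegral_add_left_eq_self _ x,
    ← Complex.lintegral_comp_polarCoord_symm,
    setLIntegral_congr_fun _root_.polarCoord.open_target.measurableSet key,
    setLIntegral_indicator hS, inter_eq_left.2 (P071.polar_subset b), Measure.volume_eq_prod,
    ← Measure.prod_restrict, lintegral_prod _ hm.aemeasurable]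
  refine lintegral_congr fun s => ?_
  simp only
  rw [lintegral_const_mul' _ _ ENNReal.ofReal_ne_top, pol_lper (k := fun θ => f (circleMap x s θ))
    fun θ => by simp only [periodic_circleMap x s θ]]

theorem pol_shift {E : Type} [NormedAddCommGroup E] [NormedSpace ℝ E] (f : ℂ → E) (x : ℂ)
    (s : ℝ) : ∫ θ in (-π)..π, s • f (circleMap x s θ) =
      s • ∫ θ in (0 : ℝ)..2 * π, f (circleMap x s θ) := by
  have hp : Function.Periodic (fun θ => f (circleMap x s θ)) (2 * π) := fun θ => by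
    simp only [periodic_circleMap x s θ]
  have := hp.intervalIntegral_add_eq (-π) 0
  rw [zero_add, show -π + 2 * π = π by ring] at this
  rw [intervalIntegral.integral_smul, this]

theorem pol_ball {E : Type} [NormedAddCommGroup E] [NormedSpace ℝ E] {f : ℂ → E}
    (hf : IntegrableOn f (ball x b)) (hb : 0 ≤ b) :
    ∫ z in ball x b, f z = ∫ s in (0 : ℝ)..b, s • ∫ θ in (0 : ℝ)..2 * π, f (circleMap x s θ) := by
  rw [P071.integral_ball_polar hb hf]
  simp only [pol_shift]

theorem polar_ann {E : Type} [NormedAddCommGroup E] [NormedSpace ℝ E] {f : ℂ → E}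
    (hf : IntegrableOn f (ball x b)) (ha : 0 ≤ a) (hab : a ≤ b) :
    (∀ᵐ s : ℝ, s ∈ Ioo 0 b →
      IntervalIntegrable (fun θ => f (circleMap x s θ)) volume 0 (2 * π)) ∧
    IntervalIntegrable (fun s => s • ∫ θ in (0 : ℝ)..2 * π, f (circleMap x s θ)) volume 0 b ∧
    ∫ z in ball x b \ ball x a, f z =
      ∫ s in a..b, s • ∫ θ in (0 : ℝ)..2 * π, f (circleMap x s θ) := by
  have hb : 0 ≤ b := ha.trans hab
  have hπ : -π ≤ π := by linarith [Real.pi_pos]
  have hP := P071.integrableOn_polar hf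
  rw [IntegrableOn, Measure.volume_eq_prod, ← Measure.prod_restrict] at hP
  have h2 : IntervalIntegrable (fun s => s • ∫ θ in (0 : ℝ)..2 * π, f (circleMap x s θ))
      volume 0 b := by
    rw [intervalIntegrable_iff_integrableOn_Ioo_of_le hb]
    refine hP.integral_prod_left.congr (Eventually.of_forall fun s => ?_)
    simp only
    rw [← pol_shift, intervalIntegral.integral_of_le hπ, integral_Ioc_eq_integral_Ioo]
  refine ⟨?_, h2, ?_⟩
  · have h3 := hP.prod_right_ae
    rw [ae_restrict_iff' measurableSet_Ioo] at h3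
    filter_upwards [h3] with s hs hsb
    have h4 : IntervalIntegrable (fun θ => f (circleMap x s θ)) volume (-π) (-π + 2 * π) := by
      rw [show -π + 2 * π = π by ring, intervalIntegrable_iff_integrableOn_Ioo_of_le hπ]
      have h5 := (hs hsb).smul s⁻¹
      refine h5.congr (Eventually.of_forall fun θ => ?_)
      simp only [Pi.smul_apply, smul_smul, inv_mul_cancel₀ hsb.1.ne', one_smul]
    have hp : Function.Periodic (fun θ => f (circleMap x s θ)) (2 * π) := fun θ => by
      simp only [periodic_circleMap x s θ]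
    exact hp.intervalIntegrable (by positivity) h4 _ _
  · have hs : ball x a ⊆ ball x b := ball_subset_ball hab
    have h0a := h2.mono_set (show uIcc 0 a ⊆ uIcc 0 b by
      rw [uIcc_of_le ha, uIcc_of_le hb]; exact Icc_subset_Icc_right hab)
    rw [setIntegral_sdiff measurableSet_ball hf hs, pol_ball hf hb, pol_ball (hf.mono_set hs) ha,
      intervalIntegral.integral_interval_sub_left h2 h0a]

theorem pol_intOn (h : Pre Ω u K) (hb : closedBall x R ⊆ Ω) :
    IntegrableOn (fun z => ‖gK K u z‖ ^ 2) (ball x R) :=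
  (intOn_of_Dn h.2.1 (h.2.2.2 x R hb).1).1.mono_set ball_subset_closedBall

theorem Pre.ae_good (h : Pre Ω u K) (hb : closedBall x R ⊆ Ω) :
    ∀ᵐ s : ℝ, s ∈ Ioo 0 R → Good u K x s := by
  rcases le_total R 0 with hR | hR
  · exact Eventually.of_forall fun s hs => absurd (hs.1.trans hs.2) (not_lt.2 hR)
  filter_upwards [(polar_ann (pol_intOn h hb) le_rfl hR).1, eil_fin (h.2.2.2 x R hb).2 h.2.1]
    with s h1 h2 hs
  exact ⟨hs.1, h2 hs, h1 hs⟩

theorem Pre.Dr_sub (h : Pre Ω u K) (hR : closedBall x R ⊆ Ω) (ha : 0 ≤ a) (hab : a ≤ b)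
    (hb : b ≤ R) : IntervalIntegrable (fun s => E2 u K x s / s) volume a b ∧
      Dr u K x a + ∫ s in a..b, E2 u K x s / s = Dr u K x b := by
  have hb0 : 0 ≤ b := ha.trans hab
  have hI : IntegrableOn (fun z => ‖gK K u z‖ ^ 2) (ball x b) :=
    (pol_intOn h hR).mono_set (ball_subset_ball hb)
  obtain ⟨-, h2, h3⟩ := polar_ann hI ha hab
  have hae : ∀ᵐ s : ℝ, s ∈ uIoc a b → E2 u K x s / s =
      s • ∫ θ in (0 : ℝ)..2 * π, ‖gK K u (circleMap x s θ)‖ ^ 2 := by
    have hne : ∀ᵐ s : ℝ, s ≠ b := by simp [ae_iff]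
    filter_upwards [h.ae_good hR, hne] with s hg hsb hs
    rw [uIoc_of_le hab] at hs
    have hs0 : 0 < s := ha.trans_lt hs.1
    rw [(hg ⟨hs0, (lt_of_le_of_ne hs.2 hsb).trans_le hb⟩).E2_eq h.2.1,
      intervalIntegral.integral_const_mul, smul_eq_mul]
    field_simp
  have h4 := h2.mono_set (show uIcc a b ⊆ uIcc 0 b by
    rw [uIcc_of_le hab, uIcc_of_le hb0]; exact Icc_subset_Icc_left ha)
  refine ⟨?_, ?_⟩
  · refine h4.congr_ae ?_
    rw [EventuallyEq, ae_restrict_iff' measurableSet_uIoc]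
    filter_upwards [hae] with s hs hs' using (hs hs').symm
  · rw [intervalIntegral.integral_congr_ae hae, ← h3, Dr_eq h.2.1, Dr_eq h.2.1,
      setIntegral_sdiff measurableSet_ball hI (ball_subset_ball hab)]
    ring

theorem Pre.Dr_cont (h : Pre Ω u K) (hR : closedBall x R ⊆ Ω) :
    ContinuousOn (Dr u K x) (Icc 0 R) := by
  rcases lt_or_ge R 0 with h0 | h0
  · rw [Icc_eq_empty_of_lt h0]; exact continuousOn_empty _
  have h1 := (h.Dr_sub hR le_rfl h0 le_rfl).1
  have h2 := intervalIntegral.continuousOn_primitive_interval' h1 left_mem_uIcc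
  rw [uIcc_of_le h0] at h2
  refine (continuousOn_const.add h2).congr (f := fun r => Dr u K x 0 + _) fun r hr => ?_
  exact (h.Dr_sub hR le_rfl hr.1 hr.2).2.symm

end Vale.Agent.P128
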