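import Vale.Agent.P128.Defs

/-!
# P128 Basic0

Small API used everywhere. All proofs are short. `vol_null`: `Measure.hausdorffMeasure_zero_or_top`
and volume of `ℂ` is a multiple of `μH[2]` (or `dimH`). `ae_diff`: Rademacher
(`LipschitzOnWith.ae_differentiableWithinAt_of_mem`) on countably many balls. `grad_tr`: three cases; if
`|u z| = M` the truncation has a global extremum at `z` (`IsLocalMax.fderiv_eq_zero`). `lip_glue`: near a
point of the sphere, a segment from an inner to an outer point crosses the sphere inside a small ball.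
-/

namespace Vale.Agent.P128

open Set Metric MeasureTheory Filter Topology Complex
open scoped ENNReal ContDiff RealInnerProductSpace Gradient Real ComplexConjugate

variable {Ω K L A S T U O X Γ P M₀ K₀ K₁ : Set ℂ} {u v w g hh ψ η : ℂ → ℝ} {G : ℂ → ℂ}
  {π₀ π₁ : ℂ → Set ℂ} {x y z c p q e a₀ F : ℂ} {lam H r s R a b t M Θ ρ ε δ d : ℝ} {n : ℕ}

theorem inner_grad (f : ℂ → ℝ) (z v : ℂ) : ⟪∇ f z, v⟫ = fderiv ℝ f z v := inner_gradient_left

theorem norm_grad (f : ℂ → ℝ) (z : ℂ) : ‖∇ f z‖ = ‖fderiv ℝ f z‖ := by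
  simp [gradient]

theorem basic0_ext {a b : ℂ} (h : ∀ v : ℂ, ⟪a, v⟫ = ⟪b, v⟫) : a = b :=
  ext_inner_right ℝ h

theorem basic0_inner_smul (t : ℝ) (a v : ℂ) : ⟪(t : ℂ) * a, v⟫ = t * ⟪a, v⟫ := by
  rw [← Complex.real_smul, real_inner_smul_left]

theorem grad_eq (f : ℂ → ℝ) (z : ℂ) : ∇ f z = (fderiv ℝ f z 1 : ℝ) + I * (fderiv ℝ f z I : ℝ) := by
  rw [← inner_grad, ← inner_grad]
  generalize ∇ f z = a
  apply Complex.ext <;> simp

theorem grad_add (hu : DifferentiableAt ℝ u z) (hv : DifferentiableAt ℝ v z) :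
    ∇ (fun w => u w + v w) z = ∇ u z + ∇ v z := by
  refine basic0_ext fun a => ?_
  rw [inner_add_left, inner_grad, inner_grad, inner_grad, fderiv_fun_add hu hv]
  rfl

theorem grad_sub (hu : DifferentiableAt ℝ u z) (hv : DifferentiableAt ℝ v z) :
    ∇ (fun w => u w - v w) z = ∇ u z - ∇ v z := by
  refine basic0_ext fun a => ?_
  rw [inner_sub_left, inner_grad, inner_grad, inner_grad, fderiv_fun_sub hu hv]
  rfl

theorem grad_mul (hu : DifferentiableAt ℝ u z) (hv : DifferentiableAt ℝ v z) :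
    ∇ (fun w => u w * v w) z = (u z : ℂ) * ∇ v z + (v z : ℂ) * ∇ u z := by
  refine basic0_ext fun a => ?_
  rw [inner_add_left, basic0_inner_smul, basic0_inner_smul, inner_grad, inner_grad, inner_grad,
    fderiv_fun_mul hu hv]
  simp

theorem grad_smul (t : ℝ) (u : ℂ → ℝ) (z : ℂ) : ∇ (fun w => t * u w) z = (t : ℂ) * ∇ u z := by
  refine basic0_ext fun a => ?_
  have h : (fun w => t * u w) = t • u := rfl
  rw [basic0_inner_smul, inner_grad, inner_grad, h, fderiv_const_smul_field]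
  simp

theorem meas_grad (u : ℂ → ℝ) : Measurable (∇ u) :=
  (InnerProductSpace.toDual ℝ ℂ).symm.continuous.measurable.comp (measurable_fderiv ℝ u)

theorem ae_diff (hU : IsOpen U) (hw : LocallyLipschitzOn U w) :
    ∀ᵐ z : ℂ, z ∈ U → DifferentiableAt ℝ w z := by
  have h1 : ∀ x ∈ U, ∃ t ∈ 𝓝 x, ∃ C, IsOpen t ∧ LipschitzOnWith C w t := by
    intro x hx
    obtain ⟨C, t, ht, hC⟩ := hw hx
    rw [hU.nhdsWithin_eq hx] at ht
    exact ⟨interior t, interior_mem_nhds.2 ht, C, isOpen_interior, hC.mono interior_subset⟩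
  choose! t ht C hto hC using h1
  obtain ⟨V, hVU, hVc, hV⟩ := TopologicalSpace.countable_cover_nhdsWithin (s := U) (f := t)
    (fun x hx => mem_nhdsWithin_of_mem_nhds (ht x hx))
  have h2 : ∀ᵐ z : ℂ, ∀ x ∈ V, z ∈ t x → DifferentiableWithinAt ℝ w (t x) z :=
    (ae_ball_iff hVc).2 fun x hx => (hC x (hVU hx)).ae_differentiableWithinAt_of_mem
  filter_upwards [h2] with z hz hzU
  obtain ⟨x, hx, hzx⟩ := mem_iUnion₂.1 (hV hzU)
  exact (hz x hx hzx).differentiableAt ((hto x (hVU hx)).mem_nhds hzx)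

theorem lip_mul (hu : LocallyLipschitzOn S u) (hv : LocallyLipschitzOn S v) :
    LocallyLipschitzOn S (fun z => u z * v z) := by
  intro x hx
  obtain ⟨C, t, ht, hC⟩ := hu hx
  obtain ⟨D, t', ht', hD⟩ := hv hx
  have e1 : ∀ᶠ z in 𝓝[S] x, |u z| ≤ |u x| + 1 :=
    ((hu.continuousOn x hx).abs.eventually_le_const (by linarith))
  have e2 : ∀ᶠ z in 𝓝[S] x, |v z| ≤ |v x| + 1 :=
    ((hv.continuousOn x hx).abs.eventually_le_const (by linarith))
  refine ⟨Real.toNNReal ((|u x| + 1) * D + (|v x| + 1) * C), _,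
    inter_mem (inter_mem ht ht') (inter_mem e1 e2), LipschitzOnWith.of_dist_le_mul ?_⟩
  rintro a ⟨⟨ha1, ha2⟩, ha3, -⟩ b ⟨⟨hb1, hb2⟩, -, hb4⟩
  have h1 := hC.dist_le_mul a ha1 b hb1
  have h2 := hD.dist_le_mul a ha2 b hb2
  rw [Real.coe_toNNReal _ (by positivity)]
  rw [Real.dist_eq] at h1 h2 ⊢
  have e : u a * v a - u b * v b = u a * (v a - v b) + v b * (u a - u b) := by ring
  rw [e]
  refine (abs_add_le _ _).trans ?_
  rw [abs_mul, abs_mul, add_mul, mul_assoc, mul_assoc]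
  exact add_le_add (mul_le_mul ha3 h2 (abs_nonneg _) (by positivity))
    (mul_le_mul hb4 h1 (abs_nonneg _) (by positivity))

theorem lip_add (hu : LocallyLipschitzOn S u) (hv : LocallyLipschitzOn S v) :
    LocallyLipschitzOn S (fun z => u z + v z) := hu.add hv

theorem lip_congr (hu : LocallyLipschitzOn S u) (h : ∀ z ∈ S, v z = u z) :
    LocallyLipschitzOn S v := by
  intro x hx
  obtain ⟨C, t, ht, hC⟩ := hu hx
  refine ⟨C, t ∩ S, inter_mem ht self_mem_nhdsWithin, fun a ha b hb => ?_⟩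
  rw [h a ha.2, h b hb.2]
  exact hC ha.1 hb.1

theorem lip_of_contDiffOn (hU : IsOpen U) (hu : ContDiffOn ℝ 1 u U) : LocallyLipschitzOn U u := by
  intro x hx
  obtain ⟨C, t, ht, hC⟩ := (hu.contDiffAt (hU.mem_nhds hx)).exists_lipschitzOnWith
  exact ⟨C, t, mem_nhdsWithin_of_mem_nhds ht, hC⟩

theorem tr_lip (M : ℝ) : LipschitzWith 1 (tr M) :=
  (LipschitzWith.id.const_min M).const_max (-M)

theorem abs_tr_le (hM : 0 ≤ M) (t : ℝ) : |tr M t| ≤ M ∧ |tr M t| ≤ |t| := by
  unfold tr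
  have h1 := le_abs_self t
  have h2 := neg_abs_le t
  rcases le_total M t with h | h <;> rcases le_total (-M) t with h' | h' <;>
    simp only [min_eq_left, min_eq_right, max_eq_left, max_eq_right, h, h',
      max_eq_right (show -M ≤ M by linarith)] <;>
    constructor <;> rw [abs_le] <;> constructor <;> linarith

theorem tr_eq (h : |t| ≤ M) : tr M t = t := by
  unfold tr
  rw [abs_le] at h
  rw [min_eq_right h.2, max_eq_right h.1]

theorem lip_tr (hu : LocallyLipschitzOn S u) (M : ℝ) :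
    LocallyLipschitzOn S (fun z => tr M (u z)) := by
  intro x hx
  obtain ⟨C, t, ht, hC⟩ := hu hx
  exact ⟨1 * C, t, ht, (tr_lip M).comp_lipschitzOnWith hC⟩

theorem grad_tr (hu : ContinuousAt u z) (M : ℝ) :
    ∇ (fun w => tr M (u w)) z = if |u z| < M then ∇ u z else 0 := by
  split_ifs with h
  · refine Filter.EventuallyEq.gradient_eq ?_
    filter_upwards [hu.abs.eventually_lt_const h] with w hw using tr_eq hw.le
  · have key : fderiv ℝ (fun w => tr M (u w)) z = 0 := by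
      by_cases h1 : min M (u z) ≤ -M
      · refine IsLocalMin.fderiv_eq_zero (Eventually.of_forall fun w => ?_)
        show tr M (u z) ≤ tr M (u w)
        unfold tr
        rw [max_eq_left h1]
        exact le_max_left _ _
      · refine IsLocalMax.fderiv_eq_zero (Eventually.of_forall fun w => ?_)
        show tr M (u w) ≤ tr M (u z)
        rw [not_le, lt_min_iff] at h1
        have h2 : M ≤ u z := by
          by_contra h3
          exact h (abs_lt.2 ⟨h1.2, not_le.1 h3⟩)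
        unfold tr
        rw [min_eq_left h2]
        exact max_le_max le_rfl (min_le_left _ _)
    simp [gradient, key]

theorem LC.mono {β : Type*} {f : ℂ → β} (h : LC S f) (hT : T ⊆ S) : LC T f :=
  fun z hz => (h z (hT hz)).filter_mono (nhdsWithin_mono z hT)

theorem LC.eq {β : Type*} {f : ℂ → β} (h : LC S f) (hT : T ⊆ S) (hc : IsPreconnected T)
    (hp : p ∈ T) (hq : q ∈ T) : f p = f q := by
  let _ : TopologicalSpace β := ⊥
  have _ : DiscreteTopology β := ⟨rfl⟩
  refine hc.constant (f := f) (fun z hz => ?_) hp hq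
  exact (tendsto_pure.2 (h.mono hT z hz)).mono_right (pure_le_nhds _)

theorem LC.comp {β β' : Type*} {f : ℂ → β} (h : LC S f) (k : β → β') : LC S (fun z => k (f z)) :=
  fun z hz => (h z hz).mono fun _ hw => congrArg k hw

theorem LC.congr {β : Type*} {f f' : ℂ → β} (h : LC S f) (he : ∀ z ∈ S, f' z = f z) : LC S f' := by
  intro z hz
  filter_upwards [h z hz, self_mem_nhdsWithin] with w hw hwS
  rw [he w hwS, he z hz, hw]

theorem LC.prod {β β' : Type*} {f : ℂ → β} {f' : ℂ → β'} (h : LC S f) (h' : LC S f') :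
    LC S (fun z => (f z, f' z)) := by
  intro z hz
  filter_upwards [h z hz, h' z hz] with w hw hw'
  rw [hw, hw']

theorem LC.precomp {β : Type*} {f : ℂ → β} {k : ℂ → ℂ} (h : LC S f) (hk : ContinuousOn k T)
    (hm : MapsTo k T S) : LC T (fun z => f (k z)) :=
  fun z hz => ((hk z hz).tendsto_nhdsWithin hm).eventually (h (k z) (hm hz))

theorem LC.lip (h : LC S u) : LocallyLipschitzOn S u := by
  intro z hz
  refine ⟨0, _, h z hz, fun a ha b hb => ?_⟩
  have ha' : u a = u z := ha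
  have hb' : u b = u z := hb
  simp [ha', hb']

theorem LC.grad (h : LC S u) (hS : IsOpen S) (hz : z ∈ S) : ∇ u z = 0 := by
  have h1 := h z hz
  rw [hS.nhdsWithin_eq hz] at h1
  rw [Filter.EventuallyEq.gradient_eq (f := fun _ => u z) h1]
  exact gradient_fun_const _ _

theorem lc_of_grad (hU : IsOpen U) (hu : DifferentiableOn ℝ u U) (h : ∀ z ∈ U, ∇ u z = 0) :
    LC U u := by
  intro z hz
  obtain ⟨r, hr, hb⟩ := Metric.isOpen_iff.1 hU z hz
  refine mem_nhdsWithin_of_mem_nhds ?_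
  filter_upwards [ball_mem_nhds z hr] with w hw
  refine isOpen_ball.is_const_of_fderiv_eq_zero (convex_ball z r).isPreconnected (hu.mono hb)
    (fun a ha => ?_) hw (mem_ball_self hr)
  have h1 := norm_grad u a
  rw [h a (hb ha), norm_zero] at h1
  exact norm_eq_zero.1 h1.symm

theorem lc_cc (hK : IsClosed K) : LC Kᶜ (cc K) := by
  intro z hz
  refine mem_nhdsWithin_of_mem_nhds ?_
  filter_upwards [(hK.isOpen_compl.connectedComponentIn (x := z)).mem_nhds
    (mem_connectedComponentIn hz)] with w hw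
  exact (connectedComponentIn_eq hw).symm

theorem basic0_ev {P₁ P₂ : Set ℂ}
    (h₁ : z ∈ closedBall x s → P₁ ∈ 𝓝[U ∩ closedBall x s] z)
    (h₂ : z ∉ ball x s → P₂ ∈ 𝓝[U \ ball x s] z) :
    ∀ᶠ w in 𝓝[U] z, (w ∈ closedBall x s → w ∈ P₁) ∧ (w ∉ ball x s → w ∈ P₂) := by
  refine Eventually.and ?_ ?_
  · by_cases h : z ∈ closedBall x s
    · obtain ⟨V, hV, hs⟩ := mem_nhdsWithin_iff_exists_mem_nhds_inter.1 (h₁ h)
      filter_upwards [mem_nhdsWithin_of_mem_nhds hV, self_mem_nhdsWithin] with w hw hwU hwb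
      exact hs ⟨hw, hwU, hwb⟩
    · filter_upwards [mem_nhdsWithin_of_mem_nhds (isClosed_closedBall.isOpen_compl.mem_nhds h)]
        with w hw hwb using absurd hwb hw
  · by_cases h : z ∈ ball x s
    · filter_upwards [mem_nhdsWithin_of_mem_nhds (isOpen_ball.mem_nhds h)]
        with w hw hwb using absurd hw hwb
    · obtain ⟨V, hV, hs⟩ := mem_nhdsWithin_iff_exists_mem_nhds_inter.1 (h₂ h)
      filter_upwards [mem_nhdsWithin_of_mem_nhds hV, self_mem_nhdsWithin] with w hw hwU hwb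
      exact hs ⟨hw, hwU, hwb⟩

theorem basic0_cross (hp : p ∈ closedBall x s) (hq : q ∉ ball x s) :
    ∃ m ∈ segment ℝ p q, m ∈ closedBall x s ∧ m ∉ ball x s := by
  have hc : IsPreconnected (segment ℝ p q) := (convex_segment p q).isPreconnected
  have hcont : ContinuousOn (fun z => dist z x) (segment ℝ p q) := by fun_prop
  obtain ⟨m, hm, hm'⟩ := hc.intermediate_value (left_mem_segment ℝ p q) (right_mem_segment ℝ p q)
    hcont (show s ∈ Icc (dist p x) (dist q x) from ⟨hp, not_lt.1 hq⟩)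
  have hm2 : dist m x = s := hm'
  exact ⟨m, hm, hm2.le, by rw [mem_ball, hm2]; exact lt_irrefl _⟩

theorem lip_glue (hU : IsOpen U) (h₁ : LocallyLipschitzOn (U ∩ closedBall x s) w)
    (h₂ : LocallyLipschitzOn (U \ ball x s) w) : LocallyLipschitzOn U w := by
  intro z hz
  have e1 : ∃ C t, (z ∈ closedBall x s → t ∈ 𝓝[U ∩ closedBall x s] z) ∧ LipschitzOnWith C w t := by
    by_cases h : z ∈ closedBall x s
    · obtain ⟨C, t, ht, hC⟩ := h₁ ⟨hz, h⟩
      exact ⟨C, t, fun _ => ht, hC⟩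
    · exact ⟨0, ∅, fun h' => absurd h' h, lipschitzOnWith_empty _ _⟩
  have e2 : ∃ C t, (z ∉ ball x s → t ∈ 𝓝[U \ ball x s] z) ∧ LipschitzOnWith C w t := by
    by_cases h : z ∈ ball x s
    · exact ⟨0, ∅, fun h' => absurd h h', lipschitzOnWith_empty _ _⟩
    · obtain ⟨C, t, ht, hC⟩ := h₂ ⟨hz, h⟩
      exact ⟨C, t, fun _ => ht, hC⟩
  obtain ⟨C, t₁, ht₁, hC⟩ := e1
  obtain ⟨D, t₂, ht₂, hD⟩ := e2
  have hev := basic0_ev ht₁ ht₂
  rw [hU.nhdsWithin_eq hz] at hev
  obtain ⟨δ, hδ, hb⟩ := Metric.eventually_nhds_iff_ball.1 hev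
  have hC' : LipschitzOnWith (max C D) w t₁ := hC.weaken (le_max_left _ _)
  have hD' : LipschitzOnWith (max C D) w t₂ := hD.weaken (le_max_right _ _)
  have key : ∀ a ∈ ball z δ, ∀ b ∈ ball z δ, a ∈ closedBall x s → b ∉ ball x s →
      dist (w a) (w b) ≤ (max C D : NNReal) * dist a b := by
    intro a ha b hb' ha1 hb1
    obtain ⟨m, hm, hm1, hm2⟩ := basic0_cross ha1 hb1
    have hmb : m ∈ ball z δ := (convex_ball z δ).segment_subset ha hb' hm
    have k1 := hC'.dist_le_mul a ((hb a ha).1 ha1) m ((hb m hmb).1 hm1)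
    have k2 := hD'.dist_le_mul m ((hb m hmb).2 hm2) b ((hb b hb').2 hb1)
    rw [← dist_add_dist_of_mem_segment hm, mul_add]
    exact (dist_triangle _ _ _).trans (add_le_add k1 k2)
  refine ⟨max C D, ball z δ, mem_nhdsWithin_of_mem_nhds (ball_mem_nhds z hδ),
    LipschitzOnWith.of_dist_le_mul fun a ha b hb' => ?_⟩
  by_cases ha1 : a ∈ ball x s <;> by_cases hb1 : b ∈ ball x s
  · exact hC'.dist_le_mul a ((hb a ha).1 (ball_subset_closedBall ha1)) b
      ((hb b hb').1 (ball_subset_closedBall hb1))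
  · exact key a ha b hb' (ball_subset_closedBall ha1) hb1
  · rw [dist_comm, dist_comm a b]
    exact key b hb' a ha (ball_subset_closedBall hb1) ha1
  · exact hD'.dist_le_mul a ((hb a ha).2 ha1) b ((hb b hb').2 hb1)

theorem lc_glue {β : Type*} {f : ℂ → β} (h₁ : LC (U ∩ closedBall x s) f)
    (h₂ : LC (U \ ball x s) f) : LC U f := by
  intro z hz
  filter_upwards [basic0_ev (P₁ := {w | f w = f z}) (P₂ := {w | f w = f z})
    (fun h => h₁ z ⟨hz, h⟩) (fun h => h₂ z ⟨hz, h⟩)] with w hw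
  by_cases h : w ∈ ball x s
  · exact hw.1 (ball_subset_closedBall h)
  · exact hw.2 h

theorem ex_norm (θ : ℝ) : ‖ex θ‖ = 1 := Complex.norm_exp_ofReal_mul_I θ

theorem circleMap_ex (x : ℂ) (s θ : ℝ) : circleMap x s θ = x + s * ex θ := rfl

end Vale.Agent.P128
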