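import Vale.Agent.P128.Wir0
import Vale.Agent.P128.Basic0

/-!
# P128 WirA

Wirtinger inequalities. `wir_per`: Fourier series on `[a, a + 2π]` (Parseval
`tsum_sq_fourierCoeff` / `hasSum_sq_fourierCoeffOn`, with `fourierCoeffOn` of `f'` equal to `i k` times
that of `f` by Fubini or integration by parts for the primitive `c + ∫ a..t f'`). `wir_int`: even
reflection about `b` gives a function on an interval of length `2 (b - a)` with zero total derivative;
rescale to length `2π` and apply `wir_per`.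
-/

namespace Vale.Agent.P128

open Set Metric MeasureTheory Filter Topology Complex
open scoped ENNReal ContDiff RealInnerProductSpace Gradient Real ComplexConjugate

variable {Ω K L A S T U O X Γ P M₀ K₀ K₁ : Set ℂ} {u v w g hh ψ η : ℂ → ℝ} {G : ℂ → ℂ}
  {π₀ π₁ : ℂ → Set ℂ} {x y z c p q e a₀ F : ℂ} {lam H r s R a b t M Θ ρ ε δ d : ℝ} {n : ℕ}

theorem wira_ibp {g φ Φ : ℝ → ℝ} (m : ℝ) (hg : IntervalIntegrable g volume a b)
    (hΦ : ∀ t, HasDerivAt Φ (φ t) t) (hφ : Continuous φ) :
    ∫ t in a..b, (m + ∫ τ in a..t, g τ) * φ t =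
      (m + ∫ τ in a..b, g τ) * Φ b - m * Φ a - ∫ t in a..b, g t * Φ t := by
  have hd : deriv Φ = φ := funext fun t => (hΦ t).deriv
  have hC : ContDiff ℝ 1 Φ :=
    contDiff_one_iff_deriv.2 ⟨fun t => (hΦ t).differentiableAt, hd ▸ hφ⟩
  have h1 : AbsolutelyContinuousOnInterval Φ a b := hC.contDiffOn.absolutelyContinuousOnInterval
  have h2 : AbsolutelyContinuousOnInterval (fun t => m + ∫ τ in a..t, g τ) a b :=
    (contDiffOn_const (c := m)).absolutelyContinuousOnInterval.fun_add
      (hg.absolutelyContinuousOnInterval_intervalIntegral left_mem_uIcc)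
  have h3 := h2.integral_mul_deriv_eq_deriv_mul h1
  rw [hd] at h3
  rw [h3]
  have h4 : ∫ t in a..b, deriv (fun t => m + ∫ τ in a..t, g τ) t * Φ t =
      ∫ t in a..b, g t * Φ t := by
    apply intervalIntegral.integral_congr_ae
    filter_upwards [hg.ae_hasDerivAt_integral] with t ht ht'
    rw [((ht (uIoc_subset_uIcc ht') a left_mem_uIcc).const_add m).deriv]
  rw [h4]
  simp

theorem wira_cont {g : ℝ → ℝ} (m : ℝ) (hg : IntervalIntegrable g volume a b) :
    ContinuousOn (fun t => m + ∫ τ in a..t, g τ) (uIcc a b) :=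
  continuousOn_const.add
    (hg.absolutelyContinuousOnInterval_intervalIntegral left_mem_uIcc).continuousOn

theorem wira_ibpC {g : ℝ → ℝ} {φ Φ : ℝ → ℂ} (m : ℝ) (hg : IntervalIntegrable g volume a b)
    (hΦ : ∀ t, HasDerivAt Φ (φ t) t) (hφ : Continuous φ) :
    ∫ t in a..b, (m + ∫ τ in a..t, g τ) • φ t =
      (m + ∫ τ in a..b, g τ) • Φ b - m • Φ a - ∫ t in a..b, g t • Φ t := by
  have hΦc : Continuous Φ := continuous_iff_continuousAt.2 fun t => (hΦ t).continuousAt
  have i1 : IntervalIntegrable (fun t => (m + ∫ τ in a..t, g τ) • φ t) volume a b :=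
    ((wira_cont m hg).smul hφ.continuousOn).intervalIntegrable
  have i2 : IntervalIntegrable (fun t => g t • Φ t) volume a b :=
    hg.smul_continuousOn hΦc.continuousOn
  have key : ∀ L : ℂ →L[ℝ] ℝ, L (∫ t in a..b, (m + ∫ τ in a..t, g τ) • φ t) =
      L ((m + ∫ τ in a..b, g τ) • Φ b - m • Φ a - ∫ t in a..b, g t • Φ t) := by
    intro L
    rw [map_sub, map_sub, ← L.intervalIntegral_comp_comm i1, ← L.intervalIntegral_comp_comm i2]
    simp only [map_smul, smul_eq_mul]
    exact wira_ibp m hg (fun t => L.hasFDerivAt.comp_hasDerivAt t (hΦ t)) (L.continuous.comp hφ)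
  exact Complex.ext (key Complex.reCLM) (key Complex.imCLM)

theorem wira_coef {g : ℝ → ℝ} (m : ℝ) (hab : a < b) (hg : IntervalIntegrable g volume a b)
    (h0 : ∫ t in a..b, g t = 0) {k : ℤ} (hk : k ≠ 0) :
    ‖fourierCoeffOn hab (fun t => ((m + ∫ τ in a..t, g τ : ℝ) : ℂ)) k‖ ^ 2 ≤
      ((b - a) / (2 * π)) ^ 2 * ‖fourierCoeffOn hab (fun t => ((g t : ℝ) : ℂ)) k‖ ^ 2 := by
  have hT : Fact (0 < b - a) := ⟨by linarith⟩
  have hc : Continuous fun t : ℝ => fourier (-k) (t : AddCircle (b - a)) :=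
    (map_continuous (fourier (-k))).comp (AddCircle.continuous_mk' _)
  have h1 := wira_ibpC m hg (has_antideriv_at_fourier_neg hT hk) hc
  have s2 : (b : AddCircle (b - a)) = (a : AddCircle (b - a)) := by
    simpa using AddCircle.coe_add_period (b - a) a
  rw [h0, add_zero, s2, sub_self, zero_sub] at h1
  set C : ℂ := ((b - a : ℝ) : ℂ) / (-2 * π * I * k) with hC
  have e1 : ∫ t in a..b, fourier (-k) (t : AddCircle (b - a)) •
      ((m + ∫ τ in a..t, g τ : ℝ) : ℂ) =
      -C * ∫ t in a..b, fourier (-k) (t : AddCircle (b - a)) • ((g t : ℝ) : ℂ) := by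
    rw [neg_mul, ← intervalIntegral.integral_const_mul]
    refine Eq.trans ?_ (h1.trans ?_)
    · refine intervalIntegral.integral_congr fun t _ => ?_
      simp only [smul_eq_mul, Complex.real_smul]
      ring
    · refine congrArg Neg.neg (intervalIntegral.integral_congr fun t _ => ?_)
      simp only [smul_eq_mul, Complex.real_smul]
      ring
  have e2 : fourierCoeffOn hab (fun t => ((m + ∫ τ in a..t, g τ : ℝ) : ℂ)) k =
      -C * fourierCoeffOn hab (fun t => ((g t : ℝ) : ℂ)) k := by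
    rw [fourierCoeffOn_eq_integral, fourierCoeffOn_eq_integral, e1, mul_smul_comm]
  have hk1 : (1 : ℝ) ≤ |(k : ℝ)| := by
    have := Int.one_le_abs hk
    exact_mod_cast this
  have hCn : ‖C‖ ≤ (b - a) / (2 * π) := by
    have : ‖C‖ = (b - a) / (2 * π * |(k : ℝ)|) := by
      rw [hC, norm_div, Complex.norm_real, Real.norm_of_nonneg hT.out.le]
      simp [abs_of_pos Real.pi_pos]
    rw [this]
    have hp : 0 < 2 * π := by positivity
    exact div_le_div_of_nonneg_left hT.out.le hp (le_mul_of_one_le_right hp.le hk1)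
  rw [e2, norm_mul, norm_neg, mul_pow]
  exact mul_le_mul_of_nonneg_right (pow_le_pow_left₀ (norm_nonneg _) hCn 2) (sq_nonneg _)

theorem wira_l2 {g : ℝ → ℝ} (hab : a < b) (hg : IntervalIntegrable g volume a b)
    (hg2 : IntervalIntegrable (fun t => g t ^ 2) volume a b) :
    HasSum (fun k => ‖fourierCoeffOn hab (fun t => ((g t : ℝ) : ℂ)) k‖ ^ 2)
      ((b - a)⁻¹ * ∫ t in a..b, g t ^ 2) := by
  have h1 : MemLp g 2 (volume.restrict (Ioc a b)) :=
    (memLp_two_iff_integrable_sq hg.1.aestronglyMeasurable).2 hg2.1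
  have h2 := hasSum_sq_fourierCoeffOn hab (f := fun t => ((g t : ℝ) : ℂ)) h1.ofReal
  simpa only [Complex.norm_real, Real.norm_eq_abs, sq_abs, smul_eq_mul] using h2

theorem wira_rep {f f' : ℝ → ℝ} (h : Prim f f' a b) :
    ∃ m, ∀ t ∈ Ioo a b, f t = m + ∫ τ in a..t, f' τ := by
  obtain ⟨hab, h1, -, h3⟩ := h
  have hs : (a + b) / 2 ∈ Ioo a b := ⟨by linarith, by linarith⟩
  have hi : ∀ t ∈ Ioo a b, IntervalIntegrable f' volume a t := fun t ht =>
    h1.mono_set (uIcc_subset_uIcc left_mem_uIcc (by rw [uIcc_of_le hab.le]; exact Ioo_subset_Icc_self ht))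
  refine ⟨f ((a + b) / 2) - ∫ τ in a..(a + b) / 2, f' τ, fun t ht => ?_⟩
  have h4 := h3 _ hs t ht
  have h5 := intervalIntegral.integral_interval_sub_left (hi t ht) (hi _ hs)
  linarith

theorem wira_gen {f f' : ℝ → ℝ} (h : Prim f f' a b) (h0 : ∫ t in a..b, f' t = 0) :
    ∫ t in a..b, (f t - av f a b) ^ 2 ≤ ((b - a) / (2 * π)) ^ 2 * ∫ t in a..b, f' t ^ 2 := by
  obtain ⟨m, hm⟩ := wira_rep h
  obtain ⟨hab, h1, h2, -⟩ := h
  have hT : 0 < b - a := by linarith
  set W : ℝ → ℝ := fun t => (m - av f a b) + ∫ τ in a..t, f' τ with hW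
  have hWc : ContinuousOn W (uIcc a b) := wira_cont _ h1
  have hfW : ∀ t ∈ Ioo a b, f t - av f a b = W t := fun t ht => by
    rw [hm t ht]; simp only [hW]; ring
  have e1 : ∫ t in a..b, (f t - av f a b) ^ 2 = ∫ t in a..b, W t ^ 2 :=
    intervalIntegral.integral_congr_Ioo_of_le hab.le fun t ht => by simp only [hfW t ht]
  have hfi : IntervalIntegrable f volume a b :=
    (wira_cont m h1).intervalIntegrable.congr_uIoo fun t ht =>
      (hm t (by rwa [uIoo_of_le hab.le] at ht)).symm
  have e2 : ∫ t in a..b, W t = 0 := by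
    rw [← intervalIntegral.integral_congr_Ioo_of_le hab.le (f := fun t => f t - av f a b) hfW,
      intervalIntegral.integral_sub hfi intervalIntegrable_const, intervalIntegral.integral_const,
      av, smul_eq_mul]
    field_simp
    ring
  have s1 := wira_l2 hab hWc.intervalIntegrable (hWc.pow 2).intervalIntegrable
  have s2 := (wira_l2 hab h1 h2).mul_left (((b - a) / (2 * π)) ^ 2)
  have hle := hasSum_le (fun k => ?_) s1 s2
  · rw [e1]
    have : (b - a)⁻¹ * ∫ t in a..b, W t ^ 2 ≤
        (b - a)⁻¹ * (((b - a) / (2 * π)) ^ 2 * ∫ t in a..b, f' t ^ 2) := by linarith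
    exact le_of_mul_le_mul_left this (inv_pos.2 hT)
  · rcases eq_or_ne k 0 with rfl | hk
    · have : fourierCoeffOn hab (fun t => ((W t : ℝ) : ℂ)) 0 = 0 := by
        rw [fourierCoeffOn_eq_integral]
        simp only [neg_zero, fourier_zero, one_smul]
        rw [intervalIntegral.integral_ofReal, e2]
        simp
      rw [this, norm_zero, zero_pow two_ne_zero]
      positivity
    · exact wira_coef _ hab h1 h0 hk

theorem wira_refl {f k : ℝ → ℝ} (σ : ℝ) (hab : a ≤ b) (hf : IntervalIntegrable f volume a b)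
    (h1 : ∀ t ∈ Ioo a b, k t = f t) (h2 : ∀ t ∈ Ioo a b, k (2 * b - t) = σ * f t) :
    IntervalIntegrable k volume a (2 * b - a) ∧
      ∫ t in a..2 * b - a, k t = (1 + σ) * ∫ t in a..b, f t := by
  have hb : b ≤ 2 * b - a := by linarith
  have i1 : IntervalIntegrable k volume a b :=
    hf.congr_uIoo fun t ht => (h1 t (by rwa [uIoo_of_le hab] at ht)).symm
  have h3 : ∀ t ∈ Ioo b (2 * b - a), k t = σ * f (2 * b - t) := fun t ht => by
    have := h2 (2 * b - t) ⟨by linarith [ht.2], by linarith [ht.1]⟩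
    rwa [sub_sub_cancel] at this
  have e : 2 * b - b = b := by ring
  have i2 : IntervalIntegrable k volume b (2 * b - a) := by
    have := ((hf.comp_sub_left (2 * b)).const_mul σ).symm
    rw [e] at this
    exact this.congr_uIoo fun t ht => (h3 t (by rwa [uIoo_of_le hb] at ht)).symm
  refine ⟨i1.trans i2, ?_⟩
  rw [← intervalIntegral.integral_add_adjacent_intervals i1 i2,
    intervalIntegral.integral_congr_Ioo_of_le hab h1,
    intervalIntegral.integral_congr_Ioo_of_le hb h3, intervalIntegral.integral_const_mul,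
    intervalIntegral.integral_comp_sub_left, sub_sub_cancel, e]
  ring

theorem wir_per {f f' : ℝ → ℝ} (h : Prim f f' a (a + 2 * π))
    (h0 : ∫ t in a..a + 2 * π, f' t = 0) :
    ∫ t in a..a + 2 * π, (f t - av f a (a + 2 * π)) ^ 2 ≤ ∫ t in a..a + 2 * π, f' t ^ 2 := by
  have h1 := wira_gen h h0
  have e : (a + 2 * π - a) / (2 * π) = 1 := by
    rw [add_sub_cancel_left]; exact div_self (by positivity)
  rwa [e, one_pow, one_mul] at h1

theorem wir_int {f f' : ℝ → ℝ} (h : Prim f f' a b) :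
    ∫ t in a..b, (f t - av f a b) ^ 2 ≤ ((b - a) / π) ^ 2 * ∫ t in a..b, f' t ^ 2 := by
  obtain ⟨m, hm⟩ := wira_rep h
  have hfi := (h.int (av f a b)).1
  have hfi2 := (h.int (av f a b)).2
  obtain ⟨hab, h1, h2, -⟩ := h
  set k' : ℝ → ℝ := fun t => if t ≤ b then f' t else -f' (2 * b - t) with hk'
  have a1 : ∀ t, t < b → k' t = f' t := fun t ht => if_pos ht.le
  have a2 : ∀ t, t < b → k' (2 * b - t) = -1 * f' t := fun t ht => by
    have : ¬ (2 * b - t ≤ b) := by linarith
    simp only [hk', if_neg this, sub_sub_cancel, neg_mul, one_mul]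
  have r1 : ∀ s ∈ Icc a b, IntervalIntegrable k' volume s (2 * b - s) ∧
      ∫ t in s..2 * b - s, k' t = 0 := fun s hs => by
    have := wira_refl (k := k') (-1) hs.2
      (h1.mono_set (uIcc_subset_uIcc (by rwa [uIcc_of_le hab.le]) right_mem_uIcc))
      (fun t ht => a1 t ht.2) (fun t ht => a2 t ht.2)
    simpa using this
  have ha : a ∈ Icc a b := ⟨le_rfl, hab.le⟩
  have r2 := wira_refl (k := fun t => k' t ^ 2) 1 hab.le h2
    (fun t ht => by simp only [a1 t ht.2]) (fun t ht => by simp only [a2 t ht.2]; ring)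
  have hab' : a < 2 * b - a := by linarith
  have hi : ∀ t ∈ Icc a (2 * b - a), IntervalIntegrable k' volume a t := fun t ht =>
    (r1 a ha).1.mono_set (uIcc_subset_uIcc left_mem_uIcc (by rwa [uIcc_of_le hab'.le]))
  set k : ℝ → ℝ := fun t => m + ∫ τ in a..t, k' τ with hk
  have hP : Prim k k' a (2 * b - a) := by
    refine ⟨hab', (r1 a ha).1, r2.1, fun s hs t ht => ?_⟩
    have := intervalIntegral.integral_interval_sub_left (hi t (Ioo_subset_Icc_self ht))
      (hi s (Ioo_subset_Icc_self hs))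
    simp only [hk]
    linarith
  have b1 : ∀ t ∈ Ioo a b, k t = f t := fun t ht => by
    rw [hm t ht]
    simp only [hk]
    rw [intervalIntegral.integral_congr_Ioo_of_le ht.1.le
      (fun τ hτ => a1 τ (hτ.2.trans ht.2))]
  have b2 : ∀ t ∈ Ioo a b, k (2 * b - t) = f t := fun t ht => by
    rw [← b1 t ht]
    have h5 := r1 t (Ioo_subset_Icc_self ht)
    have := intervalIntegral.integral_add_adjacent_intervals
      (hi t ⟨ht.1.le, by linarith [ht.2]⟩) h5.1
    simp only [hk]
    linarith [h5.2]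
  have r3 := wira_refl (k := k) 1 hab.le hfi b1 (fun t ht => by rw [b2 t ht, one_mul])
  have eav : av k a (2 * b - a) = av f a b := by
    have h6 : b - a ≠ 0 := by linarith
    have h7 : 2 * b - a - a = 2 * (b - a) := by ring
    rw [av, av, r3.2, h7]
    field_simp
    ring
  have r4 := wira_refl (k := fun t => (k t - av f a b) ^ 2) 1 hab.le hfi2
    (fun t ht => by simp only [b1 t ht]) (fun t ht => by simp only [b2 t ht, one_mul])
  have h8 := wira_gen hP (r1 a ha).2
  rw [eav, r4.2, r2.2] at h8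
  have h9 : (2 * b - a - a) / (2 * π) = (b - a) / π := by
    field_simp
    ring
  rw [h9] at h8
  linarith

end Vale.Agent.P128
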