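import Vale.Agent.P128.Arcs0
import Vale.Agent.P128.Pol
import Vale.Agent.P128.WirA

/-!
# P128 Arcs

Gap structure on a good circle. `gaps_ex`: sort the finite set of angles in `[θ₀, θ₀ + 2π)`
(`Finset.orderEmbOfFin`). `arc_prim`: chain rule `d/dθ u (circleMap x s θ) = ut`, continuous on the open
arc, FTC. `arc_mean`: on the image of the `k`-th open gap let `m` be `av` over the gap; apply `wir_int`
on every gap and sum. `two_gap`: a free arc longer than `3π/2` centred at angle `θ₀` forces every point of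
`K` on the circle to satisfy `⟪z - x, ex θ₀⟫ ≤ s cos (3π/4) < -(7/10) s`.
-/

namespace Vale.Agent.P128

open Set Metric MeasureTheory Filter Topology Complex
open scoped ENNReal ContDiff RealInnerProductSpace Gradient Real ComplexConjugate

variable {Ω K L A S T U O X Γ P M₀ K₀ K₁ : Set ℂ} {u v w g hh ψ η : ℂ → ℝ} {G : ℂ → ℂ}
  {π₀ π₁ : ℂ → Set ℂ} {x y z c p q e a₀ F : ℂ} {lam H r s R a b t M Θ ρ ε δ d : ℝ} {n : ℕ}

theorem circ_deriv (h : Pre Ω u K) {θ : ℝ} (hz : circleMap x s θ ∈ Ω \ K) :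
    HasDerivAt (fun θ => u (circleMap x s θ)) (ut u K x s θ) θ := by
  have h1 := (h.diff hz).hasFDerivAt.comp_hasDerivAt θ (hasDerivAt_circleMap x s θ)
  refine h1.congr_deriv ?_
  rw [ut, gK_of_notMem u hz.2, inner_grad, ← smul_eq_mul s, ← map_smul]
  congr 1
  rw [circleMap_ex, zero_add, real_smul]
  ring

theorem arc_prim (h : Pre Ω u K) (hb : sphere x s ⊆ Ω) (hg : Good u K x s)
    (ha : FreeArc K x s a b) : Prim (fun θ => u (circleMap x s θ)) (ut u K x s) a b := by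
  refine ⟨ha.1, (hg.int h.2.1 a b).1, (hg.int h.2.1 a b).2.2.1, fun α hα β hβ => ?_⟩
  refine (intervalIntegral.integral_eq_sub_of_hasDerivAt (f := fun θ => u (circleMap x s θ))
    (fun τ hτ => circ_deriv h ?_) (hg.int h.2.1 α β).1).symm
  exact ⟨hb (circleMap_mem_sphere x hg.1.le τ), ha.2.2 τ (ordConnected_Ioo.uIcc_subset hα hβ hτ)⟩

theorem arcs_find {a : ℕ → ℝ} (h0 : a 0 ≤ t) {m : ℕ} (hm : t < a m) :
    ∃ k < m, a k ≤ t ∧ t < a (k + 1) := by
  induction m with
  | zero => exact absurd hm (not_lt.2 h0)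
  | succ m ih =>
    rcases le_or_gt (a m) t with h | h
    · exact ⟨m, m.lt_succ_self, h, hm⟩
    · obtain ⟨k, hk, hk'⟩ := ih h
      exact ⟨k, hk.trans m.lt_succ_self, hk'⟩

theorem arcs_cover {a : ℕ → ℝ} (hs : 0 < s) (h : Gaps K x s n a) (hz : z ∈ sphere x s \ K) :
    ∃ k < n, ∃ t ∈ Ioo (a k) (a (k + 1)), z = circleMap x s t := by
  obtain ⟨t, ht, rfl⟩ := arcs0_ang hs hz.1 (a 0)
  obtain ⟨k, hk, h1, h2⟩ := arcs_find ht.1 (h.2.1 ▸ ht.2)
  exact ⟨k, hk, t, ⟨h1.lt_of_ne fun h3 => hz.2 (h3 ▸ h.2.2.1 k hk.le), h2⟩, rfl⟩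

theorem arcs_mono {a : ℕ → ℝ} (h : Gaps K x s n a) {i j : ℕ} (hij : i ≤ j) (hj : j ≤ n) :
    a i ≤ a j := by
  induction j, hij using Nat.le_induction with
  | base => exact le_rfl
  | succ j _ ih => exact (ih (by omega)).trans (h.2.2.2 j (by omega)).1.le

theorem arcs_uniq {a : ℕ → ℝ} (hs : 0 < s) (h : Gaps K x s n a) {i j : ℕ} (hi : i < n)
    (hj : j < n) {t t' : ℝ} (ht : t ∈ Ioo (a i) (a (i + 1))) (ht' : t' ∈ Ioo (a j) (a (j + 1)))
    (he : circleMap x s t = circleMap x s t') : i = j := by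
  have h1 := arcs_mono h i.zero_le hi.le
  have h2 := arcs_mono h j.zero_le hj.le
  have h3 := arcs_mono h (Nat.succ_le_of_lt hi) le_rfl
  have h4 := arcs_mono h (Nat.succ_le_of_lt hj) le_rfl
  have h5 := h.2.1
  obtain rfl := arcs0_inj hs (by linarith [ht.2, ht'.1]) (by linarith [ht.1, ht'.2]) he
  by_contra hc
  rcases lt_or_gt_of_ne hc with hc | hc
  · linarith [arcs_mono h (Nat.succ_le_of_lt hc) hj.le, ht.2, ht'.1]
  · linarith [arcs_mono h (Nat.succ_le_of_lt hc) hi.le, ht.1, ht'.2]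

theorem arcs_open (hs : 0 < s) (ht : t ∈ Ioo a b) (hb : b ≤ a + 2 * π) :
    ∀ᶠ w in 𝓝[sphere x s] (circleMap x s t), ∃ t' ∈ Ioo a b, w = circleMap x s t' := by
  have h1 : IsClosed (circleMap x s '' Icc b (a + 2 * π)) :=
    (isCompact_Icc.image (continuous_circleMap x s)).isClosed
  have h2 : circleMap x s t ∉ circleMap x s '' Icc b (a + 2 * π) := by
    rintro ⟨t', ht', he⟩
    have := arcs0_inj hs (by linarith [ht'.2, ht.1]) (by linarith [ht'.1, ht.2, Real.two_pi_pos]) he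
    linarith [ht'.1, ht.2]
  filter_upwards [mem_nhdsWithin_of_mem_nhds (h1.isOpen_compl.mem_nhds h2), self_mem_nhdsWithin]
    with w hw hw'
  obtain ⟨t', ht', rfl⟩ := arcs0_ang hs hw' a
  refine ⟨t', ⟨ht'.1.lt_of_ne ?_, ?_⟩, rfl⟩
  · rintro rfl
    exact hw ⟨a + 2 * π, ⟨hb, le_rfl⟩, periodic_circleMap x s a⟩
  · by_contra hc
    exact hw ⟨t', ⟨not_lt.1 hc, ht'.2.le⟩, rfl⟩

theorem arcs_congr {f k : ℝ → ℝ} (hab : a < b) (h : ∀ t ∈ Ioo a b, f t = k t) :
    (IntervalIntegrable k volume a b → IntervalIntegrable f volume a b) ∧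
      ∫ t in a..b, f t = ∫ t in a..b, k t := by
  constructor
  · rw [intervalIntegrable_iff_integrableOn_Ioo_of_le hab.le,
      intervalIntegrable_iff_integrableOn_Ioo_of_le hab.le]
    exact fun hk => hk.congr_fun (fun t ht => (h t ht).symm) measurableSet_Ioo
  · rw [intervalIntegral.integral_of_le hab.le, intervalIntegral.integral_of_le hab.le,
      integral_Ioc_eq_integral_Ioo, integral_Ioc_eq_integral_Ioo]
    exact setIntegral_congr_fun measurableSet_Ioo h

theorem circ_bdd (h : Pre Ω u K) (hb : sphere x s ⊆ Ω) (hg : Good u K x s) :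
    ∃ M, 0 ≤ M ∧ ∀ z ∈ sphere x s \ K, |u z| ≤ M := by
  rcases (K ∩ sphere x s).eq_empty_or_nonempty with hn | hn
  · have h1 : ContinuousOn u (sphere x s) := h.2.2.1.continuousOn.mono fun z hz =>
      ⟨hb hz, fun hK => eq_empty_iff_forall_notMem.1 hn z ⟨hK, hz⟩⟩
    obtain ⟨M, hM⟩ := (isCompact_sphere x s).exists_bound_of_continuousOn h1
    exact ⟨|M|, abs_nonneg M, fun z hz => (hM z hz.1).trans (le_abs_self M)⟩
  · obtain ⟨a, ha⟩ := gaps_ex hg.1 hg.2.1 hn
    refine ⟨∑ k ∈ Finset.range (Nn K x s), (|u (circleMap x s ((a k + a (k + 1)) / 2))| +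
      |∫ τ in a k..a (k + 1), abs (ut u K x s τ)|), Finset.sum_nonneg fun k _ => by positivity,
      fun z hz => ?_⟩
    obtain ⟨k, hk, t, ht, rfl⟩ := arcs_cover hg.1 ha hz
    refine le_trans ?_ (Finset.single_le_sum (fun k _ => by positivity) (Finset.mem_range.2 hk))
    have h1 := (ha.2.2.2 k hk).1
    have h2 := (arc_prim h hb hg (ha.2.2.2 k hk)).osc (s := (a k + a (k + 1)) / 2)
      ⟨by linarith, by linarith⟩ ht
    have h3 := abs_sub_abs_le_abs_sub (u (circleMap x s t))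
      (u (circleMap x s ((a k + a (k + 1)) / 2)))
    linarith [le_abs_self (∫ τ in a k..a (k + 1), abs (ut u K x s τ))]

theorem arc_mean (h : Pre Ω u K) (hb : sphere x s ⊆ Ω) (hg : Good u K x s)
    (hn : (K ∩ sphere x s).Nonempty) (hΘ : MaxGap K x s Θ) :
    ∃ m : ℂ → ℝ, LC (sphere x s \ K) m ∧
      (∀ B, (∀ z ∈ sphere x s \ K, |u z| ≤ B) → ∀ z ∈ sphere x s \ K, |m z| ≤ B) ∧
      IntervalIntegrable (fun θ => u (circleMap x s θ) - m (circleMap x s θ)) volume 0 (2 * π) ∧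
      IntervalIntegrable (fun θ => (u (circleMap x s θ) - m (circleMap x s θ)) ^ 2) volume 0
        (2 * π) ∧
      ∫ θ in (0 : ℝ)..2 * π, (u (circleMap x s θ) - m (circleMap x s θ)) ^ 2 ≤
        (Θ / π) ^ 2 * A2 u K x s := by
  classical
  obtain ⟨a, ha⟩ := gaps_ex hg.1 hg.2.1 hn
  have hs := hg.1
  have hP := fun k hk => arc_prim h hb hg (ha.2.2.2 k hk)
  obtain ⟨m, hm⟩ : ∃ m : ℂ → ℝ, ∀ k < Nn K x s, ∀ t ∈ Ioo (a k) (a (k + 1)),
      m (circleMap x s t) = av (fun θ => u (circleMap x s θ)) (a k) (a (k + 1)) := by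
    refine ⟨fun z => if H : ∃ k < Nn K x s, ∃ t ∈ Ioo (a k) (a (k + 1)), z = circleMap x s t then
      av (fun θ => u (circleMap x s θ)) (a H.choose) (a (H.choose + 1)) else 0,
      fun k hk t ht => ?_⟩
    have H : ∃ k < Nn K x s, ∃ t' ∈ Ioo (a k) (a (k + 1)), circleMap x s t = circleMap x s t' :=
      ⟨k, hk, t, ht, rfl⟩
    obtain ⟨h1, t', ht', h2⟩ := H.choose_spec
    simp only [dif_pos H]
    rw [← arcs_uniq hs ha hk h1 ht ht' h2]
  have hper : Function.Periodic (fun θ => u (circleMap x s θ) - m (circleMap x s θ)) (2 * π) :=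
    fun θ => by simp only [periodic_circleMap x s θ]
  have hper2 : Function.Periodic (fun θ => (u (circleMap x s θ) - m (circleMap x s θ)) ^ 2)
      (2 * π) := fun θ => by simp only [periodic_circleMap x s θ]
  have hc1 := fun k (hk : k < Nn K x s) => arcs_congr
    (f := fun θ => u (circleMap x s θ) - m (circleMap x s θ))
    (k := fun θ => u (circleMap x s θ) - av (fun θ => u (circleMap x s θ)) (a k) (a (k + 1)))
    (hP k hk).1 fun t ht => by rw [hm k hk t ht]
  have hc2 := fun k (hk : k < Nn K x s) => arcs_congr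
    (f := fun θ => (u (circleMap x s θ) - m (circleMap x s θ)) ^ 2)
    (k := fun θ => (u (circleMap x s θ) - av (fun θ => u (circleMap x s θ)) (a k) (a (k + 1))) ^ 2)
    (hP k hk).1 fun t ht => by rw [hm k hk t ht]
  have hi1 := IntervalIntegrable.trans_iterate fun k hk =>
    (hc1 k hk).1 (((hP k hk).int 0).1.sub intervalIntegrable_const)
  have hi2 := IntervalIntegrable.trans_iterate fun k hk => (hc2 k hk).1 ((hP k hk).int _).2
  rw [ha.2.1] at hi1 hi2
  have hj2 := hper2.intervalIntegrable Real.two_pi_pos.ne' hi2 0 (2 * π)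
  refine ⟨m, fun z hz => ?_, fun B hB z hz => ?_,
    hper.intervalIntegrable Real.two_pi_pos.ne' hi1 0 (2 * π), hj2, ?_⟩
  · obtain ⟨k, hk, t, ht, rfl⟩ := arcs_cover hs ha hz
    filter_upwards [nhdsWithin_mono _ sdiff_subset (arcs_open hs ht (ha.2.2.2 k hk).2.1)]
      with w ⟨t', ht', hw⟩
    rw [hw, hm k hk t ht, hm k hk t' ht']
  · obtain ⟨k, hk, t, ht, rfl⟩ := arcs_cover hs ha hz
    rw [hm k hk t ht]
    exact (hP k hk).av_le fun t' ht' =>
      hB _ ⟨circleMap_mem_sphere x hs.le t', (ha.2.2.2 k hk).2.2 t' ht'⟩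
  · have hper3 : Function.Periodic (fun θ => ut u K x s θ ^ 2) (2 * π) := fun θ => by
      simp only [(ut_per u K x s).1 θ]
    rw [ha.sum hper2 hj2, A2, ha.sum hper3 (hg.int h.2.1 _ _).2.2.1, Finset.mul_sum]
    refine Finset.sum_le_sum fun k hk => ?_
    have hk' := Finset.mem_range.1 hk
    have h1 := (hP k hk').1
    rw [(hc2 k hk').2]
    refine (wir_int (hP k hk')).trans (mul_le_mul_of_nonneg_right ?_
      (intervalIntegral.integral_nonneg h1.le fun t _ => sq_nonneg _))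
    exact pow_le_pow_left₀ (div_nonneg (by linarith) Real.pi_pos.le)
      (div_le_div_of_nonneg_right (hΘ _ _ (ha.2.2.2 k hk')) Real.pi_pos.le) 2

end Vale.Agent.P128
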