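import Vale.Agent.P128.Basic0

/-!
# P128 Arcs0

Gap structure on a good circle. `gaps_ex`: sort the finite set of angles in `[θ₀, θ₀ + 2π)`
(`Finset.orderEmbOfFin`). `arc_prim`: chain rule `d/dθ u (circleMap x s θ) = ut`, continuous on the open
arc, FTC. `arc_mean`: on the image of the `k`-th open gap let `m` be `av` over the gap; apply `wir_int`
on every gap and sum. `two_gap`: a free arc longer than `3π/2` centred at angle `θ₀` forces every point of
`K` on the circle to satisfy `⟪z - x, ex θ₀⟫ ≤ s cos (3π/4) < -(7/10) s`.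
-/

namespace Vale.Agent.P128

open Set Metric MeasureTheory Filter Topology Complex
open scoped ENNReal ContDiff RealInnerProductSpace Gradient Real ComplexConjugate

variable {Ω K L A S T U O X Γ P M₀ K₀ K₁ : Set ℂ} {u v w g hh ψ η : ℂ → ℝ} {G : ℂ → ℂ}
  {π₀ π₁ : ℂ → Set ℂ} {x y z c p q e a₀ F : ℂ} {lam H r s R a b t M Θ ρ ε δ d : ℝ} {n : ℕ}

theorem arcs0_ang (hs : 0 < s) (hz : z ∈ sphere x s) (a : ℝ) :
    ∃ t ∈ Ico a (a + 2 * π), z = circleMap x s t := by
  have h1 : z ∈ range (circleMap x s) := by rwa [range_circleMap, abs_of_pos hs]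
  obtain ⟨t, rfl⟩ := h1
  exact (periodic_circleMap x s).exists_mem_Ico Real.two_pi_pos t a

theorem arcs0_inj (hs : 0 < s) {t t' : ℝ} (h1 : t - t' < 2 * π) (h2 : t' - t < 2 * π)
    (h : circleMap x s t = circleMap x s t') : t = t' :=
  eq_of_circleMap_eq hs.ne' (abs_lt.2 ⟨by linarith, h1⟩) h

theorem gaps_ex (hs : 0 < s) (hf : (K ∩ sphere x s).Finite) (hn : (K ∩ sphere x s).Nonempty) :
    ∃ a : ℕ → ℝ, Gaps K x s (Nn K x s) a := by
  classical
  obtain ⟨p, hpK, hp⟩ := hn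
  obtain ⟨θ₀, -, rfl⟩ := arcs0_ang hs hp 0
  have hπ := Real.two_pi_pos
  set A : Set ℝ := {θ | θ ∈ Ico θ₀ (θ₀ + 2 * π) ∧ circleMap x s θ ∈ K} with hA
  have hinj : InjOn (circleMap x s) A := fun t ht t' ht' h =>
    arcs0_inj hs (by linarith [ht.1.2, ht'.1.1]) (by linarith [ht.1.1, ht'.1.2]) h
  have him : circleMap x s '' A = K ∩ sphere x s := by
    ext z
    constructor
    · rintro ⟨t, ht, rfl⟩
      exact ⟨ht.2, circleMap_mem_sphere x hs.le t⟩
    · rintro ⟨hz, hz'⟩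
      obtain ⟨t, ht, rfl⟩ := arcs0_ang hs hz' θ₀
      exact ⟨t, ⟨ht, hz⟩, rfl⟩
  have hAf : A.Finite := Finite.of_finite_image (him ▸ hf) hinj
  have hcard : hAf.toFinset.card = Nn K x s := by
    rw [Nn, ← him, hinj.ncard_image, ncard_eq_toFinset_card A hAf]
  have hlast : θ₀ + 2 * π ∉ hAf.toFinset := by
    rw [Finite.mem_toFinset]
    exact fun h => lt_irrefl _ h.1.2
  have hc : (insert (θ₀ + 2 * π) hAf.toFinset).card = Nn K x s + 1 := by
    rw [Finset.card_insert_of_notMem hlast, hcard]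
  set e := (insert (θ₀ + 2 * π) hAf.toFinset).orderEmbOfFin hc with he
  have hmem : ∀ t, (∃ j, e j = t) ↔ t ∈ Icc θ₀ (θ₀ + 2 * π) ∧ circleMap x s t ∈ K := by
    intro t
    have h1 : t ∈ range e ↔ t ∈ (insert (θ₀ + 2 * π) hAf.toFinset : Finset ℝ) := by
      rw [he, Finset.range_orderEmbOfFin, Finset.mem_coe]
    rw [← mem_range, h1, Finset.mem_insert, Finite.mem_toFinset]
    constructor
    · rintro (rfl | h)
      · exact ⟨⟨by linarith, le_rfl⟩, by rwa [periodic_circleMap x s θ₀]⟩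
      · exact ⟨Ico_subset_Icc_self h.1, h.2⟩
    · rintro ⟨h, h'⟩
      rcases h.2.eq_or_lt with h2 | h2
      · exact Or.inl h2
      · exact Or.inr ⟨⟨h.1, h2⟩, h'⟩
  have hm : ∀ j, e j ∈ Icc θ₀ (θ₀ + 2 * π) ∧ circleMap x s (e j) ∈ K := fun j =>
    (hmem _).1 ⟨j, rfl⟩
  have h0 : e 0 = θ₀ := by
    obtain ⟨j, hj⟩ := (hmem θ₀).2 ⟨⟨le_rfl, by linarith⟩, hpK⟩
    exact le_antisymm (hj ▸ e.monotone (Fin.zero_le j)) (hm 0).1.1
  have hl : e (Fin.last _) = θ₀ + 2 * π := by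
    obtain ⟨j, hj⟩ := (hmem (θ₀ + 2 * π)).2
      ⟨⟨by linarith, le_rfl⟩, by rwa [periodic_circleMap x s θ₀]⟩
    exact le_antisymm (hm _).1.2 (hj ▸ e.monotone (Fin.le_last j))
  have hpos : 0 < Nn K x s := by
    rw [Nn]
    exact (ncard_pos hf).2 ⟨_, hpK, hp⟩
  refine ⟨fun k => if h : k < Nn K x s + 1 then e ⟨k, h⟩ else 0, hpos, ?_, fun k hk => ?_,
    fun k hk => ?_⟩
  · simp only [Nat.lt_succ_self, Nat.succ_pos, dif_pos]
    exact hl.trans (by rw [← h0]; rfl)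
  · simp only [dif_pos (Nat.lt_succ_of_le hk)]
    exact (hm _).2
  · have hk1 : k < Nn K x s + 1 := by omega
    have hk2 : k + 1 < Nn K x s + 1 := by omega
    simp only [dif_pos hk1, dif_pos hk2]
    refine ⟨e.strictMono (Fin.mk_lt_mk.2 k.lt_succ_self), ?_, fun t ht htK => ?_⟩
    · linarith [(hm ⟨k, hk1⟩).1.1, (hm ⟨k + 1, hk2⟩).1.2]
    · obtain ⟨j, rfl⟩ := (hmem t).2 ⟨⟨(hm _).1.1.trans ht.1.le, ht.2.le.trans (hm _).1.2⟩, htK⟩
      have h1 := e.lt_iff_lt.1 ht.1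
      have h2 := e.lt_iff_lt.1 ht.2
      rw [Fin.lt_def] at h1 h2
      simp only at h1 h2
      omega

theorem Gaps.sum {a : ℕ → ℝ} (h : Gaps K x s n a) {f : ℝ → ℝ} (hp : Function.Periodic f (2 * π))
    (hi : IntervalIntegrable f volume 0 (2 * π)) :
    ∫ θ in (0 : ℝ)..2 * π, f θ = ∑ k ∈ Finset.range n, ∫ θ in a k..a (k + 1), f θ := by
  rw [intervalIntegral.sum_integral_adjacent_intervals fun k _ =>
    hp.intervalIntegrable₀ Real.two_pi_pos.ne' hi _ _, h.2.1, hp.intervalIntegral_add_eq (a 0) 0,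
    zero_add]

theorem ae_notMem (hs : 0 < s) (hf : (K ∩ sphere x s).Finite) :
    ∀ᵐ θ : ℝ, circleMap x s θ ∉ K := by
  have h := (hf.countable.preimage_circleMap x hs.ne').measure_zero volume
  refine measure_mono_null (fun θ hθ => ?_) h
  exact ⟨not_not.1 hθ, circleMap_mem_sphere x hs.le θ⟩

theorem maxGap_triv (K : Set ℂ) (x : ℂ) (s : ℝ) : MaxGap K x s (2 * π) := by
  intro a b h
  linarith [h.2.1]

theorem MaxGap.pos (hΘ : MaxGap K x s Θ) (hs : 0 < s) (hf : (K ∩ sphere x s).Finite) : 0 < Θ := by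
  rcases (K ∩ sphere x s).eq_empty_or_nonempty with h | h
  · have h1 := hΘ 0 (2 * π) ⟨Real.two_pi_pos, by linarith, fun t _ ht =>
      eq_empty_iff_forall_notMem.1 h _ ⟨ht, circleMap_mem_sphere x hs.le t⟩⟩
    linarith [Real.two_pi_pos]
  · obtain ⟨a, ha⟩ := gaps_ex hs hf h
    have h1 := ha.2.2.2 0 ha.1
    linarith [hΘ _ _ h1, h1.1]

theorem arcs0_inner (x : ℂ) (s t θ : ℝ) :
    ⟪circleMap x s t - x, ex θ⟫ = s * Real.cos (t - θ) := by
  rw [circleMap_sub_center, Complex.inner, Real.cos_sub]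
  simp [ex, circleMap_zero_re, circleMap_zero_im, Complex.exp_ofReal_mul_I_re,
    Complex.exp_ofReal_mul_I_im]
  ring

theorem two_gap (hs : 0 < s) (h : Two K x s) :
    (K ∩ sphere x s).Nonempty ∧ MaxGap K x s (3 * π / 2) := by
  constructor
  · obtain ⟨z, hz, hz', -⟩ := h 1 norm_one
    exact ⟨z, hz, by rwa [mem_sphere_iff_norm]⟩
  · intro a b hab
    by_contra hc
    rw [not_le] at hc
    obtain ⟨z, hz, hz', h1⟩ := h (ex ((a + b) / 2)) (ex_norm _)
    obtain ⟨t, ht, rfl⟩ := arcs0_ang hs (mem_sphere_iff_norm.2 hz') ((a + b) / 2 - π)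
    rw [arcs0_inner, ← Real.cos_abs] at h1
    have h2 : 3 * π / 4 ≤ |t - (a + b) / 2| := by
      by_contra h3
      rw [not_le, abs_lt] at h3
      exact hab.2.2 t ⟨by linarith [h3.1], by linarith [h3.2]⟩ hz
    have h3 : |t - (a + b) / 2| ≤ π := abs_le.2 ⟨by linarith [ht.1], by linarith [ht.2]⟩
    have h4 := Real.cos_le_cos_of_nonneg_of_le_pi (by positivity) h3 h2
    rw [show 3 * π / 4 = π - π / 4 by ring, Real.cos_pi_sub, Real.cos_pi_div_four] at h4
    have h5 : (7 / 5 : ℝ) < √2 := Real.lt_sqrt_of_sq_lt (by norm_num)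
    nlinarith

theorem gap_lt (hs : 0 < s) (hp : p ∈ K ∩ sphere x s) (hq : q ∈ K ∩ sphere x s) (hpq : p ≠ q) :
    ∃ Θ < 2 * π, MaxGap K x s Θ := by
  have hπ := Real.two_pi_pos
  obtain ⟨α, -, rfl⟩ := arcs0_ang hs hp.2 0
  obtain ⟨β, hβ, rfl⟩ := arcs0_ang hs hq.2 α
  have hαβ : α < β := hβ.1.lt_of_ne fun h => hpq (by rw [h])
  refine ⟨max (β - α) (2 * π - (β - α)), max_lt (by linarith [hβ.2]) (by linarith),
    fun a b hab => ?_⟩
  obtain ⟨m, hm, -⟩ := existsUnique_add_zsmul_mem_Ioc hπ α (a - 2 * π)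
  have hper := (periodic_circleMap x s).zsmul m
  have h1 : b ≤ α + m • (2 * π) + 2 * π := by
    by_contra hc
    refine hab.2.2 _ ⟨by linarith [hm.1], not_le.1 hc⟩ ?_
    rw [periodic_circleMap x s, hper]
    exact hp.1
  rcases le_or_gt (β + m • (2 * π)) a with h2 | h2
  · exact le_max_of_le_right (by linarith)
  · have h3 : b ≤ β + m • (2 * π) := by
      by_contra hc
      refine hab.2.2 _ ⟨h2, not_le.1 hc⟩ ?_
      rw [hper]
      exact hq.1
    exact le_max_of_le_left (by linarith [hm.2])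

theorem sphere_diff_preconn (hT : T.Subsingleton) (x : ℂ) (s : ℝ) :
    IsPreconnected (sphere x s \ T) := by
  rcases le_or_gt s 0 with hs | hs
  · refine Subsingleton.isPreconnected fun p hp q hq => ?_
    have h1 : dist p x = 0 := le_antisymm (hp.1.trans_le hs) dist_nonneg
    have h2 : dist q x = 0 := le_antisymm (hq.1.trans_le hs) dist_nonneg
    rw [dist_eq_zero.1 h1, dist_eq_zero.1 h2]
  by_cases h : ∃ p ∈ T, p ∈ sphere x s
  · obtain ⟨p, hp, hp'⟩ := h
    obtain ⟨α, -, rfl⟩ := arcs0_ang hs hp' 0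
    have h1 : sphere x s \ T = circleMap x s '' Ioo α (α + 2 * π) := by
      ext z
      constructor
      · rintro ⟨hz, hz'⟩
        obtain ⟨t, ht, rfl⟩ := arcs0_ang hs hz α
        exact ⟨t, ⟨ht.1.lt_of_ne fun h => hz' (h ▸ hp), ht.2⟩, rfl⟩
      · rintro ⟨t, ht, rfl⟩
        refine ⟨circleMap_mem_sphere x hs.le t, fun h => ht.1.ne' ?_⟩
        exact arcs0_inj hs (by linarith [ht.2]) (by linarith [ht.1, Real.two_pi_pos]) (hT h hp)
    rw [h1]
    exact isPreconnected_Ioo.image _ (continuous_circleMap x s).continuousOn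
  · have h1 : sphere x s \ T = range (circleMap x s) := by
      rw [range_circleMap, abs_of_pos hs]
      exact sdiff_eq_left.2 (disjoint_left.2 fun z hz hz' => h ⟨z, hz', hz⟩)
    rw [h1]
    exact isPreconnected_range (continuous_circleMap x s)

theorem freeArc_one (hs : 0 < s) (h : K ∩ sphere x s ⊆ {circleMap x s a}) :
    FreeArc K x s a (a + 2 * π) := by
  refine ⟨by linarith [Real.two_pi_pos], le_rfl, fun t ht htK => ht.1.ne' ?_⟩
  exact arcs0_inj hs (by linarith [ht.2]) (by linarith [ht.1, Real.two_pi_pos])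
    (h ⟨htK, circleMap_mem_sphere x hs.le t⟩)

end Vale.Agent.P128
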