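import Vale.Agent.P128.BlowB

/-!
# P128 Blow

Each remaining property of `Bl` by contradiction along a sequence of radii
(`Filter.exists_seq_forall_of_frequently` or `tendsto_of_subseq_tendsto`), `blowB`, `star_len`,
`near_scale`, `sc_star`. For the last one pass to a subsequence with the rescaled points `y_j → y₀` on the unit
circle, `y₀` in the star (`HC.mem`), `ball y_j κ ⊆ ball y₀ (1.02 κ)`, `star_len_at`.
-/

namespace Vale.Agent.P128

open Set Metric MeasureTheory Filter Topology Complex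
open scoped ENNReal ContDiff RealInnerProductSpace Gradient Real ComplexConjugate

variable {Ω K L A S T U O X Γ P M₀ K₀ K₁ : Set ℂ} {u v w g hh ψ η : ℂ → ℝ} {G : ℂ → ℂ}
  {π₀ π₁ : ℂ → Set ℂ} {x y z c p q e a₀ F : ℂ} {lam H r s R a b t M Θ ρ ε δ d : ℝ} {n : ℕ}

theorem blow_ev {P : ℝ → Prop}
    (H : ∀ r : ℕ → ℝ, (∀ j, 0 < r j) → Tendsto r atTop (𝓝 0) → ∃ j, P (r j)) :
    ∀ᶠ r in 𝓝[>] (0 : ℝ), P r := by
  by_contra c
  obtain ⟨r, hr, h⟩ := exists_seq_forall_of_frequently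
    ((not_eventually.1 c).and_eventually self_mem_nhdsWithin)
  obtain ⟨j, hj⟩ := H r (fun j => (h j).2) (hr.mono_right nhdsWithin_le_nhds)
  exact (h j).1 hj

theorem blow (h : MM Ω lam u K π₀) (hx : x ∈ K) (hΩ : x ∈ Ω) : ∃ n, Bl u K x n := by
  obtain ⟨n, hn, hD, H⟩ := blowB h hx hΩ
  have n3 : n ≤ 3 := by omega
  refine ⟨n, hn, hD, Metric.tendsto_nhds.2 fun ε hε => blow_ev fun r h0 hr => ?_,
    fun η hη => blow_ev fun r h0 hr => ?_, fun κ k0 k1 => blow_ev fun r h0 hr => ?_⟩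
  · obtain ⟨φ, -, u₀, e, he, hC, -⟩ := H r h0 hr
    obtain ⟨j, h1, h2⟩ := (hC.2.2 0 1 (ε / 2) (half_pos hε)).exists
    obtain ⟨e1, e2⟩ := star_len he n3 0 zero_le_one
    rw [e1, blowb_Lr (h0 _), mul_zero, add_zero, mul_one, mul_one] at h1
    rw [e2, blowb_Lr (h0 _), mul_zero, add_zero, mul_one, mul_one] at h2
    exact ⟨φ j, by rw [Real.dist_eq, abs_lt]; constructor <;> linarith⟩
  · obtain ⟨φ, -, u₀, e, he, hC, -⟩ := H r h0 hr
    obtain ⟨j, h1, h2⟩ := (hC.1 (2 * 1) (η * 1) (by positivity)).exists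
    refine ⟨φ j, e, he, (near_scale (h0 _) x K _ η).1 ?_⟩
    have e1 := sc_star (h0 (φ j)) n x 0 e
    rw [mul_zero, add_zero] at e1
    rw [e1]
    exact ⟨h2, h1⟩
  by_contra! c
  choose y hy hyr hc using c
  have r0 : ∀ j, (r j : ℂ) ≠ 0 := fun j => by exact_mod_cast (h0 j).ne'
  have ey : ∀ j, x + r j * ((y j - x) / r j) = y j := fun j => by
    rw [mul_div_cancel₀ _ (r0 j), add_sub_cancel]
  obtain ⟨z, hz, ψ, hψ, hl⟩ := (isCompact_sphere (0 : ℂ) 1).tendsto_subseq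
    (x := fun j => (y j - x) / r j) fun j => by
      rw [mem_sphere_zero_iff_norm, norm_div, hyr, blowb_norm (h0 j), div_self (h0 j).ne']
  rw [mem_sphere_zero_iff_norm] at hz
  have hr' := hr.comp hψ.tendsto_atTop
  obtain ⟨φ, hφ, u₀, e, he, hC, hb⟩ := H (fun j => r (ψ j)) (fun j => h0 _) hr'
  have hl' := hl.comp hφ.tendsto_atTop
  have hzK := hC.1.mem (star_closed n 0 e) (Eventually.of_forall fun j => by
    simpa only [sc, Function.comp, mem_preimage, ey] using hy (ψ (φ j))) hl'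
  obtain ⟨δ, hδ, hΩ'⟩ := nhds_basis_closedBall.mem_iff.1 (h.pre.1.mem_nhds hΩ)
  have a1 := (hC.2.1 z (51 / 50 * κ)).eventually_lt_const
    ((hb z hz _ (by positivity) (by linarith)).trans_lt (show _ < 2 * κ ^ 2 by nlinarith))
  have a2 := hC.2.2 z (51 / 50 * κ) (3 / 50 * κ) (by positivity)
  have a3 := Metric.tendsto_nhds.1 hl' (κ / 50) (by positivity)
  have a4 := (hr'.comp hφ.tendsto_atTop).eventually_lt_const (half_pos hδ)
  obtain ⟨j, ⟨⟨b1, -, b2⟩, b3⟩, b4⟩ := (((a1.and a2).and a3).and a4).exists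
  rw [(star_len_at he n3 hzK (by positivity) (by rw [sub_zero, hz]; linarith)).2] at b2
  simp only [Function.comp] at b3 b4
  have b5 := hc (ψ (φ j))
  have b6 := ey (ψ (φ j))
  have b0 := h0 (ψ (φ j))
  rw [blowb_Dr b0, div_lt_iff₀ b0] at b1
  rw [blowb_Lr b0, div_le_iff₀ b0] at b2
  generalize (y (ψ (φ j)) - x) / r (ψ (φ j)) = w at b3 b6
  generalize y (ψ (φ j)) = v at b5 b6
  generalize r (ψ (φ j)) = t at b0 b1 b2 b4 b5 b6
  have s1 : ball v (κ * t) ⊆ ball (x + t * z) (t * (51 / 50 * κ)) := by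
    refine ball_subset_ball' ?_
    rw [← b6, dist_add_left, dist_eq_norm, ← mul_sub, norm_mul, blowb_norm b0, ← dist_eq_norm]
    nlinarith
  have s2 : closedBall (x + t * z) (t * (51 / 50 * κ)) ⊆ Ω := by
    refine (closedBall_subset_closedBall' ?_).trans hΩ'
    rw [dist_eq_norm, add_sub_cancel_left, norm_mul, blowb_norm b0, hz]
    nlinarith
  have s3 := h.pre.Dr_mono s2 (s1.trans ball_subset_closedBall)
  have s4 := Lr_mono (h.pre.2.2.2 _ _ s2).2 s1
  linarith [b5 (by linarith)]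

end Vale.Agent.P128
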