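import Vale.Agent.P128.NearM

/-!
# P128 BlowA

Existence of the densities. `lim_of_almost_mono`: a bounded function with
`f a ≤ f b + o(1)` for `a ≤ b → 0` converges (`limsup ≤ liminf`). Use `mono`, and `lmono` with
`∫_a^b Dr/s² ≤ 3 C ε` from `quiet_small`, `qdecay`.
-/

namespace Vale.Agent.P128

open Set Metric MeasureTheory Filter Topology Complex
open scoped ENNReal ContDiff RealInnerProductSpace Gradient Real ComplexConjugate

variable {Ω K L A S T U O X Γ P M₀ K₀ K₁ : Set ℂ} {u v w g hh ψ η : ℂ → ℝ} {G : ℂ → ℂ}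
  {π₀ π₁ : ℂ → Set ℂ} {x y z c p q e a₀ F : ℂ} {lam H r s R a b t M Θ ρ ε δ d : ℝ} {n : ℕ}

theorem lim_of_almost_mono {f : ℝ → ℝ} (h0 : ∀ r, 0 < r → 0 ≤ f r)
    (h : ∀ ε, 0 < ε → ∀ᶠ b in 𝓝[>] (0 : ℝ), ∀ a, 0 < a → a ≤ b → f a ≤ f b + ε) :
    ∃ l, Tendsto f (𝓝[>] 0) (𝓝 l) := by
  have hb : IsBoundedUnder (· ≥ ·) (𝓝[>] (0 : ℝ)) f :=
    ⟨0, eventually_map.2 (eventually_nhdsWithin_of_forall fun r hr => h0 r hr)⟩
  have up : ∀ {b c : ℝ}, 0 < b → (∀ a, 0 < a → a ≤ b → f a ≤ c) → ∀ᶠ a in 𝓝[>] (0 : ℝ), f a ≤ c :=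
    fun hb0 hc => by
      filter_upwards [Ioc_mem_nhdsGT hb0] with a ha using hc a ha.1 ha.2
  obtain ⟨b₁, h1, h2⟩ := ((h 1 one_pos).and self_mem_nhdsWithin).exists
  have hc : IsCoboundedUnder (· ≥ ·) (𝓝[>] (0 : ℝ)) f :=
    IsBoundedUnder.isCoboundedUnder_ge ⟨_, eventually_map.2 (up h2 h1)⟩
  refine ⟨liminf f (𝓝[>] 0), Metric.tendsto_nhds.2 fun ε hε => ?_⟩
  obtain ⟨b, k1, k2, k3⟩ := ((frequently_lt_of_liminf_lt hc
    (lt_add_of_pos_right _ (half_pos hε))).and_eventually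
      ((h _ (half_pos (half_pos hε))).and self_mem_nhdsWithin)).exists
  filter_upwards [up k3 k2, eventually_lt_of_lt_liminf (sub_lt_self _ hε) hb] with a a1 a2
  rw [Real.dist_eq, abs_lt]
  constructor <;> linarith

theorem blowA (h : MM Ω lam u K π₀) (hx : x ∈ K) (hΩ : x ∈ Ω) :
    ∃ d : ℝ, 0 ≤ d ∧ Tendsto (fun r => Dr u K x r / r) (𝓝[>] 0) (𝓝 d) ∧
      (d = 0 → ∃ l, Tendsto (fun r => Lr K x r / r) (𝓝[>] 0) (𝓝 l)) := by
  have hl : ∀ {c ε : ℝ}, 0 < ε → ∀ᶠ b in 𝓝[>] (0 : ℝ), c * b ≤ ε := fun {c ε} hε => by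
    have : Tendsto (fun b : ℝ => c * b) (𝓝[>] 0) (𝓝 (c * 0)) :=
      ((continuous_const.mul continuous_id).tendsto 0).mono_left nhdsWithin_le_nhds
    rw [mul_zero] at this
    exact this.eventually_le_const hε
  obtain ⟨ε₁, C₁, hε₁, -, -, H₁⟩ := mono
  obtain ⟨d, hd⟩ := lim_of_almost_mono (f := fun r => Dr u K x r / r)
    (fun r hr => div_nonneg (Dr_nonneg _ _ _ _) hr.le) fun ε hε => by
      filter_upwards [adm_small h.pre.1 hΩ lam hε₁, hl (c := C₁ * lam) hε] with b hb hb' a ha hab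
      linarith [H₁ h hb a b ha hab le_rfl]
  refine ⟨d, ge_of_tendsto hd (eventually_nhdsWithin_of_forall fun r hr =>
    div_nonneg (Dr_nonneg _ _ _ _) (le_of_lt hr)), hd, fun h0 => ?_⟩
  subst h0
  obtain ⟨ε₀, C, hε₀, hε1, hC, H⟩ := qdecay
  obtain ⟨l, hl'⟩ := lim_of_almost_mono (f := fun r => (Lr K x r + 2 * Dr u K x r) / r)
    (fun r hr => div_nonneg (add_nonneg (Lr_nonneg _ _ _)
      (mul_nonneg zero_le_two (Dr_nonneg _ _ _ _))) hr.le) fun ε hε => by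
      have e0 : 0 < min ε₀ (ε / (6 * C)) := lt_min hε₀ (by positivity)
      filter_upwards [quiet_small h.pre.1 hΩ lam e0 hd, hl (c := lam) (half_pos hε)]
        with b hb hb' a ha hab
      have b0 : 0 < b := hb.1.1
      have hsub : closedBall x b ⊆ Ω := (closedBall_subset_closedBall
        (le_div_self b0.le e0 ((min_le_left _ _).trans hε1))).trans hb.1.2.1
      obtain ⟨i1, i2⟩ := lmono h hsub ha hab
      set ε' := min ε₀ (ε / (6 * C)) with hε'
      have i3 : IntervalIntegrable (fun s : ℝ => C * ε' / b ^ (1 / 3 : ℝ) * s ^ (-2 / 3 : ℝ))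
          volume a b := (intervalIntegral.intervalIntegrable_rpow' (by norm_num)).const_mul _
      have i4 : ∫ s in a..b, Dr u K x s / s ^ 2 ≤
          ∫ s in a..b, C * ε' / b ^ (1 / 3 : ℝ) * s ^ (-2 / 3 : ℝ) := by
        refine intervalIntegral.integral_mono_on hab i1 i3 fun s hs => ?_
        have s0 : 0 < s := ha.trans_le hs.1
        rw [div_le_iff₀ (by positivity)]
        refine (H e0 (min_le_left _ _) h hx hb s s0 hs.2).trans (le_of_eq ?_)
        have : s ^ (1 / 3 : ℝ) = s ^ (-2 / 3 : ℝ) * s := by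
          rw [← Real.rpow_add_one s0.ne']
          norm_num
        rw [Real.div_rpow s0.le b0.le, this]
        ring
      rw [intervalIntegral.integral_const_mul, integral_rpow (Or.inl (by norm_num))] at i4
      have p1 : 0 < b ^ (1 / 3 : ℝ) := Real.rpow_pos_of_pos b0 _
      have p2 : 0 ≤ a ^ (1 / 3 : ℝ) := Real.rpow_nonneg ha.le _
      have p3 : (-2 / 3 : ℝ) + 1 = 1 / 3 := by norm_num
      rw [p3] at i4
      have p4 : C * ε' / b ^ (1 / 3 : ℝ) * ((b ^ (1 / 3 : ℝ) - a ^ (1 / 3 : ℝ)) / (1 / 3)) ≤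
          C * ε' / b ^ (1 / 3 : ℝ) * (b ^ (1 / 3 : ℝ) / (1 / 3)) := by
        gcongr
        linarith
      have p5 : C * ε' / b ^ (1 / 3 : ℝ) * (b ^ (1 / 3 : ℝ) / (1 / 3)) = 3 * (C * ε') := by
        field_simp
      have p6 : C * ε' ≤ ε / 6 := by
        have := mul_le_mul_of_nonneg_left (min_le_right ε₀ (ε / (6 * C))) hC.le
        refine this.trans (le_of_eq ?_)
        field_simp
      linarith
  refine ⟨l, ?_⟩
  have := hl'.sub (hd.const_mul 2)
  rw [mul_zero, sub_zero] at this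
  refine this.congr fun r => ?_
  ring

end Vale.Agent.P128
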