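import Vale.Agent.P128.Glue0
import Vale.Agent.P128.Basic

/-!
# P128 Glue

Gluing inner data to `(u, K)`. Competitor: crack `L ∪ (K \ ball x s)`, function and labels equal
to the inner data on the closed ball and to `u`, `π₀` outside (`lip_glue`, `lc_glue`). On the open ball
the gradient is that of `w`; spheres are Lebesgue null; the new crack meets the closed ball in `L`.
`ub`: take `L = sphere`, `w = 0`, constant labels.
-/

namespace Vale.Agent.P128

open Set Metric MeasureTheory Filter Topology Complex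
open scoped ENNReal ContDiff RealInnerProductSpace Gradient Real ComplexConjugate

variable {Ω K L A S T U O X Γ P M₀ K₀ K₁ : Set ℂ} {u v w g hh ψ η : ℂ → ℝ} {G : ℂ → ℂ}
  {π₀ π₁ : ℂ → Set ℂ} {x y z c p q e a₀ F : ℂ} {lam H r s R a b t M Θ ρ ε δ d : ℝ} {n : ℕ}

theorem glue (h : MM Ω lam u K π₀) (hs : 0 < s) (hb : closedBall x s ⊆ Ω) (hL : IsClosed L)
    (hLs : L ⊆ closedBall x s) (hK : K ∩ sphere x s ⊆ L)
    (hw : LocallyLipschitzOn (closedBall x s \ L) w) (hπ : LC (closedBall x s \ L) π₁)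
    (he : ∀ z ∈ sphere x s \ L, w z = u z ∧ π₁ z = π₀ z) :
    En u K (closedBall x s) ≤ Dn w L (ball x s) + μH[1] L + ENNReal.ofReal (lam * s ^ 2) := by
  classical
  have hp := h.pre
  have hL' : IsClosed (L ∪ (K \ ball x s)) := hL.union (hp.2.1.sdiff isOpen_ball)
  have hin : (Ω \ (L ∪ (K \ ball x s))) ∩ closedBall x s ⊆ closedBall x s \ L :=
    fun z hz => ⟨hz.2, fun hzL => hz.1.2 (Or.inl hzL)⟩
  have hout : (Ω \ (L ∪ (K \ ball x s))) \ ball x s ⊆ Ω \ K :=
    fun z hz => ⟨hz.1.1, fun hzK => hz.1.2 (Or.inr ⟨hzK, hz.2⟩)⟩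
  have hsp : ∀ z ∈ (Ω \ (L ∪ (K \ ball x s))) \ ball x s, z ∈ closedBall x s →
      z ∈ sphere x s \ L := fun z hz hc =>
    ⟨le_antisymm hc (not_lt.1 hz.2), fun hzL => hz.1.2 (Or.inl hzL)⟩
  have hc : Comp Ω u K π₀ x s ((closedBall x s).piecewise w u) (L ∪ (K \ ball x s))
      ((closedBall x s).piecewise π₁ π₀) := by
    refine ⟨hL', lip_glue (x := x) (s := s) (hp.1.sdiff hL') ?_ ?_,
      lc_glue (x := x) (s := s) ?_ ?_, fun z hz => ?_, fun z _ hz => ?_⟩
    · exact lip_congr (hw.mono hin) fun z hz => piecewise_eq_of_mem _ _ _ hz.2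
    · refine lip_congr (hp.lip.mono hout) fun z hz => ?_
      by_cases hc : z ∈ closedBall x s
      · rw [piecewise_eq_of_mem _ _ _ hc, (he z (hsp z hz hc)).1]
      · exact piecewise_eq_of_notMem _ _ _ hc
    · exact (hπ.mono hin).congr fun z hz => piecewise_eq_of_mem _ _ _ hz.2
    · refine (h.2.1.mono hout).congr fun z hz => ?_
      by_cases hc : z ∈ closedBall x s
      · rw [piecewise_eq_of_mem _ _ _ hc, (he z (hsp z hz hc)).2]
      · exact piecewise_eq_of_notMem _ _ _ hc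
    · refine ⟨fun hz' => hz'.elim (fun hzL => (hz (hLs hzL)).elim) fun h' => h'.1,
        fun hzK => Or.inr ⟨hzK, fun hb' => hz (ball_subset_closedBall hb')⟩⟩
    · exact ⟨piecewise_eq_of_notMem _ _ _ hz, piecewise_eq_of_notMem _ _ _ hz⟩
  refine (h.2.2.2 x s _ _ _ hs hb hc).trans (add_le_add ?_ le_rfl)
  refine add_le_add (le_of_eq ?_) (measure_mono ?_)
  · rw [Dn_closedBall]
    refine setLIntegral_congr_fun measurableSet_ball fun z hz => ?_
    have e : gK (L ∪ (K \ ball x s)) ((closedBall x s).piecewise w u) z = gK L w z := by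
      by_cases hzL : z ∈ L
      · rw [gK_of_mem _ (Or.inl hzL : z ∈ L ∪ (K \ ball x s)), gK_of_mem _ hzL]
      · rw [gK_of_notMem _ (fun h' : z ∈ L ∪ (K \ ball x s) => h'.elim hzL fun h' => h'.2 hz),
          gK_of_notMem _ hzL]
        refine Filter.EventuallyEq.gradient_eq ?_
        filter_upwards [isOpen_ball.mem_nhds hz] with y hy
        exact piecewise_eq_of_mem _ _ _ (ball_subset_closedBall hy)
    simp only [e]
  · rintro z ⟨hz | hz, hc⟩
    · exact hz
    · exact hK ⟨hz.1, le_antisymm hc (not_lt.1 hz.2)⟩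

/-- Real form of `glue`. -/
theorem glueR (h : MM Ω lam u K π₀) (hs : 0 < s) (hb : closedBall x s ⊆ Ω) (hL : IsClosed L)
    (hLs : L ⊆ closedBall x s) (hK : K ∩ sphere x s ⊆ L)
    (hw : LocallyLipschitzOn (closedBall x s \ L) w) (hπ : LC (closedBall x s \ L) π₁)
    (he : ∀ z ∈ sphere x s \ L, w z = u z ∧ π₁ z = π₀ z) (ha : 0 ≤ a) (hb0 : 0 ≤ b)
    (hD : Dn w L (ball x s) ≤ ENNReal.ofReal a) (hl : μH[1] L ≤ ENNReal.ofReal b) :
    Dr u K x s + Lc K x s ≤ a + b + lam * s ^ 2 := by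
  have h0 : 0 ≤ lam * s ^ 2 := mul_nonneg h.1.1 (sq_nonneg s)
  have h1 := (glue h hs hb hL hLs hK hw hπ he).trans (add_le_add (add_le_add hD hl) le_rfl)
  rw [h.pre.En_eq hb, ← ENNReal.ofReal_add ha hb0, ← ENNReal.ofReal_add (add_nonneg ha hb0) h0]
    at h1
  exact (ENNReal.ofReal_le_ofReal_iff (add_nonneg (add_nonneg ha hb0) h0)).1 h1

theorem ub (h : MM Ω lam u K π₀) (hr : 0 < r) (hb : closedBall x r ⊆ Ω) :
    Dr u K x r + Lc K x r ≤ 2 * π * r + lam * r ^ 2 := by
  have hD : Dn (fun _ => 0) (sphere x r) (ball x r) ≤ ENNReal.ofReal 0 := by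
    have e : ∀ z, gK (sphere x r) (fun _ => (0 : ℝ)) z = 0 := fun z => by
      by_cases hz : z ∈ sphere x r
      · exact gK_of_mem _ hz
      · rw [gK_of_notMem _ hz]
        exact gradient_fun_const _ _
    simp [Dn, e]
  have h1 := glueR (w := fun _ => 0) (π₁ := fun _ => ∅) h hr hb isClosed_sphere
    sphere_subset_closedBall inter_subset_right
    (LC.lip fun _ _ => Eventually.of_forall fun _ => rfl)
    (fun _ _ => Eventually.of_forall fun _ => rfl) (fun z hz => (hz.2 hz.1).elim) le_rfl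
    (by positivity) hD (sphere_len x r)
  rwa [zero_add] at h1

theorem ub8 (h : MM Ω lam u K π₀) (hr : 0 < r) (hb : closedBall x r ⊆ Ω) (hl : lam * r ≤ 1) :
    Dr u K x r + Lr K x r ≤ 8 * r := by
  have h1 := ub h hr hb
  have h2 := Lr_le_Lc (h.pre.2.2.2 x r hb).2
  have h3 := Real.pi_lt_d2
  nlinarith

end Vale.Agent.P128
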