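import Vale.Agent.P128.Gr0

/-!
# P128 Gr

One variable lemmas. `gr`: put `G t = F a + ∫ a..t f ≤ F t`; then `β G ≤ s f + h` a.e.; integrate
by parts (Fubini, or `AbsolutelyContinuousOnInterval` integration by parts):
`G b / b^β - G a / a^β = ∫ (s f - β G) / s^(β+1) ≥ -∫ h / s^(β+1)`.
`dual`: approximate `Y` in `L¹` by a continuous `Y₁`, take `ψ = cutoff * Y₁ / (|Y₁| + τ)`.
`dyad`: sum over the intervals `[b / 2^(k+1), b / 2^k]`.
-/

namespace Vale.Agent.P128

open Set Metric MeasureTheory Filter Topology Complex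
open scoped ENNReal ContDiff RealInnerProductSpace Gradient Real ComplexConjugate

variable {Ω K L A S T U O X Γ P M₀ K₀ K₁ : Set ℂ} {u v w g hh ψ η : ℂ → ℝ} {G : ℂ → ℂ}
  {π₀ π₁ : ℂ → Set ℂ} {x y z c p q e a₀ F : ℂ} {lam H r s R a b t M Θ ρ ε δ d : ℝ} {n : ℕ}

theorem gr {F f h : ℝ → ℝ} {β : ℝ} (ha : 0 < a) (hab : a ≤ b) (hβ : 0 < β)
    (hf : IntervalIntegrable f volume a b) (hh : IntervalIntegrable h volume a b)
    (hF : ∀ t ∈ Icc a b, F a + ∫ s in a..t, f s ≤ F t)
    (hd : ∀ᵐ s : ℝ, s ∈ Ioo a b → β * F s ≤ s * f s + h s) :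
    F a / a ^ β ≤ F b / b ^ β + ∫ s in a..b, h s / s ^ (β + 1) := by
  have hu : uIcc a b = Icc a b := uIcc_of_le hab
  have hpos : ∀ s ∈ uIcc a b, 0 < s := fun s hs => by
    rw [hu] at hs; exact lt_of_lt_of_le ha hs.1
  let g : ℝ → ℝ := fun t => F a + ∫ s in a..t, f s
  let k : ℝ → ℝ := fun t => t ^ (-β)
  have hc : AbsolutelyContinuousOnInterval (fun _ : ℝ => F a) a b :=
    (contDiffOn_const (n := 1)).absolutelyContinuousOnInterval
  have hg : AbsolutelyContinuousOnInterval g a b :=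
    hc.add (hf.absolutelyContinuousOnInterval_intervalIntegral (c := a) (by simp))
  have hkc : ContDiffOn ℝ 1 k (uIcc a b) := fun s hs =>
    (Real.contDiffAt_rpow_const_of_ne (hpos s hs).ne').contDiffWithinAt
  have hk : AbsolutelyContinuousOnInterval k a b := hkc.absolutelyContinuousOnInterval
  have h1 := hg.integral_deriv_mul_eq_sub hk
  have hint1 : IntervalIntegrable (fun x => deriv g x * k x + g x * deriv k x) volume a b :=
    (hg.intervalIntegrable_deriv.mul_continuousOn hk.continuousOn).add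
      (hk.intervalIntegrable_deriv.continuousOn_mul hg.continuousOn)
  have hc2 : ContinuousOn (fun s : ℝ => (s ^ (β + 1))⁻¹) (uIcc a b) := by
    refine ContinuousOn.inv₀ (fun s hs => ?_) (fun s hs => (Real.rpow_pos_of_pos (hpos s hs) _).ne')
    exact (Real.continuousAt_rpow_const _ _ (Or.inl (hpos s hs).ne')).continuousWithinAt
  have hint2 : IntervalIntegrable (fun s => h s / s ^ (β + 1)) volume a b := by
    simpa only [div_eq_mul_inv] using hh.mul_continuousOn hc2
  have h2 : ∫ s in a..b, -(h s / s ^ (β + 1)) ≤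
      ∫ x in a..b, deriv g x * k x + g x * deriv k x := by
    refine intervalIntegral.integral_mono_ae_restrict hab hint2.neg hint1 ?_
    rw [EventuallyLE, ae_restrict_iff' measurableSet_Icc]
    have ha' : ∀ᵐ x : ℝ, x ≠ a := by simp [ae_iff, measure_singleton]
    have hb' : ∀ᵐ x : ℝ, x ≠ b := by simp [ae_iff, measure_singleton]
    filter_upwards [hd, hf.ae_hasDerivAt_integral, ha', hb'] with x h3 h4 h5 h6 hx
    have hx0 : 0 < x := lt_of_lt_of_le ha hx.1
    have hxo : x ∈ Ioo a b := ⟨lt_of_le_of_ne hx.1 (Ne.symm h5), lt_of_le_of_ne hx.2 h6⟩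
    have h7 := h3 hxo
    have h8 : HasDerivAt g (f x) x := (h4 (by rw [hu]; exact hx) a (by simp)).const_add (F a)
    have h9 : HasDerivAt k (-β * x ^ (-β - 1)) x := Real.hasDerivAt_rpow_const (Or.inl hx0.ne')
    have h10 : g x ≤ F x := hF x hx
    rw [h8.deriv, h9.deriv]
    have e1 : k x = x * (x ^ (β + 1))⁻¹ := by
      simp only [k]
      rw [Real.rpow_neg hx0.le, Real.rpow_add hx0, Real.rpow_one]
      have := (Real.rpow_pos_of_pos hx0 β).ne'
      field_simp
    have e2 : x ^ (-β - 1) = (x ^ (β + 1))⁻¹ := by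
      rw [← Real.rpow_neg hx0.le]; congr 1; ring
    rw [e1, e2, div_eq_mul_inv]
    have hp : 0 < (x ^ (β + 1))⁻¹ := inv_pos.2 (Real.rpow_pos_of_pos hx0 _)
    have h11 : β * g x ≤ β * F x := mul_le_mul_of_nonneg_left h10 hβ.le
    have h12 : 0 ≤ (x * f x + h x - β * g x) * (x ^ (β + 1))⁻¹ :=
      mul_nonneg (by linarith) hp.le
    nlinarith
  rw [h1, intervalIntegral.integral_neg] at h2
  have ga : g a = F a := by simp [g]
  have gb : g b ≤ F b := hF b ⟨hab, le_rfl⟩
  have hb0 : 0 < b := lt_of_lt_of_le ha hab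
  have ka : k a = (a ^ β)⁻¹ := Real.rpow_neg ha.le β
  have kb : k b = (b ^ β)⁻¹ := Real.rpow_neg hb0.le β
  rw [ga, ka, kb] at h2
  have hp : 0 < (b ^ β)⁻¹ := inv_pos.2 (Real.rpow_pos_of_pos hb0 _)
  have h13 : g b * (b ^ β)⁻¹ ≤ F b * (b ^ β)⁻¹ := mul_le_mul_of_nonneg_right gb hp.le
  rw [div_eq_mul_inv (F a), div_eq_mul_inv (F b)]
  linarith

end Vale.Agent.P128
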