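import Vale.Agent.P128.Len0
import Vale.Agent.P128.Basic

/-!
# P128 Len

Radial curves: differentiate `‖p s - x‖² = s²`.
-/

namespace Vale.Agent.P128

open Set Metric MeasureTheory Filter Topology Complex
open scoped ENNReal ContDiff RealInnerProductSpace Gradient Real ComplexConjugate

variable {Ω K L A S T U O X Γ P M₀ K₀ K₁ : Set ℂ} {u v w g hh ψ η : ℂ → ℝ} {G : ℂ → ℂ}
  {π₀ π₁ : ℂ → Set ℂ} {x y z c p q e a₀ F : ℂ} {lam H r s R a b t M Θ ρ ε δ d : ℝ} {n : ℕ}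

theorem Rad.pt {p p' : ℝ → ℂ} (h : Rad K x a b p p') (ha : 0 ≤ a) (hs : s ∈ Ioo a b) :
    p s ∈ K ∧ ‖p s - x‖ = s ∧ ⟪p' s, p s - x⟫ = s ∧ 1 ≤ ‖p' s‖ := by
  have hm : ∀ t ∈ Ioo a b, p t ∈ K ∧ ‖p t - x‖ = t := fun t ht => by
    have : p t ∈ K ∩ sphere x t := by
      rw [(h.2 t ht).1]
      rfl
    exact ⟨this.1, mem_sphere_iff_norm.1 this.2⟩
  have hs0 : 0 < s := ha.trans_lt hs.1
  have hd : HasDerivAt (fun t => p t - x) (p' s) s := (h.2 s hs).2.1.sub_const x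
  have h1 := hd.inner ℝ hd
  have h2 : HasDerivAt (fun t : ℝ => ⟪p t - x, p t - x⟫) (2 * s) s := by
    have h3 : HasDerivAt (fun t : ℝ => t ^ 2) (2 * s) s := by
      simpa using hasDerivAt_pow 2 s
    refine h3.congr_of_eventuallyEq ?_
    filter_upwards [isOpen_Ioo.mem_nhds hs] with t ht
    rw [real_inner_self_eq_norm_sq, (hm t ht).2]
  have h4 := h1.unique h2
  rw [real_inner_comm (p' s) (p s - x)] at h4
  have h5 : ⟪p' s, p s - x⟫ = s := by linarith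
  refine ⟨(hm s hs).1, (hm s hs).2, h5, ?_⟩
  have h6 := real_inner_le_norm (p' s) (p s - x)
  rw [h5, (hm s hs).2] at h6
  by_contra hlt
  push Not at hlt
  nlinarith

theorem Rad.image {p p' : ℝ → ℂ} (h : Rad K x a b p p') (ha : 0 ≤ a) :
    InjOn p (Ioo a b) ∧ K ∩ (ball x b \ closedBall x a) = p '' Ioo a b := by
  refine ⟨fun s hs t ht hst => ?_, Set.ext fun z => ⟨fun hz => ?_, ?_⟩⟩
  · rw [← (h.pt ha hs).2.1, ← (h.pt ha ht).2.1, hst]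
  · have h1 : ‖z - x‖ ∈ Ioo a b :=
      ⟨not_le.1 fun hle => hz.2.2 (mem_closedBall_iff_norm.2 hle), mem_ball_iff_norm.1 hz.2.1⟩
    have h2 : z ∈ K ∩ sphere x ‖z - x‖ := ⟨hz.1, mem_sphere_iff_norm.2 rfl⟩
    rw [(h.2 _ h1).1] at h2
    exact ⟨_, h1, h2.symm⟩
  · rintro ⟨s, hs, rfl⟩
    obtain ⟨h1, h2, -⟩ := h.pt ha hs
    refine ⟨h1, mem_ball_iff_norm.2 (h2.symm ▸ hs.2), fun hc => ?_⟩
    rw [mem_closedBall_iff_norm, h2] at hc
    exact absurd hs.1 (not_lt.2 hc)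

theorem Rad.mono {p p' : ℝ → ℂ} {a' b' : ℝ} (h : Rad K x a b p p') (ha : a ≤ a') (hb : b' ≤ b) :
    Rad K x a' b' p p' :=
  ⟨h.1.mono (Ioo_subset_Ioo ha hb), fun s hs => h.2 s (Ioo_subset_Ioo ha hb hs)⟩

end Vale.Agent.P128
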