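import Vale.Agent.P128.IVa
import Vale.Agent.P128.Len
import Vale.Agent.P128.Pol
import Vale.Agent.P128.Gr
import Vale.Agent.P128.Glue

/-!
# P128 IV

Inner variation. For continuous `k` with `|k| ≤ 1` vanishing off `(r, 2r)` put `φ s = -∫ s..2r k`. By
`polar_ann` the energy term is `-∫ k s ⟪e, conj (Zc s)⟫ ds` (pointwise
`‖G‖² ν - 2 ⟪ν, G⟫ G = -conj (conj G ^ 2 * ν)`, `un_ut_eq`). Length: `Φ` is a translation on `closedBall x r`,
the identity on `sphere x (2r)`, and maps the curve to `p s + t φ s e`, with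
`‖p' + t k e‖ ≤ ‖p'‖ + t k ⟪e, p'/‖p'‖⟫ + t²/2` (`len_le`, `len_ge`). Hence
`0 ≤ t ∫ k ⟪e, Yv⟫ + C t² r + 4 lam r²` for `|t| ≤ 1/2`; optimize `t = ± √(lam r)/2` (or `t → 0`), then
`dual` with `e = 1` and `e = I`.
-/

namespace Vale.Agent.P128

open Set Metric MeasureTheory Filter Topology Complex
open scoped ENNReal ContDiff RealInnerProductSpace Gradient Real ComplexConjugate

variable {Ω K L A S T U O X Γ P M₀ K₀ K₁ : Set ℂ} {u v w g hh ψ η : ℂ → ℝ} {G : ℂ → ℂ}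
  {π₀ π₁ : ℂ → Set ℂ} {x y z c p q e a₀ F : ℂ} {lam H r s R a b t M Θ ρ ε δ d : ℝ} {n : ℕ}

theorem iv_inner (a b : ℂ) : ⟪a, b⟫ = a.re * b.re + a.im * b.im := by
  rw [Complex.inner]
  simp only [mul_re, conj_re, conj_im]
  ring

theorem iv_pt (G ν e : ℂ) :
    ‖G‖ ^ 2 * ⟪e, ν⟫ - 2 * ⟪ν, G⟫ * ⟪e, G⟫ = -⟪e, G ^ 2 * conj ν⟫ := by
  rw [Complex.sq_norm, normSq_apply]
  simp only [iv_inner, sq, mul_re, mul_im, conj_re, conj_im]
  ring

/-- The stress density. -/
noncomputable def ivF (u : ℂ → ℝ) (K : Set ℂ) (x z : ℂ) : ℂ :=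
  gK K u z ^ 2 * conj ((z - x) / ‖z - x‖)

theorem iv_circ (hs : 0 < s) (x : ℂ) (θ : ℝ) : ‖circleMap x s θ - x‖ = s := by
  rw [circleMap_ex, add_sub_cancel_left, norm_mul, ex_norm, norm_real, Real.norm_of_nonneg hs.le,
    mul_one]

theorem iv_Zc (hs : 0 < s) :
    conj (Zc u K x s) = s • ∫ θ in (0 : ℝ)..2 * π, ivF u K x (circleMap x s θ) := by
  have hs' : (s : ℂ) ≠ 0 := ofReal_ne_zero.2 hs.ne'
  have h1 : ∀ θ : ℝ, conj (((un u K x s θ : ℂ) - I * ut u K x s θ) ^ 2 * conj (ex θ)) =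
      (s : ℂ) ^ 2 * ivF u K x (circleMap x s θ) := fun θ => by
    have h2 : (circleMap x s θ - x) / ‖circleMap x s θ - x‖ = ex θ := by
      rw [iv_circ hs, circleMap_ex, add_sub_cancel_left]
      field_simp
    have h3 : conj (ex θ) * ex θ = 1 := by
      rw [conj_mul', ex_norm]
      simp
    rw [un_ut_eq, ivF, h2]
    simp only [map_mul, map_pow, conj_conj, conj_ofReal]
    linear_combination (s : ℂ) ^ 2 * gK K u (circleMap x s θ) ^ 2 * conj (ex θ) * h3
  rw [Zc, map_mul, ← intervalIntegral.intervalIntegral_conj]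
  simp only [h1]
  rw [intervalIntegral.integral_const_mul, map_inv₀, conj_ofReal, real_smul]
  field_simp

theorem iv_meas (hK : IsClosed K) (u : ℂ → ℝ) (x : ℂ) : Measurable (ivF u K x) := by
  have h1 := meas_gK hK u
  have h2 : Measurable fun z : ℂ => (z - x) / (‖z - x‖ : ℂ) := by fun_prop
  exact (h1.pow_const 2).mul (continuous_conj.measurable.comp h2)

theorem iv_norm (u : ℂ → ℝ) (K : Set ℂ) (x z : ℂ) : ‖ivF u K x z‖ ≤ ‖gK K u z‖ ^ 2 := by
  rw [ivF, norm_mul, norm_pow, norm_conj, norm_div, norm_real, norm_norm]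
  exact mul_le_of_le_one_right (by positivity) (div_self_le_one _)

theorem iv_int (hK : IsClosed K) (hD : Dn u K S ≠ ⊤) (x : ℂ) : IntegrableOn (ivF u K x) S :=
  Integrable.mono' (intOn_of_Dn hK hD).1 (iv_meas hK u x).aestronglyMeasurable
    (Eventually.of_forall (iv_norm u K x))

theorem iv_Zint (hK : IsClosed K) (hr : 0 < r) (hD : Dn u K (ball x (2 * r)) ≠ ⊤) :
    IntervalIntegrable (fun s => conj (Zc u K x s)) volume r (2 * r) := by
  have h1 := (polar_ann (iv_int hK hD x) hr.le (by linarith : r ≤ 2 * r)).2.1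
  have h2 := h1.mono_set (c := r) (d := 2 * r) (by
    rw [uIcc_of_le (by linarith), uIcc_of_le (by linarith)]
    exact Icc_subset_Icc_left hr.le)
  refine h2.congr fun s hs => ?_
  rw [uIoc_of_le (by linarith)] at hs
  exact (iv_Zc (hr.trans hs.1)).symm

theorem iv_energy (hK : IsClosed K) (hr : 0 < r) (hD : Dn u K (ball x (2 * r)) ≠ ⊤) {k : ℝ → ℝ}
    (hk : Continuous k) (hk1 : ∀ s, |k s| ≤ 1) (hk0 : ∀ s ∉ Ioo r (2 * r), k s = 0) (e : ℂ) :
    ∫ z in ball x (2 * r), k ‖z - x‖ * (‖gK K u z‖ ^ 2 * ⟪e, (z - x) / ‖z - x‖⟫ -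
      2 * ⟪(z - x) / ‖z - x‖, gK K u z⟫ * ⟪e, gK K u z⟫) =
      -∫ s in r..2 * r, k s * ⟪e, conj (Zc u K x s)⟫ := by
  have hm : Measurable fun z : ℂ => k ‖z - x‖ := (hk.comp (by fun_prop)).measurable
  have hg : IntegrableOn (fun z => k ‖z - x‖ • ivF u K x z) (ball x (2 * r)) := by
    refine Integrable.mono' (intOn_of_Dn hK hD).1
      (hm.smul (iv_meas hK u x)).aestronglyMeasurable (Eventually.of_forall fun z => ?_)
    rw [norm_smul, Real.norm_eq_abs]
    exact (mul_le_of_le_one_left (norm_nonneg _) (hk1 _)).trans (iv_norm u K x z)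
  have h1 := (polar_ann hg hr.le (by linarith : r ≤ 2 * r)).2.2
  have h2 : ∫ z in ball x (2 * r), k ‖z - x‖ • ivF u K x z =
      ∫ z in ball x (2 * r) \ ball x r, k ‖z - x‖ • ivF u K x z := by
    refine setIntegral_eq_of_subset_of_forall_sdiff_eq_zero measurableSet_ball sdiff_subset
      fun z hz => ?_
    have h3 : z ∈ ball x r := by
      by_contra hc
      exact hz.2 ⟨hz.1, hc⟩
    rw [mem_ball, dist_eq_norm] at h3
    rw [hk0 _ fun h => lt_asymm h3 h.1, zero_smul]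
  have h4 : ∫ s in r..2 * r, s • ∫ θ in (0 : ℝ)..2 * π,
      k ‖circleMap x s θ - x‖ • ivF u K x (circleMap x s θ) =
      ∫ s in r..2 * r, k s • conj (Zc u K x s) := by
    refine intervalIntegral.integral_congr fun s hs => ?_
    rw [uIcc_of_le (by linarith)] at hs
    have hs0 : 0 < s := hr.trans_le hs.1
    simp only [iv_circ hs0]
    rw [intervalIntegral.integral_smul, iv_Zc hs0, smul_comm]
  have h5 : IntervalIntegrable (fun s => k s • conj (Zc u K x s)) volume r (2 * r) :=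
    (iv_Zint hK hr hD).continuousOn_smul hk.continuousOn
  have h6 := (innerSL ℝ e).intervalIntegral_comp_comm h5
  simp only [innerSL_apply_apply, real_inner_smul_right] at h6
  rw [h6, ← h4, ← h1, ← h2, ← integral_inner hg, ← integral_neg]
  refine integral_congr_ae (Eventually.of_forall fun z => ?_)
  simp only [iv_pt, real_inner_smul_right, ivF]
  ring

theorem iv_ii {E : Type} [NormedAddCommGroup E] {f : ℝ → E} (hab : a ≤ b)
    (hc : ContinuousOn f (Ioo a b)) (hb : ∀ s ∈ Ioo a b, ‖f s‖ ≤ M) :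
    IntervalIntegrable f volume a b := by
  rw [intervalIntegrable_iff_integrableOn_Ioo_of_le hab]
  refine IntegrableOn.of_bound measure_Ioo_lt_top (hc.aestronglyMeasurable measurableSet_Ioo) M ?_
  exact (ae_restrict_iff' measurableSet_Ioo).2 (Eventually.of_forall hb)

theorem iv_lint {f : ℝ → ℂ} (hab : a ≤ b) (hf : IntervalIntegrable f volume a b) :
    ∫⁻ s in Ioo a b, ‖f s‖ₑ = ENNReal.ofReal (∫ s in a..b, ‖f s‖) := by
  rw [intervalIntegral.integral_of_le hab, integral_Ioc_eq_integral_Ioo,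
    ofReal_integral_norm_eq_lintegral_enorm
      ((intervalIntegrable_iff_integrableOn_Ioo_of_le hab).1 hf)]

theorem iv_norm_le {v : ℂ} (hv : 1 ≤ ‖v‖) (he : ‖e‖ = 1) {κ : ℝ} (hκ : |κ| ≤ 1) (t : ℝ) :
    ‖v + (t * κ : ℝ) * e‖ ≤ ‖v‖ + t * (κ * ⟪e, v / ‖v‖⟫) + t ^ 2 / 2 := by
  have h0 : 0 < ‖v‖ := by linarith
  have h1 : ‖v + (t * κ : ℝ) * e‖ ^ 2 = ‖v‖ ^ 2 + 2 * (t * κ * ⟪e, v⟫) + (t * κ) ^ 2 := by
    rw [norm_add_sq_real, ← real_smul, real_inner_smul_right, norm_smul, he, real_inner_comm,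
      mul_one, Real.norm_eq_abs, sq_abs]
  have h2 : ⟪e, v⟫ = ‖v‖ * ⟪e, v / ‖v‖⟫ := by
    rw [← real_inner_smul_right, real_smul, mul_div_cancel₀ _ (ofReal_ne_zero.2 h0.ne')]
  have h3 : κ ^ 2 ≤ 1 := by
    rw [← sq_abs]
    exact pow_le_one₀ (abs_nonneg _) hκ
  have h4 : (t * κ) ^ 2 ≤ ‖v‖ * t ^ 2 := by
    rw [mul_pow]
    nlinarith [sq_nonneg t]
  rw [h2] at h1
  refine le_of_mul_le_mul_left ?_ h0
  nlinarith [sq_nonneg (‖v + (t * κ : ℝ) * e‖ - ‖v‖)]

theorem iv_unit {p p' : ℝ → ℂ} (hr : 0 < r) (hR : Rad K x r (2 * r) p p') :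
    IntervalIntegrable (fun s => p' s / (‖p' s‖ : ℂ)) volume r (2 * r) := by
  refine iv_ii (M := 1) (by linarith) ?_ fun s _ => ?_
  · refine hR.1.div (continuous_ofReal.comp_continuousOn hR.1.norm) fun s hs => ?_
    have h1 := (hR.pt hr.le hs).2.2.2
    exact ofReal_ne_zero.2 (by linarith)
  · rw [norm_div, norm_real, norm_norm]
    exact div_self_le_one _

theorem iv_ip {f : ℝ → ℂ} (hf : IntervalIntegrable f volume a b) {k : ℝ → ℝ} (hk : Continuous k)
    (e : ℂ) : IntervalIntegrable (fun s => k s * ⟪e, f s⟫) volume a b :=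
  IntervalIntegrable.continuousOn_mul
    ⟨(innerSL ℝ e).integrable_comp hf.1, (innerSL ℝ e).integrable_comp hf.2⟩ hk.continuousOn

theorem iv_len {p p' : ℝ → ℂ} (hK : IsClosed K) (hr : 0 < r)
    (hf : μH[1] (K ∩ closedBall x (2 * r)) ≠ ⊤) (hR : Rad K x r (2 * r) p p') {k φ : ℝ → ℝ}
    (hk : Continuous k) (hk1 : ∀ s, |k s| ≤ 1) (hφ : ∀ s, HasDerivAt φ (k s) s)
    (h2 : ∀ s ≤ r, φ s = φ r) (h3 : φ (2 * r) = 0) (he : ‖e‖ = 1) (t : ℝ) :
    (μH[1] (Phi x e φ t '' (K ∩ closedBall x (2 * r)))).toReal ≤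
      Lc K x (2 * r) + t * (∫ s in r..2 * r, k s * ⟪e, p' s / ‖p' s‖⟫) + t ^ 2 * r / 2 := by
  have hrr : r ≤ 2 * r := by linarith
  obtain ⟨hinj, him⟩ := hR.image hr.le
  have hsplit : K ∩ closedBall x (2 * r) =
      (K ∩ closedBall x r ∪ K ∩ sphere x (2 * r)) ∪ p '' Ioo r (2 * r) := by
    rw [← him]
    ext z
    simp only [mem_inter_iff, mem_union, mem_closedBall, mem_sphere, Set.mem_sdiff, mem_ball,
      not_le]
    constructor
    · rintro ⟨hz, h⟩
      rcases le_or_gt (dist z x) r with h' | h'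
      · exact Or.inl (Or.inl ⟨hz, h'⟩)
      · rcases h.eq_or_lt with h'' | h''
        · exact Or.inl (Or.inr ⟨hz, h''⟩)
        · exact Or.inr ⟨hz, h'', h'⟩
    · rintro ((⟨hz, h⟩ | ⟨hz, h⟩) | ⟨hz, h, -⟩)
      · exact ⟨hz, h.trans hrr⟩
      · exact ⟨hz, h.le⟩
      · exact ⟨hz, h.le⟩
  have hd1 : Disjoint (K ∩ closedBall x r) (K ∩ sphere x (2 * r)) := by
    rw [Set.disjoint_left]
    rintro z ⟨-, h⟩ ⟨-, h'⟩
    rw [mem_closedBall] at h
    rw [mem_sphere] at h'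
    linarith
  have hd2 : Disjoint (K ∩ closedBall x r ∪ K ∩ sphere x (2 * r)) (p '' Ioo r (2 * r)) := by
    rw [← him, Set.disjoint_left]
    rintro z (⟨-, h⟩ | ⟨-, h⟩) ⟨-, h', h''⟩
    · exact h'' h
    · rw [mem_sphere] at h
      rw [mem_ball] at h'
      linarith
  have hm2 : MeasurableSet (p '' Ioo r (2 * r)) := by
    rw [← him]
    exact hK.measurableSet.inter (measurableSet_ball.diff measurableSet_closedBall)
  have hm1 : MeasurableSet (K ∩ sphere x (2 * r)) := (hK.inter isClosed_sphere).measurableSet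
  obtain ⟨N, hN⟩ : ∃ N, N = μH[1] (K ∩ closedBall x r) + μH[1] (K ∩ sphere x (2 * r)) := ⟨_, rfl⟩
  have e1 : μH[1] (K ∩ closedBall x (2 * r)) = N + μH[1] (p '' Ioo r (2 * r)) := by
    rw [hsplit, measure_union hd2 hm2, measure_union hd1 hm1, hN]
  have hNf : N ≠ ⊤ := by
    rw [e1] at hf
    exact (ENNReal.add_ne_top.1 hf).1
  have hp' : IntervalIntegrable p' volume r (2 * r) :=
    iv_ii hrr hR.1 fun s hs => (hR.2 s hs).2.2
  have hc' : ContinuousOn (fun s => p' s + (t * k s : ℝ) * e) (Ioo r (2 * r)) :=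
    hR.1.add (by fun_prop : Continuous fun s => ((t * k s : ℝ) : ℂ) * e).continuousOn
  have hγ' : IntervalIntegrable (fun s => p' s + (t * k s : ℝ) * e) volume r (2 * r) :=
    hp'.add ((by fun_prop : Continuous fun s => ((t * k s : ℝ) : ℂ) * e).intervalIntegrable _ _)
  have e2 : N + ENNReal.ofReal (∫ s in r..2 * r, ‖p' s‖) ≤ μH[1] (K ∩ closedBall x (2 * r)) := by
    rw [e1, ← iv_lint hrr hp']
    exact add_le_add le_rfl (len_ge (fun s hs => (hR.2 s hs).2.1) hR.1 hinj)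
  have i1 : Phi x e φ t '' (K ∩ closedBall x r) =
      (fun z => z + (t * φ r : ℝ) * e) '' (K ∩ closedBall x r) :=
    image_congr fun z hz => by rw [Phi, h2 _ (mem_closedBall_iff_norm.1 hz.2)]
  have i2 : Phi x e φ t '' (K ∩ sphere x (2 * r)) = K ∩ sphere x (2 * r) := by
    refine (image_congr fun z hz => ?_).trans (image_id _)
    rw [Phi, mem_sphere_iff_norm.1 hz.2, h3]
    simp
  have i3 : Phi x e φ t '' (p '' Ioo r (2 * r)) =
      (fun s => p s + (t * φ s : ℝ) * e) '' Ioo r (2 * r) := by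
    rw [image_image]
    exact image_congr fun s hs => by rw [Phi, (hR.pt hr.le hs).2.1]
  have e3 : μH[1] (Phi x e φ t '' (K ∩ closedBall x (2 * r))) ≤
      N + ENNReal.ofReal (∫ s in r..2 * r, ‖p' s + (t * k s : ℝ) * e‖) := by
    rw [hsplit, image_union, image_union, i1, i2, i3, ← iv_lint hrr hγ', hN]
    refine (measure_union_le _ _).trans (add_le_add ((measure_union_le _ _).trans
      (add_le_add (le_of_eq ?_) le_rfl)) (len_le (fun s hs => ?_) hc'))
    · exact (isometry_add_right _).hausdorffMeasure_image (Or.inl zero_le_one) _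
    · exact (hR.2 s hs).2.1.add (((hφ s).const_mul t).ofReal_comp.mul_const e)
  have n1 : 0 ≤ ∫ s in r..2 * r, ‖p' s‖ :=
    intervalIntegral.integral_nonneg hrr fun s _ => norm_nonneg _
  have n2 : 0 ≤ ∫ s in r..2 * r, ‖p' s + (t * k s : ℝ) * e‖ :=
    intervalIntegral.integral_nonneg hrr fun s _ => norm_nonneg _
  have e4 := ENNReal.toReal_mono hf e2
  have e5 := ENNReal.toReal_mono (ENNReal.add_ne_top.2 ⟨hNf, ENNReal.ofReal_ne_top⟩) e3
  rw [ENNReal.toReal_add hNf ENNReal.ofReal_ne_top, ENNReal.toReal_ofReal n1] at e4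
  rw [ENNReal.toReal_add hNf ENNReal.ofReal_ne_top, ENNReal.toReal_ofReal n2] at e5
  have j1 := (iv_ip (iv_unit hr hR) hk e).const_mul t
  have e6 := intervalIntegral.integral_mono_on_of_le_Ioo hrr hγ'.norm
    ((hp'.norm.add j1).add (intervalIntegrable_const (c := t ^ 2 / 2)))
    fun s hs => iv_norm_le (hR.pt hr.le hs).2.2.2 he (hk1 s) t
  rw [intervalIntegral.integral_add (hp'.norm.add j1) intervalIntegrable_const,
    intervalIntegral.integral_add hp'.norm j1, intervalIntegral.integral_const_mul,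
    intervalIntegral.integral_const, smul_eq_mul] at e6
  rw [Lc]
  linarith

theorem iv_opt {J m : ℝ} (hr : 0 < r) (hm : 0 ≤ m) (hm1 : m ≤ 1)
    (h : ∀ t : ℝ, |t| ≤ 1 / 2 → 0 ≤ t * J + 33 * t ^ 2 * r + 4 * m ^ 2 * r) :
    |J| ≤ 25 * r * m := by
  have key : ∀ n : ℝ, 0 < n → m ≤ n → n ≤ 1 → |J| ≤ 25 * r * n := by
    intro n hn hmn hn1
    have h1 := h (n / 2) (by rw [abs_of_pos (by linarith)]; linarith)
    have h2 := h (-(n / 2)) (by rw [abs_neg, abs_of_pos (by linarith)]; linarith)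
    have h3 : m ^ 2 * r ≤ n ^ 2 * r := by gcongr
    have h4 : 0 < n ^ 2 * r := by positivity
    rw [abs_le]
    constructor
    · refine le_of_mul_le_mul_left ?_ hn
      nlinarith
    · refine le_of_mul_le_mul_left ?_ hn
      nlinarith
  rcases hm.eq_or_lt with h0 | h0
  · rw [← h0, mul_zero]
    refine le_of_forall_pos_le_add fun ε hε => ?_
    have h5 : 0 < min 1 (ε / (25 * r)) := lt_min one_pos (by positivity)
    refine (key _ h5 (by rw [← h0]; exact h5.le) (min_le_left _ _)).trans ?_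
    rw [zero_add, ← le_div_iff₀' (by positivity)]
    exact min_le_right _ _
  · exact key m h0 le_rfl hm1

theorem iv_dir {p p' : ℝ → ℂ} (h : MM Ω lam u K π₀) (hr : 0 < r) (hb : closedBall x (2 * r) ⊆ Ω)
    (hl : lam * r ≤ 1 / 2) (hR : Rad K x r (2 * r) p p') (he : ‖e‖ = 1) {k : ℝ → ℝ}
    (hk : Continuous k) (hk1 : ∀ s, |k s| ≤ 1) (hk0 : ∀ s ∉ Ioo r (2 * r), k s = 0) :
    |∫ s in r..2 * r, k s * ⟪e, Yv u K x p' s⟫| ≤ 25 * r * √(lam * r) := by
  have hK := h.pre.2.1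
  obtain ⟨hD, hf⟩ := h.pre.2.2.2 x _ hb
  rw [Dn_closedBall] at hD
  have hlam : 0 ≤ lam * r := mul_nonneg h.1.1 hr.le
  have hφ : ∀ s, HasDerivAt (fun s => ∫ τ in (2 * r)..s, k τ) (k s) s := fun s =>
    (hk.integral_hasStrictDerivAt _ s).hasDerivAt
  have hd : deriv (fun s => ∫ τ in (2 * r)..s, k τ) = k := funext fun s => (hφ s).deriv
  have hc : ContDiff ℝ 1 (fun s => ∫ τ in (2 * r)..s, k τ) :=
    contDiff_one_iff_deriv.2 ⟨fun s => (hφ s).differentiableAt, by rw [hd]; exact hk⟩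
  have h3 : ∀ s, 2 * r ≤ s → ∫ τ in (2 * r)..s, k τ = 0 := fun s hs => by
    rw [intervalIntegral.integral_congr (g := fun _ => 0) fun τ hτ => ?_]
    · simp
    · rw [uIcc_of_le hs] at hτ
      exact hk0 τ fun h' => absurd hτ.1 (not_le.2 h'.2)
  have h2 : ∀ s ≤ r, ∫ τ in (2 * r)..s, k τ = ∫ τ in (2 * r)..r, k τ := fun s hs => by
    rw [← intervalIntegral.integral_add_adjacent_intervals (hk.intervalIntegrable (2 * r) r)
      (hk.intervalIntegrable r s), intervalIntegral.integral_congr (a := r) (g := fun _ => 0)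
        fun τ hτ => ?_]
    · simp
    · rw [uIcc_of_ge hs] at hτ
      exact hk0 τ fun h' => absurd hτ.2 (not_le.2 h'.1)
  have hDr : Dr u K x (2 * r) ≤ 16 * r := by
    have h4 := ub8 h (by linarith : 0 < 2 * r) hb (by linarith)
    linarith [Lr_nonneg K x (2 * r)]
  have hY : ∫ s in r..2 * r, k s * ⟪e, Yv u K x p' s⟫ =
      (∫ s in r..2 * r, k s * ⟪e, p' s / ‖p' s‖⟫) -
        ∫ s in r..2 * r, k s * ⟪e, conj (Zc u K x s)⟫ := by
    rw [← intervalIntegral.integral_sub (iv_ip (iv_unit hr hR) hk e)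
      (iv_ip (iv_Zint hK hr hD) hk e)]
    refine intervalIntegral.integral_congr fun s _ => ?_
    simp only [Yv, inner_sub_right]
    ring
  refine iv_opt hr (Real.sqrt_nonneg _) (Real.sqrt_le_one.2 (by linarith)) fun t ht => ?_
  have a1 := iv_a h hr hb hc (by rw [hd]; exact hk1)
    (by rw [hd]; exact fun s hs => hk0 s fun h' => absurd hs (not_le.2 h'.1)) h3 he ht
  have a2 := iv_len hK hr hf hR hk hk1 hφ h2 (h3 _ le_rfl) he t
  rw [hd, iv_energy hK hr hD hk hk1 hk0] at a1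
  rw [hY, Real.sq_sqrt hlam]
  have a3 : t ^ 2 * Dr u K x (2 * r) ≤ t ^ 2 * (16 * r) := by gcongr
  have a4 : 0 ≤ t ^ 2 * r := by positivity
  nlinarith

theorem iv : ∃ C : ℝ, 0 < C ∧ ∀ {Ω lam u K π₀ x r} {p p' : ℝ → ℂ}, MM Ω lam u K π₀ → 0 < r →
    closedBall x (2 * r) ⊆ Ω → lam * r ≤ 1 / 2 → Rad K x r (2 * r) p p' →
      IntervalIntegrable (Yv u K x p') volume r (2 * r) ∧
        ∫ s in r..2 * r, ‖Yv u K x p' s‖ ≤ C * r * √(lam * r) := by
  refine ⟨50, by norm_num, fun {Ω lam u K π₀ x r p p'} h hr hb hl hR => ?_⟩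
  have hK := h.pre.2.1
  have hD := (h.pre.2.2.2 x _ hb).1
  rw [Dn_closedBall] at hD
  have hY : IntervalIntegrable (Yv u K x p') volume r (2 * r) :=
    (iv_unit hr hR).sub (iv_Zint hK hr hD)
  have hi : ∀ e : ℂ, IntervalIntegrable (fun s => ⟪e, Yv u K x p' s⟫) volume r (2 * r) := fun e =>
    ⟨(innerSL ℝ e).integrable_comp hY.1, (innerSL ℝ e).integrable_comp hY.2⟩
  have hB : ∀ e : ℂ, ‖e‖ = 1 →
      ∫ s in r..2 * r, |⟪e, Yv u K x p' s⟫| ≤ 25 * r * √(lam * r) := fun e he =>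
    dual (by linarith) (hi e) fun k hk hk1 hk0 => iv_dir h hr hb hl hR he hk hk1 hk0
  refine ⟨hY, ?_⟩
  have h1 := intervalIntegral.integral_mono_on (by linarith : r ≤ 2 * r) hY.norm
    ((hi 1).abs.add (hi I).abs) fun s _ => by
      have h2 := norm_le_abs_re_add_abs_im (Yv u K x p' s)
      simpa [iv_inner] using h2
  rw [intervalIntegral.integral_add (hi 1).abs (hi I).abs] at h1
  linarith [hB 1 norm_one, hB I norm_I]

end Vale.Agent.P128
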