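import Vale.Agent.P128.Basic0
import Vale.Agent.P136.Pomp

/-!
# P128 Cau

Cauchy transform `e z = (2π)⁻¹ ∫ h w / (z - w)`. Continuity: Hoelder with `‖·‖⁻¹ ∈ L^(4/3)` locally
and continuity of translations in `L^(4/3)` (or split off a small disc and use dominated convergence).
Weak identity: Fubini and `Vale.Agent.P136.pomp` (`∫ ∇φ z / (z - w) = -2π φ w`). Bound:
`∫_{ball z (2r)} ‖z - w‖⁻¹ = 4π r` (`integral_fun_norm_addHaar` or polar coordinates).
-/

namespace Vale.Agent.P128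

open Set Metric MeasureTheory Filter Topology Complex
open scoped ENNReal ContDiff RealInnerProductSpace Gradient Real ComplexConjugate

variable {Ω K L A S T U O X Γ P M₀ K₀ K₁ : Set ℂ} {u v w g hh ψ η : ℂ → ℝ} {G : ℂ → ℂ}
  {π₀ π₁ : ℂ → Set ℂ} {x y z c p q e a₀ F : ℂ} {lam H r s R a b t M Θ ρ ε δ d : ℝ} {n : ℕ}

/-- The truncated radial kernel. -/
noncomputable def cauK (a R : ℝ) : ℂ → ℝ := (ball (0 : ℂ) R).indicator fun z => ‖z‖ ^ (-a)

theorem cau_K_nonneg (a R : ℝ) (z : ℂ) : 0 ≤ cauK a R z :=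
  indicator_nonneg (fun _ _ => Real.rpow_nonneg (norm_nonneg _) _) z

theorem cau_K_int (ha : a < 2) (R : ℝ) : Integrable (cauK a R) := by
  refine (integrable_indicator_iff measurableSet_ball).2 ?_
  refine integrableOn_ball_of_norm_le_rpow (C := 1) (α := a) (by simp) (by simpa using ha)
    (Eventually.of_forall fun z => ?_) (measurable_norm.pow_const _).aestronglyMeasurable
  rw [Real.norm_of_nonneg (Real.rpow_nonneg (norm_nonneg _) _), one_mul]

theorem cau_K_val (ha : a < 2) (hR : 0 ≤ R) :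
    ∫ z, cauK a R z = 2 * π * (R ^ (2 - a) / (2 - a)) := by
  have e1 : cauK a R = fun z : ℂ => (Iio R).indicator (fun t : ℝ => t ^ (-a)) ‖z‖ := by
    funext z
    simp [cauK, indicator]
  have e2 : ∫ t in Ioi (0 : ℝ), t ^ (Module.finrank ℝ ℂ - 1) •
      (Iio R).indicator (fun t : ℝ => t ^ (-a)) t = ∫ t in Ioi (0 : ℝ),
      (Iio R).indicator (fun t : ℝ => t ^ (1 - a)) t := by
    refine setIntegral_congr_fun measurableSet_Ioi fun t ht => ?_
    have ht' : (0 : ℝ) < t := ht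
    by_cases k : t < R
    · simp only [Complex.finrank_real_complex, indicator_of_mem (mem_Iio.2 k), smul_eq_mul]
      rw [sub_eq_add_neg, Real.rpow_add ht', Real.rpow_one]
      norm_num
    · simp only [indicator_of_notMem (fun j => k (mem_Iio.1 j)), smul_zero]
  have e3 : ∫ t in Ioi (0 : ℝ), (Iio R).indicator (fun t : ℝ => t ^ (1 - a)) t =
      R ^ (2 - a) / (2 - a) := by
    rw [setIntegral_indicator measurableSet_Iio, Ioi_inter_Iio, ← integral_Ioc_eq_integral_Ioo,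
      ← intervalIntegral.integral_of_le hR, integral_rpow (Or.inl (by linarith)),
      Real.zero_rpow (by linarith), sub_zero]
    have : 1 - a + 1 = 2 - a := by ring
    rw [this]
  have e4 : (volume : Measure ℂ).real (ball 0 1) = π := by
    simp [Measure.real, Complex.volume_ball]
  rw [e1, integral_fun_norm_addHaar, e2, e3, e4, Complex.finrank_real_complex]
  simp only [smul_eq_mul, nsmul_eq_mul, Nat.cast_ofNat]
  ring

theorem cau_young (hM : 0 < M) (ha : 0 ≤ a) (hz : ‖z‖ < R) :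
    a * ‖z‖⁻¹ ≤ M * cauK (4 / 3) R z + a ^ 4 / M ^ 3 := by
  have e1 : cauK (4 / 3) R z = ‖z‖ ^ (-(4 / 3) : ℝ) :=
    indicator_of_mem (mem_ball_zero_iff.2 hz) _
  obtain ⟨s, hs, e2, e3⟩ : ∃ s : ℝ, 0 ≤ s ∧ ‖z‖⁻¹ = s ^ 3 ∧ ‖z‖ ^ (-(4 / 3) : ℝ) = s ^ 4 := by
    refine ⟨‖z‖ ^ (-(1 / 3) : ℝ), Real.rpow_nonneg (norm_nonneg _) _, ?_, ?_⟩
    · rw [← Real.rpow_natCast, ← Real.rpow_mul (norm_nonneg _), ← Real.rpow_neg_one]
      norm_num
    · rw [← Real.rpow_natCast, ← Real.rpow_mul (norm_nonneg _)]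
      norm_num
  rw [e1, e2, e3]
  have p1 : 0 ≤ a ^ 4 / M ^ 3 := by positivity
  have p2 : 0 ≤ M * s ^ 4 := by positivity
  by_cases k : a ≤ M * s
  · have : a * s ^ 3 ≤ M * s * s ^ 3 := mul_le_mul_of_nonneg_right k (by positivity)
    nlinarith
  · have k1 : (M * s) ^ 3 ≤ a ^ 3 := pow_le_pow_left₀ (by positivity) (not_le.1 k).le 3
    have k2 : a * s ^ 3 ≤ a ^ 4 / M ^ 3 := by
      rw [le_div_iff₀ (by positivity)]
      nlinarith [mul_le_mul_of_nonneg_left k1 ha]
    linarith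

theorem cau_four (hh4 : MemLp hh 4 volume) : Integrable fun w => |hh w| ^ 4 := by
  have := hh4.integrable_norm_pow (p := 4) (by norm_num)
  simpa only [Real.norm_eq_abs] using this

theorem cau_int (hh4 : MemLp hh 4 volume) (h0 : ∀ w ∉ ball c r, hh w = 0) : Integrable hh := by
  have h1 : IntegrableOn hh (ball c r) := by
    have : IsFiniteMeasure (volume.restrict (ball c r)) :=
      ⟨by rw [Measure.restrict_apply_univ]; exact measure_ball_lt_top⟩
    exact (hh4.restrict _).integrable (by norm_num)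
  exact h1.integrable_of_forall_notMem_eq_zero h0

/-- A kernel dominated by `‖·‖⁻¹` on a small ball gives a small integral. -/
theorem cau_small (hh4 : MemLp hh 4 volume) (hM : 0 < M) (hR : 0 ≤ R) {f : ℂ → ℂ}
    (hf : AEStronglyMeasurable f volume) (z : ℂ)
    (hb : ∀ w, f w = 0 ∨ (‖z - w‖ < R ∧ ‖f w‖ ≤ |hh w| * ‖z - w‖⁻¹)) :
    Integrable f ∧ ‖∫ w, f w‖ ≤ M * (3 * π * R ^ (2 / 3 : ℝ)) + (∫ w, |hh w| ^ 4) / M ^ 3 := by
  have i1 : Integrable fun w => M * cauK (4 / 3) R (z - w) :=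
    ((cau_K_int (by norm_num) R).comp_sub_left z).const_mul M
  have i2 := (cau_four hh4).div_const (M ^ 3)
  have hle : ∀ w, ‖f w‖ ≤ M * cauK (4 / 3) R (z - w) + |hh w| ^ 4 / M ^ 3 := fun w => by
    rcases hb w with k | k
    · have := cau_K_nonneg (4 / 3) R (z - w)
      rw [k, norm_zero]
      positivity
    · exact k.2.trans (cau_young hM (abs_nonneg _) k.1)
  refine ⟨(i1.add i2).mono' hf (Eventually.of_forall hle), ?_⟩
  refine (norm_integral_le_of_norm_le (i1.add i2) (Eventually.of_forall hle)).trans (le_of_eq ?_)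
  simp only [Pi.add_apply]
  rw [integral_add i1 i2, integral_const_mul, integral_div,
    integral_sub_left_eq_self (cauK (4 / 3) R) volume z, cau_K_val (by norm_num) hR]
  have e : (2 - 4 / 3 : ℝ) = 2 / 3 := by norm_num
  rw [e]
  ring

theorem cau_meas (hh4 : MemLp hh 4 volume) {κ : ℂ → ℂ} (hκ : Measurable κ) (z : ℂ) :
    AEStronglyMeasurable (fun w => (hh w : ℂ) * κ (z - w)) volume :=
  (Complex.continuous_ofReal.comp_aestronglyMeasurable hh4.1).mul
    (hκ.comp (measurable_const.sub measurable_id)).aestronglyMeasurable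

theorem cau_intK (hh4 : MemLp hh 4 volume) (h0 : ∀ w ∉ ball c r, hh w = 0) (z : ℂ) :
    Integrable fun w => (hh w : ℂ) * (z - w)⁻¹ := by
  refine (cau_small (R := ‖z - c‖ + |r|) hh4 one_pos (by positivity)
    (cau_meas hh4 measurable_inv z) z fun w => ?_).1
  by_cases k : w ∈ ball c r
  · refine Or.inr ⟨?_, by rw [norm_mul, norm_inv, Complex.norm_real, Real.norm_eq_abs]⟩
    have a1 := mem_ball_iff_norm'.1 k
    have a2 := norm_sub_le_norm_sub_add_norm_sub z c w
    linarith [le_abs_self r]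
  · left
    rw [h0 w k, Complex.ofReal_zero, zero_mul]

/-- The regularized kernel. -/
noncomputable def cauR (δ : ℝ) (z : ℂ) : ℂ := conj z * ((max ‖z‖ δ : ℝ) ^ 2 : ℂ)⁻¹

theorem cau_R_cont (hδ : 0 < δ) : Continuous (cauR δ) := by
  refine Complex.continuous_conj.mul (Continuous.inv₀ (by fun_prop) fun z => ?_)
  exact pow_ne_zero _ (Complex.ofReal_ne_zero.2 (lt_max_of_lt_right hδ).ne')

theorem cau_R_norm (hδ : 0 < δ) (z : ℂ) : ‖cauR δ z‖ = ‖z‖ / max ‖z‖ δ ^ 2 := by
  rw [cauR, norm_mul, norm_inv, norm_pow, Complex.norm_real, Complex.norm_conj,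
    Real.norm_of_nonneg (lt_max_of_lt_right hδ).le, div_eq_mul_inv]

theorem cau_R_le (hδ : 0 < δ) (z : ℂ) : ‖cauR δ z‖ ≤ δ⁻¹ := by
  have p : 0 < max ‖z‖ δ := lt_max_of_lt_right hδ
  rw [cau_R_norm hδ, div_le_iff₀ (by positivity), ← div_eq_inv_mul, le_div_iff₀ hδ, sq]
  exact mul_le_mul (le_max_left _ _) (le_max_right _ _) hδ.le p.le

theorem cau_R_le' (hδ : 0 < δ) (z : ℂ) : ‖cauR δ z‖ ≤ ‖z‖⁻¹ := by
  rw [cau_R_norm hδ]
  rcases (norm_nonneg z).eq_or_lt with k | k
  · rw [← k]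
    simp
  · rw [div_le_iff₀ (by positivity), ← div_eq_inv_mul, le_div_iff₀ k, sq]
    exact mul_le_mul (le_max_left _ _) (le_max_left _ _) k.le (by positivity)

theorem cau_R_eq (hz : δ ≤ ‖z‖) : cauR δ z = z⁻¹ := by
  rw [cauR, max_eq_left hz, Complex.inv_def z, Complex.normSq_eq_norm_sq]
  push_cast
  rfl

theorem cau_cont (hh4 : MemLp hh 4 volume) (h0 : ∀ w ∉ ball c r, hh w = 0) :
    Continuous fun z => ∫ w, (hh w : ℂ) * (z - w)⁻¹ := by
  refine continuous_of_uniform_approx_of_continuous fun V hV => ?_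
  obtain ⟨ε, hε, hV⟩ := Metric.mem_uniformity_dist.1 hV
  obtain ⟨J, hJ⟩ : ∃ J, J = ∫ w, |hh w| ^ 4 := ⟨_, rfl⟩
  have hJ0 : 0 ≤ J := hJ ▸ integral_nonneg fun w => by positivity
  obtain ⟨M, hM, hM2⟩ : ∃ M : ℝ, 0 < M ∧ J / M ^ 3 < ε / 4 := by
    refine ⟨1 + 4 * J / ε, by positivity, ?_⟩
    have a1 : 0 ≤ 4 * J / ε := by positivity
    have a2 : 1 + 4 * J / ε ≤ (1 + 4 * J / ε) ^ 3 := le_self_pow₀ (by linarith) (by norm_num)
    have a3 : ε / 4 * (4 * J / ε) = J := by field_simp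
    rw [div_lt_iff₀ (by positivity)]
    nlinarith
  obtain ⟨δ, hδ, hδ2⟩ : ∃ δ : ℝ, 0 < δ ∧ M * (3 * π * δ ^ (2 / 3 : ℝ)) ≤ ε / 4 := by
    have p : 0 < ε / 4 / (M * (3 * π)) := by positivity
    refine ⟨(ε / 4 / (M * (3 * π))) ^ (3 / 2 : ℝ), Real.rpow_pos_of_pos p _, le_of_eq ?_⟩
    rw [← Real.rpow_mul p.le]
    norm_num
    field_simp
  have hI := cau_int hh4 h0
  have hb : ∀ z w, ‖(hh w : ℂ) * cauR δ (z - w)‖ ≤ ‖hh w‖ * δ⁻¹ := fun z w => by
    rw [norm_mul, Complex.norm_real]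
    exact mul_le_mul_of_nonneg_left (cau_R_le hδ _) (norm_nonneg _)
  have hm := cau_meas hh4 (cau_R_cont hδ).measurable
  refine ⟨fun z => ∫ w, (hh w : ℂ) * cauR δ (z - w), continuous_of_dominated hm
    (fun z => Eventually.of_forall (hb z)) (hI.norm.mul_const _)
    (Eventually.of_forall fun w => continuous_const.mul
      ((cau_R_cont hδ).comp (continuous_id.sub continuous_const))), fun z => hV ?_⟩
  have i1 := cau_intK hh4 h0 z
  have i2 : Integrable fun w => (hh w : ℂ) * cauR δ (z - w) :=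
    (hI.norm.mul_const _).mono' (hm z) (Eventually.of_forall (hb z))
  have h1 := (cau_small (f := fun w => (1 / 2 : ℂ) *
    ((hh w : ℂ) * (z - w)⁻¹ - (hh w : ℂ) * cauR δ (z - w))) hh4 hM hδ.le
    ((i1.sub i2).const_mul _).1 z fun w => by
      by_cases k : ‖z - w‖ < δ
      · refine Or.inr ⟨k, ?_⟩
        have a1 := norm_sub_le (z - w)⁻¹ (cauR δ (z - w))
        have a2 := cau_R_le' hδ (z - w)
        rw [norm_inv] at a1
        rw [← mul_sub, norm_mul, norm_mul, Complex.norm_real, Real.norm_eq_abs]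
        have a3 : ‖(1 / 2 : ℂ)‖ = 1 / 2 := by simp
        rw [a3]
        nlinarith [abs_nonneg (hh w)]
      · left
        simp only [cau_R_eq (not_lt.1 k), sub_self, mul_zero]).2
  have a3 : ‖(1 / 2 : ℂ)‖ = 1 / 2 := by simp
  rw [integral_const_mul, integral_sub i1 i2, norm_mul, a3, ← hJ] at h1
  rw [dist_eq_norm]
  linarith

theorem cau_pomp {φ : ℂ → ℝ} (hφ : ContDiff ℝ ∞ φ) (hc : HasCompactSupport φ) (w : ℂ) :
    ∫ z, (z - w)⁻¹ * ∇ φ z = -(2 * π : ℂ) * φ w := by
  have h1 : ContDiff ℝ 1 φ := hφ.of_le (by exact_mod_cast le_top)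
  have h2 : ContDiff ℝ 1 fun z => (φ (z + w) : ℂ) :=
    Complex.ofRealCLM.contDiff.comp (h1.comp (contDiff_id.add contDiff_const))
  have h3 : HasCompactSupport fun z => (φ (z + w) : ℂ) :=
    (hc.comp_homeomorph (Homeomorph.addRight w)).comp_left (g := fun t : ℝ => (t : ℂ))
      Complex.ofReal_zero
  have h4 : ∀ z v, fderiv ℝ (fun z => (φ (z + w) : ℂ)) z v = (fderiv ℝ φ (z + w) v : ℝ) := by
    intro z v
    have a1 := Complex.ofRealCLM.hasFDerivAt.comp z
      ((h1.differentiable one_ne_zero (z + w)).hasFDerivAt.comp z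
        ((hasFDerivAt_id z).add_const w))
    exact congrArg (fun L : ℂ →L[ℝ] ℂ => L v) a1.fderiv
  have h5 := P136.pomp h2 h3
  simp only [h4, smul_eq_mul, zero_add] at h5
  rw [← h5, ← integral_add_right_eq_self _ w]
  simp only [add_sub_cancel_right, grad_eq]

theorem cau_weak (hh4 : MemLp hh 4 volume) (h0 : ∀ w ∉ ball c r, hh w = 0) {φ : ℂ → ℝ}
    (hφ : ContDiff ℝ ∞ φ) (hc : HasCompactSupport φ) :
    ∫ z, (∫ w, (hh w : ℂ) * (z - w)⁻¹) * ∇ φ z =
      -(2 * π : ℂ) * ((∫ z, hh z * φ z : ℝ) : ℂ) := by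
  have h1 : ContDiff ℝ 1 φ := hφ.of_le (by exact_mod_cast le_top)
  have hD : Continuous (fderiv ℝ φ) := h1.continuous_fderiv one_ne_zero
  obtain ⟨C, hC⟩ := hD.bounded_above_of_compact_support (hc.fderiv ℝ)
  obtain ⟨R, hR⟩ := hc.isCompact.isBounded.subset_closedBall c
  have i1 : Integrable ((ball (0 : ℂ) (R + r)).indicator fun z : ℂ => z⁻¹) := by
    refine (cau_K_int (a := 1) (by norm_num) (R + r)).mono'
      (measurable_inv.indicator measurableSet_ball).aestronglyMeasurable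
      (Eventually.of_forall fun z => le_of_eq ?_)
    rw [norm_indicator_eq_indicator_norm]
    simp only [cauK, Real.rpow_neg_one, norm_inv]
  have i2 := ((cau_int hh4 h0).ofReal (𝕜 := ℂ)).convolution_integrand
    (ContinuousLinearMap.mul ℂ ℂ) i1
  have i3 := i2.mul_bdd (g := fun x : ℂ × ℂ => ∇ φ x.1) (c := C)
    ((meas_grad φ).comp measurable_fst).aestronglyMeasurable
    (Eventually.of_forall fun x => by rw [norm_grad]; exact hC _)
  have i4 : Integrable (Function.uncurry fun z w : ℂ => (hh w : ℂ) * (z - w)⁻¹ * ∇ φ z)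
      (volume.prod volume) := by
    refine i3.congr (Eventually.of_forall fun x => ?_)
    simp only [ContinuousLinearMap.mul_apply', Function.uncurry]
    by_cases k : x.2 ∈ ball c r
    · by_cases j : x.1 ∈ tsupport φ
      · have a1 := mem_ball_iff_norm'.1 k
        have a2 := mem_closedBall_iff_norm.1 (hR j)
        have a3 := norm_sub_le_norm_sub_add_norm_sub x.1 c x.2
        rw [indicator_of_mem (mem_ball_zero_iff.2 (by linarith))]
        rfl
      · have : ∇ φ x.1 = 0 := by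
          rw [← norm_eq_zero, norm_grad, fderiv_of_notMem_tsupport ℝ j, norm_zero]
        rw [this, mul_zero, mul_zero]
    · simp [h0 _ k]
  simp_rw [← integral_mul_const]
  rw [integral_integral_swap i4]
  simp_rw [mul_assoc, integral_const_mul, cau_pomp hφ hc]
  rw [← integral_complex_ofReal, ← integral_const_mul]
  refine integral_congr_ae (Eventually.of_forall fun w => ?_)
  push_cast
  ring

theorem cau (hh4 : MemLp hh 4 volume) (h0 : ∀ w ∉ ball c r, hh w = 0) :
    ∃ k : ℂ → ℂ, Continuous k ∧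
      (∀ φ : ℂ → ℝ, ContDiff ℝ ∞ φ → HasCompactSupport φ →
        ∫ z, k z * ∇ φ z = -((∫ z, hh z * φ z : ℝ) : ℂ)) ∧
      ∀ H, (∀ w, |hh w| ≤ H) → ∀ z ∈ ball c r, ‖k z‖ ≤ 2 * H * r := by
  have hπ : (2 * π : ℂ) ≠ 0 := by exact_mod_cast Real.two_pi_pos.ne'
  refine ⟨fun z => (2 * π : ℂ)⁻¹ * ∫ w, (hh w : ℂ) * (z - w)⁻¹,
    continuous_const.mul (cau_cont hh4 h0), fun φ hφ hc => ?_, fun H hH z hz => ?_⟩
  · simp_rw [mul_assoc]
    rw [integral_const_mul, cau_weak hh4 h0 hφ hc, neg_mul, mul_neg, inv_mul_cancel_left₀ hπ]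
  · have hr : 0 < r := pos_of_mem_ball hz
    have hH0 : 0 ≤ H := (abs_nonneg _).trans (hH 0)
    have i1 : Integrable fun w => H * cauK 1 (2 * r) (z - w) :=
      ((cau_K_int (by norm_num) _).comp_sub_left z).const_mul H
    have h1 := norm_integral_le_of_norm_le (f := fun w => (hh w : ℂ) * (z - w)⁻¹) i1
      (Eventually.of_forall fun w => by
        by_cases k : w ∈ ball c r
        · have a1 := mem_ball_iff_norm'.1 k
          have a2 := mem_ball_iff_norm.1 hz
          have a3 := norm_sub_le_norm_sub_add_norm_sub z c w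
          rw [cauK, indicator_of_mem (mem_ball_zero_iff.2 (by linarith)), Real.rpow_neg_one,
            norm_mul, norm_inv, Complex.norm_real, Real.norm_eq_abs]
          exact mul_le_mul_of_nonneg_right (hH w) (by positivity)
        · rw [h0 w k, Complex.ofReal_zero, zero_mul, norm_zero]
          exact mul_nonneg hH0 (cau_K_nonneg _ _ _))
    rw [integral_const_mul, integral_sub_left_eq_self (cauK 1 (2 * r)) volume z,
      cau_K_val (by norm_num) (by linarith)] at h1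
    have e1 : ‖(2 * π : ℂ)⁻¹‖ = (2 * π)⁻¹ := by
      rw [norm_inv, norm_mul, Complex.norm_real, Real.norm_of_nonneg Real.pi_pos.le]
      simp
    have e2 : (2 * r) ^ (2 - 1 : ℝ) / (2 - 1) = 2 * r := by norm_num
    rw [e2] at h1
    rw [norm_mul, e1, ← div_eq_inv_mul, div_le_iff₀ Real.two_pi_pos]
    linarith

end Vale.Agent.P128
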