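import Vale.Agent.P128.Basic

/-!
# P128 LipWG

Locally Lipschitz functions have their a.e. gradient as weak gradient. Take a smooth cutoff `χ = 1`
near `tsupport φ` with compact support in `O` (`exists_contDiff_tsupport_subset`-type lemmas or
`exists_contMDiff_zero_one`); `χ w` extended by zero is globally Lipschitz
(`LocallyLipschitzOn.exists_lipschitzOnWith_of_compact`); use
`LipschitzWith.integral_lineDeriv_mul_eq` and `ae_diff`. `curl0`: both `∫ G_x φ_y` and `∫ G_y φ_x`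
equal `-∫ w φ_xy` (symmetry of second derivatives).
-/

namespace Vale.Agent.P128

open Set Metric MeasureTheory Filter Topology Complex
open scoped ENNReal ContDiff RealInnerProductSpace Gradient Real ComplexConjugate

variable {Ω K L A S T U O X Γ P M₀ K₀ K₁ : Set ℂ} {u v w g hh ψ η : ℂ → ℝ} {G : ℂ → ℂ}
  {π₀ π₁ : ℂ → Set ℂ} {x y z c p q e a₀ F : ℂ} {lam H r s R a b t M Θ ρ ε δ d : ℝ} {n : ℕ}

theorem lipwg_int (hO : IsOpen O) (hu : LocallyIntegrableOn u O) (hψ : Continuous ψ)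
    (hc : HasCompactSupport ψ) (hs : tsupport ψ ⊆ O) : IntegrableOn (fun z => u z * ψ z) O := by
  refine ((hu.integrableOn_compact_subset hs hc).mul_continuousOn hψ.continuousOn
    hc).of_forall_sdiff_eq_zero hO.measurableSet fun z hz => ?_
  rw [image_eq_zero_of_notMem_tsupport hz.2, mul_zero]

theorem lipwg_inner (hG : LocallyIntegrableOn G O) (v : ℂ) :
    LocallyIntegrableOn (fun z => ⟪G z, v⟫) O := by
  intro z hz
  obtain ⟨t, ht, hi⟩ := hG z hz
  exact ⟨t, ht, Integrable.inner_const hi v⟩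

theorem lipwg_dir {φ : ℂ → ℝ} (hφ : ContDiff ℝ ∞ φ) (v : ℂ) :
    ContDiff ℝ ∞ fun z => fderiv ℝ φ z v :=
  (hφ.fderiv_right (m := ∞) le_rfl).clm_apply contDiff_const

theorem lipwg_off {φ : ℂ → ℝ} (hz : z ∉ tsupport φ) (v : ℂ) : fderiv ℝ φ z v = 0 :=
  image_eq_zero_of_notMem_tsupport (f := fun z => fderiv ℝ φ z v)
    fun h => hz (tsupport_fderiv_apply_subset ℝ v h)

theorem lipWG (hO : IsOpen O) (hw : LocallyLipschitzOn O w) : IsWG O w (∇ w) := by
  refine ⟨hw.continuousOn.locallyIntegrableOn hO.measurableSet, ?_, ?_⟩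
  · intro z hz
    obtain ⟨C, t, ht, hl⟩ := hw hz
    rw [hO.nhdsWithin_eq hz] at ht
    obtain ⟨r, hr, hb⟩ := Metric.mem_nhds_iff.1 ht
    refine ⟨ball z r, mem_nhdsWithin_of_mem_nhds (ball_mem_nhds z hr), ?_⟩
    refine Measure.integrableOn_of_bounded (M := C) measure_ball_lt_top.ne
      (meas_grad w).aestronglyMeasurable ?_
    refine ae_restrict_of_forall_mem measurableSet_ball fun y hy => ?_
    rw [norm_grad]
    exact norm_fderiv_le_of_lipschitzOn ℝ (isOpen_ball.mem_nhds hy) (hl.mono hb)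
  · intro φ hφ hc hs v
    obtain ⟨δ, hδ, hT⟩ := hc.isCompact.exists_cthickening_subset_open hO hs
    obtain ⟨C, hC⟩ := (hw.mono hT).exists_lipschitzOnWith_of_compact hc.isCompact.cthickening
    obtain ⟨W, hW, he⟩ := hC.extend_real
    obtain ⟨D, hD⟩ := hφ.lipschitzWith_of_hasCompactSupport hc (by simp)
    have key := hW.integral_lineDeriv_mul_eq (μ := volume) hD hc v
    have hev : ∀ z ∈ tsupport φ, W =ᶠ[𝓝 z] w := fun z hz =>
      mem_of_superset (isOpen_thickening.mem_nhds (self_subset_thickening hδ _ hz))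
        fun y hy => (he (thickening_subset_cthickening _ _ hy)).symm
    have e1 : ∫ z, lineDeriv ℝ W z v * φ z = ∫ z in O, ⟪∇ w z, v⟫ * φ z := by
      rw [← integral_indicator hO.measurableSet]
      apply integral_congr_ae
      filter_upwards [ae_diff hO hw] with z hz
      by_cases hzs : z ∈ tsupport φ
      · rw [indicator_of_mem (hs hzs), (hev z hzs).lineDeriv_eq,
          (hz (hs hzs)).lineDeriv_eq_fderiv, inner_grad]
      · simp [indicator, image_eq_zero_of_notMem_tsupport hzs]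
    have e2 : ∫ z, lineDeriv ℝ φ z (-v) * W z = -∫ z in O, w z * fderiv ℝ φ z v := by
      rw [← integral_indicator hO.measurableSet, ← integral_neg]
      apply integral_congr_ae
      refine Eventually.of_forall fun z => ?_
      have hd : lineDeriv ℝ φ z (-v) = -fderiv ℝ φ z v := by
        rw [(hφ.differentiable (by simp) z).lineDeriv_eq_fderiv, map_neg]
      by_cases hzs : z ∈ tsupport φ
      · simp only [indicator_of_mem (hs hzs), hd, (hev z hzs).eq_of_nhds]
        ring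
      · simp [indicator, hd, lipwg_off hzs v]
    rw [← e1, key, e2, neg_neg]

theorem curl0 (hO : IsOpen O) (hw : IsWG O w G) {φ : ℂ → ℝ} (hφ : ContDiff ℝ ∞ φ)
    (hc : HasCompactSupport φ) (hs : tsupport φ ⊆ O) :
    (∫ z in O, conj (G z) * ∇ φ z).im = 0 := by
  have hs' : ∀ v : ℂ, tsupport (fun z => fderiv ℝ φ z v) ⊆ O := fun v =>
    (tsupport_fderiv_apply_subset ℝ v).trans hs
  have hi : ∀ a b : ℂ, IntegrableOn (fun z => ⟪G z, a⟫ * fderiv ℝ φ z b) O := fun a b =>
    lipwg_int hO (lipwg_inner hw.2.1 a) (lipwg_dir hφ b).continuous (hc.fderiv_apply ℝ b) (hs' b)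
  have h1 := hw.2.2 _ (lipwg_dir hφ I) (hc.fderiv_apply ℝ I) (hs' I) 1
  have h2 := hw.2.2 _ (lipwg_dir hφ 1) (hc.fderiv_apply ℝ 1) (hs' 1) I
  have hsym : ∀ z, fderiv ℝ (fun z => fderiv ℝ φ z I) z 1 =
      fderiv ℝ (fun z => fderiv ℝ φ z 1) z I := by
    intro z
    have hd : DifferentiableAt ℝ (fderiv ℝ φ) z :=
      (hφ.fderiv_right (m := ∞) le_rfl).differentiable (by simp) z
    rw [fderiv_clm_apply hd (differentiableAt_const _),
      fderiv_clm_apply hd (differentiableAt_const _)]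
    have h2 : ContDiffAt ℝ 2 φ z :=
      hφ.contDiffAt.of_le (WithTop.coe_le_coe.2 (le_top : (2 : ℕ∞) ≤ ⊤))
    simpa using (h2.isSymmSndFDerivAt (by simp)).eq 1 I
  have e : ∀ z, conj (G z) * ∇ φ z =
      ((⟪G z, 1⟫ * fderiv ℝ φ z 1 + ⟪G z, I⟫ * fderiv ℝ φ z I : ℝ) : ℂ) +
        ((⟪G z, 1⟫ * fderiv ℝ φ z I - ⟪G z, I⟫ * fderiv ℝ φ z 1 : ℝ) : ℂ) * I := by
    intro z
    rw [grad_eq]
    apply Complex.ext <;> simp [Complex.inner] <;> ring
  simp_rw [e]
  have i1 : IntegrableOn (fun z =>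
      ((⟪G z, 1⟫ * fderiv ℝ φ z 1 + ⟪G z, I⟫ * fderiv ℝ φ z I : ℝ) : ℂ)) O :=
    ((hi 1 1).add (hi I I)).ofReal
  have i2 : IntegrableOn (fun z =>
      ((⟪G z, 1⟫ * fderiv ℝ φ z I - ⟪G z, I⟫ * fderiv ℝ φ z 1 : ℝ) : ℂ) * I) O :=
    Integrable.mul_const ((hi 1 I).sub (hi I 1)).ofReal I
  rw [integral_add i1 i2,
    integral_mul_const, integral_complex_ofReal, integral_complex_ofReal,
    integral_sub (hi 1 I) (hi I 1)]
  simp only [hsym] at h1
  have h3 : ∫ z in O, ⟪G z, 1⟫ * fderiv ℝ φ z I = ∫ z in O, ⟪G z, I⟫ * fderiv ℝ φ z 1 := by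
    linarith
  rw [h3, sub_self, add_im, ofReal_im, ofReal_zero, zero_mul, zero_im, add_zero]

theorem conj_mul_re (G₁ G₂ : ℂ) : (conj G₁ * G₂).re = ⟪G₁, G₂⟫ := by
  simp [Complex.inner, mul_comm]

theorem IsWG.mono (hw : IsWG O w G) (hU : IsOpen U) (hO : IsOpen O) (h : U ⊆ O) : IsWG U w G := by
  refine ⟨hw.1.mono_set h, hw.2.1.mono_set h, fun φ hφ hc hs v => ?_⟩
  rw [← setIntegral_eq_of_subset_of_forall_sdiff_eq_zero hO.measurableSet h,
    ← setIntegral_eq_of_subset_of_forall_sdiff_eq_zero hO.measurableSet h]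
  · exact hw.2.2 φ hφ hc (hs.trans h) v
  · intro z hz
    rw [image_eq_zero_of_notMem_tsupport fun h => hz.2 (hs h), mul_zero]
  · intro z hz
    rw [lipwg_off (fun h => hz.2 (hs h)) v, mul_zero]

theorem IsWG.add_lip (hO : IsOpen O) (hu : IsWG O u G) (hw : LocallyLipschitzOn O w) :
    IsWG O (fun z => u z + w z) (fun z => G z + ∇ w z) := by
  have hw' := lipWG hO hw
  refine ⟨hu.1.add hw'.1, hu.2.1.add hw'.2.1, fun φ hφ hc hs v => ?_⟩
  have hs' : tsupport (fun z => fderiv ℝ φ z v) ⊆ O :=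
    (tsupport_fderiv_apply_subset ℝ v).trans hs
  simp only [add_mul, inner_add_left]
  rw [integral_add (lipwg_int hO hu.1 (lipwg_dir hφ v).continuous (hc.fderiv_apply ℝ v) hs')
      (lipwg_int hO hw'.1 (lipwg_dir hφ v).continuous (hc.fderiv_apply ℝ v) hs'),
    integral_add (lipwg_int hO (lipwg_inner hu.2.1 v) hφ.continuous hc hs)
      (lipwg_int hO (lipwg_inner hw'.2.1 v) hφ.continuous hc hs),
    hu.2.2 φ hφ hc hs v, hw'.2.2 φ hφ hc hs v]
  ring

end Vale.Agent.P128
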