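import Vale.Agent.P128.Wey
import Vale.Agent.P128.Cau
import Vale.Agent.P128.LipWG

/-!
# P128 Int

Interior estimate. On `B = ball z r` let `k` be the Cauchy transform (`cau`) of `B.indicator hh`.
`conj (∇ u) - k` is continuous on `B` and weakly holomorphic (`EL` for the real part with
`test_of_contDiff`, `curl0` with `lipWG` for the imaginary part), so by `wey` it equals a holomorphic
function a.e., hence everywhere on `B` by continuity (`ContinuousOn` version of `ae_eq_iff_eq`).
-/

namespace Vale.Agent.P128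

open Set Metric MeasureTheory Filter Topology Complex
open scoped ENNReal ContDiff RealInnerProductSpace Gradient Real ComplexConjugate

variable {Ω K L A S T U O X Γ P M₀ K₀ K₁ : Set ℂ} {u v w g hh ψ η : ℂ → ℝ} {G : ℂ → ℂ}
  {π₀ π₁ : ℂ → Set ℂ} {x y z c p q e a₀ F : ℂ} {lam H r s R a b t M Θ ρ ε δ d : ℝ} {n : ℕ}

theorem int_cont {φ : ℂ → ℝ} (hφ : ContDiff ℝ ∞ φ) : Continuous (∇ φ) :=
  (InnerProductSpace.toDual ℝ ℂ).symm.continuous.comp (hφ.continuous_fderiv (by simp))

theorem int_zero {φ : ℂ → ℝ} (hz : z ∉ tsupport φ) : ∇ φ z = 0 := by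
  have e : φ =ᶠ[𝓝 z] fun _ => 0 := notMem_tsupport_iff_eventuallyEq.1 hz
  rw [e.gradient_eq, gradient_fun_const]

theorem int_intOn {φ : ℂ → ℝ} {f : ℂ → ℂ} (hU : IsOpen U) (hf : ContinuousOn f U)
    (hφ : ContDiff ℝ ∞ φ) (hc : HasCompactSupport φ) (hs : tsupport φ ⊆ U) :
    IntegrableOn (fun w => f w * ∇ φ w) U := by
  have h1 : IntegrableOn (fun w => f w * ∇ φ w) (tsupport φ) :=
    ((hf.mono hs).mul (int_cont hφ).continuousOn).integrableOn_compact hc
  refine h1.of_forall_sdiff_eq_zero hU.measurableSet fun w hw => ?_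
  rw [int_zero hw.2, mul_zero]

theorem int_weak (h : NH Ω u K hh H) (hb : closedBall z r ⊆ Ω) (hK : ball z r ⊆ Kᶜ)
    {φ : ℂ → ℝ} (hφ : ContDiff ℝ ∞ φ) (hc : HasCompactSupport φ) (hs : tsupport φ ⊆ ball z r) :
    ∫ w in ball z r, conj (∇ u w) * ∇ φ w =
      -((∫ w, (ball z r).indicator hh w * φ w : ℝ) : ℂ) := by
  have hsub : ball z r ⊆ Ω \ K := fun w hw => ⟨hb (ball_subset_closedBall hw), hK hw⟩
  have hcont : ContinuousOn (fun w => conj (∇ u w)) (ball z r) :=
    continuous_conj.comp_continuousOn (h.1.contGrad.mono hsub)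
  have hi := int_intOn isOpen_ball hcont hφ hc hs
  have h0 : ∀ w ∉ ball z r, φ w = 0 := fun w hw =>
    image_eq_zero_of_notMem_tsupport fun k => hw (hs k)
  have him := curl0 isOpen_ball (lipWG isOpen_ball (h.1.lip.mono hsub)) hφ hc hs
  have hel := h.2.2.2 φ (test_of_contDiff (hφ.of_le (by simp)) hb
    fun w hw => h0 w fun k => hw (ball_subset_closedBall k))
  have e1 : ∫ w, ⟪gK K u w, gK K φ w⟫ = ∫ w in ball z r, (conj (∇ u w) * ∇ φ w).re := by
    rw [← setIntegral_eq_integral_of_forall_compl_eq_zero (s := ball z r)]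
    · refine setIntegral_congr_fun measurableSet_ball fun w hw => ?_
      simp only [gK_of_notMem _ (hK hw), conj_mul_re]
    · intro w hw
      by_cases k : w ∈ K
      · rw [gK_of_mem φ k, inner_zero_right]
      · rw [gK_of_notMem φ k, int_zero fun j => hw (hs j), inner_zero_right]
  have e2 : ∫ w in Kᶜ, hh w * φ w = ∫ w, (ball z r).indicator hh w * φ w := by
    rw [← integral_indicator h.1.2.1.isOpen_compl.measurableSet]
    refine integral_congr_ae (Eventually.of_forall fun w => ?_)
    by_cases k : w ∈ ball z r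
    · simp only [indicator_of_mem k, indicator_of_mem (hK k)]
    · simp [indicator, h0 w k]
  have e3 : (∫ w in ball z r, conj (∇ u w) * ∇ φ w).re =
      ∫ w in ball z r, (conj (∇ u w) * ∇ φ w).re := (integral_re hi).symm
  refine Complex.ext ?_ ?_
  · rw [e3, ← e1, hel, e2, neg_re, ofReal_re]
  · rw [him, neg_im, ofReal_im, neg_zero]

theorem int_est (h : NH Ω u K hh H) (hb : closedBall z r ⊆ Ω) (hK : ball z r ⊆ Kᶜ) :
    ∃ f : ℂ → ℂ, DifferentiableOn ℂ f (ball z r) ∧
      ∀ w ∈ ball z r, ‖conj (∇ u w) - f w‖ ≤ 2 * H * r := by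
  have hsub : ball z r ⊆ Ω \ K := fun w hw => ⟨hb (ball_subset_closedBall hw), hK hw⟩
  have hcont : ContinuousOn (fun w => conj (∇ u w)) (ball z r) :=
    continuous_conj.comp_continuousOn (h.1.contGrad.mono hsub)
  have h4 : MemLp ((ball z r).indicator hh) 4 volume := by
    have : IsFiniteMeasure (volume.restrict (ball z r)) :=
      ⟨by rw [Measure.restrict_apply_univ]; exact measure_ball_lt_top⟩
    rw [memLp_indicator_iff_restrict measurableSet_ball]
    exact MemLp.of_bound h.2.1.aestronglyMeasurable H (Eventually.of_forall h.2.2.1)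
  obtain ⟨k, hk, hw, hbd⟩ := cau (c := z) (r := r) h4 fun w hw => indicator_of_notMem hw _
  have hc0 : ContinuousOn (fun w => conj (∇ u w) - k w) (ball z r) := hcont.sub hk.continuousOn
  obtain ⟨f, hf, he⟩ := wey (f := fun w => conj (∇ u w) - k w) isOpen_ball
    (hc0.locallyIntegrableOn measurableSet_ball) (by
      intro φ hφ hc hs
      simp only [sub_mul]
      rw [integral_sub (int_intOn isOpen_ball hcont hφ hc hs)
        (int_intOn isOpen_ball hk.continuousOn hφ hc hs), int_weak h hb hK hφ hc hs,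
        setIntegral_eq_integral_of_forall_compl_eq_zero, hw φ hφ hc, sub_self]
      intro w hw
      rw [int_zero fun j => hw (hs j), mul_zero])
  have heq : EqOn (fun w => conj (∇ u w) - k w) f (ball z r) :=
    Measure.eqOn_open_of_ae_eq ((ae_restrict_iff' measurableSet_ball).2 he) isOpen_ball hc0
      hf.continuousOn
  refine ⟨f, hf, fun w hw => ?_⟩
  have e : conj (∇ u w) - f w = k w := by
    rw [← heq hw]
    ring
  rw [e]
  refine hbd H (fun w => ?_) w hw
  by_cases j : w ∈ ball z r
  · rw [indicator_of_mem j]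
    exact h.2.2.1 w
  · rw [indicator_of_notMem j, abs_zero]
    exact (abs_nonneg _).trans (h.2.2.1 w)

theorem hol (h : NP univ 0 u K) : DifferentiableOn ℂ (fun z => conj (∇ u z)) Kᶜ := by
  intro z hz
  obtain ⟨r, hr, hb⟩ := Metric.isOpen_iff.1 h.pre.2.1.isOpen_compl z hz
  obtain ⟨f, hf, he⟩ := int_est h.nh0 (subset_univ (closedBall z r)) hb
  have e : (fun z => conj (∇ u z)) =ᶠ[𝓝 z] f := by
    filter_upwards [ball_mem_nhds z hr] with w hw
    have := he w hw
    rw [mul_zero, zero_mul, norm_le_zero_iff, sub_eq_zero] at this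
    exact this
  exact ((hf.differentiableAt (ball_mem_nhds z hr)).congr_of_eventuallyEq e).differentiableWithinAt

end Vale.Agent.P128
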