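import Vale.Agent.P128.Eil0
import Vale.Agent.P128.Basic

/-!
# P128 Eil

Real valued consequences of the Eilenberg inequality (`eil`, `eil_meas`, `eil_low` with
`f = dist · x`, applied to `K ∩ (ball x b \ closedBall x a)`, which is disjoint from `ball x a`).
-/

namespace Vale.Agent.P128

open Set Metric MeasureTheory Filter Topology Complex
open scoped ENNReal ContDiff RealInnerProductSpace Gradient Real ComplexConjugate

variable {Ω K L A S T U O X Γ P M₀ K₀ K₁ : Set ℂ} {u v w g hh ψ η : ℂ → ℝ} {G : ℂ → ℂ}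
  {π₀ π₁ : ℂ → Set ℂ} {x y z c p q e a₀ F : ℂ} {lam H r s R a b t M Θ ρ ε δ d : ℝ} {n : ℕ}

theorem eil_lip (x : ℂ) : LipschitzWith 1 (fun y : ℂ => dist y x) := LipschitzWith.dist_left x

theorem eil_menc (hK : IsClosed K) (x : ℂ) :
    Measurable (fun s => ((K ∩ sphere x s).encard : ℝ≥0∞)) :=
  eil_meas (isSigmaCompact_univ.of_isClosed_subset hK (subset_univ _)) (eil_lip x).continuous

theorem eil_toReal (S : Set ℂ) : (S.ncard : ℝ) = (S.encard : ℝ≥0∞).toReal := by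
  rw [Set.ncard_def]
  induction S.encard using ENat.recTopCoe with
  | top => simp
  | coe k => simp

theorem meas_Nn (hK : IsClosed K) (x : ℂ) : Measurable (fun s => (Nn K x s : ℝ)) := by
  simp only [Nn, eil_toReal]
  exact (eil_menc hK x).ennreal_toReal

theorem eil_ann (K : Set ℂ) (x : ℂ) (a b : ℝ) :
    ∫⁻ s in Ioo a b, ((K ∩ sphere x s).encard : ℝ≥0∞) ≤ μH[1] (K ∩ (ball x b \ closedBall x a)) := by
  refine le_trans ?_ (eil _ (eil_lip x))
  rw [← lintegral_indicator measurableSet_Ioo]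
  refine lintegral_mono fun s => ?_
  by_cases hs : s ∈ Ioo a b
  · rw [indicator_of_mem hs]
    refine ENat.toENNReal_mono (encard_le_encard fun y hy => ?_)
    have h1 : dist y x = s := hy.2
    refine ⟨⟨hy.1, ?_, ?_⟩, h1⟩
    · rw [mem_ball, h1]
      exact hs.2
    · rw [mem_closedBall, h1]
      exact not_le.2 hs.1
  · rw [indicator_of_notMem hs]
    exact zero_le

theorem eil_sub (hf : μH[1] (K ∩ closedBall x R) ≠ ⊤) (hb : b ≤ R) :
    μH[1] (K ∩ ball x b) ≠ ⊤ :=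
  ne_top_of_le_ne_top hf (measure_mono (inter_subset_inter_right _
    (ball_subset_closedBall.trans (closedBall_subset_closedBall hb))))

theorem eil_ne (hf : μH[1] (K ∩ closedBall x R) ≠ ⊤) (hb : b ≤ R) (a : ℝ) :
    ∫⁻ s in Ioo a b, ((K ∩ sphere x s).encard : ℝ≥0∞) ≠ ⊤ :=
  ne_top_of_le_ne_top (eil_sub hf hb) ((eil_ann K x a b).trans
    (measure_mono (inter_subset_inter_right _ sdiff_subset)))

theorem eil_add (hf : μH[1] (K ∩ closedBall x R) ≠ ⊤) (hab : a ≤ b) (hb : b ≤ R) :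
    Lr K x a + (∫⁻ s in Ioo a b, ((K ∩ sphere x s).encard : ℝ≥0∞)).toReal ≤ Lr K x b := by
  have h1 := measure_inter_add_sdiff (μ := μH[1]) (K ∩ ball x b) (measurableSet_ball (x := x) (ε := a))
  rw [Lr, Lr, ← ENNReal.toReal_add (eil_sub hf (hab.trans hb)) (eil_ne hf hb a)]
  refine ENNReal.toReal_mono (eil_sub hf hb) (le_trans (add_le_add (measure_mono ?_)
    ((eil_ann K x a b).trans (measure_mono ?_))) h1.le)
  · exact fun y hy => ⟨⟨hy.1, ball_subset_ball hab hy.2⟩, hy.2⟩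
  · exact fun y hy => ⟨⟨hy.1, hy.2.1⟩, fun h => hy.2.2 (ball_subset_closedBall h)⟩

theorem eil_fin (hf : μH[1] (K ∩ closedBall x R) ≠ ⊤) (hK : IsClosed K) :
    ∀ᵐ s : ℝ, s ∈ Ioo 0 R → (K ∩ sphere x s).Finite := by
  have h1 := ae_lt_top (eil_menc hK x) (eil_ne hf le_rfl 0)
  rw [ae_restrict_iff' measurableSet_Ioo] at h1
  filter_upwards [h1] with s hs hs'
  refine encard_ne_top_iff.1 fun e => ?_
  have h2 := hs hs'
  rw [e] at h2
  simp at h2

theorem Nn_int (hf : μH[1] (K ∩ closedBall x R) ≠ ⊤) (hK : IsClosed K) (ha : 0 ≤ a) (hab : a ≤ b)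
    (hb : b ≤ R) : IntervalIntegrable (fun s => (Nn K x s : ℝ)) volume a b ∧
      Lr K x a + ∫ s in a..b, (Nn K x s : ℝ) ≤ Lr K x b := by
  have _ := ha
  simp only [Nn, eil_toReal]
  refine ⟨(intervalIntegrable_iff_integrableOn_Ioo_of_le hab).2
    (integrable_toReal_of_lintegral_ne_top (eil_menc hK x).aemeasurable (eil_ne hf hb a)), ?_⟩
  rw [intervalIntegral.integral_of_le hab, integral_Ioc_eq_integral_Ioo,
    integral_toReal (eil_menc hK x).aemeasurable (ae_lt_top (eil_menc hK x) (eil_ne hf hb a))]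
  exact eil_add hf hab hb

theorem Lr_low (hf : μH[1] (K ∩ closedBall x R) ≠ ⊤) (hK : IsClosed K) (ha : 0 ≤ a) (hab : a ≤ b)
    (hb : b ≤ R) (h : ∀ s ∈ Ioo a b, (n : ℕ∞) ≤ (K ∩ sphere x s).encard) :
    Lr K x a + n * (b - a) ≤ Lr K x b := by
  have _ := ha
  have _ := hK
  refine le_trans (add_le_add le_rfl ?_) (eil_add hf hab hb)
  have h1 : ∫⁻ _ in Ioo a b, (n : ℝ≥0∞) ≤ ∫⁻ s in Ioo a b, ((K ∩ sphere x s).encard : ℝ≥0∞) :=
    setLIntegral_mono' measurableSet_Ioo fun s hs => by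
      simpa using ENat.toENNReal_mono (h s hs)
  refine le_trans (le_of_eq ?_) (ENNReal.toReal_mono (eil_ne hf hb a) h1)
  rw [setLIntegral_const, Real.volume_Ioo, ENNReal.toReal_mul, ENNReal.toReal_natCast,
    ENNReal.toReal_ofReal (sub_nonneg.2 hab)]

end Vale.Agent.P128
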