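import Vale.Agent.P128.Basic0

/-!
# P128 Glue0

Lengths of arcs and cones: `circleMap x s` is `s`-Lipschitz (`lipschitzWith_circleMap`),
`LipschitzWith.hausdorffMeasure_image_le`, `hausdorffMeasure_real`, `hausdorffMeasure_segment`.
`cap_len`: a chord `≤ t` forces the angle `≤ π t/(2 s)` (Jordan inequality `Real.mul_le_sin`).
-/

namespace Vale.Agent.P128

open Set Metric MeasureTheory Filter Topology Complex
open scoped ENNReal ContDiff RealInnerProductSpace Gradient Real ComplexConjugate

variable {Ω K L A S T U O X Γ P M₀ K₀ K₁ : Set ℂ} {u v w g hh ψ η : ℂ → ℝ} {G : ℂ → ℂ}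
  {π₀ π₁ : ℂ → Set ℂ} {x y z c p q e a₀ F : ℂ} {lam H r s R a b t M Θ ρ ε δ d : ℝ} {n : ℕ}

theorem arc_len (hs : 0 ≤ s) (x : ℂ) (a b : ℝ) :
    μH[1] (circleMap x s '' Icc a b) ≤ ENNReal.ofReal (s * (b - a)) := by
  refine ((lipschitzWith_circleMap x s).hausdorffMeasure_image_le zero_le_one _).trans_eq ?_
  rw [hausdorffMeasure_real, Real.volume_Icc, ENNReal.rpow_one, ENNReal.ofReal_mul hs,
    Real.nnabs_of_nonneg hs]
  rfl

theorem sphere_len (x : ℂ) (s : ℝ) : μH[1] (sphere x s) ≤ ENNReal.ofReal (2 * π * s) := by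
  rcases lt_or_ge s 0 with hs | hs
  · rw [sphere_eq_empty_of_neg hs, measure_empty]
    exact zero_le
  · have h : sphere x s ⊆ circleMap x s '' Icc 0 (2 * π) := by
      refine subset_trans ?_ (image_mono Ioc_subset_Icc_self)
      rw [image_circleMap_Ioc, abs_of_nonneg hs]
    refine (measure_mono h).trans ((arc_len hs x _ _).trans_eq ?_)
    rw [sub_zero, mul_comm]

theorem glue0_polar (hz : z ∈ sphere x s) : circleMap x s (arg (z - x)) = z := by
  rw [circleMap, ← mem_sphere_iff_norm.1 hz, norm_mul_exp_arg_mul_I, add_sub_cancel]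

theorem cap_len (hp : p ∈ sphere x s) (ht : 0 ≤ t) :
    μH[1] (sphere x s ∩ closedBall p t) ≤ ENNReal.ofReal (4 * t) := by
  have hv := mem_sphere_iff_norm.1 hp
  rcases (hv ▸ norm_nonneg (p - x) : 0 ≤ s).eq_or_lt with rfl | hs
  · refine (measure_mono inter_subset_left).trans ((sphere_len x 0).trans ?_)
    simp
  have h0 : p - x ≠ 0 := norm_pos_iff.1 (hv ▸ hs)
  have h : sphere x s ∩ closedBall p t ⊆
      circleMap x s '' Icc (arg (p - x) - π / 2 * (t / s)) (arg (p - x) + π / 2 * (t / s)) := by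
    rintro z ⟨hz, hz'⟩
    have h1 : ‖(z - x) / (p - x)‖ = 1 := by
      rw [norm_div, mem_sphere_iff_norm.1 hz, hv, div_self hs.ne']
    have h2 := angle_le_mul_norm_sub h1 norm_one
    rw [angle_one_right (norm_pos_iff.1 (h1 ▸ one_pos)), div_sub_one h0, sub_sub_sub_cancel_right,
      norm_div, hv] at h2
    have h3 := abs_le.1 (h2.trans (mul_le_mul_of_nonneg_left (div_le_div_of_nonneg_right
      (mem_closedBall_iff_norm.1 hz') hs.le) (by positivity)))
    refine ⟨arg (p - x) + arg ((z - x) / (p - x)), ⟨by linarith [h3.1], by linarith [h3.2]⟩, ?_⟩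
    have h4 := norm_mul_exp_arg_mul_I ((z - x) / (p - x))
    have h5 := norm_mul_exp_arg_mul_I (p - x)
    rw [h1, ofReal_one, one_mul] at h4
    rw [hv] at h5
    rw [circleMap, ofReal_add, add_mul, Complex.exp_add, ← mul_assoc, h5, h4,
      mul_div_cancel₀ _ h0, add_sub_cancel]
  refine (measure_mono h).trans ((arc_len hs.le x _ _).trans (ENNReal.ofReal_le_ofReal ?_))
  have e : s * (arg (p - x) + π / 2 * (t / s) - (arg (p - x) - π / 2 * (t / s))) = π * t := by
    field_simp
    ring
  rw [e]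
  exact mul_le_mul_of_nonneg_right Real.pi_le_four ht

theorem cone_closed (hT : T.Finite) (F : ℂ) : IsCompact (cone F T) := by
  refine (hT.isCompact_biUnion fun p _ => ?_).insert F
  rw [segment_eq_image_lineMap]
  exact isCompact_Icc.image AffineMap.lineMap_continuous

theorem cone_len (hT : T.Finite) (F : ℂ) :
    μH[1] (cone F T) ≤ ENNReal.ofReal (∑ p ∈ hT.toFinset, ‖p - F‖) := by
  have h : cone F T ⊆ segment ℝ F F ∪ ⋃ p ∈ hT.toFinset, segment ℝ F p := by
    rintro z (rfl | hz)
    · exact Or.inl (left_mem_segment _ _ _)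
    · obtain ⟨p, hp, hz⟩ := mem_iUnion₂.1 hz
      exact Or.inr (mem_iUnion₂.2 ⟨p, hT.mem_toFinset.2 hp, hz⟩)
  refine (measure_mono h).trans ((measure_union_le _ _).trans ?_)
  rw [hausdorffMeasure_segment, edist_self, zero_add,
    ENNReal.ofReal_sum_of_nonneg fun _ _ => norm_nonneg _]
  refine (measure_biUnion_finset_le _ _).trans (Finset.sum_le_sum fun p _ => ?_)
  rw [hausdorffMeasure_segment, edist_dist, dist_eq_norm']

theorem cone_sub (hF : F ∈ ball x s) (hT : T ⊆ sphere x s) :
    cone F T ⊆ closedBall x s ∧ cone F T ∩ sphere x s = T := by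
  constructor
  · rintro z (rfl | hz)
    · exact ball_subset_closedBall hF
    · obtain ⟨p, hp, hz⟩ := mem_iUnion₂.1 hz
      exact (convex_closedBall x s).segment_subset (ball_subset_closedBall hF)
        (sphere_subset_closedBall (hT hp)) hz
  · refine Subset.antisymm ?_ fun p hp =>
      ⟨Or.inr (mem_iUnion₂.2 ⟨p, hp, right_mem_segment _ _ _⟩), hT hp⟩
    rintro z ⟨rfl | hz, h⟩
    · exact absurd h (mem_ball.1 hF).ne
    · obtain ⟨p, hp, a, b, ha, hb, hab, rfl⟩ := mem_iUnion₂.1 hz
      rcases ha.eq_or_lt with rfl | ha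
      · rw [zero_add] at hab
        rwa [hab, zero_smul, one_smul, zero_add]
      · have h1 := (convex_closedBall x s).combo_interior_self_mem_interior (x := F) (y := p)
          (ball_subset_interior_closedBall hF) (sphere_subset_closedBall (hT hp)) ha hb hab
        rw [interior_closedBall'] at h1
        exact absurd h (mem_ball.1 h1).ne

end Vale.Agent.P128
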