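import Vale.Agent.P128.Star0
import Vale.Agent.P128.Glue0
import Vale.Agent.P128.Eil

/-!
# P128 Star

Elementary facts on stars. Lengths: a star meets a ball centred at its vertex in `n` segments that
overlap only at the vertex (`hausdorffMeasure_segment`; lower bound by `eil_low` or additivity).
-/

namespace Vale.Agent.P128

open Set Metric MeasureTheory Filter Topology Complex
open scoped ENNReal ContDiff RealInnerProductSpace Gradient Real ComplexConjugate

variable {Ω K L A S T U O X Γ P M₀ K₀ K₁ : Set ℂ} {u v w g hh ψ η : ℂ → ℝ} {G : ℂ → ℂ}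
  {π₀ π₁ : ℂ → Set ℂ} {x y z c p q e a₀ F : ℂ} {lam H r s R a b t M Θ ρ ε δ d : ℝ} {n : ℕ}

theorem star_seg {v : ℂ} (ht : 0 ≤ t) (h : ‖(t : ℂ) * v‖ ≤ s) :
    x + t * v ∈ segment ℝ x (x + (s / ‖v‖ : ℝ) * v) := by
  rw [segment_eq_image']
  rcases eq_or_ne ((t : ℂ) * v) 0 with h0 | h0
  · exact ⟨0, ⟨le_rfl, zero_le_one⟩, by simp [h0]⟩
  have hv : 0 < ‖v‖ := norm_pos_iff.2 (right_ne_zero_of_mul h0)
  have hs : 0 < s := (norm_pos_iff.2 h0).trans_le h
  rw [norm_mul, Complex.norm_real, Real.norm_eq_abs, abs_of_nonneg ht] at h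
  refine ⟨t * ‖v‖ / s, ⟨by positivity, (div_le_one hs).2 h⟩, ?_⟩
  have h1 : t * ‖v‖ / s * (s / ‖v‖) = t := by field_simp
  simp only [add_sub_cancel_left, Complex.real_smul]
  rw [← mul_assoc, ← Complex.ofReal_mul, h1]

theorem star_up (n : ℕ) (x e : ℂ) (hs : 0 ≤ s) :
    μH[1] (star n x e ∩ closedBall x s) ≤ n * ENNReal.ofReal s := by
  have hsub : star n x e ∩ closedBall x s ⊆
      ⋃ k ∈ Finset.range n, segment ℝ x (x + (s / ‖dir n e k‖ : ℝ) * dir n e k) := by
    rintro _ ⟨⟨k, hk, t, ht, rfl⟩, hz⟩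
    rw [mem_closedBall, dist_eq_norm, add_sub_cancel_left] at hz
    exact mem_iUnion₂.2 ⟨k, Finset.mem_range.2 hk, star_seg ht hz⟩
  refine (measure_mono hsub).trans ((measure_biUnion_finset_le _ _).trans ?_)
  refine (Finset.sum_le_card_nsmul _ _ (ENNReal.ofReal s) fun k _ => ?_).trans
    (by rw [Finset.card_range, nsmul_eq_mul])
  rw [hausdorffMeasure_segment, edist_dist, dist_comm, dist_eq_norm, add_sub_cancel_left, norm_mul,
    Complex.norm_real, Real.norm_eq_abs, abs_of_nonneg (by positivity)]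
  refine ENNReal.ofReal_le_ofReal ?_
  rcases (norm_nonneg (dir n e k)).eq_or_lt with h | h
  · rw [← h, mul_zero]
    exact hs
  · rw [div_mul_cancel₀ _ h.ne']

theorem star_fin (n : ℕ) (x e y : ℂ) (r : ℝ) : μH[1] (star n x e ∩ closedBall y r) ≠ ⊤ := by
  have h1 := star_up n x e (s := |r| + dist y x) (by positivity)
  have h2 : closedBall y r ⊆ closedBall x (|r| + dist y x) :=
    closedBall_subset_closedBall' (by linarith [le_abs_self r])
  exact ne_top_of_le_ne_top (ENNReal.mul_ne_top (ENNReal.natCast_ne_top n) ENNReal.ofReal_ne_top)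
    ((measure_mono (inter_subset_inter_right _ h2)).trans h1)

theorem star_card (he : ‖e‖ = 1) (hn : n ≤ 3) (x : ℂ) (ht : 0 < t) :
    (n : ℕ∞) ≤ (star n x e ∩ sphere x t).encard := by
  have hinj : InjOn (fun k => x + t * dir n e k) (Finset.range n : Set ℕ) := by
    intro j hj k hk h
    by_contra hjk
    have h1 := (dir_sep he hn (Finset.mem_range.1 hj) (Finset.mem_range.1 hk) hjk).1
    have h2 : dir n e j = dir n e k :=
      mul_left_cancel₀ (Complex.ofReal_ne_zero.2 ht.ne') (add_left_cancel h)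
    rw [h2, real_inner_self_eq_norm_sq, dir_norm he] at h1
    norm_num at h1
  have h3 := hinj.encard_image
  rw [encard_coe_eq_coe_finsetCard, Finset.card_range] at h3
  rw [← h3]
  refine encard_le_encard ?_
  rintro _ ⟨k, hk, rfl⟩
  refine ⟨⟨k, Finset.mem_range.1 hk, t, ht.le, rfl⟩, ?_⟩
  rw [mem_sphere, dist_eq_norm, add_sub_cancel_left, norm_mul, dir_norm he, mul_one,
    Complex.norm_real, Real.norm_eq_abs, abs_of_pos ht]

theorem star_len (he : ‖e‖ = 1) (hn : n ≤ 3) (x : ℂ) (hs : 0 ≤ s) :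
    Lr (star n x e) x s = n * s ∧ Lc (star n x e) x s = n * s := by
  have h1 := Lr_low (star_fin n x e x s) (star_closed n x e) le_rfl hs le_rfl
    fun t ht => star_card he hn x ht.1
  have h2 := Lr_nonneg (star n x e) x 0
  have h3 := Lr_le_Lc (star_fin n x e x s)
  have h4 : Lc (star n x e) x s ≤ n * s := by
    have := ENNReal.toReal_mono
      (ENNReal.mul_ne_top (ENNReal.natCast_ne_top n) ENNReal.ofReal_ne_top) (star_up n x e hs)
    rwa [ENNReal.toReal_mul, ENNReal.toReal_natCast, ENNReal.toReal_ofReal hs] at this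
  rw [sub_zero] at h1
  constructor <;> linarith

theorem star_len_at (he : ‖e‖ = 1) (hn : n ≤ 3) (hy : y ∈ star n x e) (hρ : 0 ≤ ρ)
    (h : 2 * ρ ≤ ‖y - x‖) : Lr (star n x e) y ρ = 2 * ρ ∧ Lc (star n x e) y ρ = 2 * ρ := by
  obtain ⟨k, hk, t, ht, hy⟩ := hy
  have hd := dir_norm he n k
  have h1 : ‖y - x‖ = t := by
    rw [hy, add_sub_cancel_left, norm_mul, hd, mul_one, Complex.norm_real, Real.norm_eq_abs,
      abs_of_nonneg ht]
  have key : star n x e ∩ closedBall y ρ = star 2 y (dir n e k) ∩ closedBall y ρ := by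
    ext z
    refine and_congr_left fun hz => ?_
    rw [mem_closedBall, dist_eq_norm] at hz
    rw [star_two]
    constructor
    · rintro ⟨j, hj, τ, hτ, rfl⟩
      rcases eq_or_ne j k with rfl | hjk
      · exact ⟨τ - t, by rw [hy]; push_cast; ring⟩
      · have h2 := (dir_sep he hn hj hk hjk).1
        have h3 : x + τ * dir n e j - y = τ • dir n e j - t • dir n e k := by
          rw [hy, Complex.real_smul, Complex.real_smul]
          ring
        have h4 := norm_sub_sq_real (τ • dir n e j) (t • dir n e k)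
        rw [← h3, norm_smul, norm_smul, dir_norm he, hd, real_inner_smul_left,
          real_inner_smul_right, Real.norm_eq_abs, Real.norm_eq_abs, abs_of_nonneg hτ,
          abs_of_nonneg ht] at h4
        have h5 : ‖x + τ * dir n e j - y‖ ^ 2 ≤ ρ ^ 2 := pow_le_pow_left₀ (norm_nonneg _) hz 2
        have h6 : τ * (t * ⟪dir n e j, dir n e k⟫) ≤ 0 :=
          mul_nonpos_of_nonneg_of_nonpos hτ (mul_nonpos_of_nonneg_of_nonpos ht (by linarith))
        have h7 : (2 * ρ) ^ 2 ≤ t ^ 2 := pow_le_pow_left₀ (by linarith) (by linarith) 2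
        have h8 : ρ = 0 := by nlinarith [sq_nonneg τ]
        rw [h8, norm_le_zero_iff, sub_eq_zero] at hz
        exact ⟨0, by rw [hz]; simp⟩
    · rintro ⟨τ, rfl⟩
      rw [add_sub_cancel_left, norm_mul, hd, mul_one, Complex.norm_real, Real.norm_eq_abs] at hz
      exact ⟨k, hk, t + τ, by linarith [(abs_le.1 hz).1], by rw [hy]; push_cast; ring⟩
  have key' : star n x e ∩ ball y ρ = star 2 y (dir n e k) ∩ ball y ρ := by
    rw [← inter_eq_right.2 (ball_subset_closedBall (x := y) (ε := ρ)), ← inter_assoc, key,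
      inter_assoc]
  have h9 := star_len hd (by norm_num : 2 ≤ 3) y hρ
  unfold Lr Lc at *
  rw [key, key']
  exact_mod_cast h9

theorem star_len_far (he : ‖e‖ = 1) (hn : n ≤ 3) (x y : ℂ) (hs : ‖y - x‖ ≤ s) :
    n * (s - ‖y - x‖) ≤ Lr (star n x e) y s ∧ Lr (star n x e) y s ≤ n * (s + ‖y - x‖) := by
  have h0 := norm_nonneg (y - x)
  constructor
  · rw [← (star_len he hn x (s := s - ‖y - x‖) (by linarith)).1]
    exact Lr_mono (star_fin n x e y s)
      (ball_subset_ball' (by rw [dist_comm, dist_eq_norm]; linarith))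
  · rw [← (star_len he hn x (s := s + ‖y - x‖) (by linarith)).1]
    exact Lr_mono (star_fin n x e x _) (ball_subset_ball' (by rw [dist_eq_norm]))

end Vale.Agent.P128
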