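import Vale.Agent.P128.G3a
import Vale.Agent.P128.Int
import Vale.Agent.P128.IV
import Vale.Agent.P128.Star

/-!
# P128 G3

The crack tip. `c z = z conj (∇ u z)²` is holomorphic off `K` (`hol`) with modulus `d/(2π)` on a dense
set, hence everywhere off `K`, hence locally constant (`Complex.eventually_eq_of_isLocalMax_norm`).
`Lr K 0 s = s` for all `s` (`Lr_low`-type bound a.e. and monotonicity). For good `s₁ < s₂ < 2 s₁` the radial
projection of `K ∩ {s₁ ≤ ‖z‖ ≤ s₂}` to the circle of radius `s₁` is `1`-Lipschitz with image of length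
`≤ s₂ - s₁ < 2π s₁`, so some radial segment misses `K` and `ex α` is the same `e` on both circles. So
the ray is in `K` (closed, dense radii), `K` minus the ray is null, hence empty (reduced). `iv` with
`p s = s e` on `(1, 2)` gives `conj Zc = e` a.e., so `d = 1`.
-/

namespace Vale.Agent.P128

open Set Metric MeasureTheory Filter Topology Complex
open scoped ENNReal ContDiff RealInnerProductSpace Gradient Real ComplexConjugate

variable {Ω K L A S T U O X Γ P M₀ K₀ K₁ : Set ℂ} {u v w g hh ψ η : ℂ → ℝ} {G : ℂ → ℂ}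
  {π₀ π₁ : ℂ → Set ℂ} {x y z c p q e a₀ F : ℂ} {lam H r s R a b t M Θ ρ ε δ d : ℝ} {n : ℕ}

theorem g3_tend (hz : z ≠ 0) :
    Tendsto (fun s : ℝ => ((s / ‖z‖ : ℝ) : ℂ) * z) (𝓝 ‖z‖) (𝓝 z) := by
  have hc : Continuous (fun s : ℝ => ((s / ‖z‖ : ℝ) : ℂ) * z) := by fun_prop
  have h := hc.tendsto ‖z‖
  rwa [div_self (norm_ne_zero_iff.2 hz), Complex.ofReal_one, one_mul] at h

theorem g3_norm (hz : z ≠ 0) (hs : 0 < s) : ‖((s / ‖z‖ : ℝ) : ℂ) * z‖ = s := by
  have h := norm_pos_iff.2 hz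
  rw [norm_mul, Complex.norm_real, Real.norm_eq_abs, abs_of_pos (div_pos hs h),
    div_mul_cancel₀ _ h.ne']

theorem g3_rad {D : Set ℝ} {E : ℝ → ℂ} {m : ℝ} (hK : IsClosed K) (hm : 0 < m) (h0 : (0 : ℂ) ∈ K)
    (hD : ∀ s₀, 0 < s₀ → ∃ᶠ s in 𝓝 s₀, s ∈ D) (hpos : ∀ s ∈ D, 0 < s) (hE : ∀ s ∈ D, ‖E s‖ = 1)
    (hG : DifferentiableOn ℂ G Kᶜ)
    (hv : ∀ s ∈ D, ∀ z, ‖z‖ = s → z ∉ K → G z = m * conj (E s))
    (hS : ∀ s₀, 0 < s₀ → ∃ z, ‖z‖ = s₀ ∧ z ∉ K) :
    (∀ z ∉ K, ‖G z‖ = m) ∧ ∃ e, ∀ s ∈ D, E s = e := by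
  have hop : IsOpen Kᶜ := hK.isOpen_compl
  have hne : ∀ z ∉ K, z ≠ 0 := fun z hz h => hz (h ▸ h0)
  have hN : ∀ z ∉ K, ‖G z‖ = m := by
    intro z hz
    have ht := g3_tend (hne z hz)
    have h1 : ContinuousAt G z := (hG.differentiableAt (hop.mem_nhds hz)).continuousAt
    have h2 := (h1.tendsto.comp ht).norm
    have h3 := ht.eventually (hop.mem_nhds hz)
    have h4 := (hD _ (norm_pos_iff.2 (hne z hz))).and_eventually h3
    refine (isClosed_singleton (x := m)).mem_of_frequently_of_tendsto (h4.mono ?_) h2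
    rintro s ⟨hs, hsK⟩
    have := hv s hs _ (g3_norm (hne z hz) (hpos s hs)) hsK
    simp only [Function.comp_apply, mem_singleton_iff]
    rw [this, norm_mul, Complex.norm_conj, hE s hs, mul_one, Complex.norm_real, Real.norm_eq_abs,
      abs_of_pos hm]
  refine ⟨hN, ?_⟩
  have hL : ∀ z ∉ K, ∀ᶠ w in 𝓝 z, G w = G z := by
    intro z hz
    refine Complex.eventually_eq_of_isLocalMax_norm ?_ ?_
    · filter_upwards [hop.mem_nhds hz] with w hw using hG.differentiableAt (hop.mem_nhds hw)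
    · filter_upwards [hop.mem_nhds hz] with w hw
      simp only [Function.comp_apply]
      rw [hN w hw, hN z hz]
  choose! Z hZ hZK using hS
  have hk : ∀ s₀, 0 < s₀ → ∀ᶠ s in 𝓝 s₀, s ∈ D → m * conj (E s) = G (Z s₀) := by
    intro s₀ hs₀
    have ht := g3_tend (hne _ (hZK s₀ hs₀))
    have h1 := ht.eventually (hop.mem_nhds (hZK s₀ hs₀))
    have h2 := ht.eventually (hL _ (hZK s₀ hs₀))
    have h3 := h1.and h2
    rw [hZ s₀ hs₀] at h3
    filter_upwards [h3] with s hs hsD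
    rw [← hs.2]
    refine (hv s hsD _ ?_ hs.1).symm
    have := g3_norm (hne _ (hZK s₀ hs₀)) (hpos s hsD)
    rwa [hZ s₀ hs₀] at this
  have hc : ∀ s₀ ∈ Ioi (0 : ℝ), ∀ s₁ ∈ Ioi (0 : ℝ), G (Z s₀) = G (Z s₁) := by
    intro s₀ hs₀ s₁ hs₁
    refine isPreconnected_Ioi.induction₂' (fun a b => G (Z a) = G (Z b)) ?_
      (fun a b c _ _ _ h₁ h₂ => h₁.trans h₂) hs₀ hs₁
    intro a ha
    filter_upwards [nhdsWithin_le_nhds (hk a ha).eventually_nhds, self_mem_nhdsWithin] with b h₁ hb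
    obtain ⟨s, hs, h₂, h₃⟩ := ((hD b hb).and_eventually (h₁.and (hk b hb))).exists
    have := (h₂ hs).symm.trans (h₃ hs)
    exact ⟨this, this.symm⟩
  refine ⟨conj (G (Z 1) / m), fun s hs => ?_⟩
  have h1 := (hk s (hpos s hs)).self_of_nhds hs
  rw [hc s (hpos s hs) 1 (mem_Ioi.2 one_pos)] at h1
  have hm' : (m : ℂ) ≠ 0 := Complex.ofReal_ne_zero.2 hm.ne'
  rw [← h1, mul_div_cancel_left₀ _ hm', Complex.conj_conj]

theorem g3_fin (h : Pre univ u K) (s : ℝ) : μH[1] (K ∩ ball 0 s) ≠ ⊤ :=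
  ne_top_of_le_ne_top (h.2.2.2 0 s (subset_univ _)).2
    (measure_mono (inter_subset_inter_right _ ball_subset_closedBall))

theorem g3_sph (h : Pre univ u K) {s₀ : ℝ} (h0 : 0 < s₀) (h1 : s₀ < s) (h2 : s < 2 * s₀)
    (hL : Lr K 0 s ≤ s) : ∃ z, ‖z‖ = s₀ ∧ z ∉ K := by
  by_contra hcon
  push Not at hcon
  have hsub : sphere (0 : ℂ) s₀ ⊆ K ∩ ball 0 s := by
    intro z hz
    rw [mem_sphere_zero_iff_norm] at hz
    exact ⟨hcon z hz, by rw [mem_ball_zero_iff, hz]; exact h1⟩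
  have hp : ((s₀ : ℝ) : ℂ) ∈ sphere (0 : ℂ) s₀ := by
    rw [mem_sphere_zero_iff_norm, Complex.norm_real, Real.norm_eq_abs, abs_of_pos h0]
  have hq : -((s₀ : ℝ) : ℂ) ∈ sphere (0 : ℂ) s₀ := by
    rw [mem_sphere_zero_iff_norm, norm_neg, Complex.norm_real, Real.norm_eq_abs, abs_of_pos h0]
  have h3 := (dist_le_len (isPreconnected_sphere (by simp) (0 : ℂ) s₀) hp hq).trans
    (measure_mono hsub)
  rw [ENNReal.ofReal_le_iff_le_toReal (g3_fin h s), sub_neg_eq_add, ← Complex.ofReal_add,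
    Complex.norm_real, Real.norm_eq_abs, abs_of_pos (by linarith)] at h3
  unfold Lr at hL
  linarith

theorem g3_mem (he : ‖e‖ = 1) : z ∈ star 1 0 e ↔ z = ‖z‖ * e := by
  constructor
  · rintro ⟨k, hk, t, ht, rfl⟩
    obtain rfl : k = 0 := by omega
    rw [dir_zero, zero_add, norm_mul, he, mul_one, Complex.norm_real, Real.norm_eq_abs,
      abs_of_nonneg ht]
  · intro h
    exact ⟨0, one_pos, ‖z‖, norm_nonneg _, by rw [dir_zero, zero_add]; exact h⟩

theorem g3_sub (h : MM univ 0 u K π₀) (he : ‖e‖ = 1) (hR : star 1 0 e ⊆ K)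
    (hL : ∀ R, ∃ s, R < s ∧ Lr K 0 s ≤ s) : K ⊆ star 1 0 e := by
  intro z hz
  by_contra hcon
  obtain ⟨r, hr, hb⟩ := Metric.isOpen_iff.1 (star_closed 1 0 e).isOpen_compl z hcon
  have h1 := h.2.2.1 z hz (mem_univ _) r hr
  obtain ⟨s, hs, hLs⟩ := hL (‖z‖ + r)
  have hs0 : 0 ≤ s := by linarith [norm_nonneg z]
  have h2 := (star_len he (by norm_num : 1 ≤ 3) 0 hs0).1
  have hbb : ball z r ⊆ ball 0 s := ball_subset_ball' (by rw [dist_zero_right]; linarith)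
  have hsub : K ∩ ball z r ∪ star 1 0 e ∩ ball 0 s ⊆ K ∩ ball 0 s :=
    union_subset (inter_subset_inter_right _ hbb) (inter_subset_inter_left _ hR)
  have hdis : Disjoint (K ∩ ball z r) (star 1 0 e ∩ ball 0 s) :=
    Set.disjoint_left.2 fun w hw hw' => hb hw.2 hw'.1
  have hfin := g3_fin h.pre s
  have h3 := measure_mono (μ := (μH[1] : Measure ℂ)) hsub
  rw [measure_union hdis ((star_closed 1 0 e).measurableSet.inter measurableSet_ball)] at h3
  have f1 : μH[1] (K ∩ ball z r) ≠ ⊤ := ne_top_of_le_ne_top hfin (le_self_add.trans h3)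
  have f2 : μH[1] (star 1 0 e ∩ ball 0 s) ≠ ⊤ := ne_top_of_le_ne_top hfin (le_add_self.trans h3)
  have h4 := ENNReal.toReal_mono hfin h3
  rw [ENNReal.toReal_add f1 f2] at h4
  have h5 := ENNReal.toReal_pos h1.ne' f1
  unfold Lr at h2 hLs
  rw [Nat.cast_one, one_mul] at h2
  linarith

theorem g3_iv (h : MM univ 0 u K π₀) (he : ‖e‖ = 1) (hK : K = star 1 0 e) :
    ∀ᵐ s : ℝ, s ∈ Ioc (1 : ℝ) 2 → Zc u K 0 s * e = 1 := by
  obtain ⟨C, -, hC⟩ := iv
  have hR : Rad K 0 1 (2 * 1) (fun s : ℝ => (s : ℂ) * e) (fun _ => e) := by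
    refine ⟨continuousOn_const, fun s hs => ⟨?_, ?_, by rw [he]; norm_num⟩⟩
    · have hs0 : 0 < s := by linarith [hs.1]
      ext z
      rw [mem_inter_iff, hK, g3_mem he, mem_sphere_zero_iff_norm, mem_singleton_iff]
      constructor
      · rintro ⟨h₁, h₂⟩
        rw [← h₂]
        exact h₁
      · intro h₁
        have h₂ : ‖z‖ = s := by
          rw [h₁, norm_mul, he, mul_one, Complex.norm_real, Real.norm_eq_abs, abs_of_pos hs0]
        exact ⟨by rw [h₂]; exact h₁, h₂⟩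
    · have := (Complex.ofRealCLM.hasDerivAt (x := s)).mul_const e
      simpa using this
  obtain ⟨h1, h2⟩ := hC h one_pos (subset_univ _) (by norm_num) hR
  rw [zero_mul, Real.sqrt_zero, mul_zero, mul_one] at h2
  rw [mul_one] at h1
  have h3 := le_antisymm h2 (intervalIntegral.integral_nonneg one_le_two fun _ _ => norm_nonneg _)
  rw [intervalIntegral.integral_eq_zero_iff_of_le_of_nonneg_ae one_le_two
    (Eventually.of_forall fun _ => norm_nonneg _) h1.norm] at h3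
  have h4 := (ae_restrict_iff' measurableSet_Ioc).1 h3
  filter_upwards [h4] with s hs hs'
  have h5 := norm_eq_zero.1 (hs hs')
  unfold Yv at h5
  rw [he, Complex.ofReal_one, div_one, sub_eq_zero] at h5
  have h5' : e = conj (Zc u K 0 s) := h5
  have h6 : Zc u K 0 s = conj e := by
    have := congrArg conj h5'
    rwa [Complex.conj_conj, eq_comm] at this
  rw [h6, mul_comm, Complex.mul_conj, Complex.normSq_eq_norm_sq, he]
  simp

theorem g3 (h : MM univ 0 u K π₀) (hc : CC K) (hd : 0 < d)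
    (hD : ∀ s, 0 < s → Dr u K 0 s = d * s) :
    d = 1 ∧ (∃ e, ‖e‖ = 1 ∧ K = star 1 0 e) ∧ ∀ z ∉ K, ‖∇ u z‖ ^ 2 = 1 / (2 * π * ‖z‖) := by
  have hae := g3a h hc hd hD
  have hK : IsClosed K := h.pre.2.1
  have hm : 0 < d / (2 * π) := by positivity
  set D : Set ℝ := {s | 0 < s ∧ Lr K 0 s ≤ s ∧ ∃ α : ℝ, K ∩ sphere 0 s = {circleMap 0 s α} ∧
    (Zc u K 0 s * ex α).re = d ∧
    ∀ z ∈ sphere (0 : ℂ) s \ K, z * conj (∇ u z) ^ 2 = (d / (2 * π) : ℝ) * conj (ex α)} with hDdef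
  have hae' : ∀ᵐ s : ℝ, 0 < s → s ∈ D := by
    filter_upwards [hae] with s hs h0 using ⟨h0, hs h0⟩
  have hfr : ∀ s₀, 0 < s₀ → ∃ᶠ s in 𝓝 s₀, s ∈ D := by
    intro s₀ hs₀
    have h1 := mem_closure_iff_frequently.1 (Measure.dense_of_ae hae' s₀)
    exact (h1.and_eventually (lt_mem_nhds hs₀)).mono fun s hs => hs.1 hs.2
  have hex : ∀ a b : ℝ, 0 ≤ a → a < b → ∃ s ∈ D, a < s ∧ s < b := by
    intro a b ha hab
    obtain ⟨s, hs, hs'⟩ := ((hfr ((a + b) / 2) (by linarith)).and_eventually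
      (Ioo_mem_nhds (by linarith : a < (a + b) / 2) (by linarith : (a + b) / 2 < b))).exists
    exact ⟨s, hs, hs'⟩
  have hDα : ∀ s ∈ D, ∃ α : ℝ, K ∩ sphere 0 s = {circleMap 0 s α} ∧
      (Zc u K 0 s * ex α).re = d ∧
      ∀ z ∈ sphere (0 : ℂ) s \ K, z * conj (∇ u z) ^ 2 = (d / (2 * π) : ℝ) * conj (ex α) :=
    fun s hs => hs.2.2
  choose! α hα₁ hα₂ hα₃ using hDα
  have hmem : ∀ s ∈ D, (s : ℂ) * ex (α s) ∈ K := by
    intro s hs
    have h1 : circleMap 0 s (α s) ∈ K ∩ sphere 0 s := by rw [hα₁ s hs]; exact mem_singleton _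
    rw [circleMap_ex, zero_add] at h1
    exact h1.1
  have h0 : (0 : ℂ) ∈ K := by
    rw [← hK.closure_eq, Metric.mem_closure_iff]
    intro ε hε
    obtain ⟨s, hs, h1, h2⟩ := hex 0 ε le_rfl hε
    refine ⟨_, hmem s hs, ?_⟩
    rw [dist_zero_left, norm_mul, ex_norm, mul_one, Complex.norm_real, Real.norm_eq_abs,
      abs_of_pos h1]
    exact h2
  have hG : DifferentiableOn ℂ (fun z => z * conj (∇ u z) ^ 2) Kᶜ :=
    differentiableOn_id.mul ((hol h.1).pow 2)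
  obtain ⟨hN, e, hE⟩ := g3_rad (D := D) (E := fun s => ex (α s)) hK hm h0 hfr (fun s hs => hs.1)
    (fun s _ => ex_norm _) hG
    (fun s hs z hz hzK => hα₃ s hs z ⟨mem_sphere_zero_iff_norm.2 hz, hzK⟩) (fun s₀ hs₀ => by
      obtain ⟨s, hs, h1, h2⟩ := hex s₀ (2 * s₀) hs₀.le (by linarith)
      exact g3_sph h.pre hs₀ h1 h2 hs.2.1)
  have he : ‖e‖ = 1 := by
    obtain ⟨s, hs, -⟩ := hex 0 1 le_rfl one_pos
    rw [← hE s hs, ex_norm]
  have hR : star 1 0 e ⊆ K := by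
    intro z hz
    rw [g3_mem he] at hz
    rcases (norm_nonneg z).eq_or_lt with h1 | h1
    · rw [norm_eq_zero.1 h1.symm]
      exact h0
    · have hc : Continuous (fun s : ℝ => (s : ℂ) * e) := by fun_prop
      rw [hz]
      refine hK.mem_of_frequently_of_tendsto ((hfr _ h1).mono fun s hs => ?_) (hc.tendsto ‖z‖)
      rw [← hE s hs]
      exact hmem s hs
  have hKe : K = star 1 0 e := by
    refine Subset.antisymm (g3_sub h he hR fun R => ?_) hR
    obtain ⟨s, hs, h1, -⟩ := hex |R| (|R| + 1) (abs_nonneg R) (by linarith)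
    exact ⟨s, (le_abs_self R).trans_lt h1, hs.2.1⟩
  have hd1 : d = 1 := by
    have h1 := (ae_restrict_iff' (μ := volume) (measurableSet_Ioc (a := (1 : ℝ)) (b := 2))).2
      ((hae'.and (g3_iv h he hKe)).mono fun s hs hs' =>
        (⟨hs.1 (by linarith [hs'.1]), hs.2 hs'⟩ : s ∈ D ∧ Zc u K 0 s * e = 1))
    have hne : (volume.restrict (Ioc (1 : ℝ) 2)) ≠ 0 := by
      rw [Ne, Measure.restrict_eq_zero, Real.volume_Ioc]
      norm_num
    haveI := ae_neBot.2 hne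
    obtain ⟨s, hs, h2⟩ := h1.exists
    rw [← hα₂ s hs, hE s hs, h2, Complex.one_re]
  refine ⟨hd1, ⟨e, he, hKe⟩, fun z hz => ?_⟩
  have h1 := hN z hz
  have h2 : 0 < ‖z‖ := norm_pos_iff.2 fun h' => hz (h' ▸ h0)
  rw [norm_mul, norm_pow, Complex.norm_conj, hd1] at h1
  rw [← div_div, ← h1, mul_div_cancel_left₀ _ h2.ne']

end Vale.Agent.P128
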