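import Vale.Agent.P128.BlowA
import Vale.Agent.P128.G3

/-!
# P128 BlowB

Blow-up limits. Take `d` from `blowA`. Every blow-up limit (`sq_scale`, `cpt`) contains `0` and has
`Dr u₀ K₀ 0 s = d s`. If `d > 0` put `n = 1` and use `g1`, `g3` (apply it to one sequence to get `d = 1`);
`Dr u₀ K₀ y κ ≤ π κ² / (2π (1 - κ)) ≤ κ²`. If `d = 0` use `gK_zero`, `g2`, `cv_len`, `mdl_hom`; `n` is the
density `l`.
-/

namespace Vale.Agent.P128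

open Set Metric MeasureTheory Filter Topology Complex
open scoped ENNReal ContDiff RealInnerProductSpace Gradient Real ComplexConjugate

variable {Ω K L A S T U O X Γ P M₀ K₀ K₁ : Set ℂ} {u v w g hh ψ η : ℂ → ℝ} {G : ℂ → ℂ}
  {π₀ π₁ : ℂ → Set ℂ} {x y z c p q e a₀ F : ℂ} {lam H r s R a b t M Θ ρ ε δ d : ℝ} {n : ℕ}

theorem blowb_seq {f : ℝ → ℝ} (hf : Tendsto (fun r => f r / r) (𝓝[>] 0) (𝓝 d)) {r : ℕ → ℝ}
    (h0 : ∀ j, 0 < r j) (hr : Tendsto r atTop (𝓝 0)) (hs : 0 < s) :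
    Tendsto (fun j => f (r j * s) / r j) atTop (𝓝 (d * s)) := by
  have h1 : Tendsto (fun j => r j * s) atTop (𝓝[>] 0) :=
    tendsto_nhdsWithin_iff.2 ⟨by simpa using hr.mul_const s,
      Eventually.of_forall fun j => mul_pos (h0 j) hs⟩
  refine ((hf.comp h1).mul_const s).congr fun j => ?_
  have := h0 j
  simp only [Function.comp]
  field_simp

theorem blowb_norm (hr : 0 < r) : ‖(r : ℂ)‖ = r := by
  rw [Complex.norm_real, Real.norm_of_nonneg hr.le]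

theorem blowb_Dr (hr : 0 < r) (x y : ℂ) (u : ℂ → ℝ) (K : Set ℂ) (s : ℝ) :
    Dr (su x r u) (sc x r K) y s = Dr u K (x + r * y) (r * s) / r := by
  rw [Dr_scale (by exact_mod_cast hr.ne'), blowb_norm hr]

theorem blowb_Lr (hr : 0 < r) (x y : ℂ) (K : Set ℂ) (s : ℝ) :
    Lr (sc x r K) y s = Lr K (x + r * y) (r * s) / r := by
  rw [Lr_scale (by exact_mod_cast hr.ne'), blowb_norm hr]

theorem blowb_lim (h : MM Ω lam u K π₀) (hx : x ∈ K) (hΩ : x ∈ Ω)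
    (hd : Tendsto (fun r => Dr u K x r / r) (𝓝[>] 0) (𝓝 d)) {r : ℕ → ℝ} (h0 : ∀ j, 0 < r j)
    (hr : Tendsto r atTop (𝓝 0)) : ∃ φ : ℕ → ℕ, StrictMono φ ∧ ∃ u₀ K₀,
      MM univ 0 u₀ K₀ (cc K₀) ∧ Cv (fun j => su x (r (φ j)) u) (fun j => sc x (r (φ j)) K) u₀ K₀ ∧
      0 ∈ K₀ ∧ ∀ s, 0 < s → Dr u₀ K₀ 0 s = d * s := by
  obtain ⟨δ, hδ, hb⟩ := nhds_basis_closedBall.mem_iff.1 (h.pre.1.mem_nhds hΩ)
  have h1 : Tendsto r atTop (𝓝[>] 0) := tendsto_nhdsWithin_iff.2 ⟨hr, Eventually.of_forall h0⟩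
  have hS := sq_scale (Ω := fun _ => Ω) (lam := fun _ => lam) (u := fun _ => u) (K := fun _ => K)
    (π₀ := fun _ => π₀) (fun _ => h) (x := fun _ => x) (T := fun j => δ * (r j)⁻¹) h0
    ((tendsto_inv_nhdsGT_zero.comp h1).const_mul_atTop hδ)
    (Eventually.of_forall fun j => by rwa [inv_mul_cancel_right₀ (h0 j).ne'])
    (by simpa using hr.const_mul lam)
  obtain ⟨φ, hφ, u₀, K₀, hM, hC⟩ := cpt hS
  refine ⟨φ, hφ, u₀, K₀, hM, hC, hC.1.mem hM.pre.2.1 (y := fun _ => 0)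
    (Eventually.of_forall fun j => by simpa [sc] using hx) tendsto_const_nhds, fun s hs => ?_⟩
  refine tendsto_nhds_unique (hC.2.1 0 s)
    ((blowb_seq hd (fun j => h0 (φ j)) (hr.comp hφ.tendsto_atTop) hs).congr fun j => ?_)
  rw [blowb_Dr (h0 _), mul_zero, add_zero]

theorem blowb_tip {κ : ℝ} (hK : IsClosed K) (h : ∀ z ∉ K, ‖∇ u z‖ ^ 2 = 1 / (2 * π * ‖z‖))
    (hy : ‖y‖ = 1) (h0 : 0 < κ) (h1 : κ ≤ 1 / 2) : Dr u K y κ ≤ κ ^ 2 := by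
  have hπ := Real.pi_pos
  rw [Dr_eq hK]
  refine ((Real.le_norm_self _).trans (norm_setIntegral_le_of_norm_le_const (C := 1 / π)
    measure_ball_lt_top fun z hz => ?_)).trans_eq ?_
  · rw [Real.norm_of_nonneg (sq_nonneg _)]
    by_cases hz' : z ∈ K
    · rw [gK_of_mem u hz', norm_zero, zero_pow two_ne_zero]
      positivity
    · have h2 := norm_sub_norm_le y z
      rw [mem_ball, dist_comm, dist_eq_norm] at hz
      rw [gK_of_notMem u hz', h z hz']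
      exact one_div_le_one_div_of_le hπ (by nlinarith)
  · rw [Measure.real, Complex.volume_ball, ENNReal.toReal_mul, ENNReal.toReal_pow,
      ENNReal.toReal_ofReal h0.le, ENNReal.coe_toReal, NNReal.coe_real_pi]
    field_simp

theorem blowB (h : MM Ω lam u K π₀) (hx : x ∈ K) (hΩ : x ∈ Ω) :
    ∃ n : ℕ, (n = 1 ∨ n = 2 ∨ n = 3) ∧
      Tendsto (fun r => Dr u K x r / r) (𝓝[>] 0) (𝓝 (if n = 1 then 1 else 0)) ∧
      ∀ r : ℕ → ℝ, (∀ j, 0 < r j) → Tendsto r atTop (𝓝 0) →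
        ∃ φ : ℕ → ℕ, StrictMono φ ∧ ∃ (u₀ : ℂ → ℝ) (e : ℂ), ‖e‖ = 1 ∧
          Cv (fun j => su x (r (φ j)) u) (fun j => sc x (r (φ j)) K) u₀ (star n 0 e) ∧
          ∀ y : ℂ, ‖y‖ = 1 → ∀ κ, 0 < κ → κ ≤ 1 / 2 → Dr u₀ (star n 0 e) y κ ≤ κ ^ 2 := by
  obtain ⟨d, d0, hd, hl⟩ := blowA h hx hΩ
  have p0 : ∀ j : ℕ, 0 < 1 / ((j : ℝ) + 1) := fun j => Nat.one_div_pos_of_nat
  have p1 := tendsto_one_div_add_atTop_nhds_zero_nat (𝕜 := ℝ)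
  rcases d0.lt_or_eq with d0 | rfl
  · obtain ⟨-, -, _, _, hM, -, -, hD⟩ := blowb_lim h hx hΩ hd p0 p1
    refine ⟨1, Or.inl rfl, by rwa [if_pos rfl, ← (g3 hM (g1 hM) d0 hD).1], fun r h0 hr => ?_⟩
    obtain ⟨φ, hφ, u₀, K₀, hM, hC, -, hD⟩ := blowb_lim h hx hΩ hd h0 hr
    obtain ⟨-, ⟨e, he, rfl⟩, hg⟩ := g3 hM (g1 hM) d0 hD
    exact ⟨φ, hφ, u₀, e, he, hC, fun y hy κ k0 k1 => blowb_tip hM.pre.2.1 hg hy k0 k1⟩
  obtain ⟨l, hl⟩ := hl rfl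
  have key : ∀ r : ℕ → ℝ, (∀ j, 0 < r j) → Tendsto r atTop (𝓝 0) → ∃ n : ℕ, (n = 2 ∨ n = 3) ∧
      l = n ∧ ∃ φ : ℕ → ℕ, StrictMono φ ∧ ∃ (u₀ : ℂ → ℝ) (e : ℂ), ‖e‖ = 1 ∧
        Cv (fun j => su x (r (φ j)) u) (fun j => sc x (r (φ j)) K) u₀ (star n 0 e) ∧
        ∀ y : ℂ, ‖y‖ = 1 → ∀ κ, 0 < κ → κ ≤ 1 / 2 → Dr u₀ (star n 0 e) y κ ≤ κ ^ 2 := by
    intro r h0 hr
    obtain ⟨φ, hφ, u₀, K₀, hM, hC, hz, hD⟩ := blowb_lim h hx hΩ hd h0 hr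
    have hg := gK_zero hM.pre fun s hs => (hD s hs).trans (zero_mul s)
    obtain ⟨n, e, hn, he, hln, rfl⟩ := mdl_hom (g2 hM hg ⟨0, hz⟩) hz fun s hs =>
      cv_len hC (fun s => (hM.pre.2.2.2 0 s (subset_univ _)).2) (fun s hs =>
        (blowb_seq hl (fun j => h0 (φ j)) (hr.comp hφ.tendsto_atTop) hs).congr fun j => by
          rw [blowb_Lr (h0 _), mul_zero, add_zero]) hs
    refine ⟨n, hn, hln, φ, hφ, u₀, e, he, hC, fun y _ κ _ _ => ?_⟩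
    rw [Dr_eq hM.pre.2.1]
    simp only [hg, norm_zero, zero_pow two_ne_zero, integral_zero]
    positivity
  obtain ⟨n, hn, hln, -⟩ := key _ p0 p1
  refine ⟨n, Or.inr hn, by rwa [if_neg (by omega)], fun r h0 hr => ?_⟩
  obtain ⟨m, -, hm, H⟩ := key r h0 hr
  obtain rfl : n = m := by exact_mod_cast hln.symm.trans hm
  exact H

end Vale.Agent.P128
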