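import Vale.Agent.P128.BonA

/-!
# P128 Bon

Bonnet inequality with errors. `flux`: add `green_in` for `ζi` and `green_out` for `ζo` (`par`);
`ζi - ζo` is a constant `±1` on the arc and `0` on the rest of the circle off `K` (`un = 0` on `K`).
`ident`: `green_in` with `tr M ∘ u`, `M ≥` the bound of `circ_bdd`; `grad_tr`; `|hh * tr M u| ≤ lam`;
`M → ∞` by dominated convergence. `bon`: `∫ u un = ∫ (u - m) un + ∑ m_k flux_k` (`arc_mean`, `Gaps.sum`),
`H |m_k| ≤ lam`, `cs_int`. `bon0`, `bon1`: total flux from `green_in` with `ψ = 1`; `wir_per`.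
-/

namespace Vale.Agent.P128

open Set Metric MeasureTheory Filter Topology Complex
open scoped ENNReal ContDiff RealInnerProductSpace Gradient Real ComplexConjugate

variable {Ω K L A S T U O X Γ P M₀ K₀ K₁ : Set ℂ} {u v w g hh ψ η : ℂ → ℝ} {G : ℂ → ℂ}
  {π₀ π₁ : ℂ → Set ℂ} {x y z c p q e a₀ F : ℂ} {lam H r s R a b t M Θ ρ ε δ d : ℝ} {n : ℕ}

theorem bon_uint (h : Pre Ω u K) (hb : sphere x s ⊆ Ω) (hg : Good u K x s) (a b : ℝ) :
    IntervalIntegrable (fun θ => u (circleMap x s θ) * un u K x s θ) volume a b := by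
  obtain ⟨M, -, hM⟩ := circ_bdd h hb hg
  have hsp : ∀ θ, circleMap x s θ ∈ sphere x s := fun θ => circleMap_mem_sphere x hg.1.le θ
  have hae := ae_notMem hg.1 hg.2.1
  have hO : IsOpen {θ : ℝ | circleMap x s θ ∉ K} :=
    h.2.1.isOpen_compl.preimage (continuous_circleMap x s)
  have hc : ContinuousOn (fun θ => u (circleMap x s θ)) {θ : ℝ | circleMap x s θ ∉ K} :=
    fun θ hθ => (circ_deriv h ⟨hb (hsp θ), hθ⟩).continuousAt.continuousWithinAt
  have hm : AEStronglyMeasurable (fun θ => u (circleMap x s θ)) volume := by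
    have h1 := hc.aestronglyMeasurable (μ := volume) hO.measurableSet
    rwa [Measure.restrict_eq_self_of_ae_mem (s := {θ : ℝ | circleMap x s θ ∉ K}) hae] at h1
  have hi := (hg.int h.2.1 a b).2.1
  rw [intervalIntegrable_iff] at hi ⊢
  refine Integrable.bdd_mul (c := M) hi hm.restrict (ae_restrict_of_ae ?_)
  filter_upwards [hae] with θ hθ
  exact hM _ ⟨hsp θ, hθ⟩

theorem bon_tot (h : NH Ω u K hh H) (hb : closedBall x s ⊆ Ω) (hg : Good u K x s) :
    |∫ θ in (0 : ℝ)..2 * π, un u K x s θ| ≤ H * (π * s ^ 2) := by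
  have h0 : gK K (fun _ => (1 : ℝ)) = fun _ => 0 := by
    funext z
    by_cases hz : z ∈ K
    · exact gK_of_mem _ hz
    · rw [gK_of_notMem _ hz]; simp
  have hH : 0 ≤ H := (abs_nonneg _).trans (h.2.2.1 0)
  have h1 := green_in (ψ := fun _ => 1) (M := 1) h hb hg
    (LC.lip fun _ _ => Eventually.of_forall fun _ => rfl) (fun _ _ => by simp)
    (by simp [Dn, h0])
  simp only [h0, inner_zero_right, integral_zero, zero_add, mul_one, one_mul] at h1
  rw [← h1]
  have hv : volume (ball x s) < ⊤ := measure_ball_lt_top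
  have h2 := norm_setIntegral_le_of_norm_le_const (μ := volume) (s := ball x s \ K) (f := hh) (C := H)
    ((measure_mono sdiff_subset).trans_lt hv) fun z _ => h.2.2.1 z
  refine h2.trans (mul_le_mul_of_nonneg_left ?_ hH)
  have h3 : volume.real (ball x s \ K) ≤ volume.real (ball x s) :=
    measureReal_mono sdiff_subset hv.ne
  refine h3.trans (le_of_eq ?_)
  rw [Measure.real, Complex.volume_ball]
  simp [hg.1.le, mul_comm]

theorem bon_mH {m : ℝ} (hlam : 0 ≤ lam) (hH : 0 ≤ H) (hu : ∀ z ∈ Ω \ K, H * |u z| ≤ lam)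
    (hb : sphere x s ⊆ Ω) (hm : ∀ B, (∀ z ∈ sphere x s \ K, |u z| ≤ B) → |m| ≤ B) :
    |m| * H ≤ lam := by
  rcases hH.eq_or_lt with h0 | h0
  · rw [← h0, mul_zero]; exact hlam
  · rw [← le_div_iff₀ h0]
    refine hm _ fun z hz => ?_
    rw [le_div_iff₀ h0, mul_comm]
    exact hu z ⟨hb hz.1, hz.2⟩

theorem bon_core (h : NP Ω lam u K) (hb : closedBall x s ⊆ Ω) (hg : Good u K x s)
    (ha : FreeArc K x s a (a + 2 * π)) :
    |Dr u K x s - ∫ θ in a..a + 2 * π,
      (u (circleMap x s θ) - av (fun θ => u (circleMap x s θ)) a (a + 2 * π)) * un u K x s θ| ≤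
        2 * lam * (π * s ^ 2) := by
  have hid := ident h hb hg
  obtain ⟨hlam, hh, H, hN, -, hu⟩ := h
  have hP := hN.1
  have hH : 0 ≤ H := (abs_nonneg _).trans (hN.2.2.1 0)
  have hsp : sphere x s ⊆ Ω := sphere_subset_closedBall.trans hb
  have hpr := arc_prim hP hsp hg ha
  obtain ⟨m, hm⟩ : ∃ m, m = av (fun θ => u (circleMap x s θ)) a (a + 2 * π) := ⟨_, rfl⟩
  rw [← hm]
  have hmH : |m| * H ≤ lam := bon_mH hlam hH hu hsp fun B hB => by
    rw [hm]
    exact hpr.av_le fun t ht => hB _ ⟨circleMap_mem_sphere x hg.1.le t, ha.2.2 t ht⟩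
  have hper := (ut_per u K x s).2
  have hper' : Function.Periodic (fun θ => u (circleMap x s θ) * un u K x s θ) (2 * π) := by
    intro θ
    simp only [periodic_circleMap x s θ, hper θ]
  have e1 := hper'.intervalIntegral_add_eq a 0
  have e2 := hper.intervalIntegral_add_eq a 0
  rw [zero_add] at e1 e2
  have e3 : ∫ θ in a..a + 2 * π, (u (circleMap x s θ) - m) * un u K x s θ =
      (∫ θ in (0 : ℝ)..2 * π, u (circleMap x s θ) * un u K x s θ) -
        m * ∫ θ in (0 : ℝ)..2 * π, un u K x s θ := by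
    rw [← e1, ← e2, ← intervalIntegral.integral_const_mul,
      ← intervalIntegral.integral_sub (bon_uint hP hsp hg _ _)
        ((hg.int hP.2.1 _ _).2.1.const_mul m)]
    simp only [sub_mul]
  have h1 := bon_tot hN hb hg
  have h2 : |m * ∫ θ in (0 : ℝ)..2 * π, un u K x s θ| ≤ lam * (π * s ^ 2) := by
    rw [abs_mul]
    refine (mul_le_mul_of_nonneg_left h1 (abs_nonneg m)).trans ?_
    rw [← mul_assoc]
    exact mul_le_mul_of_nonneg_right hmH (by positivity)
  rw [e3]
  rw [abs_le] at hid h2 ⊢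
  constructor <;> linarith [hid.1, hid.2, h2.1, h2.2]

theorem bon (h : NP Ω lam u K) (hb : closedBall x R ⊆ Ω) (hg : Good u K x s)
    (hn : (K ∩ sphere x s).Nonempty)
    (hj : ∀ p ∈ K ∩ sphere x s, ∀ q ∈ K ∩ sphere x s, Join K (closedBall x R) p q)
    (hΘ : MaxGap K x s Θ) :
    Dr u K x s ≤ Θ / π * √(A2 u K x s * B2 u K x s) + lam * (π * R ^ 2) * (Nn K x s + 1) := by
  have hs := hg.1
  have hsR : s ≤ R := by
    obtain ⟨p, hp⟩ := hn
    obtain ⟨Γ, -, -, h1, h2, -⟩ := hj p hp p hp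
    have h3 := (h1 h2).2
    rw [mem_closedBall, mem_sphere.1 hp.2] at h3
    exact h3
  have hb' : closedBall x s ⊆ Ω := (closedBall_subset_closedBall hsR).trans hb
  have hid := ident h hb' hg
  obtain ⟨hlam, hh, H, hN, -, hu⟩ := h
  have hP := hN.1
  have hH : 0 ≤ H := (abs_nonneg _).trans (hN.2.2.1 0)
  have hsp : sphere x s ⊆ Ω := sphere_subset_closedBall.trans hb'
  have hci : ∀ θ, circleMap x s θ ∈ sphere x s := fun θ => circleMap_mem_sphere x hs.le θ
  obtain ⟨m, hLC, hmB, hi1, hi2, hW⟩ := arc_mean hP hsp hg hn hΘ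
  obtain ⟨α, hα⟩ := gaps_ex hs hg.2.1 hn
  have h2π : (0 : ℝ) ≤ 2 * π := by positivity
  obtain ⟨-, hun, -, hun2⟩ := hg.int hP.2.1 0 (2 * π)
  obtain ⟨hI, hCS⟩ := cs_int h2π hi2 hun2
    ((intervalIntegrable_iff_integrableOn_Ioc_of_le h2π).1 hi1).1
    ((intervalIntegrable_iff_integrableOn_Ioc_of_le h2π).1 hun).1
  have hU := bon_uint hP hsp hg 0 (2 * π)
  have hM : IntervalIntegrable (fun θ => m (circleMap x s θ) * un u K x s θ) volume 0 (2 * π) := by
    refine (hU.sub hI).congr_ae (Eventually.of_forall fun θ => ?_)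
    simp only
    ring
  have hper := (ut_per u K x s).2
  have hper' : Function.Periodic (fun θ => m (circleMap x s θ) * un u K x s θ) (2 * π) := by
    intro θ
    simp only [periodic_circleMap x s θ, hper θ]
  have hR2 : 0 ≤ π * R ^ 2 := by positivity
  have hk : ∀ k ∈ Finset.range (Nn K x s),
      ∫ θ in α k..α (k + 1), m (circleMap x s θ) * un u K x s θ ≤ lam * (π * R ^ 2) := by
    intro k hk
    rw [Finset.mem_range] at hk
    have hF := hα.2.2.2 k hk
    have hlt := hF.1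
    have hmid : (α k + α (k + 1)) / 2 ∈ Ioo (α k) (α (k + 1)) := ⟨by linarith, by linarith⟩
    have hsub : circleMap x s '' Ioo (α k) (α (k + 1)) ⊆ sphere x s \ K := by
      rintro _ ⟨t, ht, rfl⟩
      exact ⟨hci t, hF.2.2 t ht⟩
    have hpc : IsPreconnected (circleMap x s '' Ioo (α k) (α (k + 1))) :=
      isPreconnected_Ioo.image _ (continuous_circleMap x s).continuousOn
    obtain ⟨μ, hμ⟩ : ∃ μ, μ = m (circleMap x s ((α k + α (k + 1)) / 2)) := ⟨_, rfl⟩
    have e1 : ∫ θ in α k..α (k + 1), m (circleMap x s θ) * un u K x s θ =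
        μ * ∫ θ in α k..α (k + 1), un u K x s θ := by
      rw [← intervalIntegral.integral_const_mul]
      refine intervalIntegral.integral_congr_ae ?_
      have h2 : ∀ᵐ t : ℝ, t ≠ α (k + 1) := by simp [ae_iff]
      filter_upwards [h2] with t ht hI
      rw [uIoc_of_le hlt.le] at hI
      rw [hμ, hLC.eq hsub hpc ⟨t, ⟨hI.1, lt_of_le_of_ne hI.2 ht⟩, rfl⟩ ⟨_, hmid, rfl⟩]
    have hfl := flux hN hb hg hF
      (hj _ ⟨hα.2.2.1 k hk.le, hci _⟩ _ ⟨hα.2.2.1 (k + 1) hk, hci _⟩)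
    have hμH : |μ| * H ≤ lam := bon_mH hlam hH hu hsp fun B hB => by
      rw [hμ]
      exact hmB B hB _ (hsub ⟨_, hmid, rfl⟩)
    rw [e1]
    refine (le_abs_self _).trans ?_
    rw [abs_mul]
    refine (mul_le_mul_of_nonneg_left hfl (abs_nonneg μ)).trans ?_
    rw [← mul_assoc]
    exact mul_le_mul_of_nonneg_right hμH hR2
  have hsum : ∫ θ in (0 : ℝ)..2 * π, m (circleMap x s θ) * un u K x s θ ≤
      Nn K x s * (lam * (π * R ^ 2)) := by
    rw [hα.sum hper' hM]
    refine (Finset.sum_le_sum hk).trans (le_of_eq ?_)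
    simp
  have e2 : ∫ θ in (0 : ℝ)..2 * π, u (circleMap x s θ) * un u K x s θ =
      (∫ θ in (0 : ℝ)..2 * π, (u (circleMap x s θ) - m (circleMap x s θ)) * un u K x s θ) +
        ∫ θ in (0 : ℝ)..2 * π, m (circleMap x s θ) * un u K x s θ := by
    rw [← intervalIntegral.integral_add hI hM]
    congr 1
    funext θ
    ring
  have hΘ0 : 0 ≤ Θ / π := div_nonneg (hΘ.pos hs hg.2.1).le Real.pi_pos.le
  have h3 : √((∫ θ in (0 : ℝ)..2 * π, (u (circleMap x s θ) - m (circleMap x s θ)) ^ 2) *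
      ∫ θ in (0 : ℝ)..2 * π, un u K x s θ ^ 2) ≤ Θ / π * √(A2 u K x s * B2 u K x s) := by
    refine (Real.sqrt_le_sqrt (mul_le_mul_of_nonneg_right hW (A2_nonneg u K x s).2)).trans
      (le_of_eq ?_)
    rw [mul_assoc, Real.sqrt_mul (sq_nonneg _), Real.sqrt_sq hΘ0]
  have h4 : lam * (π * s ^ 2) ≤ lam * (π * R ^ 2) :=
    mul_le_mul_of_nonneg_left
      (mul_le_mul_of_nonneg_left (pow_le_pow_left₀ hs.le hsR 2) Real.pi_pos.le) hlam
  have h5 := (abs_le.1 hid).2
  have h6 := (le_abs_self _).trans hCS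
  linarith

theorem bon0 (h : NP Ω lam u K) (hb : closedBall x s ⊆ Ω) (hg : Good u K x s)
    (hn : K ∩ sphere x s = ∅) :
    Dr u K x s ≤ √(A2 u K x s * B2 u K x s) + 2 * lam * (π * s ^ 2) := by
  have hP := h.pre
  have hci : ∀ θ, circleMap x s θ ∈ sphere x s := fun θ => circleMap_mem_sphere x hg.1.le θ
  have hnot : ∀ θ, circleMap x s θ ∉ K := fun θ hθ => by
    have h1 : circleMap x s θ ∈ K ∩ sphere x s := ⟨hθ, hci θ⟩
    rw [hn] at h1
    exact h1
  have hsp : sphere x s ⊆ Ω := sphere_subset_closedBall.trans hb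
  have h2π : (0 : ℝ) < 2 * π := by positivity
  have hF : FreeArc K x s 0 (0 + 2 * π) := ⟨by linarith, le_rfl, fun t _ => hnot t⟩
  have hc := bon_core h hb hg hF
  have hpr := arc_prim hP hsp hg hF
  obtain ⟨hut, hun, -, hun2⟩ := hg.int hP.2.1 0 (0 + 2 * π)
  have h0 : ∫ t in (0 : ℝ)..0 + 2 * π, ut u K x s t = 0 := by
    rw [intervalIntegral.integral_eq_sub_of_hasDerivAt
      (fun t _ => circ_deriv hP ⟨hsp (hci t), hnot t⟩) hut, periodic_circleMap x s 0, sub_self]
  have hW := wir_per hpr h0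
  obtain ⟨m, hm⟩ : ∃ m, m = av (fun θ => u (circleMap x s θ)) 0 (0 + 2 * π) := ⟨_, rfl⟩
  rw [← hm] at hc hW
  obtain ⟨hi1, hi2⟩ := hpr.int m
  have hle : (0 : ℝ) ≤ 0 + 2 * π := by linarith
  obtain ⟨-, hCS⟩ := cs_int hle hi2 hun2
    (((intervalIntegrable_iff_integrableOn_Ioc_of_le hle).1 hi1).1.sub aestronglyMeasurable_const)
    ((intervalIntegrable_iff_integrableOn_Ioc_of_le hle).1 hun).1
  rw [(A2_shift u K x s 0).1] at hW
  rw [(A2_shift u K x s 0).2] at hCS
  have h3 := Real.sqrt_le_sqrt (mul_le_mul_of_nonneg_right hW (A2_nonneg u K x s).2)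
  have h5 := (abs_le.1 hc).2
  have h6 := (le_abs_self _).trans hCS
  linarith

theorem bon1 (h : NP Ω lam u K) (hb : closedBall x s ⊆ Ω) (hg : Good u K x s)
    (hn : K ∩ sphere x s = {circleMap x s a}) :
    |Dr u K x s - ∫ θ in a..a + 2 * π,
      (u (circleMap x s θ) - av (fun θ => u (circleMap x s θ)) a (a + 2 * π)) * un u K x s θ| ≤
        2 * lam * (π * s ^ 2) :=
  bon_core h hb hg (freeArc_one hg.1 hn.subset)

/-- Version for the whole plane: the continua have no size restriction. -/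
theorem bonC (h : NP univ 0 u K) (hc : CC K) (hg : Good u K x s)
    (hn : (K ∩ sphere x s).Nonempty) (hΘ : MaxGap K x s Θ) :
    Dr u K x s ≤ Θ / π * √(A2 u K x s * B2 u K x s) := by
  have h1 : ∀ p ∈ K ∩ sphere x s, ∀ q ∈ K ∩ sphere x s,
      ∀ᶠ R in atTop, Join K (closedBall x R) p q := by
    intro p hp q hq
    obtain ⟨Γ, h1, h2, h3, h4, h5⟩ := hc p hp.1 q hq.1
    obtain ⟨R, hR⟩ := h1.isBounded.subset_closedBall x
    filter_upwards [eventually_ge_atTop R] with R' hR'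
    exact ⟨Γ, h1, h2, fun z hz => ⟨(h3 hz).1, closedBall_subset_closedBall hR' (hR hz)⟩, h4, h5⟩
  have h2 : ∀ᶠ R in atTop, ∀ p ∈ K ∩ sphere x s, ∀ q ∈ K ∩ sphere x s,
      Join K (closedBall x R) p q :=
    (eventually_all_finite hg.2.1).2 fun p hp => (eventually_all_finite hg.2.1).2 (h1 p hp)
  obtain ⟨R, hR⟩ := h2.exists
  have h3 := bon h (subset_univ _) hg hn hR hΘ
  simpa using h3

end Vale.Agent.P128
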