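import Vale.Agent.P128.GreenA

/-!
# P128 Green

Green identity on a good circle. Let `χ_ε` be a Lipschitz cutoff vanishing within `ε` of the
finite set `K ∩ sphere` and equal to `1` beyond `2ε` (e.g. a product or a function of `infDist`),
`|∇χ_ε| ≤ 1/ε` on balls of total area `O(ε²)`, so `∫ |∇u| |∇χ_ε| → 0`. Let `ramp_τ` be
`min 1 ((s - ‖z - x‖)/τ)` inside (`min 1 ((‖z - x‖ - s)/τ)` outside) and zero on the other side. Test
`EL` with `ψ χ_ε ramp_τ` extended by zero (locally Lipschitz by `lip_glue`; replace `ψ` by its indicator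
off `K` to get a global bound, `gK_congr`). The ramp term is `(1/τ) ∫_{s-τ}^{s} ∫ ψ χ_ε un dθ dρ/ρ·ρ`
with an integrand continuous up to the circle (use `polar_ann`), so it tends to `∫ ψ χ_ε un` as
`τ → 0`; then `ε → 0` by dominated convergence.
-/

namespace Vale.Agent.P128

open Set Metric MeasureTheory Filter Topology Complex
open scoped ENNReal ContDiff RealInnerProductSpace Gradient Real ComplexConjugate

variable {Ω K L A S T U O X Γ P M₀ K₀ K₁ : Set ℂ} {u v w g hh ψ η : ℂ → ℝ} {G : ℂ → ℂ}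
  {π₀ π₁ : ℂ → Set ℂ} {x y z c p q e a₀ F : ℂ} {lam H r s R a b t M Θ ρ ε δ d : ℝ} {n : ℕ}

/-- the radial ramp -/
noncomputable def green_ramp (x : ℂ) (s τ : ℝ) (z : ℂ) : ℝ := max 0 (min 1 ((s - dist z x) / τ))

theorem green_ramp_lip (ht : 0 < t) : LipschitzWith t⁻¹.toNNReal (green_ramp x s t) := by
  refine ((LipschitzWith.of_dist_le' fun y z => ?_).const_min 1).const_max 0
  rw [Real.dist_eq, ← sub_div, abs_div, abs_of_pos ht, inv_mul_eq_div, sub_sub_sub_cancel_left,
    abs_sub_comm]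
  exact div_le_div_of_nonneg_right (abs_dist_sub_le y z x) ht.le

theorem green_ramp_abs : |green_ramp x s t z| ≤ 1 :=
  abs_le.2 ⟨(by norm_num : (-1 : ℝ) ≤ 0).trans (le_max_left _ _),
    max_le zero_le_one (min_le_left _ _)⟩

theorem green_ramp_zero (ht : 0 < t) (hz : z ∉ ball x s) : green_ramp x s t z = 0 :=
  max_eq_left ((min_le_right _ _).trans
    (div_nonpos_of_nonpos_of_nonneg (sub_nonpos.2 (not_lt.1 hz)) ht.le))

theorem green_ramp_one (ht : 0 < t) (hz : z ∈ ball x (s - t)) : green_ramp x s t z = 1 := by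
  rw [green_ramp, min_eq_left, max_eq_right zero_le_one]
  rw [le_div_iff₀ ht]
  linarith [mem_ball.1 hz]

theorem green_ramp_grad0 (ht : 0 < t) (hz : z ∈ ball x (s - t)) : ∇ (green_ramp x s t) z = 0 := by
  have : green_ramp x s t =ᶠ[𝓝 z] fun _ => 1 := by
    filter_upwards [isOpen_ball.mem_nhds hz] with y hy
    exact green_ramp_one ht hy
  rw [this.gradient_eq, gradient_fun_const]

theorem green_ramp_grad (ht : 0 < t) (hs : t < s) (hz : z ∈ ball x s)
    (hz' : z ∉ closedBall x (s - t)) (e : ℂ) :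
    ⟪e, ∇ (green_ramp x s t) z⟫ = -t⁻¹ * (⟪e, z - x⟫ / ‖z - x‖) := by
  have h0 : 0 < ‖z - x‖ := by
    rw [mem_closedBall, dist_eq_norm, not_le] at hz'
    linarith
  have h1 : green_ramp x s t =ᶠ[𝓝 z] fun w => t⁻¹ * (s - √(‖w - x‖ ^ 2)) := by
    filter_upwards [isOpen_ball.mem_nhds hz, isClosed_closedBall.isOpen_compl.mem_nhds hz']
      with w h2 h3
    have h4 : s - t < dist w x := not_le.1 h3
    rw [green_ramp, min_eq_right ((div_le_one ht).2 (by linarith)),
      max_eq_right (div_nonneg (sub_nonneg.2 (mem_ball.1 h2).le) ht.le),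
      Real.sqrt_sq (norm_nonneg _), dist_eq_norm, inv_mul_eq_div]
  have h2 := (((((hasFDerivAt_id (𝕜 := ℝ) z).sub_const x).norm_sq.sqrt
    (pow_pos h0 2).ne').const_sub s).const_mul t⁻¹).congr_of_eventuallyEq h1
  rw [real_inner_comm, inner_grad, h2.fderiv]
  simp only [id, smul_apply, neg_apply, ContinuousLinearMap.comp_apply,
    ContinuousLinearMap.id_apply, innerSL_apply_apply, Real.sqrt_sq h0.le, smul_eq_mul,
    nsmul_eq_mul, Nat.cast_ofNat, real_inner_comm e]
  field_simp

theorem green_cont (h : Pre Ω u K) (hb : closedBall x s ⊆ Ω) (hs : 0 < s)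
    (hψ : LocallyLipschitzOn (closedBall x s \ K) ψ)
    (h2 : ∀ p ∈ K ∩ sphere x s, ∀ᶠ z in 𝓝 p, ψ z = 0) :
    ∃ a ∈ Ioo 0 s, ∃ B : ℝ → ℝ, Continuous B ∧ ∀ ρ ∈ Icc a s,
      B ρ = ∫ θ in (0 : ℝ)..2 * π, ψ (circleMap x ρ θ) * un u K x ρ θ := by
  obtain ⟨a, ha, h3⟩ := exists_pos_lt_subset_ball (x := x) hs
    (s := (K ∩ closedBall x s) \ {z | ∀ᶠ w in 𝓝 z, ψ w = 0})
    ((h.2.1.inter isClosed_closedBall).sdiff isOpen_setOfPred_eventually_nhds)
    fun z hz => lt_of_le_of_ne (mem_closedBall.1 hz.1.2) fun e => hz.2 (h2 z ⟨hz.1.1, e⟩)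
  have h4 : ContinuousOn (fun z => ψ z • gK K u z) (closedBall x s \ ball x a) := by
    intro z hz
    by_cases hzK : z ∈ K
    · have h5 : ∀ᶠ w in 𝓝 z, ψ w = 0 := by
        by_contra h5
        exact hz.2 (h3 ⟨⟨hzK, hz.1⟩, h5⟩)
      refine (continuousAt_const (y := (0 : ℂ)).congr ?_).continuousWithinAt
      filter_upwards [h5] with w hw
      rw [hw, zero_smul]
    · have h5 := h.2.1.isOpen_compl.mem_nhds hzK
      have h6 : ContinuousAt (gK K u) z := by
        refine (h.contGrad.continuousAt (h.isOpen.mem_nhds ⟨hb hz.1, hzK⟩)).congr ?_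
        filter_upwards [h5] with w hw
        exact (gK_of_notMem u hw).symm
      refine ContinuousWithinAt.smul ((hψ.continuousOn z ⟨hz.1, hzK⟩).mono_of_mem_nhdsWithin ?_)
        h6.continuousWithinAt
      filter_upwards [self_mem_nhdsWithin, mem_nhdsWithin_of_mem_nhds h5] with w h7 h8
      exact ⟨h7.1, h8⟩
  have h5 : Continuous fun q : ℝ × ℝ => circleMap x (max a (min q.1 s)) q.2 := by
    unfold circleMap
    fun_prop
  have h6 := h4.comp_continuous h5 fun q => by
    have h7 : dist (circleMap x (max a (min q.1 s)) q.2) x = max a (min q.1 s) :=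
      circleMap_mem_sphere x (ha.1.le.trans (le_max_left _ _)) _
    exact ⟨h7.trans_le (max_le ha.2.le (min_le_right _ _)),
      fun h8 => (h7.symm.trans_lt h8).not_ge (le_max_left _ _)⟩
  have h7 : Continuous fun q : ℝ × ℝ => ex q.2 := by
    unfold ex
    fun_prop
  have h8 : Continuous (Function.uncurry fun ρ θ : ℝ => ρ * ⟪ψ (circleMap x (max a (min ρ s)) θ) •
      gK K u (circleMap x (max a (min ρ s)) θ), ex θ⟫) := continuous_fst.mul (h6.inner h7)
  refine ⟨a, ha, _, intervalIntegral.continuous_parametric_intervalIntegral_of_continuous'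
    (μ := volume) h8 0 (2 * π), fun ρ hρ => ?_⟩
  simp only [min_eq_left hρ.2, max_eq_right hρ.1, un, real_inner_smul_left, mul_left_comm ρ]

theorem green_ann (h : Pre Ω u K) (hb : closedBall x s ⊆ Ω)
    (hψ : LocallyLipschitzOn (closedBall x s \ K) ψ) (hM : ∀ z, |ψ z| ≤ M)
    (ht : 0 < t) (hs : t < s) :
    ∫ z in ball x s, ψ z * ⟪gK K u z, ∇ (green_ramp x s t) z⟫ =
      -t⁻¹ * ∫ ρ in s - t..s, ∫ θ in (0 : ℝ)..2 * π, ψ (circleMap x ρ θ) * un u K x ρ θ := by
  have : IsFiniteMeasure (volume.restrict (ball x s)) :=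
    isFiniteMeasure_restrict.2 measure_ball_lt_top.ne
  have hu : MemLp (gK K u) 2 (volume.restrict (ball x s)) := (intOn_of_Dn h.2.1
    (ne_top_of_le_ne_top (h.2.2.2 x s hb).1 (Dn_mono_set u K ball_subset_closedBall))).2
  have h1 : IntegrableOn (fun z => ψ z * (⟪gK K u z, z - x⟫ / ‖z - x‖)) (ball x s) := by
    refine Integrable.bdd_mul ((hu.integrable one_le_two).norm.mono' ?_ (ae_of_all _ fun z => ?_))
      (greena_meas h hb hψ) (ae_of_all _ hM)
    · exact (((meas_gK h.2.1 u).inner (measurable_id.sub_const x)).div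
        (measurable_id.sub_const x).norm).aestronglyMeasurable
    · rw [norm_div, norm_norm]
      exact div_le_of_le_mul₀ (norm_nonneg _) (norm_nonneg _) (norm_inner_le_norm _ _)
  have h2 := (polar_ann h1 (sub_pos.2 hs).le (sub_le_self s ht.le)).2.2
  have h3 : ∫ ρ in s - t..s, ρ • ∫ θ in (0 : ℝ)..2 * π, ψ (circleMap x ρ θ) *
      (⟪gK K u (circleMap x ρ θ), circleMap x ρ θ - x⟫ / ‖circleMap x ρ θ - x‖) =
      ∫ ρ in s - t..s, ∫ θ in (0 : ℝ)..2 * π, ψ (circleMap x ρ θ) * un u K x ρ θ := by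
    refine intervalIntegral.integral_congr fun ρ hρ => ?_
    rw [uIcc_of_le (sub_le_self s ht.le)] at hρ
    have h4 : 0 < ρ := (sub_pos.2 hs).trans_le hρ.1
    have h5 : ∀ θ, circleMap x ρ θ - x = ρ • ex θ := fun θ => by
      rw [circleMap_ex, add_sub_cancel_left, Complex.real_smul]
    simp only [smul_eq_mul, ← intervalIntegral.integral_const_mul, h5, real_inner_smul_right,
      norm_smul, ex_norm, mul_one, Real.norm_of_nonneg h4.le, un, mul_div_cancel_left₀ _ h4.ne',
      mul_left_comm ρ]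
  rw [← h3, ← h2, ← integral_const_mul, setIntegral_eq_of_subset_of_forall_sdiff_eq_zero
    measurableSet_ball (sdiff_subset (t := ball x (s - t))) fun z hz => by
      rw [green_ramp_grad0 ht (by_contra fun h4 => hz.2 ⟨hz.1, h4⟩), inner_zero_right, mul_zero]]
  refine setIntegral_congr_ae (measurableSet_ball.diff measurableSet_ball) ?_
  filter_upwards [measure_eq_zero_iff_ae_notMem.1 (Measure.addHaar_sphere volume x (s - t))]
    with z h4 hz
  rw [green_ramp_grad ht hs hz.1 fun h5 => hz.2 (lt_of_le_of_ne (mem_closedBall.1 h5) h4)]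
  ring

theorem green_el (h : NH Ω u K hh H) (hb : closedBall x s ⊆ Ω)
    (hψ : LocallyLipschitzOn (closedBall x s \ K) ψ) (hM : ∀ z, |ψ z| ≤ M)
    (hD : MemLp (gK K ψ) 2 (volume.restrict (ball x s))) (ht : 0 < t) :
    ∫ z in ball x s, ⟪gK K u z, gK K (fun z => ψ z * green_ramp x s t z) z⟫ =
      -∫ z in ball x s \ K, green_ramp x s t z * (hh z * ψ z) := by
  have hK := h.1.2.1
  have h0 : ∀ z ∉ ball x s, ψ z * green_ramp x s t z = 0 := fun z hz => by
    rw [green_ramp_zero ht hz, mul_zero]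
  have h1 : ∀ᵐ z : ℂ, z ∉ ball x s → gK K (fun z => ψ z * green_ramp x s t z) z = 0 := by
    filter_upwards [measure_eq_zero_iff_ae_notMem.1 (Measure.addHaar_sphere volume x s)]
      with z h2 hz
    exact gK_eq_zero_off (x := x) (r := s) (fun w hw => h0 w fun h3 => hw (ball_subset_closedBall h3))
      fun h3 => hz (lt_of_le_of_ne (mem_closedBall.1 h3) h2)
  have h2 := greena_memLp hK hψ hM hD (green_ramp_lip (x := x) (s := s) ht) fun _ => green_ramp_abs
  have hT : Test Ω K fun z => ψ z * green_ramp x s t z := by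
    refine ⟨lip_glue h.1.isOpen (x := x) (s := s)
      (lip_mul (hψ.mono fun z hz => ⟨hz.2, hz.1.2⟩)
        (green_ramp_lip ht).locallyLipschitz.locallyLipschitzOn)
      (lip_congr (LipschitzWith.const (0 : ℝ)).locallyLipschitz.locallyLipschitzOn
        fun z hz => h0 z hz.2), ⟨M, fun z => ?_⟩,
      ⟨x, s, hb, fun z hz => h0 z fun h3 => hz (ball_subset_closedBall h3)⟩, ?_⟩
    · rw [abs_mul]
      exact (mul_le_of_le_one_right (abs_nonneg _) green_ramp_abs).trans (hM z)
    · have h3 := ((memLp_two_iff_integrable_sq_norm h2.1).1 h2).2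
      simp only [HasFiniteIntegral, enorm_pow, enorm_norm] at h3
      rw [Dn, Measure.restrict_univ, ← lintegral_add_compl _ (measurableSet_ball (x := x) (ε := s)),
        setLIntegral_congr_fun_ae (g := fun _ => 0) measurableSet_ball.compl
          (h1.mono fun z hz h4 => by simp [hz h4]), lintegral_zero, add_zero]
      exact h3.ne
  rw [setIntegral_eq_integral_of_ae_compl_eq_zero (h1.mono fun z hz h4 => by
      rw [hz h4, inner_zero_right]), h.2.2.2 _ hT,
    setIntegral_eq_of_subset_of_forall_sdiff_eq_zero (s := ball x s \ K) hK.measurableSet.compl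
      (fun z hz => hz.2) fun z hz => by rw [h0 z fun h3 => hz.2 ⟨h3, hz.1⟩, mul_zero]]
  congr 1
  exact integral_congr_ae (ae_of_all _ fun z => by ring)

theorem green_hint (h : NH Ω u K hh H) (hb : closedBall x s ⊆ Ω)
    (hψ : LocallyLipschitzOn (closedBall x s \ K) ψ) (hM : ∀ z, |ψ z| ≤ M) :
    IntegrableOn (fun z => hh z * ψ z) (ball x s \ K) := by
  refine IntegrableOn.mono_set (IntegrableOn.of_bound measure_ball_lt_top
    (h.2.1.aestronglyMeasurable.mul (greena_meas h.1 hb hψ)) (H * M) (ae_of_all _ fun z => ?_))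
    sdiff_subset
  rw [norm_mul]
  exact mul_le_mul (h.2.2.1 z) (hM z) (norm_nonneg _) ((abs_nonneg _).trans (h.2.2.1 z))

theorem green_step (h : NH Ω u K hh H) (hb : closedBall x s ⊆ Ω) (hs : 0 < s)
    (hψ : LocallyLipschitzOn (closedBall x s \ K) ψ) (hM : ∀ z, |ψ z| ≤ M)
    (hD : MemLp (gK K ψ) 2 (volume.restrict (ball x s)))
    (h2 : ∀ p ∈ K ∩ sphere x s, ∀ᶠ z in 𝓝 p, ψ z = 0) :
    (∫ z in ball x s, ⟪gK K u z, gK K ψ z⟫) + ∫ z in ball x s \ K, hh z * ψ z =
      ∫ θ in (0 : ℝ)..2 * π, ψ (circleMap x s θ) * un u K x s θ := by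
  have hK := h.1.2.1
  have hu : MemLp (gK K u) 2 (volume.restrict (ball x s)) := (intOn_of_Dn hK
    (ne_top_of_le_ne_top (h.1.2.2.2 x s hb).1 (Dn_mono_set u K ball_subset_closedBall))).2
  obtain ⟨a, ha, B, hB, hB'⟩ := green_cont h.1 hb hs hψ h2
  have hone : ∀ z ∈ ball x s, ∀ᶠ t in 𝓝[>] (0 : ℝ), green_ramp x s t z = 1 := fun z hz => by
    filter_upwards [Ioo_mem_nhdsGT (sub_pos.2 (mem_ball.1 hz))] with t ht
    exact green_ramp_one ht.1 (by linarith [ht.2] : dist z x < s - t)
  have t1 := greena_dct (greena_ii hu hD) (k := green_ramp x s)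
    (fun t ht => (green_ramp_lip ht).continuous.aestronglyMeasurable) (fun _ _ => green_ramp_abs)
    (ae_restrict_of_forall_mem measurableSet_ball hone)
  have t2 := greena_dct (green_hint h hb hψ hM) (k := green_ramp x s)
    (fun t ht => (green_ramp_lip ht).continuous.aestronglyMeasurable) (fun _ _ => green_ramp_abs)
    (ae_restrict_of_forall_mem (measurableSet_ball.diff hK.measurableSet) fun z hz => hone z hz.1)
  have h3 : HasDerivAt (fun t => ∫ ρ in s - t..s, B ρ) (B s) 0 := by
    have h4 := intervalIntegral.integral_hasDerivAt_left (a := s - 0) (b := s)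
      (hB.intervalIntegrable _ _) (hB.stronglyMeasurableAtFilter _ _) hB.continuousAt
    have h5 := h4.comp_const_sub s 0
    rwa [neg_neg, sub_zero] at h5
  have t3 := h3.tendsto_slope_zero_right
  simp only [zero_add, sub_zero, intervalIntegral.integral_same, smul_eq_mul] at t3
  rw [← hB' s ⟨ha.2.le, le_rfl⟩]
  refine tendsto_nhds_unique (t1.add t2) (t3.congr' ?_)
  filter_upwards [Ioo_mem_nhdsGT (sub_pos.2 ha.2)] with t ht
  have h4 := greena_split hK hu hψ hM hD (green_ramp_lip (x := x) (s := s) ht.1)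
    fun _ => green_ramp_abs
  have h5 : ∫ ρ in s - t..s, B ρ =
      ∫ ρ in s - t..s, ∫ θ in (0 : ℝ)..2 * π, ψ (circleMap x ρ θ) * un u K x ρ θ := by
    refine intervalIntegral.integral_congr fun ρ hρ => hB' ρ ?_
    rw [uIcc_of_le (sub_le_self s ht.1.le)] at hρ
    exact ⟨by linarith [hρ.1, ht.2], hρ.2⟩
  rw [green_el h hb hψ hM hD ht.1, green_ann h.1 hb hψ hM ht.1 (by linarith [ht.2, ha.1])] at h4
  rw [h5]
  linarith

theorem green_main (h : NH Ω u K hh H) (hb : closedBall x s ⊆ Ω) (hg : Good u K x s)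
    (hψ : LocallyLipschitzOn (closedBall x s \ K) ψ) (hM : ∀ z, |ψ z| ≤ M)
    (h0 : ∀ z ∉ closedBall x s, ψ z = 0) (hD : MemLp (gK K ψ) 2 (volume.restrict (ball x s))) :
    (∫ z in ball x s, ⟪gK K u z, gK K ψ z⟫) + ∫ z in ball x s \ K, hh z * ψ z =
      ∫ θ in (0 : ℝ)..2 * π, ψ (circleMap x s θ) * un u K x s θ := by
  have hK := h.1.2.1
  have hu : MemLp (gK K u) 2 (volume.restrict (ball x s)) := (intOn_of_Dn hK
    (ne_top_of_le_ne_top (h.1.2.2.2 x s hb).1 (Dn_mono_set u K ball_subset_closedBall))).2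
  have hP : (insert x (K ∩ sphere x s)).Finite := hg.2.1.insert x
  have hn : (insert x (K ∩ sphere x s)).Nonempty := insert_nonempty _ _
  have hsph := circleMap_mem_sphere x hg.1.le
  have hcnt := fun {S : Set ℂ} (hS : S.Finite) => measure_eq_zero_iff_ae_notMem.1
    ((hS.countable.preimage_circleMap x hg.1.ne').measure_zero volume)
  have hmeas : AEStronglyMeasurable (fun θ => ψ (circleMap x s θ)) volume := by
    have h1 : ∀ᵐ θ : ℝ, θ ∈ circleMap x s ⁻¹' Kᶜ :=
      (hcnt hg.2.1).mono fun θ h2 h3 => h2 ⟨h3, hsph θ⟩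
    rw [← Measure.restrict_eq_self_of_ae_mem h1]
    exact (hψ.continuousOn.comp (continuous_circleMap x s).continuousOn
      fun θ h2 => ⟨sphere_subset_closedBall (hsph θ), h2⟩).aestronglyMeasurable
      (hK.isOpen_compl.preimage (continuous_circleMap x s)).measurableSet
  set P := insert x (K ∩ sphere x s)
  have hone : ∀ z ∉ P, ∀ᶠ ε in 𝓝[>] (0 : ℝ), greena_chi P ε z = 1 := fun z hz => by
    filter_upwards [greena_ev hP hn hz, self_mem_nhdsWithin] with ε h1 h2
    exact greena_chi_one h2 h1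
  have hae : ∀ᵐ z : ℂ, ∀ᶠ ε in 𝓝[>] (0 : ℝ), greena_chi P ε z = 1 :=
    (measure_eq_zero_iff_ae_notMem.1 (hP.measure_zero volume)).mono hone
  have t0 := greena_small h.1 hb hM h0 hP hn (ball x s)
  have t1 := greena_dct (greena_ii hu hD) (k := greena_chi P)
    (fun t ht => (greena_chi_lip ht).continuous.aestronglyMeasurable) (fun _ _ => greena_chi_abs)
    (ae_restrict_of_ae hae)
  have t2 := greena_dct (green_hint h hb hψ hM) (k := greena_chi P)
    (fun t ht => (greena_chi_lip ht).continuous.aestronglyMeasurable) (fun _ _ => greena_chi_abs)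
    (ae_restrict_of_ae hae)
  have t3 := greena_dct ((hg.int hK 0 (2 * π)).2.1.1.bdd_mul hmeas.restrict
      (ae_of_all _ fun θ => hM _)) (k := fun ε θ => greena_chi P ε (circleMap x s θ))
    (fun t ht => ((greena_chi_lip ht).continuous.comp
      (continuous_circleMap x s)).aestronglyMeasurable) (fun _ _ => greena_chi_abs)
    (ae_restrict_of_ae ((hcnt hP).mono fun θ hθ => hone _ hθ))
  have t4 := (t1.add t0).add t2
  rw [add_zero] at t4
  rw [intervalIntegral.integral_of_le Real.two_pi_pos.le]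
  refine tendsto_nhds_unique t4 (t3.congr' ?_)
  filter_upwards [self_mem_nhdsWithin] with ε hε
  have h1 := green_step h hb hg.1 (lip_mul hψ
    (greena_chi_lip (P := P) hε).locallyLipschitz.locallyLipschitzOn) (M := M)
    (fun z => by
      rw [abs_mul]
      exact (mul_le_of_le_one_right (abs_nonneg _) greena_chi_abs).trans (hM z))
    (greena_memLp hK hψ hM hD (greena_chi_lip hε) fun _ => greena_chi_abs)
    fun p hp => (greena_chi_zero hε (mem_insert_of_mem _ hp)).mono fun z hz => by rw [hz, mul_zero]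
  rw [greena_split hK hu hψ hM hD (greena_chi_lip hε) fun _ => greena_chi_abs,
    intervalIntegral.integral_of_le Real.two_pi_pos.le] at h1
  simp only [mul_comm (ψ _) (greena_chi P ε _), mul_left_comm (hh _) (greena_chi P ε _),
    mul_assoc] at h1
  exact h1.symm

theorem green_in (h : NH Ω u K hh H) (hb : closedBall x s ⊆ Ω) (hg : Good u K x s)
    (hψ : LocallyLipschitzOn (closedBall x s \ K) ψ) (hM : ∀ z ∈ closedBall x s \ K, |ψ z| ≤ M)
    (hD : Dn ψ K (ball x s) ≠ ⊤) :
    (∫ z in ball x s, ⟪gK K u z, gK K ψ z⟫) + ∫ z in ball x s \ K, hh z * ψ z =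
      ∫ θ in (0 : ℝ)..2 * π, ψ (circleMap x s θ) * un u K x s θ := by
  have hK := h.1.2.1
  have h1 : ∀ z ∈ ball x s, gK K ((closedBall x s \ K).indicator ψ) z = gK K ψ z := by
    intro z hz
    by_cases hzK : z ∈ K
    · rw [gK_of_mem _ hzK, gK_of_mem _ hzK]
    · rw [gK_of_notMem _ hzK, gK_of_notMem _ hzK]
      refine Filter.EventuallyEq.gradient_eq ?_
      filter_upwards [(isOpen_ball.sdiff hK).mem_nhds ⟨hz, hzK⟩] with w hw
      exact indicator_of_mem (show w ∈ closedBall x s \ K from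
        ⟨ball_subset_closedBall hw.1, hw.2⟩) ψ
  have h2 := green_main h hb hg (ψ := (closedBall x s \ K).indicator ψ) (M := |M|)
    (lip_congr hψ fun z hz => indicator_of_mem hz ψ)
    (fun z => by
      by_cases hz : z ∈ closedBall x s \ K
      · rw [indicator_of_mem hz]
        exact (hM z hz).trans (le_abs_self M)
      · rw [indicator_of_notMem hz, abs_zero]
        exact abs_nonneg M)
    (fun z hz => indicator_of_notMem (fun h3 => hz h3.1) ψ)
    ((intOn_of_Dn hK hD).2.ae_eq (ae_restrict_of_forall_mem measurableSet_ball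
      fun z hz => (h1 z hz).symm))
  rw [setIntegral_congr_fun (g := fun z => ⟪gK K u z, gK K ψ z⟫) measurableSet_ball
      fun z hz => by simp only [h1 z hz],
    setIntegral_congr_fun (g := fun z => hh z * ψ z) (measurableSet_ball.diff hK.measurableSet)
      fun z hz => by simp only [indicator_of_mem (show z ∈ closedBall x s \ K from
        ⟨ball_subset_closedBall hz.1, hz.2⟩)]] at h2
  rw [h2]
  refine intervalIntegral.integral_congr fun θ _ => ?_
  by_cases h3 : circleMap x s θ ∈ K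
  · simp only [un, gK_of_mem u h3, inner_zero_left, mul_zero]
  · simp only [indicator_of_mem (show circleMap x s θ ∈ closedBall x s \ K from
      ⟨sphere_subset_closedBall (circleMap_mem_sphere x hg.1.le θ), h3⟩)]

end Vale.Agent.P128
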