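import Vale.Agent.P128.Green

/-!
# P128 GreenO

Outer Green identity for locally constant `ψ`. With cutoffs `χ_ε` near the finite set
`K ∩ sphere x s` the function `ψ χ_ε` is Lipschitz on the circle; extend it into the disc, test `EL`
and subtract the inner Green identity; then `ε → 0`.
-/

namespace Vale.Agent.P128

open Set Metric MeasureTheory Filter Topology Complex
open scoped ENNReal ContDiff RealInnerProductSpace Gradient Real ComplexConjugate

variable {Ω K L A S T U O X Γ P M₀ K₀ K₁ : Set ℂ} {u v w g hh ψ η : ℂ → ℝ} {G : ℂ → ℂ}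
  {π₀ π₁ : ℂ → Set ℂ} {x y z c p q e a₀ F : ℂ} {lam H r s R a b t M Θ ρ ε δ d : ℝ} {n : ℕ}

theorem greeno_lc (hΩ : IsOpen Ω) (hK : IsClosed K) (hb : closedBall x R ⊆ Ω)
    (hψ : LC ((Ω \ ball x s) \ K) ψ) (h0 : ∀ z ∉ closedBall x R, ψ z = 0)
    (hz : z ∉ closedBall x s) (hz' : z ∉ K) : ∀ᶠ y in 𝓝 z, ψ y = ψ z := by
  by_cases h : z ∈ closedBall x R
  · have h1 := hψ z ⟨⟨hb h, fun h' => hz (ball_subset_closedBall h')⟩, hz'⟩
    rwa [nhdsWithin_eq_nhds.2] at h1
    filter_upwards [hΩ.mem_nhds (hb h), isClosed_closedBall.isOpen_compl.mem_nhds hz,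
      hK.isOpen_compl.mem_nhds hz'] with y h1 h2 h3
    exact ⟨⟨h1, fun h' => h2 (ball_subset_closedBall h')⟩, h3⟩
  · filter_upwards [isClosed_closedBall.isOpen_compl.mem_nhds h] with y hy
    rw [h0 y hy, h0 z h]

theorem greeno_int (h : NH Ω u K hh H) (hw : Test Ω K w) :
    IntegrableOn (fun z => hh z * w z) Kᶜ := by
  obtain ⟨h1, ⟨B, h2⟩, ⟨y, r, h3, h4⟩, -⟩ := hw
  have hm : MeasurableSet (closedBall y r \ K) :=
    measurableSet_closedBall.diff h.1.2.1.measurableSet
  refine IntegrableOn.of_forall_sdiff_eq_zero (s := closedBall y r \ K) (IntegrableOn.of_bound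
    ((measure_mono sdiff_subset).trans_lt measure_closedBall_lt_top)
    (h.2.1.aestronglyMeasurable.mul ((h1.continuousOn.mono
      (sdiff_subset_sdiff_left h3)).aestronglyMeasurable hm)) (H * B) (ae_of_all _ fun z => ?_))
    h.1.2.1.measurableSet.compl fun z hz => ?_
  · rw [norm_mul]
    exact mul_le_mul (h.2.2.1 z) (h2 z) (norm_nonneg _) ((abs_nonneg _).trans (h.2.2.1 z))
  · rw [h4 z fun h' => hz.2 ⟨h', hz.1⟩, mul_zero]

theorem greeno_sph (h : Pre Ω u K) (hb : closedBall x s ⊆ Ω) (hψ : LC ((Ω \ ball x s) \ K) ψ)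
    {C : NNReal} (hη : LipschitzWith C η) (h2 : ∀ p ∈ K ∩ sphere x s, ∀ᶠ z in 𝓝 p, η z = 0) :
    LocallyLipschitzOn (sphere x s) fun z => ψ z * η z := by
  intro p hp
  by_cases hK : p ∈ K
  · refine ⟨0, _, mem_nhdsWithin_of_mem_nhds (h2 p ⟨hK, hp⟩), fun y hy z hz => ?_⟩
    simp [show η y = 0 from hy, show η z = 0 from hz]
  · have hs : sphere x s \ K ⊆ (Ω \ ball x s) \ K := fun y hy =>
      ⟨⟨hb (sphere_subset_closedBall hy.1), fun h' => (mem_ball.1 h').ne hy.1⟩, hy.2⟩
    obtain ⟨k, t, ht, hl⟩ := lip_mul (hψ.mono hs).lip hη.locallyLipschitz.locallyLipschitzOn ⟨hp, hK⟩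
    rw [sdiff_eq, nhdsWithin_inter_of_mem' (mem_nhdsWithin_of_mem_nhds
      (h.2.1.isOpen_compl.mem_nhds hK))] at ht
    exact ⟨k, t, ht, hl⟩

theorem greeno_step (h : NH Ω u K hh H) (hb : closedBall x R ⊆ Ω) (hs : s ≤ R) (hg : Good u K x s)
    (hψ : LC ((Ω \ ball x s) \ K) ψ) (hM : ∀ z, |ψ z| ≤ M)
    (h0 : ∀ z ∉ closedBall x R, ψ z = 0) {C : NNReal} (hη : LipschitzWith C η)
    (h1 : ∀ z, |η z| ≤ 1) (h2 : ∀ p ∈ K ∩ sphere x s, ∀ᶠ z in 𝓝 p, η z = 0) :
    (∫ z in (closedBall x s)ᶜ, ψ z * ⟪gK K u z, ∇ η z⟫) +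
      ∫ z in (closedBall x s)ᶜ \ K, hh z * (ψ z * η z) =
      -∫ θ in (0 : ℝ)..2 * π, ψ (circleMap x s θ) * η (circleMap x s θ) * un u K x s θ := by
  classical
  have hK := h.1.2.1
  have hsR : closedBall x s ⊆ closedBall x R := closedBall_subset_closedBall hs
  have hM0 : 0 ≤ M := (abs_nonneg _).trans (hM 0)
  obtain ⟨k, hk⟩ := (greeno_sph h.1 (hsR.trans hb) hψ hη h2).exists_lipschitzOnWith_of_compact
    (isCompact_sphere x s)
  obtain ⟨g, hg1, hg2⟩ := hk.extend_real
  obtain ⟨B, hB⟩ := (isCompact_closedBall x s).exists_bound_of_continuousOn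
    hg1.continuous.continuousOn
  set w : ℂ → ℝ := fun z => if z ∈ closedBall x s then g z else ψ z * η z with hw
  have hwo : ∀ z ∉ ball x s, w z = ψ z * η z := fun z hz => by
    by_cases h' : z ∈ closedBall x s
    · rw [hw]
      simp only [if_pos h']
      exact (hg2 (le_antisymm (mem_closedBall.1 h') (not_lt.1 hz))).symm
    · simp only [hw, if_neg h']
  have hgo : ∀ z ∉ closedBall x s, z ∉ K → ∇ w z = ψ z * ∇ η z := fun z hz hz' => by
    rw [← grad_smul]
    refine Filter.EventuallyEq.gradient_eq ?_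
    filter_upwards [greeno_lc h.1.1 hK hb hψ h0 hz hz',
      isClosed_closedBall.isOpen_compl.mem_nhds hz] with y h3 h4
    rw [hwo y fun h' => h4 (ball_subset_closedBall h'), h3]
  have hw0 : ∀ z ∉ closedBall x R, w z = 0 := fun z hz => by
    rw [hwo z fun h' => hz (hsR (ball_subset_closedBall h')), h0 z hz, zero_mul]
  have hwB : ∀ z, |w z| ≤ max B M := fun z => by
    by_cases h' : z ∈ closedBall x s
    · simp only [hw, if_pos h']
      exact (hB z h').trans (le_max_left _ _)
    · simp only [hw, if_neg h', abs_mul]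
      exact ((mul_le_mul (hM z) (h1 z) (abs_nonneg _) hM0).trans_eq (mul_one M)).trans
        (le_max_right _ _)
  have hns : ∀ᵐ z : ℂ, z ∉ sphere x s :=
    measure_eq_zero_iff_ae_notMem.1 (Measure.addHaar_sphere _ _ _)
  have hT : Test Ω K w := by
    refine ⟨lip_glue h.1.isOpen (x := x) (s := s)
      (lip_congr hg1.locallyLipschitz.locallyLipschitzOn fun z hz => if_pos hz.2)
      (lip_congr (lip_mul (hψ.mono fun z hz => ⟨⟨hz.1.1, hz.2⟩, hz.1.2⟩).lip
        hη.locallyLipschitz.locallyLipschitzOn) fun z hz => hwo z hz.2),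
      ⟨_, hwB⟩, ⟨x, R, hb, hw0⟩, ?_⟩
    have hle : ∀ᵐ z : ℂ, ‖gK K w z‖ₑ ^ 2 ≤ (closedBall x R).indicator
        (fun _ => ENNReal.ofReal (k + M * C) ^ 2) z := by
      filter_upwards [hns] with z hz
      by_cases hR : z ∈ closedBall x R
      · rw [indicator_of_mem hR, ← ofReal_norm]
        refine pow_le_pow_left' (ENNReal.ofReal_le_ofReal ?_) 2
        by_cases hzK : z ∈ K
        · rw [gK_of_mem _ hzK, norm_zero]
          positivity
        rw [gK_of_notMem _ hzK]
        by_cases h' : z ∈ closedBall x s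
        · have h3 : z ∈ ball x s := lt_of_le_of_ne (mem_closedBall.1 h') hz
          have h4 : w =ᶠ[𝓝 z] g := by
            filter_upwards [isOpen_ball.mem_nhds h3] with y hy using if_pos (ball_subset_closedBall hy)
          rw [h4.gradient_eq, norm_grad]
          exact (norm_fderiv_le_of_lipschitz ℝ hg1).trans (le_add_of_nonneg_right (by positivity))
        · rw [hgo z h' hzK, norm_mul, norm_grad, Complex.norm_real]
          exact (mul_le_mul (hM z) (norm_fderiv_le_of_lipschitz ℝ hη) (norm_nonneg _) hM0).trans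
            (le_add_of_nonneg_left k.2)
      · rw [gK_eq_zero_off hw0 hR]
        simp
    rw [Dn, Measure.restrict_univ]
    refine ((lintegral_mono_ae hle).trans_lt ?_).ne
    rw [lintegral_indicator_const measurableSet_closedBall]
    exact ENNReal.mul_lt_top (ENNReal.pow_lt_top ENNReal.ofReal_lt_top) measure_closedBall_lt_top
  have e1 := h.2.2.2 w hT
  have e2 := green_in h (hsR.trans hb) hg (hT.1.mono (sdiff_subset_sdiff_left (hsR.trans hb)))
    (fun z _ => hwB z) (ne_top_of_le_ne_top hT.2.2.2 (Dn_mono_set w K (subset_univ _)))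
  have hae : (ball x s : Set ℂ) =ᵐ[volume] closedBall x s := by
    filter_upwards [hns] with z hz
    exact propext ⟨fun h' => ball_subset_closedBall h',
      fun h' => lt_of_le_of_ne (mem_closedBall.1 h') hz⟩
  rw [← integral_add_compl (measurableSet_closedBall (x := x) (ε := s)) (h.1.inner_int hT),
    ← integral_inter_add_sdiff (measurableSet_closedBall (x := x) (ε := s)) (greeno_int h hT),
    ← setIntegral_congr_set hae, inter_comm, ← setIntegral_congr_set (s := ball x s ∩ Kᶜ)
      (t := closedBall x s ∩ Kᶜ) (hae.inter (ae_eq_refl Kᶜ)), sdiff_eq, inter_comm Kᶜ] at e1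
  have e3 : ∫ z in (closedBall x s)ᶜ, ⟪gK K u z, gK K w z⟫ =
      ∫ z in (closedBall x s)ᶜ, ψ z * ⟪gK K u z, ∇ η z⟫ :=
    setIntegral_congr_fun measurableSet_closedBall.compl fun z hz => by
      by_cases hzK : z ∈ K
      · simp [gK_of_mem _ hzK]
      · simp only [gK_of_notMem w hzK, hgo z hz hzK, ← Complex.real_smul, real_inner_smul_right]
  have e4 : ∫ z in (closedBall x s)ᶜ ∩ Kᶜ, hh z * w z =
      ∫ z in (closedBall x s)ᶜ \ K, hh z * (ψ z * η z) :=
    setIntegral_congr_fun (measurableSet_closedBall.compl.inter hK.measurableSet.compl)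
      fun z hz => by simp only [hwo z fun h' => hz.1 (ball_subset_closedBall h')]
  have e5 : ∀ θ, w (circleMap x s θ) = ψ (circleMap x s θ) * η (circleMap x s θ) := fun θ =>
    hwo _ fun h' => (mem_ball.1 h').ne (circleMap_mem_sphere x hg.1.le θ)
  simp only [e5, sdiff_eq] at e2
  rw [e3, e4] at e1
  linarith

/-- the cutoff -/
noncomputable def greeno_chi (P : Set ℂ) (ε : ℝ) (z : ℂ) : ℝ := max 0 (min 1 (infDist z P / ε - 1))

theorem greeno_chi_lip (hε : 0 < ε) : LipschitzWith ε⁻¹.toNNReal (greeno_chi P ε) := by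
  refine ((LipschitzWith.of_dist_le' fun y z => ?_).const_min 1).const_max 0
  rw [dist_sub_right, Real.dist_eq, ← sub_div, abs_div, abs_of_pos hε, inv_mul_eq_div]
  have := (lipschitz_infDist_pt P).dist_le_mul y z
  rw [NNReal.coe_one, one_mul, Real.dist_eq] at this
  exact div_le_div_of_nonneg_right this hε.le

theorem greeno_chi_abs : |greeno_chi P ε z| ≤ 1 :=
  abs_le.2 ⟨(by norm_num : (-1 : ℝ) ≤ 0).trans (le_max_left _ _),
    max_le zero_le_one (min_le_left _ _)⟩

theorem greeno_chi_zero (hε : 0 < ε) (hp : p ∈ P) : ∀ᶠ z in 𝓝 p, greeno_chi P ε z = 0 := by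
  filter_upwards [ball_mem_nhds p hε] with z hz
  refine max_eq_left ((min_le_right _ _).trans (sub_nonpos.2 ((div_le_one hε).2 ?_)))
  exact (infDist_le_dist_of_mem hp).trans (mem_ball.1 hz).le

theorem greeno_chi_one (hε : 0 < ε) (hz : 2 * ε < infDist z P) : greeno_chi P ε z = 1 := by
  rw [greeno_chi, min_eq_left, max_eq_right zero_le_one]
  rw [le_sub_iff_add_le, le_div_iff₀ hε]
  linarith

theorem greeno_chi_grad (hε : 0 < ε) (hz : 2 * ε < infDist z P) : ∇ (greeno_chi P ε) z = 0 := by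
  have : greeno_chi P ε =ᶠ[𝓝 z] fun _ => 1 := by
    filter_upwards [(isOpen_lt continuous_const (continuous_infDist_pt P)).mem_nhds hz] with y hy
    exact greeno_chi_one hε hy
  rw [this.gradient_eq, gradient_fun_const]

theorem greeno_ev (hP : P.Finite) (hn : P.Nonempty) (hz : z ∉ P) :
    ∀ᶠ ε in 𝓝[>] (0 : ℝ), 2 * ε < infDist z P := by
  have := (hP.isClosed.notMem_iff_infDist_pos hn).1 hz
  filter_upwards [Ioo_mem_nhdsGT (half_pos this)] with ε hε
  linarith [hε.2]

theorem greeno_vol (hP : P.Finite) (hn : P.Nonempty) (hε : 0 < ε) :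
    volume {z | infDist z P ≤ 2 * ε} ≠ ⊤ ∧
      volume.real {z | infDist z P ≤ 2 * ε} ≤ hP.toFinset.card * (4 * π) * ε ^ 2 := by
  have h1 : {z | infDist z P ≤ 2 * ε} ⊆ ⋃ p ∈ hP.toFinset, closedBall p (2 * ε) := fun z hz => by
    obtain ⟨p, hp, e⟩ := hP.isCompact.exists_infDist_eq_dist hn z
    exact mem_iUnion₂.2 ⟨p, hP.mem_toFinset.2 hp, e.symm.trans_le hz⟩
  have h2 : volume (⋃ p ∈ hP.toFinset, closedBall p (2 * ε)) ≠ ⊤ :=
    (hP.toFinset.isCompact_biUnion fun p _ => isCompact_closedBall p _).measure_ne_top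
  refine ⟨ne_top_of_le_ne_top h2 (measure_mono h1), (measureReal_mono h1 h2).trans
    ((measureReal_biUnion_finset_le _ _).trans (le_of_eq ?_))⟩
  simp only [Measure.real, Complex.volume_closedBall, Finset.sum_const, nsmul_eq_mul,
    ENNReal.toReal_mul, ENNReal.toReal_pow, ENNReal.toReal_ofReal (by positivity : 0 ≤ 2 * ε),
    ENNReal.coe_toReal, NNReal.coe_real_pi]
  ring

theorem greeno_small (h : Pre Ω u K) (hb : closedBall x R ⊆ Ω) (hM : ∀ z, |ψ z| ≤ M)
    (h0 : ∀ z ∉ closedBall x R, ψ z = 0) (hP : P.Finite) (hn : P.Nonempty) (S : Set ℂ) :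
    Tendsto (fun ε => ∫ z in S, ψ z * ⟪gK K u z, ∇ (greeno_chi P ε) z⟫) (𝓝[>] 0) (𝓝 0) := by
  have hM0 : 0 ≤ M := (abs_nonneg _).trans (hM 0)
  have hN : ∀ ε : ℝ, MeasurableSet {z | infDist z P ≤ 2 * ε} := fun ε =>
    (isClosed_le (continuous_infDist_pt P) continuous_const).measurableSet
  have hi : Integrable ((closedBall x R).indicator fun z => ‖gK K u z‖ ^ 2) :=
    (integrable_indicator_iff measurableSet_closedBall).2 (intOn_of_Dn h.2.1 (h.2.2.2 x R hb).1).1
  set f := (closedBall x R).indicator fun z => ‖gK K u z‖ ^ 2 with hf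
  have hf0 : ∀ z, 0 ≤ f z := fun z => indicator_nonneg (fun _ _ => sq_nonneg _) z
  have ha : Tendsto (fun ε => ∫ z, {z | infDist z P ≤ 2 * ε}.indicator f z) (𝓝[>] 0) (𝓝 0) := by
    have := tendsto_integral_filter_of_dominated_convergence (l := 𝓝[>] (0 : ℝ))
      (F := fun ε => {z | infDist z P ≤ 2 * ε}.indicator f) (f := fun _ => 0) (fun z => ‖f z‖)
      (Eventually.of_forall fun ε => hi.1.indicator (hN ε))
      (Eventually.of_forall fun ε => ae_of_all _ fun z => norm_indicator_le_norm_self _ _) hi.norm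
      (by
        filter_upwards [measure_eq_zero_iff_ae_notMem.1 (hP.measure_zero volume)] with z hz
        refine tendsto_const_nhds.congr' ?_
        filter_upwards [greeno_ev hP hn hz] with ε hε
        exact (indicator_of_notMem (s := {z | infDist z P ≤ 2 * ε}) (not_le.2 hε) f).symm)
    rwa [integral_zero] at this
  set C : ℝ := hP.toFinset.card * (4 * π) with hC'
  have hC : 0 ≤ C := by positivity
  have key : ∀ l : ℝ, 0 < l → ∀ ε : ℝ, 0 < ε →
      ‖∫ z in S, ψ z * ⟪gK K u z, ∇ (greeno_chi P ε) z⟫‖ ≤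
        M * (l⁻¹ * ∫ z, {z | infDist z P ≤ 2 * ε}.indicator f z) + M * (l * C) := by
    intro l hl ε hε
    obtain ⟨v1, v2⟩ := greeno_vol hP hn hε
    have i1 : Integrable ({z | infDist z P ≤ 2 * ε}.indicator f) := hi.indicator (hN ε)
    have i2 : Integrable ({z | infDist z P ≤ 2 * ε}.indicator fun _ : ℂ => l * ε⁻¹ ^ 2) :=
      (integrable_indicator_iff (hN ε)).2 (integrableOn_const v1)
    have i3 := ((i1.const_mul l⁻¹).add i2).const_mul M
    have hb0 : ∀ z, 0 ≤ M * (l⁻¹ * {z | infDist z P ≤ 2 * ε}.indicator f z +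
        {z | infDist z P ≤ 2 * ε}.indicator (fun _ : ℂ => l * ε⁻¹ ^ 2) z) := fun z =>
      mul_nonneg hM0 (add_nonneg (mul_nonneg (by positivity) (indicator_nonneg (fun _ _ => hf0 _) z))
        (indicator_nonneg (fun _ _ => by positivity) z))
    refine (norm_integral_le_of_norm_le i3.integrableOn (ae_of_all _ fun z => ?_)).trans
      ((setIntegral_le_integral i3 (ae_of_all _ hb0)).trans ?_)
    · by_cases hz : infDist z P ≤ 2 * ε
      · by_cases hR : z ∈ closedBall x R
        · have h3 : ‖∇ (greeno_chi P ε) z‖ ≤ ε⁻¹ := by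
            rw [norm_grad]
            exact (norm_fderiv_le_of_lipschitz ℝ (greeno_chi_lip hε)).trans_eq
              (Real.coe_toNNReal _ (by positivity))
          have h4 := (norm_inner_le_norm (𝕜 := ℝ) (gK K u z) _).trans
            (mul_le_mul_of_nonneg_left h3 (norm_nonneg _))
          rw [norm_mul]
          refine mul_le_mul (hM z) (h4.trans ?_) (norm_nonneg _) hM0
          have hz' : z ∈ {z | infDist z P ≤ 2 * ε} := hz
          simp only [Pi.add_apply, indicator_of_mem hz', hf, indicator_of_mem hR]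
          have h5 : ‖gK K u z‖ * ε⁻¹ = l⁻¹ * (‖gK K u z‖ * (l * ε⁻¹)) := by field_simp
          have h6 : l * ε⁻¹ ^ 2 = l⁻¹ * (l * ε⁻¹) ^ 2 := by field_simp
          rw [h5, h6, ← mul_add]
          refine mul_le_mul_of_nonneg_left ?_ (by positivity)
          nlinarith [sq_nonneg (‖gK K u z‖ - l * ε⁻¹), sq_nonneg ‖gK K u z‖, sq_nonneg (l * ε⁻¹)]
        · rw [h0 z hR, zero_mul, norm_zero]
          exact hb0 z
      · rw [greeno_chi_grad hε (not_le.1 hz), inner_zero_right, mul_zero, norm_zero]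
        exact hb0 z
    · simp only [Pi.add_apply]
      rw [integral_const_mul, integral_add (i1.const_mul _) i2, integral_const_mul,
        integral_indicator_const _ (hN ε), mul_add, smul_eq_mul]
      refine add_le_add le_rfl (mul_le_mul_of_nonneg_left ?_ hM0)
      refine (mul_le_mul_of_nonneg_right v2 (by positivity)).trans_eq ?_
      rw [← hC']
      field_simp
  refine Metric.tendsto_nhds.2 fun δ hδ => ?_
  have hl : 0 < δ / (2 * (M * C + 1)) := by positivity
  have h7 := (ha.const_mul (δ / (2 * (M * C + 1)))⁻¹).const_mul M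
  rw [mul_zero, mul_zero] at h7
  filter_upwards [h7.eventually (gt_mem_nhds (half_pos hδ)), self_mem_nhdsWithin] with ε h8 hε
  have h9 : M * (δ / (2 * (M * C + 1)) * C) ≤ δ / 2 := by
    rw [show M * (δ / (2 * (M * C + 1)) * C) = δ / 2 * (M * C / (M * C + 1)) by field_simp]
    exact mul_le_of_le_one_right (by positivity) ((div_le_one (by positivity)).2 (by linarith))
  rw [dist_zero_right]
  linarith [key _ hl ε hε]

theorem green_out (h : NH Ω u K hh H) (hb : closedBall x R ⊆ Ω) (hs : s ≤ R) (hg : Good u K x s)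
    (hψ : LC ((Ω \ ball x s) \ K) ψ) (hM : ∀ z, |ψ z| ≤ M)
    (h0 : ∀ z ∉ closedBall x R, ψ z = 0) :
    ∫ z in (closedBall x s)ᶜ \ K, hh z * ψ z =
      -∫ θ in (0 : ℝ)..2 * π, ψ (circleMap x s θ) * un u K x s θ := by
  have hK := h.1.2.1
  have hM0 : 0 ≤ M := (abs_nonneg _).trans (hM 0)
  have hH0 : 0 ≤ H := (abs_nonneg _).trans (h.2.2.1 0)
  have hP : (insert x (K ∩ sphere x s)).Finite := hg.2.1.insert x
  have hn : (insert x (K ∩ sphere x s)).Nonempty := insert_nonempty _ _
  set P := insert x (K ∩ sphere x s)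
  have hz : ∀ ε : ℝ, 0 < ε → ∀ p ∈ K ∩ sphere x s, ∀ᶠ z in 𝓝 p, greeno_chi P ε z = 0 :=
    fun ε hε p hp => greeno_chi_zero hε (mem_insert_of_mem _ hp)
  have hone : ∀ z ∉ P, ∀ᶠ ε in 𝓝[>] (0 : ℝ), greeno_chi P ε z = 1 := fun z hz => by
    filter_upwards [greeno_ev hP hn hz, self_mem_nhdsWithin] with ε h1 h2
    exact greeno_chi_one h2 h1
  have hle : ∀ ε z, |ψ z * greeno_chi P ε z| ≤ M := fun ε z => by
    rw [abs_mul]
    exact (mul_le_mul (hM z) greeno_chi_abs (abs_nonneg _) hM0).trans_eq (mul_one M)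
  have hm : MeasurableSet ((closedBall x s)ᶜ \ K) :=
    measurableSet_closedBall.compl.diff hK.measurableSet
  have hc : ContinuousOn ψ ((closedBall x s)ᶜ \ K) := fun z hz =>
    (continuousAt_const.congr ((greeno_lc h.1.1 hK hb hψ h0 hz.1 hz.2).mono
      fun _ e => e.symm)).continuousWithinAt
  have t1 := greeno_small h.1 hb hM h0 hP hn (closedBall x s)ᶜ
  have t2 : Tendsto (fun ε => ∫ z in (closedBall x s)ᶜ \ K, hh z * (ψ z * greeno_chi P ε z))
      (𝓝[>] 0) (𝓝 (∫ z in (closedBall x s)ᶜ \ K, hh z * ψ z)) := by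
    refine tendsto_integral_filter_of_dominated_convergence
      ((closedBall x R).indicator fun _ => H * M) ?_ (Eventually.of_forall fun ε =>
        ae_of_all _ fun z => ?_) (Integrable.integrableOn ((integrable_indicator_iff
          measurableSet_closedBall).2 (integrableOn_const measure_closedBall_lt_top.ne))) ?_
    · filter_upwards [self_mem_nhdsWithin] with ε hε
      exact h.2.1.aestronglyMeasurable.mul ((hc.aestronglyMeasurable hm).mul
        (greeno_chi_lip hε).continuous.aestronglyMeasurable)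
    · by_cases hR : z ∈ closedBall x R
      · rw [indicator_of_mem hR, norm_mul]
        exact mul_le_mul (h.2.2.1 z) (hle ε z) (norm_nonneg _) hH0
      · simp [h0 z hR, hR]
    · filter_upwards [ae_restrict_of_ae
        (measure_eq_zero_iff_ae_notMem.1 (hP.measure_zero volume))] with z hz
      refine tendsto_const_nhds.congr' ?_
      filter_upwards [hone z hz] with ε hε
      rw [hε, mul_one]
  have hu := (hg.int hK 0 (2 * π)).2.1
  have t3 : Tendsto (fun ε => ∫ θ in (0 : ℝ)..2 * π,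
      ψ (circleMap x s θ) * greeno_chi P ε (circleMap x s θ) * un u K x s θ) (𝓝[>] 0)
      (𝓝 (∫ θ in (0 : ℝ)..2 * π, ψ (circleMap x s θ) * un u K x s θ)) := by
    refine intervalIntegral.tendsto_integral_filter_of_dominated_convergence
      (fun θ => M * ‖un u K x s θ‖) ?_ (Eventually.of_forall fun ε => ae_of_all _ fun θ _ => ?_)
      (hu.norm.const_mul M) ?_
    · filter_upwards [self_mem_nhdsWithin] with ε hε
      exact ((greeno_sph h.1 ((closedBall_subset_closedBall hs).trans hb) hψ (greeno_chi_lip hε)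
        (hz ε hε)).continuousOn.comp_continuous (continuous_circleMap x s)
          (circleMap_mem_sphere x hg.1.le)).aestronglyMeasurable.mul hu.def'.1
    · rw [norm_mul]
      exact mul_le_mul_of_nonneg_right (hle ε _) (norm_nonneg _)
    · filter_upwards [measure_eq_zero_iff_ae_notMem.1
        ((hP.countable.preimage_circleMap x hg.1.ne').measure_zero volume)] with θ hθ _
      refine tendsto_const_nhds.congr' ?_
      filter_upwards [hone _ hθ] with ε hε
      rw [hε, mul_one]
  have t4 := t1.add t2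
  rw [zero_add] at t4
  refine tendsto_nhds_unique t4 (t3.neg.congr' ?_)
  filter_upwards [self_mem_nhdsWithin] with ε hε
  exact (greeno_step h hb hs hg hψ hM h0 (greeno_chi_lip hε) (fun _ => greeno_chi_abs)
    (hz ε hε)).symm

end Vale.Agent.P128
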