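import Vale.Agent.P128.LogEx
import Vale.Agent.P128.Basic0

/-!
# P128 Par

Parity functions. If `b = a + 2π` take `ζi = 1`, `ζo = 0`. Otherwise `p ≠ q`, `g z = (z-p)/(z-q)`.
`log_ex`: for `τ > 0` take a chain `p = p₀, ..., p_m = q` in `Γ` with steps `< τ` (preconnected); then
`∑ log ((z - p_i)/(z - p_(i+1)))` is a continuous logarithm of `g` on `{τ < infDist z Γ}`. On a component
`V` of `Γᶜ` fix a base point, let `W_n` be its component in `{1/n < infDist}`, normalize the logarithms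
at the base point; they agree on `W_n` and `V = ⋃ W_n`. `par`: `g = c g₁`, `‖c‖ = 1`, with `g₁` positive
on the complementary arc, negative on the arc `(a, b)`, and `Im g₁` of one sign inside and the other
sign outside. `S_in = exp ((log (∓ i g₁) ± iπ/2 + log c)/2)`, `S_out` with opposite signs,
`S₁ = exp (L/2)`; `ζ = (1 - re (S₁/S))/2`. Change the sign of `S₁` globally so that `ζo = 0` on the
connected set `(closedBall x R)ᶜ`.
-/

namespace Vale.Agent.P128

open Set Metric MeasureTheory Filter Topology Complex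
open scoped ENNReal ContDiff RealInnerProductSpace Gradient Real ComplexConjugate

variable {Ω K L A S T U O X Γ P M₀ K₀ K₁ : Set ℂ} {u v w g hh ψ η : ℂ → ℝ} {G : ℂ → ℂ}
  {π₀ π₁ : ℂ → Set ℂ} {x y z c p q e a₀ F : ℂ} {lam H r s R a b t M Θ ρ ε δ d : ℝ} {n : ℕ}

theorem par_lc {f : ℂ → ℝ} (hf : ContinuousOn f S) (hz : ∀ z ∈ S, ∃ k : ℤ, f z = k) : LC S f := by
  intro z hzS
  have h1 := (hf z hzS).eventually (ball_mem_nhds (f z) one_pos)
  filter_upwards [h1, self_mem_nhdsWithin] with w hw hwS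
  obtain ⟨k, hk⟩ := hz z hzS
  obtain ⟨l, hl⟩ := hz w hwS
  rw [hk, hl, Real.dist_eq, ← Int.cast_sub, ← Int.cast_abs] at hw
  have h2 : |l - k| < 1 := by exact_mod_cast hw
  rw [hk, hl, sub_eq_zero.1 (Int.abs_lt_one_iff.1 h2)]

theorem par_arg {Lg : ℂ → ℂ} (hL : ContinuousOn Lg S) (c : ℂ) (θ : ℝ) (hc : cexp (θ * I) = c)
    (hre : ∀ z ∈ S, 0 ≤ (c * cexp (Lg z)).re) :
    LC S (fun z => round (((Lg z).im - arg (c * cexp (Lg z)) + θ) / (2 * π))) := by
  have hne : ∀ z, c * cexp (Lg z) ≠ 0 := fun z =>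
    mul_ne_zero (hc ▸ exp_ne_zero _) (exp_ne_zero _)
  refine LC.comp (f := fun z => ((Lg z).im - arg (c * cexp (Lg z)) + θ) / (2 * π))
    (par_lc ?_ fun z _ => ?_) round
  · refine (((continuous_im.comp_continuousOn hL).sub fun z hz => ?_).add
      continuousOn_const).div_const _
    refine ContinuousAt.comp_continuousWithinAt (f := fun z => c * cexp (Lg z))
      (continuousAt_arg ?_) (continuousWithinAt_const.mul (hL z hz).cexp)
    rw [mem_slitPlane_iff]
    by_contra h
    push Not at h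
    exact hne z (Complex.ext (le_antisymm h.1 (hre z hz)) h.2)
  · have h1 : cexp (Lg z + θ * I) = cexp (log (c * cexp (Lg z))) := by
      rw [exp_log (hne z), Complex.exp_add, hc, mul_comm]
    obtain ⟨k, hk⟩ := exp_eq_exp_iff_exists_int.1 h1
    refine ⟨k, ?_⟩
    have h2 := congrArg Complex.im hk
    simp only [add_im, mul_im, ofReal_re, ofReal_im, I_re, I_im, log_im, mul_re, intCast_re,
      intCast_im, re_ofNat, im_ofNat] at h2
    have h3 := Real.pi_pos
    field_simp
    linarith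

theorem par_conn (x : ℂ) (R : ℝ) : IsPreconnected (closedBall x R)ᶜ := by
  have h1 : (closedBall x R)ᶜ = (fun y : ℝ × ℝ => circleMap x y.1 y.2) '' (Ioi R ×ˢ univ) := by
    ext z
    simp only [mem_compl_iff, mem_closedBall, not_le, mem_image, mem_prod, mem_Ioi, mem_univ,
      and_true]
    constructor
    · intro h
      refine ⟨(‖z - x‖, arg (z - x)), by rwa [dist_eq_norm] at h, ?_⟩
      simp only [circleMap, norm_mul_exp_arg_mul_I, add_sub_cancel]
    · rintro ⟨y, hy, rfl⟩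
      rw [dist_eq_norm, circleMap_sub_center, norm_circleMap_zero]
      exact hy.trans_le (le_abs_self _)
  rw [h1]
  refine (isPreconnected_Ioi.prod isPreconnected_univ).image _ ?_
  unfold circleMap
  fun_prop

theorem par_alg (m h s : ℝ) (w : ℂ) :
    cexp (h * I) * (w - s * cexp ((m - h : ℝ) * I)) * conj (w - s * cexp ((m + h : ℝ) * I)) =
      (Real.cos h * (normSq w + s ^ 2) - 2 * s * (w.re * Real.cos m + w.im * Real.sin m) : ℝ) +
        (Real.sin h * (normSq w - s ^ 2) : ℝ) * I := by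
  have h1 := Real.sin_sq_add_cos_sq m
  have h2 := Real.sin_sq_add_cos_sq h
  apply Complex.ext
  · simp only [mul_re, mul_im, sub_re, sub_im, add_re, conj_re, conj_im, ofReal_re, ofReal_im,
      exp_ofReal_mul_I_re, exp_ofReal_mul_I_im, I_re, I_im, Real.cos_sub, Real.sin_sub,
      Real.cos_add, Real.sin_add, normSq_apply]
    linear_combination
      (s ^ 2 * Real.cos h * (Real.sin h ^ 2 + Real.cos h ^ 2)) * h1 +
        (s ^ 2 * Real.cos h - 2 * s * (w.re * Real.cos m + w.im * Real.sin m)) * h2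
  · simp only [mul_re, mul_im, sub_re, sub_im, add_im, conj_re, conj_im, ofReal_re, ofReal_im,
      exp_ofReal_mul_I_re, exp_ofReal_mul_I_im, I_re, I_im, Real.cos_sub, Real.sin_sub,
      Real.cos_add, Real.sin_add, normSq_apply]
    linear_combination
      (-s ^ 2 * Real.sin h * (Real.sin h ^ 2 + Real.cos h ^ 2)) * h1 +
        (-s ^ 2 * Real.sin h) * h2

theorem par (hΓ : IsCompact Γ) (hc : IsPreconnected Γ) (hs : 0 < s) (hab : a < b)
    (hb : b ≤ a + 2 * π) (hp : circleMap x s a ∈ Γ) (hq : circleMap x s b ∈ Γ)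
    (hR : Γ ⊆ closedBall x R) :
    ∃ ζi ζo : ℂ → ℝ, (∀ z, ζi z = 0 ∨ ζi z = 1) ∧ (∀ z, ζo z = 0 ∨ ζo z = 1) ∧
      LC (closedBall x s \ Γ) ζi ∧ LC ((ball x s)ᶜ \ Γ) ζo ∧
      (∀ z ∉ closedBall x R, ζo z = 0) ∧
      (∀ t ∈ Ioo a b, circleMap x s t ∉ Γ → ζi (circleMap x s t) ≠ ζo (circleMap x s t)) ∧
      ∀ t ∈ Ioo b (a + 2 * π), circleMap x s t ∉ Γ →
        ζi (circleMap x s t) = ζo (circleMap x s t) := by
  classical
  rcases hb.eq_or_lt with hb | hb
  · refine ⟨fun _ => 1, fun _ => 0, fun _ => Or.inr rfl, fun _ => Or.inl rfl,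
      fun _ _ => Eventually.of_forall fun _ => rfl, fun _ _ => Eventually.of_forall fun _ => rfl,
      fun _ _ => rfl, fun _ _ _ => one_ne_zero, fun t ht => ?_⟩
    rw [hb] at ht
    exact absurd (ht.1.trans ht.2) (lt_irrefl _)
  obtain ⟨m, h, rfl, rfl⟩ : ∃ m h : ℝ, a = m - h ∧ b = m + h :=
    ⟨(a + b) / 2, (b - a) / 2, by ring, by ring⟩
  have h0 : 0 < h := by linarith
  have h1 : h < π := by linarith
  have hsin := Real.sin_pos_of_pos_of_lt_pi h0 h1
  obtain ⟨L0, hL0, hE0⟩ := log_ex hΓ hc hp hq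
  obtain ⟨Lg, hLg⟩ : ∃ Lg : ℂ → ℂ, Lg = fun z => h * I + L0 z := ⟨_, rfl⟩
  have hL : ContinuousOn Lg Γᶜ := hLg ▸ continuousOn_const.add hL0
  have hE : ∀ z ∉ Γ, ∃ N : ℝ, 0 < N ∧ cexp (Lg z) * N =
      (Real.cos h * (normSq (z - x) + s ^ 2) -
        2 * s * ((z - x).re * Real.cos m + (z - x).im * Real.sin m) : ℝ) +
        (Real.sin h * (normSq (z - x) - s ^ 2) : ℝ) * I := by
    intro z hz
    have h2 : z - circleMap x s (m + h) ≠ 0 := fun e => hz (sub_eq_zero.1 e ▸ hq)
    refine ⟨normSq (z - circleMap x s (m + h)), normSq_pos.2 h2, ?_⟩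
    rw [← par_alg, hLg, Complex.exp_add, hE0 z hz, ← mul_conj]
    have e1 : z - x - s * cexp ((m - h : ℝ) * I) = z - circleMap x s (m - h) := by
      unfold circleMap
      ring
    have e2 : z - x - s * cexp ((m + h : ℝ) * I) = z - circleMap x s (m + h) := by
      unfold circleMap
      ring
    rw [e1, e2]
    field_simp
  have hIm : ∀ z ∉ Γ, ∃ N : ℝ, 0 < N ∧
      (cexp (Lg z)).im * N = Real.sin h * (‖z - x‖ ^ 2 - s ^ 2) := by
    intro z hz
    obtain ⟨N, hN, e⟩ := hE z hz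
    refine ⟨N, hN, ?_⟩
    have h2 := congrArg Complex.im e
    simp only [mul_im, ofReal_re, ofReal_im, add_im, I_re, I_im, mul_zero, zero_add, mul_one,
      add_zero] at h2
    rw [h2, Complex.sq_norm]
  have hC : ∀ t : ℝ, circleMap x s t ∉ Γ → ∃ N : ℝ, 0 < N ∧ cexp (Lg (circleMap x s t)) =
      (N * (Real.sin ((t - (m - h)) / 2) * Real.sin ((t - (m + h)) / 2)) : ℝ) := by
    intro t ht
    obtain ⟨N, hN, e⟩ := hE _ ht
    refine ⟨4 * s ^ 2 / N, by positivity, ?_⟩
    have e1 : normSq (circleMap x s t - x) = s ^ 2 := by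
      rw [← Complex.sq_norm, circleMap_sub_center, norm_circleMap_zero, sq_abs]
    have e2 : (circleMap x s t - x).re = s * Real.cos t := by
      rw [circleMap_sub_center, circleMap_zero_re]
    have e3 : (circleMap x s t - x).im = s * Real.sin t := by
      rw [circleMap_sub_center, circleMap_zero_im]
    have e4 := Real.cos_sub_cos (t - m) h
    rw [Real.cos_sub, show t - m + h = t - (m - h) by ring, show t - m - h = t - (m + h) by ring]
      at e4
    rw [e1, e2, e3, sub_self, mul_zero, ofReal_zero, zero_mul, add_zero] at e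
    have hN' : (N : ℂ) ≠ 0 := ofReal_ne_zero.2 hN.ne'
    rw [eq_div_of_mul_eq hN' e, ← ofReal_div]
    congr 1
    field_simp
    linear_combination (-2) * e4
  have hsR : s ≤ R := by
    have h2 := hR hp
    rwa [mem_closedBall, dist_eq_norm, circleMap_sub_center, norm_circleMap_zero,
      abs_of_pos hs] at h2
  have c1 : LC (closedBall x s \ Γ)
      (fun z => round (((Lg z).im - arg (I * cexp (Lg z)) + π / 2) / (2 * π))) := by
    refine par_arg (hL.mono fun z hz => hz.2) I (π / 2) (by push_cast; exact exp_pi_div_two_mul_I)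
      fun z hz => ?_
    obtain ⟨N, hN, e⟩ := hIm z hz.2
    have h2 : ‖z - x‖ ≤ s := by simpa [dist_eq_norm] using hz.1
    have h3 : ‖z - x‖ ^ 2 ≤ s ^ 2 := pow_le_pow_left₀ (norm_nonneg _) h2 2
    have h4 : (cexp (Lg z)).im * N ≤ 0 := e ▸ mul_nonpos_of_nonneg_of_nonpos hsin.le (by linarith)
    rw [I_mul_re, neg_nonneg]
    exact nonpos_of_mul_nonpos_left h4 hN
  have c2 : LC ((ball x s)ᶜ \ Γ)
      (fun z => round (((Lg z).im - arg (-I * cexp (Lg z)) + -(π / 2)) / (2 * π))) := by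
    refine par_arg (hL.mono fun z hz => hz.2) (-I) (-(π / 2))
      (by push_cast; rw [← neg_div]; exact exp_neg_pi_div_two_mul_I) fun z hz => ?_
    obtain ⟨N, hN, e⟩ := hIm z hz.2
    have h2 : s ≤ ‖z - x‖ := by simpa [dist_eq_norm] using hz.1
    have h3 : s ^ 2 ≤ ‖z - x‖ ^ 2 := pow_le_pow_left₀ hs.le h2 2
    have h4 : 0 ≤ (cexp (Lg z)).im * N := e ▸ mul_nonneg hsin.le (by linarith)
    rw [neg_mul, neg_re, I_mul_re, neg_neg]
    exact nonneg_of_mul_nonneg_left h4 hN
  have hsub : (closedBall x R)ᶜ ⊆ (ball x s)ᶜ \ Γ := fun z hz =>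
    ⟨fun h2 => hz (closedBall_subset_closedBall hsR (ball_subset_closedBall h2)),
      fun h2 => hz (hR h2)⟩
  have hz0 : x + (R + 1 : ℝ) ∈ (closedBall x R)ᶜ := by
    rw [mem_compl_iff, mem_closedBall, dist_eq_norm, add_sub_cancel_left, norm_real,
      Real.norm_eq_abs, abs_of_pos (by linarith)]
    linarith
  obtain ⟨n0, hn0⟩ : ∃ n0 : ℤ, ∀ z ∉ closedBall x R,
      round (((Lg z).im - arg (-I * cexp (Lg z)) + -(π / 2)) / (2 * π)) = n0 :=
    ⟨_, fun z hz => c2.eq hsub (par_conn x R) hz hz0⟩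
  have hk : ∀ j : ℤ, (if Even (j - n0) then (0 : ℝ) else 1) = 0 ∨
      (if Even (j - n0) then (0 : ℝ) else 1) = 1 := fun j => by split_ifs <;> simp
  refine ⟨_, _, fun z => hk _, fun z => hk _,
    c1.comp fun j => if Even (j - n0) then (0 : ℝ) else 1,
    c2.comp fun j => if Even (j - n0) then (0 : ℝ) else 1, fun z hz => ?_, fun t ht hz => ?_,
    fun t ht hz => ?_⟩
  · rw [hn0 z hz, sub_self, if_pos Even.zero]
  · obtain ⟨N, hN, e⟩ := hC t hz
    have s1 : 0 < Real.sin ((t - (m - h)) / 2) :=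
      Real.sin_pos_of_pos_of_lt_pi (by linarith [ht.1]) (by linarith [ht.2])
    have s2 : Real.sin ((t - (m + h)) / 2) < 0 :=
      Real.sin_neg_of_neg_of_neg_pi_lt (by linarith [ht.2]) (by linarith [ht.1])
    obtain ⟨r, hr, e'⟩ : ∃ r : ℝ, 0 < r ∧ cexp (Lg (circleMap x s t)) = -r :=
      ⟨-(N * (Real.sin ((t - (m - h)) / 2) * Real.sin ((t - (m + h)) / 2))),
        neg_pos.2 (mul_neg_of_pos_of_neg hN (mul_neg_of_pos_of_neg s1 s2)), by
          rw [e, ofReal_neg, neg_neg]⟩
    have e1 : ((Lg (circleMap x s t)).im - -(π / 2) + π / 2) / (2 * π) =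
        ((Lg (circleMap x s t)).im - π / 2 + -(π / 2)) / (2 * π) + 1 := by
      have h3 := Real.pi_pos
      field_simp
      ring
    rw [e', neg_mul_neg, mul_neg, ← neg_mul, arg_mul_real hr, arg_mul_real hr, arg_I, arg_neg_I, e1,
      round_add_one, add_sub_right_comm]
    simp only [Int.even_add_one]
    split_ifs <;> simp_all
  · obtain ⟨N, hN, e⟩ := hC t hz
    have s1 : 0 < Real.sin ((t - (m - h)) / 2) :=
      Real.sin_pos_of_pos_of_lt_pi (by linarith [ht.1]) (by linarith [ht.2])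
    have s2 : 0 < Real.sin ((t - (m + h)) / 2) :=
      Real.sin_pos_of_pos_of_lt_pi (by linarith [ht.1]) (by linarith [ht.2])
    have hr := mul_pos hN (mul_pos s1 s2)
    have e1 : (Lg (circleMap x s t)).im - π / 2 + π / 2 =
        (Lg (circleMap x s t)).im - -(π / 2) + -(π / 2) := by ring
    rw [e, arg_mul_real hr, arg_mul_real hr, arg_I, arg_neg_I, e1]

end Vale.Agent.P128
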