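import Vale.Agent.P128.Arcs
import Vale.Agent.P128.Green
import Vale.Agent.P128.GreenO
import Vale.Agent.P128.Par

/-!
# P128 BonA

Bonnet inequality with errors. `flux`: add `green_in` for `ζi` and `green_out` for `ζo` (`par`);
`ζi - ζo` is a constant `±1` on the arc and `0` on the rest of the circle off `K` (`un = 0` on `K`).
`ident`: `green_in` with `tr M ∘ u`, `M ≥` the bound of `circ_bdd`; `grad_tr`; `|hh * tr M u| ≤ lam`;
`M → ∞` by dominated convergence. `bon`: `∫ u un = ∫ (u - m) un + ∑ m_k flux_k` (`arc_mean`, `Gaps.sum`),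
`H |m_k| ≤ lam`, `cs_int`. `bon0`, `bon1`: total flux from `green_in` with `ψ = 1`; `wir_per`.
-/

namespace Vale.Agent.P128

open Set Metric MeasureTheory Filter Topology Complex
open scoped ENNReal ContDiff RealInnerProductSpace Gradient Real ComplexConjugate

variable {Ω K L A S T U O X Γ P M₀ K₀ K₁ : Set ℂ} {u v w g hh ψ η : ℂ → ℝ} {G : ℂ → ℂ}
  {π₀ π₁ : ℂ → Set ℂ} {x y z c p q e a₀ F : ℂ} {lam H r s R a b t M Θ ρ ε δ d : ℝ} {n : ℕ}

theorem bona_un_zero {θ : ℝ} (u : ℂ → ℝ) (h : circleMap x s θ ∈ K) : un u K x s θ = 0 := by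
  simp [un, gK_of_mem u h]

theorem bona_int {f : ℂ → ℝ} (hK : IsClosed K) (hg : Good u K x s)
    (hf : ContinuousOn f (sphere x s \ K)) (hM : ∀ z, |f z| ≤ M) (a b : ℝ) :
    IntervalIntegrable (fun θ => f (circleMap x s θ) * un u K x s θ) volume a b := by
  have hO : IsOpen {θ : ℝ | circleMap x s θ ∉ K} :=
    hK.isOpen_compl.preimage (continuous_circleMap x s)
  have hc : ContinuousOn (fun θ => f (circleMap x s θ)) {θ : ℝ | circleMap x s θ ∉ K} :=
    hf.comp (continuous_circleMap x s).continuousOn fun θ hθ =>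
      ⟨circleMap_mem_sphere x hg.1.le θ, hθ⟩
  have hm := hc.aestronglyMeasurable (μ := volume) hO.measurableSet
  rw [Measure.restrict_eq_self_of_ae_mem (s := {θ : ℝ | circleMap x s θ ∉ K})
    (ae_notMem hg.1 hg.2.1)] at hm
  have hi := (hg.int hK a b).2.1
  rw [intervalIntegrable_iff] at hi ⊢
  exact Integrable.bdd_mul (c := M) hi hm.restrict (Eventually.of_forall fun θ => hM _)

theorem bona_vol (x : ℂ) (hr : 0 ≤ r) : volume.real (closedBall x r) = π * r ^ 2 := by
  rw [measureReal_def, Complex.volume_closedBall]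
  simp [ENNReal.toReal_ofReal hr, mul_comm]

theorem flux (h : NH Ω u K hh H) (hb : closedBall x R ⊆ Ω) (hg : Good u K x s)
    (ha : FreeArc K x s a b)
    (hj : Join K (closedBall x R) (circleMap x s a) (circleMap x s b)) :
    |∫ θ in a..b, un u K x s θ| ≤ H * (π * R ^ 2) := by
  obtain ⟨Γ, hΓ, hc, hsub, hp, hq⟩ := hj
  have hs := hg.1
  have hK : IsClosed K := h.1.2.1
  have hΓK : Γ ⊆ K := fun z hz => (hsub hz).1
  have hsR : s ≤ R := by
    have := (hsub hp).2
    rwa [mem_closedBall, mem_sphere.1 (circleMap_mem_sphere x hs.le a)] at this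
  obtain ⟨ζi, ζo, hi01, ho01, hi, ho, ho0, hne, heq⟩ :=
    par hΓ hc hs ha.1 ha.2.1 hp hq fun z hz => (hsub hz).2
  have hi1 : ∀ z, |ζi z| ≤ 1 := fun z => by rcases hi01 z with h | h <;> simp [h]
  have ho1 : ∀ z, |ζo z| ≤ 1 := fun z => by rcases ho01 z with h | h <;> simp [h]
  have hiK : LC (closedBall x s \ K) ζi := hi.mono fun z hz => ⟨hz.1, fun h => hz.2 (hΓK h)⟩
  have hg0 : ∀ z ∈ ball x s, gK K ζi z = 0 := by
    intro z hz
    by_cases hzK : z ∈ K
    · exact gK_of_mem _ hzK
    · rw [gK_of_notMem _ hzK]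
      exact (hiK.mono (T := ball x s \ K) fun w hw => ⟨ball_subset_closedBall hw.1, hw.2⟩).grad
        (isOpen_ball.sdiff hK) ⟨hz, hzK⟩
  have hD : Dn ζi K (ball x s) ≠ ⊤ := by
    have : Dn ζi K (ball x s) = 0 := by
      unfold Dn
      rw [setLIntegral_congr_fun measurableSet_ball (g := fun _ => 0) fun z hz => by
        simp [hg0 z hz]]
      simp
    simp [this]
  have e1 := green_in h ((closedBall_subset_closedBall hsR).trans hb) hg hiK.lip
    (fun z _ => hi1 z) hD
  rw [setIntegral_congr_fun measurableSet_ball (g := fun _ => (0 : ℝ)) fun z hz => by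
    simp [hg0 z hz]] at e1
  have e2 := green_out h hb hsR hg
    (ho.mono fun z hz => ⟨hz.1.2, fun h => hz.2 (hΓK h)⟩) ho1 ho0
  have hiS : LC (sphere x s \ K) ζi := hiK.mono fun z hz => ⟨sphere_subset_closedBall hz.1, hz.2⟩
  have hoS : LC (sphere x s \ K) ζo := ho.mono fun z hz =>
    ⟨fun h => (mem_ball.1 h).ne (mem_sphere.1 hz.1), fun h => hz.2 (hΓK h)⟩
  have ii := bona_int hK hg hiS.lip.continuousOn hi1
  have io := bona_int hK hg hoS.lip.continuousOn ho1
  set k : ℝ → ℝ := fun θ => ζi (circleMap x s θ) * un u K x s θ -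
    ζo (circleMap x s θ) * un u K x s θ with hk
  have ik : ∀ a b, IntervalIntegrable k volume a b := fun a b => (ii a b).sub (io a b)
  have hper : Function.Periodic k (2 * π) := fun θ => by
    simp only [hk, periodic_circleMap x s θ, (ut_per u K x s).2 θ]
  have e3 : ∫ θ in (0 : ℝ)..2 * π, k θ = (∫ θ in a..b, k θ) + ∫ θ in b..a + 2 * π, k θ := by
    rw [intervalIntegral.integral_add_adjacent_intervals (ik _ _) (ik _ _),
      hper.intervalIntegral_add_eq a 0, zero_add]
  have e4 : ∫ θ in b..a + 2 * π, k θ = 0 := by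
    rw [intervalIntegral.integral_congr (g := fun _ => 0)]
    · simp
    · intro θ hθ
      rw [uIcc_of_le ha.2.1] at hθ
      by_cases hθK : circleMap x s θ ∈ K
      · simp [hk, bona_un_zero u hθK]
      · have h1 : θ ≠ b := by
          rintro rfl
          exact hθK (hΓK hq)
        have h2 : θ ≠ a + 2 * π := by
          rintro rfl
          rw [periodic_circleMap x s a] at hθK
          exact hθK (hΓK hp)
        simp only [hk]
        rw [heq θ ⟨lt_of_le_of_ne hθ.1 h1.symm, lt_of_le_of_ne hθ.2 h2⟩ fun h => hθK (hΓK h),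
          sub_self]
  have hm : (a + b) / 2 ∈ Ioo a b := ⟨by linarith [ha.1], by linarith [ha.1]⟩
  set c := ζi (circleMap x s ((a + b) / 2)) - ζo (circleMap x s ((a + b) / 2)) with hc0
  have hc1 : |c| = 1 := by
    have := hne _ hm fun h => ha.2.2 _ hm (hΓK h)
    rcases hi01 (circleMap x s ((a + b) / 2)) with h1 | h1 <;>
      rcases ho01 (circleMap x s ((a + b) / 2)) with h2 | h2 <;> simp_all
  have hT : circleMap x s '' Ioo a b ⊆ sphere x s \ K := by
    rintro _ ⟨θ, hθ, rfl⟩
    exact ⟨circleMap_mem_sphere x hs.le θ, ha.2.2 θ hθ⟩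
  have hTc : IsPreconnected (circleMap x s '' Ioo a b) :=
    isPreconnected_Ioo.image _ (continuous_circleMap x s).continuousOn
  have e5 : ∫ θ in a..b, k θ = c * ∫ θ in a..b, un u K x s θ := by
    rw [← intervalIntegral.integral_const_mul]
    refine intervalIntegral.integral_congr fun θ hθ => ?_
    rw [uIcc_of_le ha.1.le] at hθ
    by_cases hθK : circleMap x s θ ∈ K
    · simp [hk, bona_un_zero u hθK]
    · have h1 : θ ≠ b := by
        rintro rfl
        exact hθK (hΓK hq)
      have h2 : θ ≠ a := by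
        rintro rfl
        exact hθK (hΓK hp)
      have hθ' : θ ∈ Ioo a b := ⟨lt_of_le_of_ne hθ.1 h2.symm, lt_of_le_of_ne hθ.2 h1⟩
      simp only [hk, hc0]
      rw [hiS.eq hT hTc ⟨θ, hθ', rfl⟩ ⟨_, hm, rfl⟩, hoS.eq hT hTc ⟨θ, hθ', rfl⟩ ⟨_, hm, rfl⟩]
      ring
  have e6 : ∫ θ in (0 : ℝ)..2 * π, k θ = (∫ z in ball x s \ K, hh z * ζi z) +
      ∫ z in (closedBall x s)ᶜ \ K, hh z * ζo z := by
    rw [e2, ← sub_eq_add_neg, hk, intervalIntegral.integral_sub (ii _ _) (io _ _), ← e1]
    simp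
  have hH : 0 ≤ H := (abs_nonneg _).trans (h.2.2.1 0)
  have hm2 : MeasurableSet ((closedBall x s)ᶜ \ K) :=
    measurableSet_closedBall.compl.diff hK.measurableSet
  have e7 : ∫ z in (closedBall x s)ᶜ \ K, hh z * ζo z =
      ∫ z in ((closedBall x s)ᶜ \ K) ∩ closedBall x R, hh z * ζo z :=
    setIntegral_eq_of_subset_of_forall_sdiff_eq_zero hm2 inter_subset_left fun z hz => by
      rw [ho0 z fun h => hz.2 ⟨hz.1, h⟩, mul_zero]
  have hfin : volume (closedBall x R) < ⊤ := measure_closedBall_lt_top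
  have s1 : ball x s \ K ⊆ closedBall x R :=
    fun z hz => closedBall_subset_closedBall hsR (ball_subset_closedBall hz.1)
  have hbd : ∀ (ζ : ℂ → ℝ), (∀ z, |ζ z| ≤ 1) → ∀ z, ‖hh z * ζ z‖ ≤ H := fun ζ hζ z => by
    rw [Real.norm_eq_abs, abs_mul]
    exact (mul_le_mul (h.2.2.1 z) (hζ z) (abs_nonneg _) hH).trans_eq (mul_one H)
  have b1 := norm_setIntegral_le_of_norm_le_const (μ := volume)
    ((measure_mono s1).trans_lt hfin) fun z _ => hbd ζi hi1 z
  have b2 := norm_setIntegral_le_of_norm_le_const (μ := volume)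
    (s := ((closedBall x s)ᶜ \ K) ∩ closedBall x R)
    ((measure_mono inter_subset_right).trans_lt hfin) fun z _ => hbd ζo ho1 z
  have b3 : volume.real (ball x s \ K) + volume.real (((closedBall x s)ᶜ \ K) ∩ closedBall x R) ≤
      π * R ^ 2 := by
    rw [← measureReal_union (disjoint_left.2 fun z h1 h2 => h2.1.1 (ball_subset_closedBall h1.1))
      (hm2.inter measurableSet_closedBall) ((measure_mono s1).trans_lt hfin).ne
      ((measure_mono inter_subset_right).trans_lt hfin).ne, ← bona_vol x (hs.le.trans hsR)]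
    exact measureReal_mono (union_subset s1 inter_subset_right) hfin.ne
  have e8 : |∫ θ in a..b, un u K x s θ| = |∫ θ in (0 : ℝ)..2 * π, k θ| := by
    rw [e3, e4, e5, add_zero, abs_mul, hc1, one_mul]
  rw [e8, e6, e7]
  refine (abs_add_le _ _).trans ?_
  rw [Real.norm_eq_abs] at b1 b2
  have b4 := mul_le_mul_of_nonneg_left b3 hH
  linarith

theorem ident (h : NP Ω lam u K) (hb : closedBall x s ⊆ Ω) (hg : Good u K x s) :
    |Dr u K x s - ∫ θ in (0 : ℝ)..2 * π, u (circleMap x s θ) * un u K x s θ| ≤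
      lam * (π * s ^ 2) := by
  obtain ⟨hlam, hh, H, hN, -, hH⟩ := h
  have hP := hN.1
  have hK : IsClosed K := hP.2.1
  have hs := hg.1
  obtain ⟨M, hM0, hM⟩ := circ_bdd hP (sphere_subset_closedBall.trans hb) hg
  have hDu : Dn u K (ball x s) ≠ ⊤ :=
    ne_top_of_le_ne_top (hP.2.2.2 x s hb).1 (Dn_mono_set u K ball_subset_closedBall)
  have hgr : ∀ (N : ℝ), ∀ z ∈ ball x s,
      gK K (fun w => tr N (u w)) z = if |u z| < N then gK K u z else 0 := by
    intro N z hz
    by_cases hzK : z ∈ K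
    · simp [gK_of_mem _ hzK]
    · rw [gK_of_notMem _ hzK, gK_of_notMem _ hzK,
        grad_tr (hP.diff ⟨hb (ball_subset_closedBall hz), hzK⟩).continuousAt]
  have hH0 : 0 ≤ H := (abs_nonneg _).trans (hN.2.2.1 0)
  have key : ∀ n : ℕ, |(∫ z in ball x s, ⟪gK K u z, gK K (fun w => tr (M + n) (u w)) z⟫) -
      ∫ θ in (0 : ℝ)..2 * π, u (circleMap x s θ) * un u K x s θ| ≤ lam * (π * s ^ 2) := by
    intro n
    have hn : 0 ≤ M + n := by positivity
    have hD : Dn (fun w => tr (M + n) (u w)) K (ball x s) ≠ ⊤ := by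
      refine ne_top_of_le_ne_top hDu (setLIntegral_mono' measurableSet_ball fun z hz => ?_)
      rw [hgr _ z hz]
      split_ifs <;> simp
    have e1 := green_in hN hb hg
      (lip_tr (hP.lip.mono fun z hz => ⟨hb hz.1, hz.2⟩) (M + n))
      (fun z _ => (abs_tr_le hn _).1) hD
    have e2 : ∫ θ in (0 : ℝ)..2 * π, tr (M + n) (u (circleMap x s θ)) * un u K x s θ =
        ∫ θ in (0 : ℝ)..2 * π, u (circleMap x s θ) * un u K x s θ := by
      refine intervalIntegral.integral_congr fun θ _ => ?_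
      by_cases hθK : circleMap x s θ ∈ K
      · simp [bona_un_zero u hθK]
      · rw [tr_eq ((hM _ ⟨circleMap_mem_sphere x hs.le θ, hθK⟩).trans
          (le_add_of_nonneg_right n.cast_nonneg))]
    have s1 : ball x s \ K ⊆ closedBall x s := fun z hz => ball_subset_closedBall hz.1
    have hfin : volume (closedBall x s) < ⊤ := measure_closedBall_lt_top
    have b1 := norm_setIntegral_le_of_norm_le_const (μ := volume) (C := lam)
      (f := fun z => hh z * tr (M + n) (u z)) ((measure_mono s1).trans_lt hfin) fun z hz => by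
        rw [Real.norm_eq_abs, abs_mul]
        exact (mul_le_mul (hN.2.2.1 z) (abs_tr_le hn _).2 (abs_nonneg _) hH0).trans
          (hH z ⟨hb (s1 hz), hz.2⟩)
    have b2 : volume.real (ball x s \ K) ≤ π * s ^ 2 := by
      rw [← bona_vol x hs.le]
      exact measureReal_mono s1 hfin.ne
    rw [← e2, ← e1, sub_add_cancel_left, abs_neg]
    exact b1.trans (mul_le_mul_of_nonneg_left b2 hlam)
  have hlim : Tendsto (fun n : ℕ => ∫ z in ball x s, ⟪gK K u z, gK K (fun w => tr (M + n) (u w)) z⟫)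
      atTop (𝓝 (Dr u K x s)) := by
    rw [Dr_eq hK]
    refine tendsto_integral_of_dominated_convergence (fun z => ‖gK K u z‖ ^ 2)
      (fun n => ((meas_gK hK _).inner (meas_gK hK _)).aestronglyMeasurable)
      (intOn_of_Dn hK hDu).1 (fun n => ?_) ?_
    · filter_upwards [ae_restrict_mem measurableSet_ball] with z hz
      rw [hgr _ z hz]
      split_ifs
      · rw [real_inner_self_eq_norm_sq, Real.norm_eq_abs, abs_of_nonneg (sq_nonneg _)]
      · simp
    · filter_upwards [ae_restrict_mem measurableSet_ball] with z hz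
      refine tendsto_const_nhds.congr' ?_
      filter_upwards [tendsto_natCast_atTop_atTop.eventually_gt_atTop |u z|] with n hn
      rw [hgr _ z hz, if_pos (by linarith), real_inner_self_eq_norm_sq]
  exact le_of_tendsto' (hlim.sub_const _).abs key

end Vale.Agent.P128
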