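import Vale.Agent.P128.LipWG

/-!
# P128 Br0

Comparison for the `C¹` representative. If the right side is finite, `(w, ∇ w, L ∩ Ω)` is admissible
(`lipWG`; off the closed ball `w = v`, `∇ w = ∇ v`; `L ∩ Ω` is Lebesgue null). Use `V = ball c r'` with
`r' > r` and `closedBall c r' ⊆ Ω`, `C = closedBall c r`; the energies on `V \ C` agree and are finite,
so they cancel (`ENNReal.add_le_add_iff_right`).
-/

namespace Vale.Agent.P128

open Set Metric MeasureTheory Filter Topology Complex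
open scoped ENNReal ContDiff RealInnerProductSpace Gradient Real ComplexConjugate

variable {Ω K L A S T U O X Γ P M₀ K₀ K₁ : Set ℂ} {u v w g hh ψ η : ℂ → ℝ} {G : ℂ → ℂ}
  {π₀ π₁ : ℂ → Set ℂ} {x y z c p q e a₀ F : ℂ} {lam H r s R a b t M Θ ρ ε δ d : ℝ} {n : ℕ}

theorem br0_split {V B : Set ℂ} (g u : ℂ → ℝ) (G : ℂ → ℂ) (K : Set ℂ) (hB : MeasurableSet B)
    (hV : B ⊆ V) : Energy g u G K V = Energy g u G K B + Energy g u G K (V \ B) := by
  unfold Energy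
  have e1 : (V \ K) ∩ B = B \ K := by
    ext z; exact ⟨fun h => ⟨h.2, h.1.2⟩, fun h => ⟨⟨hV h.1, h.2⟩, h.1⟩⟩
  have e2 : (V \ K) \ B = (V \ B) \ K := by
    ext z; exact ⟨fun h => ⟨⟨h.1.1, h.2⟩, h.1.2⟩, fun h => ⟨⟨h.1.1, h.2⟩, h.1.2⟩⟩
  have e3 : (K ∩ V) ∩ B = K ∩ B := by
    ext z; exact ⟨fun h => ⟨h.1.1, h.2⟩, fun h => ⟨⟨h.1, hV h.2⟩, h.2⟩⟩
  have e4 : (K ∩ V) \ B = K ∩ (V \ B) := by
    ext z; exact ⟨fun h => ⟨h.1.1, h.1.2, h.2⟩, fun h => ⟨⟨h.1, h.2.1⟩, h.2.2⟩⟩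
  have e5 : V ∩ B = B := inter_eq_right.2 hV
  rw [← lintegral_inter_add_sdiff (fun z => ‖G z‖ₑ ^ 2) (V \ K) hB,
    ← measure_inter_add_sdiff (μ := μH[1]) (K ∩ V) hB,
    ← lintegral_inter_add_sdiff (fun z => ‖u z - g z‖ₑ ^ 2) V hB, e1, e2, e3, e4, e5]
  ring

theorem br0_eq {B K' : Set ℂ} (g : ℂ → ℝ) (hB : MeasurableSet B) (hK' : K' ∩ B = K ∩ B)
    (h0 : volume (K ∩ B) = 0) (hae : ∀ᵐ z : ℂ, z ∈ B \ K → v z = u z ∧ ∇ v z = G z) :
    Energy g u G K' B = En v K B + ∫⁻ z in B, ‖v z - g z‖ₑ ^ 2 := by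
  unfold Energy En Dn
  have h1 : ∀ᵐ z : ℂ, z ∉ K ∩ B := measure_eq_zero_iff_ae_notMem.1 h0
  have h2 : (B \ K' : Set ℂ) =ᵐ[volume] B := by
    refine sdiff_ae_eq_self.2 ?_
    rw [inter_comm, hK']
    exact h0
  rw [hK', setLIntegral_congr h2]
  congr 1
  · congr 1
    refine setLIntegral_congr_fun_ae hB ?_
    filter_upwards [h1, hae] with z hz1 hz2 hz
    have hK : z ∉ K := fun h => hz1 ⟨h, hz⟩
    rw [gK_of_notMem v hK, (hz2 ⟨hz, hK⟩).2]
  · refine setLIntegral_congr_fun_ae hB ?_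
    filter_upwards [h1, hae] with z hz1 hz2 hz
    have hK : z ∉ K := fun h => hz1 ⟨h, hz⟩
    rw [(hz2 ⟨hz, hK⟩).1]

theorem br0_lint {E : Type} [NormedAddCommGroup E] {f : ℂ → E} {μ : Measure ℂ}
    (hf : AEStronglyMeasurable f μ) : MemLp f 2 μ ↔ ∫⁻ z, ‖f z‖ₑ ^ 2 ∂μ < ⊤ := by
  have h := eLpNorm_lt_top_iff_lintegral_rpow_enorm_lt_top (f := f) (μ := μ) (p := 2)
    two_ne_zero ENNReal.ofNat_ne_top
  simp only [ENNReal.toReal_ofNat, ENNReal.rpow_ofNat] at h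
  exact ⟨fun h1 => h.1 h1.2, fun h1 => ⟨hf, h.2 h1⟩⟩

theorem br0_union {E : Type} [NormedAddCommGroup E] {f : ℂ → E} {S T U : Set ℂ}
    (hm : AEStronglyMeasurable f (volume.restrict U)) (hU : U ⊆ S ∪ T)
    (hS : ∫⁻ z in S, ‖f z‖ₑ ^ 2 < ⊤) (hT : ∫⁻ z in T, ‖f z‖ₑ ^ 2 < ⊤) :
    MemLp f 2 (volume.restrict U) := by
  rw [br0_lint hm]
  refine lt_of_le_of_lt ((lintegral_mono_set hU).trans (lintegral_union_le _ _ _)) ?_
  exact ENNReal.add_lt_top.2 ⟨hS, hT⟩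

theorem br0 (hΩ : IsOpen Ω) (hg : MemLp g ⊤ (volume.restrict Ω)) (h : Minimizer Ω g u G K)
    (hv : ContDiffOn ℝ 1 v (Ω \ K)) (hae : ∀ᵐ z : ℂ, z ∈ Ω \ K → v z = u z ∧ ∇ v z = G z)
    (hb : closedBall c r ⊆ Ω) (hL : IsOpen (Ω \ L))
    (hLK : ∀ z ∈ Ω, z ∉ closedBall c r → (z ∈ L ↔ z ∈ K)) (hw : LocallyLipschitzOn (Ω \ L) w)
    (he : ∀ z ∈ Ω \ K, z ∉ closedBall c r → w z = v z) :
    En v K (closedBall c r) + ∫⁻ z in closedBall c r, ‖v z - g z‖ₑ ^ 2 ≤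
      En w L (closedBall c r) + ∫⁻ z in closedBall c r, ‖w z - g z‖ₑ ^ 2 := by
  rcases lt_or_ge r 0 with hr | hr
  · simp [closedBall_eq_empty.2 hr, En, Dn]
  by_cases hfin : En w L (closedBall c r) + ∫⁻ z in closedBall c r, ‖w z - g z‖ₑ ^ 2 = ⊤
  · rw [hfin]; exact le_top
  obtain ⟨⟨hKΩ, hKo, hKf, hu2, -, hG2⟩, hmin⟩ := h
  set B := closedBall c r with hBdef
  have hBm : MeasurableSet B := isClosed_closedBall.measurableSet
  obtain ⟨hEn, hwg⟩ := ENNReal.add_ne_top.1 hfin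
  obtain ⟨hDn, hLB⟩ := ENNReal.add_ne_top.1 hEn
  have hK0 : volume K = 0 := vol_null hKf.ne
  have hL'f : μH[1] (L ∩ Ω) < ⊤ := by
    have : L ∩ Ω ⊆ L ∩ B ∪ K := fun z hz => by
      by_cases hz' : z ∈ B
      · exact Or.inl ⟨hz.1, hz'⟩
      · exact Or.inr ((hLK z hz.2 hz').1 hz.1)
    refine lt_of_le_of_lt ((measure_mono this).trans (measure_union_le _ _)) ?_
    exact ENNReal.add_lt_top.2 ⟨hLB.lt_top, hKf⟩
  have hL0 : volume (L ∩ Ω) = 0 := vol_null hL'f.ne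
  have hLe : Ω \ (L ∩ Ω) = Ω \ L := by
    ext z; exact ⟨fun h => ⟨h.1, fun h' => h.2 ⟨h', h.1⟩⟩, fun h => ⟨h.1, fun h' => h.2 h'.1⟩⟩
  have hKn : ∀ᵐ z : ℂ, z ∉ K := measure_eq_zero_iff_ae_notMem.1 hK0
  have hout : ∀ᵐ z : ℂ, z ∈ Ω \ B → w z = u z ∧ ∇ w z = G z := by
    filter_upwards [hKn, hae] with z hz1 hz2 hz
    obtain ⟨h1, h2⟩ := hz2 ⟨hz.1, hz1⟩
    have hev : w =ᶠ[𝓝 z] v := by
      have ho : IsOpen ((Ω \ K) \ B) := hKo.sdiff isClosed_closedBall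
      filter_upwards [ho.mem_nhds ⟨⟨hz.1, hz1⟩, hz.2⟩] with y hy
      exact he y hy.1 hy.2
    exact ⟨hev.eq_of_nhds.trans h1, hev.gradient_eq.trans h2⟩
  have hΩB : MeasurableSet (Ω \ B) := hΩ.measurableSet.diff hBm
  have hBf : volume B < ⊤ := (isCompact_closedBall c r).measure_lt_top
  have hwm : AEStronglyMeasurable w (volume.restrict Ω) := by
    have h1 : (Ω \ L : Set ℂ) =ᵐ[volume] Ω := by
      refine sdiff_ae_eq_self.2 ?_
      rwa [inter_comm]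
    rw [← Measure.restrict_congr_set h1]
    exact hw.continuousOn.aestronglyMeasurable hL.measurableSet
  have hgS : ∀ S ⊆ Ω, volume S < ⊤ → MemLp g 2 (volume.restrict S) := by
    intro S hS hS'
    have : IsFiniteMeasure (volume.restrict S) := ⟨by rwa [Measure.restrict_apply_univ]⟩
    exact (hg.mono_measure (Measure.restrict_mono hS le_rfl)).mono_exponent le_top
  have hw2 : MemLp w 2 (volume.restrict Ω) := by
    refine br0_union (S := B) (T := Ω \ B) hwm (fun z hz => (em (z ∈ B)).imp id fun h => ⟨hz, h⟩) ?_ ?_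
    · have hm := hwm.mono_measure (Measure.restrict_mono hb le_rfl)
      have hgB := hgS B hb hBf
      have h1 : MemLp (fun z => w z - g z) 2 (volume.restrict B) :=
        (br0_lint (hm.sub hgB.1)).2 hwg.lt_top
      have h2 : MemLp w 2 (volume.restrict B) := by
        have := h1.add hgB
        refine this.ae_eq (Eventually.of_forall fun z => ?_)
        simp
      exact (br0_lint hm).1 h2
    · have h1 : ∫⁻ z in Ω \ B, ‖w z‖ₑ ^ 2 = ∫⁻ z in Ω \ B, ‖u z‖ₑ ^ 2 := by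
        refine setLIntegral_congr_fun_ae hΩB ?_
        filter_upwards [hout] with z hz hz'
        rw [(hz hz').1]
      rw [h1]
      exact lt_of_le_of_lt (lintegral_mono_set sdiff_subset) ((br0_lint hu2.1).1 hu2)
  have hGf : ∫⁻ z in Ω \ K, ‖G z‖ₑ ^ 2 < ⊤ := (br0_lint hG2.1).1 hG2
  have hW2 : MemLp (∇ w) 2 (volume.restrict (Ω \ L)) := by
    refine br0_union (S := B ∩ (Ω \ L)) (T := (Ω \ B) \ K) (meas_grad w).aestronglyMeasurable
      (fun z hz => ?_) ?_ ?_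
    · by_cases hz' : z ∈ B
      · exact Or.inl ⟨hz', hz⟩
      · exact Or.inr ⟨⟨hz.1, hz'⟩, fun hK => hz.2 ((hLK z hz.1 hz').2 hK)⟩
    · have h1 : ∫⁻ z in B ∩ (Ω \ L), ‖∇ w z‖ₑ ^ 2 = ∫⁻ z in B ∩ (Ω \ L), ‖gK L w z‖ₑ ^ 2 := by
        refine setLIntegral_congr_fun (hBm.inter hL.measurableSet) fun z hz => ?_
        simp only [gK_of_notMem w hz.2.2]
      rw [h1]
      exact lt_of_le_of_lt (lintegral_mono_set inter_subset_left) hDn.lt_top
    · have hm : MeasurableSet ((Ω \ B) \ K) := by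
        rw [Set.sdiff_sdiff_comm]
        exact hKo.measurableSet.diff hBm
      have h1 : ∫⁻ z in (Ω \ B) \ K, ‖∇ w z‖ₑ ^ 2 = ∫⁻ z in (Ω \ B) \ K, ‖G z‖ₑ ^ 2 := by
        refine setLIntegral_congr_fun_ae hm ?_
        filter_upwards [hout] with z hz hz'
        rw [(hz hz'.1).2]
      rw [h1]
      exact lt_of_le_of_lt (lintegral_mono_set (sdiff_subset_sdiff_left sdiff_subset)) hGf
  have hadm : Admissible Ω w (∇ w) (L ∩ Ω) := by
    refine ⟨inter_subset_right, by rwa [hLe], hL'f, hw2, ?_, ?_⟩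
    · rw [hLe]; exact lipWG hL hw
    · rwa [hLe]
  obtain ⟨δ, hδ, hδΩ⟩ := (isCompact_closedBall c r).exists_cthickening_subset_open hΩ hb
  rw [cthickening_closedBall hδ.le hr] at hδΩ
  have hcl : closure (ball c (δ + r)) ⊆ closedBall c (δ + r) := closure_ball_subset_closedBall
  have hBV : B ⊆ ball c (δ + r) := closedBall_subset_ball (by linarith)
  have hVΩ : ball c (δ + r) ⊆ Ω := ball_subset_closedBall.trans hδΩ
  have key := hmin (ball c (δ + r)) isOpen_ball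
    ((isCompact_closedBall c (δ + r)).of_isClosed_subset isClosed_closure hcl) (hcl.trans hδΩ)
    w (∇ w) (L ∩ Ω) hadm ⟨B, isCompact_closedBall c r, hBV, fun z hz => by
      by_contra hz'
      rcases mem_symmDiff.1 hz with h1 | h1
      · exact h1.2 ((hLK z h1.1.2 hz').1 h1.1.1)
      · exact h1.2 ⟨(hLK z (hKΩ h1.1) hz').2 h1.1, hKΩ h1.1⟩,
      hout.mono fun z hz hz' => (hz hz').1⟩
  rw [br0_split g u G K hBm hBV, br0_split g w (∇ w) (L ∩ Ω) hBm hBV] at key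
  set V := ball c (δ + r) with hV
  have hVm : MeasurableSet (V \ B) := isOpen_ball.measurableSet.diff hBm
  have hsame : Energy g w (∇ w) (L ∩ Ω) (V \ B) = Energy g u G K (V \ B) := by
    unfold Energy
    have e1 : L ∩ Ω ∩ (V \ B) = K ∩ (V \ B) := by
      ext z
      exact ⟨fun h => ⟨(hLK z h.1.2 h.2.2).1 h.1.1, h.2⟩,
        fun h => ⟨⟨(hLK z (hKΩ h.1) h.2.2).2 h.1, hKΩ h.1⟩, h.2⟩⟩
    have e2 : (V \ B) \ (L ∩ Ω) = (V \ B) ∩ (Ω \ K) := by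
      ext z
      exact ⟨fun h => ⟨h.1, hVΩ h.1.1, fun hK => h.2 ⟨(hLK z (hKΩ hK) h.1.2).2 hK, hKΩ hK⟩⟩,
        fun h => ⟨h.1, fun hK => h.2.2 ((hLK z hK.2 h.1.2).1 hK.1)⟩⟩
    have e3 : (V \ B) \ K = (V \ B) ∩ (Ω \ K) := by
      ext z
      exact ⟨fun h => ⟨h.1, hVΩ h.1.1, h.2⟩, fun h => ⟨h.1, h.2.2⟩⟩
    rw [e1, e2, e3]
    congr 1
    · congr 1
      refine setLIntegral_congr_fun_ae (hVm.inter hKo.measurableSet) ?_
      filter_upwards [hout] with z hz hz'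
      rw [(hz ⟨hz'.2.1, hz'.1.2⟩).2]
    · refine setLIntegral_congr_fun_ae hVm ?_
      filter_upwards [hout] with z hz hz'
      rw [(hz ⟨hVΩ hz'.1, hz'.2⟩).1]
  have hne : Energy g u G K (V \ B) ≠ ⊤ := by
    unfold Energy
    refine ENNReal.add_ne_top.2 ⟨ENNReal.add_ne_top.2 ⟨?_, ?_⟩, ?_⟩
    · exact (lt_of_le_of_lt (lintegral_mono_set (sdiff_subset_sdiff_left
        (sdiff_subset.trans hVΩ))) hGf).ne
    · exact (lt_of_le_of_lt (measure_mono inter_subset_left) hKf).ne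
    · have h1 := hgS V hVΩ measure_ball_lt_top
      have h2 := (hu2.mono_measure (Measure.restrict_mono hVΩ le_rfl)).sub h1
      exact (lt_of_le_of_lt (lintegral_mono_set sdiff_subset) ((br0_lint h2.1).1 h2)).ne
  rw [hsame, ENNReal.add_le_add_iff_right hne,
    br0_eq (v := v) (K := K) g hBm rfl (measure_mono_null inter_subset_left hK0)
      (hae.mono fun z hz hz' => hz ⟨hb hz'.1, hz'.2⟩),
    br0_eq (v := w) (K := L) g hBm (by rw [inter_assoc, inter_eq_right.2 hb])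
      (vol_null hLB) (Eventually.of_forall fun z _ => ⟨rfl, rfl⟩)] at key
  exact key

end Vale.Agent.P128
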