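import Vale.Agent.P128.Br0
import Vale.Agent.P128.Arcs
import Vale.Agent.P128.Glue

/-!
# P128 Br1b

Local bound. `Pre (ball x R₀) v (K ∩ closedBall x R₀)` holds; pick a good radius `R`
(`Pre.ae_good`), `M ≥` the bound on the circle (`circ_bdd`) and `M ≥ ‖g‖_∞`. Compare (`br0`) with
`tr M v` on the closed ball, `v` outside (`lip_glue`), same `K`: the Dirichlet term does not increase
(`grad_tr`) and `|tr M v - g| < |v - g|` where `|v| > M`; so `{|v| > M} ∩ ball \ K` is null and open.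
-/

namespace Vale.Agent.P128

open Set Metric MeasureTheory Filter Topology Complex
open scoped ENNReal ContDiff RealInnerProductSpace Gradient Real ComplexConjugate

variable {Ω K L A S T U O X Γ P M₀ K₀ K₁ : Set ℂ} {u v w g hh ψ η : ℂ → ℝ} {G : ℂ → ℂ}
  {π₀ π₁ : ℂ → Set ℂ} {x y z c p q e a₀ F : ℂ} {lam H r s R a b t M Θ ρ ε δ d : ℝ} {n : ℕ}

theorem br1b_dn (h : Admissible Ω u G K) (hS : MeasurableSet S) (hSΩ : S ⊆ Ω)
    (hL : ∀ z ∈ S, z ∈ K → z ∈ L)
    (hae : ∀ᵐ z : ℂ, z ∈ Ω \ K → v z = u z ∧ ∇ v z = G z) : Dn v L S ≠ ⊤ := by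
  obtain ⟨-, hKo, -, -, -, hG2⟩ := h
  have hGf : ∫⁻ z in Ω \ K, ‖G z‖ₑ ^ 2 < ⊤ := (br0_lint hG2.1).1 hG2
  refine ne_top_of_le_ne_top hGf.ne ?_
  rw [← lintegral_indicator hKo.measurableSet]
  refine le_trans (lintegral_mono_ae ?_) (setLIntegral_le_lintegral S _)
  rw [ae_restrict_iff' hS]
  filter_upwards [hae] with z hz hzS
  by_cases hzL : z ∈ L
  · rw [gK_of_mem v hzL]
    simp
  · have h1 : z ∈ Ω \ K := ⟨hSΩ hzS, fun hK => hzL (hL z hzS hK)⟩
    rw [gK_of_notMem v hzL, indicator_of_mem h1, (hz h1).2]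

theorem br_pre (hΩ : IsOpen Ω) (h : Admissible Ω u G K) (hv : ContDiffOn ℝ 1 v (Ω \ K))
    (hae : ∀ᵐ z : ℂ, z ∈ Ω \ K → v z = u z ∧ ∇ v z = G z) (hb : closedBall x R ⊆ Ω) :
    Pre (ball x R) v (K ∩ closedBall x R) := by
  have _ := hΩ
  refine ⟨isOpen_ball, ?_, hv.mono fun z hz => ?_, fun y r hy => ⟨?_, ?_⟩⟩
  · have e : K ∩ closedBall x R = closedBall x R \ (Ω \ K) := by
      ext z
      exact ⟨fun hz => ⟨hz.2, fun h' => h'.2 hz.1⟩,
        fun hz => ⟨by_contra fun hK => hz.2 ⟨hb hz.1, hK⟩, hz.1⟩⟩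
    rw [e]
    exact isClosed_closedBall.sdiff h.2.1
  · exact ⟨hb (ball_subset_closedBall hz.1), fun hK => hz.2 ⟨hK, ball_subset_closedBall hz.1⟩⟩
  · exact br1b_dn h isClosed_closedBall.measurableSet
      (fun z hz => hb (ball_subset_closedBall (hy hz)))
      (fun z hz hK => ⟨hK, ball_subset_closedBall (hy hz)⟩) hae
  · exact ne_top_of_le_ne_top h.2.2.1.ne (measure_mono fun z hz => hz.1.1)

theorem br1b_tr {t γ : ℝ} (hγ : |γ| ≤ M) :
    |tr M t - γ| ≤ |t - γ| ∧ (|tr M t - γ| = |t - γ| → |t| ≤ M) := by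
  obtain ⟨h1, h2⟩ := abs_le.1 hγ
  rcases le_or_gt |t| M with ht | ht
  · rw [tr_eq ht]
    exact ⟨le_rfl, fun _ => ht⟩
  rcases lt_abs.1 ht with h3 | h3
  · have e : tr M t = M := by
      unfold tr
      rw [min_eq_left h3.le, max_eq_right (by linarith)]
    rw [e, abs_of_nonneg (by linarith : 0 ≤ M - γ), abs_of_nonneg (by linarith : 0 ≤ t - γ)]
    exact ⟨by linarith, fun h => by linarith⟩
  · have e : tr M t = -M := by
      unfold tr
      rw [min_eq_right (by linarith), max_eq_left (by linarith)]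
    rw [e, abs_of_nonpos (by linarith : -M - γ ≤ 0), abs_of_nonpos (by linarith : t - γ ≤ 0)]
    exact ⟨by linarith, fun h => by linarith⟩

theorem br1b_g (hg : MemLp g ⊤ (volume.restrict Ω)) :
    ∃ M, ∀ᵐ z ∂(volume.restrict Ω), |g z| ≤ M := by
  have h1 : eLpNormEssSup g (volume.restrict Ω) ≠ ⊤ := by
    have := hg.2
    rw [eLpNorm_exponent_top] at this
    exact this.ne
  refine ⟨(eLpNormEssSup g (volume.restrict Ω)).toReal, ?_⟩
  filter_upwards [ae_le_eLpNormEssSup (f := g) (μ := volume.restrict Ω)] with z hz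
  have := ENNReal.toReal_mono h1 hz
  rwa [toReal_enorm, Real.norm_eq_abs] at this

theorem br1b_en {α β : ℝ} (h : |α| ≤ |β|) : ‖α‖ₑ ^ 2 ≤ ‖β‖ₑ ^ 2 := by
  have : ‖α‖ₑ ≤ ‖β‖ₑ := by
    rw [← ofReal_norm, ← ofReal_norm]
    exact ENNReal.ofReal_le_ofReal h
  gcongr

theorem br1b_en' {α β : ℝ} (h : ‖α‖ₑ ^ 2 = ‖β‖ₑ ^ 2) : |α| = |β| := by
  have h1 := congrArg ENNReal.toReal h
  rw [ENNReal.toReal_pow, ENNReal.toReal_pow, toReal_enorm, toReal_enorm] at h1
  exact (pow_left_inj₀ (norm_nonneg _) (norm_nonneg _) two_ne_zero).1 h1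

theorem br1b (hΩ : IsOpen Ω) (hg : MemLp g ⊤ (volume.restrict Ω)) (h : Minimizer Ω g u G K)
    (hv : ContDiffOn ℝ 1 v (Ω \ K)) (hae : ∀ᵐ z : ℂ, z ∈ Ω \ K → v z = u z ∧ ∇ v z = G z)
    (hx : x ∈ Ω) :
    ∃ R M, 0 < R ∧ closedBall x R ⊆ Ω ∧ ∀ z ∈ ball x R \ K, |v z| ≤ M := by
  classical
  obtain ⟨R₀, hR₀, hb₀⟩ := nhds_basis_closedBall.mem_iff.1 (hΩ.mem_nhds hx)
  have hKo : IsOpen (Ω \ K) := h.1.2.1
  have hP := br_pre hΩ h.1 hv hae hb₀
  have hh : R₀ / 2 < R₀ := half_lt_self hR₀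
  obtain ⟨R, hR, hgood⟩ : ∃ R, R ∈ Ioo 0 (R₀ / 2) ∧ Good v (K ∩ closedBall x R₀) x R := by
    refine Measure.exists_mem_of_measure_ne_zero_of_ae (μ := volume) ?_ ?_
    · rw [Real.volume_Ioo, sub_zero]
      exact (ENNReal.ofReal_pos.2 (half_pos hR₀)).ne'
    · rw [ae_restrict_iff' measurableSet_Ioo]
      exact hP.ae_good (closedBall_subset_ball hh)
  have hRb : closedBall x R ⊆ ball x R₀ := closedBall_subset_ball (hR.2.trans hh)
  have hb : closedBall x R ⊆ Ω := fun z hz => hb₀ (ball_subset_closedBall (hRb hz))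
  obtain ⟨M₁, hM₁, hc⟩ := circ_bdd hP (sphere_subset_closedBall.trans hRb) hgood
  obtain ⟨M₂, hM₂⟩ := br1b_g hg
  set M := max M₁ M₂ with hM
  have hM0 : 0 ≤ M := hM₁.trans (le_max_left _ _)
  set B := closedBall x R with hB
  have hBm : MeasurableSet B := isClosed_closedBall.measurableSet
  set w : ℂ → ℝ := fun z => if z ∈ B then tr M (v z) else v z with hw
  have hin : ∀ z ∈ B, w z = tr M (v z) := fun z hz => if_pos hz
  have hout : ∀ z, z ∉ B → w z = v z := fun z hz => if_neg hz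
  have hvl := lip_of_contDiffOn hKo hv
  have hwl : LocallyLipschitzOn (Ω \ K) w := by
    refine lip_glue (x := x) (s := R) hKo ?_ ?_
    · exact lip_congr ((lip_tr hvl M).mono inter_subset_left) fun z hz => hin z hz.2
    · refine lip_congr (hvl.mono sdiff_subset) fun z hz => ?_
      by_cases hzB : z ∈ B
      · have hs : z ∈ sphere x R := by
          rw [← closedBall_sdiff_ball]
          exact ⟨hzB, hz.2⟩
        rw [hin z hzB]
        exact tr_eq ((hc z ⟨hs, fun h' => hz.1.2 h'.1⟩).trans (le_max_left _ _))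
      · exact hout z hzB
  have key := br0 hΩ hg h hv hae hb hKo (fun _ _ _ => Iff.rfl) hwl fun z _ hz => hout z hz
  have hcont : ∀ z ∈ Ω \ K, ContinuousAt v z := fun z hz =>
    hv.continuousOn.continuousAt (hKo.mem_nhds hz)
  have hD : Dn w K B ≤ Dn v K B := by
    rw [hB, Dn_closedBall, Dn_closedBall]
    refine setLIntegral_mono' isOpen_ball.measurableSet fun z hz => ?_
    by_cases hK : z ∈ K
    · rw [gK_of_mem w hK, gK_of_mem v hK]
    · have hev : w =ᶠ[𝓝 z] fun y => tr M (v y) := by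
        filter_upwards [isOpen_ball.mem_nhds hz] with y hy
        exact hin y (ball_subset_closedBall hy)
      rw [gK_of_notMem w hK, gK_of_notMem v hK, hev.gradient_eq,
        grad_tr (hcont z ⟨hb (ball_subset_closedBall hz), hK⟩)]
      split_ifs
      · exact le_rfl
      · simp
  have hE : En v K B ≠ ⊤ :=
    ENNReal.add_ne_top.2 ⟨br1b_dn h.1 hBm hb (fun _ _ hK => hK) hae,
      ne_top_of_le_ne_top h.1.2.2.1.ne (measure_mono inter_subset_left)⟩
  have hE2 : En w K B ≤ En v K B := add_le_add hD le_rfl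
  have key2 : ∫⁻ z in B, ‖v z - g z‖ₑ ^ 2 ≤ ∫⁻ z in B, ‖w z - g z‖ₑ ^ 2 :=
    (ENNReal.add_le_add_iff_left hE).1 (key.trans (add_le_add hE2 le_rfl))
  have hgB : ∀ᵐ z ∂(volume.restrict B), |g z| ≤ M := by
    filter_upwards [ae_mono (Measure.restrict_mono hb le_rfl) hM₂] with z hz
    exact hz.trans (le_max_right _ _)
  have hKn : ∀ᵐ z : ℂ, z ∉ K := measure_eq_zero_iff_ae_notMem.1 (vol_null h.1.2.2.1.ne)
  have hvu : u =ᵐ[volume.restrict B] v := by
    rw [EventuallyEq, ae_restrict_iff' hBm]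
    filter_upwards [hKn, hae] with z h1 h2 hz
    exact (h2 ⟨hb hz, h1⟩).1.symm
  have hvm : AEStronglyMeasurable v (volume.restrict B) :=
    (h.1.2.2.2.1.1.mono_measure (Measure.restrict_mono hb le_rfl)).congr hvu
  have hgm : AEStronglyMeasurable g (volume.restrict B) :=
    hg.1.mono_measure (Measure.restrict_mono hb le_rfl)
  have hfin : ∫⁻ z in B, ‖w z - g z‖ₑ ^ 2 ≠ ⊤ := by
    have h1 : ∫⁻ z in B, ‖w z - g z‖ₑ ^ 2 ≤ ∫⁻ _ in B, ‖2 * M‖ₑ ^ 2 := by
      refine lintegral_mono_ae ?_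
      filter_upwards [hgB, ae_restrict_mem hBm] with z h1 hz
      refine br1b_en ?_
      rw [hin z hz, abs_of_nonneg (by linarith : 0 ≤ 2 * M)]
      have h2 := (abs_tr_le hM0 (v z)).1
      have h3 := abs_sub (tr M (v z)) (g z)
      linarith
    refine ne_top_of_le_ne_top ?_ h1
    rw [setLIntegral_const]
    exact ENNReal.mul_ne_top (ENNReal.pow_ne_top enorm_ne_top)
      (isCompact_closedBall x R).measure_lt_top.ne
  have heq := ae_eq_of_ae_le_of_lintegral_le (μ := volume.restrict B)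
    (f := fun z => ‖w z - g z‖ₑ ^ 2) (g := fun z => ‖v z - g z‖ₑ ^ 2) (by
      filter_upwards [hgB, ae_restrict_mem hBm] with z h1 hz
      refine br1b_en ?_
      rw [hin z hz]
      exact (br1b_tr h1).1) hfin ((hvm.sub hgm).enorm.pow_const 2) key2
  have hle : ∀ᵐ z : ℂ, z ∈ B → |v z| ≤ M := by
    rw [← ae_restrict_iff' hBm]
    filter_upwards [heq, hgB, ae_restrict_mem hBm] with z h0 h1 hz
    have h2 := br1b_en' h0
    rw [hin z hz] at h2
    exact (br1b_tr h1).2 h2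
  refine ⟨R, M, hR.1, hb, fun z hz => ?_⟩
  by_contra hlt
  have hz1 : z ∈ Ω \ K := ⟨hb (ball_subset_closedBall hz.1), hz.2⟩
  have hev : ∀ᶠ y in 𝓝 z, y ∈ B ∧ M < |v y| :=
    (mem_of_superset (isOpen_ball.mem_nhds hz.1) ball_subset_closedBall :
      B ∈ 𝓝 z) |> Eventually.and <| (hcont z hz1).abs.eventually (lt_mem_nhds (not_le.1 hlt))
  have hpos := Measure.measure_pos_of_mem_nhds (volume : Measure ℂ) hev
  refine hpos.ne' (measure_eq_zero_iff_ae_notMem.2 ?_)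
  filter_upwards [hle] with y hy hy'
  exact absurd (hy hy'.1) (not_le.2 hy'.2)

end Vale.Agent.P128
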