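import Vale.Agent.P128.LipWG

/-!
# P128 SobA

Mollification of functions with a weak gradient (used by `Sob`, `C1a`, `Pot2`).
-/

namespace Vale.Agent.P128

open Set Metric MeasureTheory Filter Topology Complex
open scoped ENNReal ContDiff RealInnerProductSpace Gradient Real ComplexConjugate Convolution

variable {E : Type*} [NormedAddCommGroup E] [NormedSpace ℝ E] {O C : Set ℂ} {u : ℂ → ℝ}
  {G : ℂ → ℂ} {x : ℂ} {m : ℕ}

/-- bump of outer radius `1 / (m + 1)` -/
noncomputable def sobaB (m : ℕ) : ContDiffBump (0 : ℂ) :=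
  ⟨1 / (m + 1) / 2, 1 / (m + 1), by positivity, half_lt_self (by positivity)⟩

/-- normalized bump -/
noncomputable def sobaR (m : ℕ) : ℂ → ℝ := (sobaB m).normed volume

/-- mollified function -/
noncomputable def sobaM (m : ℕ) (F : ℂ → E) (x : ℂ) : E := ∫ z, sobaR m (x - z) • F z

theorem soba_smooth (m : ℕ) : ContDiff ℝ ∞ (sobaR m) := (sobaB m).contDiff_normed

theorem soba_cs (m : ℕ) : HasCompactSupport (sobaR m) := (sobaB m).hasCompactSupport_normed

theorem soba_nonneg (m : ℕ) (z : ℂ) : 0 ≤ sobaR m z := (sobaB m).nonneg_normed z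

theorem soba_one (m : ℕ) (x : ℂ) : ∫ z, sobaR m (x - z) = 1 := by
  rw [integral_sub_left_eq_self (sobaR m) volume x]
  exact (sobaB m).integral_normed

theorem soba_tsupp (m : ℕ) : tsupport (sobaR m) = closedBall 0 (1 / (m + 1)) :=
  (sobaB m).tsupport_normed_eq

theorem soba_mem {z : ℂ} (h : x - z ∈ tsupport (sobaR m)) : z ∈ closedBall x (1 / (m + 1)) := by
  rw [soba_tsupp, mem_closedBall_zero_iff] at h
  rwa [mem_closedBall, dist_comm, dist_eq_norm]

theorem soba_zero {z : ℂ} (h : z ∉ closedBall x (1 / (m + 1))) : sobaR m (x - z) = 0 :=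
  image_eq_zero_of_notMem_tsupport fun h' => h (soba_mem h')

theorem soba_eq (m : ℕ) (F : ℂ → E) :
    sobaM m F = F ⋆[(ContinuousLinearMap.lsmul ℝ ℝ).flip, volume] sobaR m := rfl

theorem soba_int {F : ℂ → E} (hF : Integrable F) (m : ℕ) (x : ℂ) :
    Integrable fun z => sobaR m (x - z) • F z :=
  (soba_cs m).convolutionExists_right (ContinuousLinearMap.lsmul ℝ ℝ).flip hF.locallyIntegrable
    (soba_smooth m).continuous x

theorem soba_contDiff {F : ℂ → E} (hF : Integrable F) (m : ℕ) : ContDiff ℝ ∞ (sobaM m F) :=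
  (soba_cs m).contDiff_convolution_right (n := ⊤) (ContinuousLinearMap.lsmul ℝ ℝ).flip
    hF.locallyIntegrable (soba_smooth m)

theorem soba_integral {F : ℂ → ℝ} (hF : Integrable F) (m : ℕ) :
    Integrable (sobaM m F) ∧ ∫ x, sobaM m F x = ∫ x, F x := by
  have h1 : Integrable (sobaR m) := (sobaB m).integrable_normed
  refine ⟨hF.integrable_convolution (ContinuousLinearMap.lsmul ℝ ℝ).flip h1, ?_⟩
  rw [soba_eq, integral_convolution _ hF h1]
  have h2 : ∫ x, sobaR m x = 1 := (sobaB m).integral_normed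
  rw [h2]
  simp

theorem soba_ae [CompleteSpace E] {F : ℂ → E} (hF : Integrable F) :
    ∀ᵐ x : ℂ, Tendsto (fun m => sobaM m F x) atTop (𝓝 (F x)) := by
  have h := ContDiffBump.ae_convolution_tendsto_right_of_locallyIntegrable (μ := volume)
    (φ := sobaB) (l := atTop) (K := 2) tendsto_one_div_add_atTop_nhds_zero_nat
    (Eventually.of_forall fun m => le_of_eq (by simp only [sobaB]; ring)) hF.locallyIntegrable
  simp only [soba_eq, convolution_flip]
  exact h

theorem soba_congr {F F' : ℂ → E} (h : ∀ z ∈ closedBall x (1 / (m + 1)), F z = F' z) :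
    sobaM m F x = sobaM m F' x := by
  refine integral_congr_ae (Eventually.of_forall fun z => ?_)
  by_cases hz : z ∈ closedBall x (1 / (m + 1))
  · simp only [h z hz]
  · simp only [soba_zero hz, zero_smul]

theorem soba_le [CompleteSpace E] {F : ℂ → E} (hF : Integrable F) {k : ℂ → ℝ} (hk : Integrable k)
    {c : E} {ε : ℝ} (h : ∀ᵐ z : ℂ, z ∈ closedBall x (1 / (m + 1)) → ‖F z - c‖ ≤ ε + k z) :
    ‖sobaM m F x - c‖ ≤ ε + sobaM m k x := by
  have h0 : Integrable fun z => sobaR m (x - z) :=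
    ((sobaB m).integrable_normed (μ := volume)).comp_sub_left x
  have h1 : sobaM m F x - c = ∫ z, sobaR m (x - z) • (F z - c) := by
    simp only [smul_sub]
    rw [integral_sub (soba_int hF m x) (h0.smul_const c), integral_smul_const, soba_one, one_smul]
    rfl
  have h2 : ε + sobaM m k x = ∫ z, (sobaR m (x - z) * ε + sobaR m (x - z) • k z) := by
    rw [integral_add (h0.mul_const ε) (soba_int hk m x), integral_mul_const, soba_one, one_mul]
    rfl
  rw [h1, h2]
  refine norm_integral_le_of_norm_le ((h0.mul_const ε).add (soba_int hk m x)) ?_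
  filter_upwards [h] with z hz
  by_cases hb : z ∈ closedBall x (1 / (m + 1))
  · rw [norm_smul, Real.norm_of_nonneg (soba_nonneg _ _), smul_eq_mul, ← mul_add]
    exact mul_le_mul_of_nonneg_left (hz hb) (soba_nonneg _ _)
  · simp only [soba_zero hb, zero_smul, norm_zero, zero_mul, add_zero, le_refl]

theorem soba_pos {k : ℂ → ℝ} (h : ∀ z, 0 ≤ k z) (m : ℕ) (x : ℂ) : 0 ≤ sobaM m k x :=
  integral_nonneg fun z => smul_nonneg (soba_nonneg _ _) (h z)

theorem soba_mul (k : ℂ → ℝ) (a : ℝ) (m : ℕ) (x : ℂ) :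
    sobaM m (fun z => a * k z) x = a * sobaM m k x := by
  rw [sobaM, sobaM, ← integral_const_mul]
  refine integral_congr_ae (Eventually.of_forall fun z => ?_)
  simp only [smul_eq_mul]
  ring

theorem soba_sq [CompleteSpace E] {F : ℂ → E} (hF : Integrable F)
    (h2 : Integrable fun z => ‖F z‖ ^ 2) (m : ℕ) (x : ℂ) :
    ‖sobaM m F x‖ ^ 2 ≤ sobaM m (fun z => ‖F z‖ ^ 2) x := by
  rcases (norm_nonneg (sobaM m F x)).eq_or_lt with h0 | h0
  · rw [← h0, zero_pow two_ne_zero]
    exact soba_pos (fun z => sq_nonneg _) m x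
  obtain ⟨a, ha⟩ : ∃ a, a = ‖sobaM m F x‖ := ⟨_, rfl⟩
  have h := soba_le (x := x) (m := m) hF (h2.const_mul (1 / (2 * a))) (c := 0) (ε := a / 2)
    (Eventually.of_forall fun z _ => by
      rw [← ha] at h0
      have h3 : a / 2 + 1 / (2 * a) * ‖F z‖ ^ 2 - ‖F z‖ = (a - ‖F z‖) ^ 2 / (2 * a) := by
        field_simp
        ring
      have h4 : 0 ≤ (a - ‖F z‖) ^ 2 / (2 * a) := by positivity
      rw [sub_zero]
      linarith)
  rw [sub_zero, soba_mul, ← ha] at h
  rw [← ha] at h0 ⊢
  have h5 := mul_le_mul_of_nonneg_left h (show 0 ≤ 2 * a by positivity)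
  rw [mul_add, ← mul_assoc, mul_one_div_cancel (by positivity), one_mul] at h5
  linarith

theorem soba_bound (m : ℕ) : ∃ A : ℝ, 0 < A ∧ ∀ k : ℂ → ℝ, Integrable k → (∀ z, 0 ≤ k z) →
    ∀ x, sobaM m k x ≤ A * ∫ z, k z := by
  obtain ⟨A, hA⟩ := (soba_cs m).exists_bound_of_continuous (soba_smooth m).continuous
  refine ⟨|A| + 1, by positivity, fun k hk h0 x => ?_⟩
  rw [← integral_const_mul]
  refine integral_mono (soba_int hk m x) (hk.const_mul _) fun z => ?_
  refine mul_le_mul_of_nonneg_right ?_ (h0 z)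
  linarith [le_abs_self A, le_abs_self (sobaR m (x - z)), hA (x - z),
    Real.norm_eq_abs (sobaR m (x - z))]

theorem soba_grad (hO : IsOpen O) (hw : IsWG O u G) (hC : IsCompact C) (hCO : C ⊆ O)
    (hx : closedBall x (1 / (m + 1)) ⊆ C) :
    ∇ (sobaM m (C.indicator u)) x = sobaM m (C.indicator G) x := by
  have hF : Integrable (C.indicator u) :=
    (hw.1.integrableOn_compact_subset hCO hC).integrable_indicator hC.measurableSet
  have hH : Integrable (C.indicator G) :=
    (hw.2.1.integrableOn_compact_subset hCO hC).integrable_indicator hC.measurableSet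
  have h1 : ContDiff ℝ 1 (sobaR m) := (soba_smooth m).of_le (by exact_mod_cast le_top)
  refine ext_inner_right ℝ fun v => ?_
  have t3 : ∀ w ∈ tsupport fun w => sobaR m (x - w), w ∈ C := fun w hw =>
    hx (soba_mem (tsupport_comp_subset_preimage (sobaR m) (f := fun w => x - w) (by fun_prop) hw))
  have h2 := hw.2.2 (fun w => sobaR m (x - w))
    ((soba_smooth m).comp (contDiff_const.sub contDiff_id))
    ((soba_cs m).comp_homeomorph (Homeomorph.subLeft x)) (fun w hw => hCO (t3 w hw)) v
  have h3 : ∀ z, fderiv ℝ (fun w => sobaR m (x - w)) z v = -fderiv ℝ (sobaR m) (x - z) v := by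
    intro z
    have h4 := ((h1.differentiable one_ne_zero (x - z)).hasFDerivAt.comp z
      ((hasFDerivAt_id z).const_sub x)).fderiv
    have h5 : fderiv ℝ (fun w => sobaR m (x - w)) z = _ := h4
    rw [h5]
    simp
  rw [inner_grad, soba_eq,
    ((soba_cs m).hasFDerivAt_convolution_right _ hF.locallyIntegrable h1 x).fderiv,
    convolution_precompR_apply _ hF.locallyIntegrable ((soba_cs m).fderiv ℝ)
      (h1.continuous_fderiv one_ne_zero), real_inner_comm, sobaM,
    ← integral_inner (soba_int hH m x)]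
  simp only [h3, mul_neg, integral_neg, neg_inj] at h2
  rw [← integral_indicator hO.measurableSet, ← integral_indicator hO.measurableSet] at h2
  refine Eq.trans (integral_congr_ae (Eventually.of_forall fun z => ?_))
    (h2.trans (integral_congr_ae (Eventually.of_forall fun z => ?_)))
  · by_cases hz : z ∈ C
    · simp [indicator_of_mem hz, indicator_of_mem (hCO hz), mul_comm]
    · have h6 : fderiv ℝ (sobaR m) (x - z) = 0 :=
        image_eq_zero_of_notMem_tsupport fun h' =>
          hz (hx (soba_mem (tsupport_fderiv_subset ℝ h')))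
      by_cases hz' : z ∈ O <;> simp [hz, hz', h6]
  · by_cases hz : z ∈ C
    · simp only [indicator_of_mem hz, indicator_of_mem (hCO hz), inner_smul_right]
      rw [real_inner_comm, mul_comm]
    · have h6 : sobaR m (x - z) = 0 := soba_zero fun h' => hz (hx h')
      by_cases hz' : z ∈ O <;> simp [hz, hz', h6]

theorem soba_exh (hO : IsOpen O) : ∃ A : ℕ → Set ℂ, (∀ m, IsCompact (A m) ∧ A m ⊆ O) ∧
    ∀ C ⊆ O, IsCompact C → ∀ᶠ m : ℕ in atTop, ∀ y ∈ C, closedBall y (1 / (m + 1)) ⊆ A m := by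
  refine ⟨fun m => closedBall 0 m \ thickening (1 / (m + 1)) Oᶜ, fun m =>
    ⟨(isCompact_closedBall _ _).diff isOpen_thickening, fun z hz => by_contra fun h =>
      hz.2 (self_subset_thickening (by positivity) _ h)⟩, fun C hCO hC => ?_⟩
  obtain ⟨δ, hδ, hδO⟩ := hC.exists_cthickening_subset_open hO hCO
  obtain ⟨R, hR⟩ := hC.isBounded.subset_closedBall 0
  filter_upwards [tendsto_one_div_add_atTop_nhds_zero_nat.eventually
    (gt_mem_nhds (show (0 : ℝ) < min (δ / 2) 1 by positivity)),
    tendsto_natCast_atTop_atTop.eventually (eventually_ge_atTop (R + 1))] with m h1 h2 y hy w hw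
  have h3 := mem_closedBall.1 hw
  have h4 := mem_closedBall.1 (hR hy)
  refine ⟨mem_closedBall.2 ?_, fun h => ?_⟩
  · linarith [dist_triangle w y 0, min_le_right (δ / 2) 1]
  · obtain ⟨k, hk, h5⟩ := mem_thickening_iff.1 h
    refine hk (hδO (mem_cthickening_of_dist_le k y δ C hy ?_))
    linarith [dist_triangle_left k y w, min_le_left (δ / 2) 1]

theorem soba_unif (hO : IsOpen O) (hG : ContinuousOn G O) (hCO : C ⊆ O) (hC : IsCompact C)
    {ε : ℝ} (hε : 0 < ε) : ∀ᶠ m : ℕ in atTop, ∀ y ∈ C, ∀ z ∈ closedBall y (1 / (m + 1)),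
      ‖G z - G y‖ ≤ ε := by
  obtain ⟨δ, hδ, hδO⟩ := hC.exists_cthickening_subset_open hO hCO
  obtain ⟨δ', hδ', h⟩ := Metric.uniformContinuousOn_iff.1
    (hC.cthickening.uniformContinuousOn_of_continuous (hG.mono hδO)) ε hε
  filter_upwards [tendsto_one_div_add_atTop_nhds_zero_nat.eventually
    (gt_mem_nhds (lt_min hδ hδ'))] with m h1 y hy z hz
  have h3 := mem_closedBall.1 hz
  rw [← dist_eq_norm]
  exact (h z (mem_cthickening_of_dist_le z y δ C hy (h3.trans (h1.le.trans (min_le_left _ _)))) y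
    (self_subset_cthickening _ hy) (h3.trans_lt (h1.trans_le (min_le_right _ _)))).le

end Vale.Agent.P128
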