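import Vale.Agent.P128.LipWG
import Vale.Agent.P128.SobA

/-!
# P128 Sob

Local Sobolev embedding. Take a smooth cutoff `χ = 1` on the closed ball with compact support in
`O`; `f = χ u` has weak gradient `χ G + u ∇χ ∈ L²` on the whole plane. Mollify with `ContDiffBump.normed`:
`f_n = ρ_n ⋆ f` is smooth with compact support in a fixed ball and `∇ f_n = ρ_n ⋆ (χ G + u ∇χ)`, whose
`L²` norm is bounded (Jensen or Cauchy-Schwarz and Fubini). Use `eLpNorm_le_eLpNorm_fderiv_of_le` or
`_of_eq` with `p = 4/3` (or `3/2`), then a.e. convergence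
(`ContDiffBump.ae_convolution_tendsto_right_of_locallyIntegrable`) and Fatou
(`Lp.eLpNorm_lim_le_liminf_eLpNorm`).
-/

namespace Vale.Agent.P128

open Set Metric MeasureTheory Filter Topology Complex
open scoped ENNReal ContDiff RealInnerProductSpace Gradient Real ComplexConjugate

variable {Ω K L A S T U O X Γ P M₀ K₀ K₁ : Set ℂ} {u v w g hh ψ η : ℂ → ℝ} {G : ℂ → ℂ}
  {π₀ π₁ : ℂ → Set ℂ} {x y z c p q e a₀ F : ℂ} {lam H r s R a b t M Θ ρ ε δ d : ℝ} {n : ℕ}

theorem sob (hO : IsOpen O) (hu : MemLp u 2 (volume.restrict O))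
    (hG : MemLp G 2 (volume.restrict O)) (hw : IsWG O u G) (hb : closedBall z r ⊆ O) :
    MemLp u 4 (volume.restrict (closedBall z r)) := by
  rcases lt_or_ge r 0 with hr | hr
  · rw [closedBall_eq_empty.2 hr, Measure.restrict_empty]
    exact memLp_measure_zero
  obtain ⟨δ, hδ, hδO⟩ := (isCompact_closedBall z r).exists_cthickening_subset_open hO hb
  rw [cthickening_closedBall hδ.le hr] at hδO
  have hC := isCompact_closedBall z (δ + r)
  have hm := hC.measurableSet
  let χ : ContDiffBump z := ⟨r + δ / 4, r + δ / 2, by positivity, by linarith⟩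
  have hχ : ContDiff ℝ 1 χ := χ.contDiff
  obtain ⟨A, hA⟩ := (χ.hasCompactSupport.fderiv ℝ).exists_bound_of_continuous
    (hχ.continuous_fderiv one_ne_zero)
  obtain ⟨F, hF⟩ : ∃ F : ℂ → ℝ, F = (closedBall z (δ + r)).indicator u := ⟨_, rfl⟩
  obtain ⟨H, hH⟩ : ∃ H : ℂ → ℂ, H = (closedBall z (δ + r)).indicator G := ⟨_, rfl⟩
  have i1 : Integrable F := hF ▸
    (hw.1.integrableOn_compact_subset hδO hC).integrable_indicator hm
  have i2 : Integrable H := hH ▸
    (hw.2.1.integrableOn_compact_subset hδO hC).integrable_indicator hm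
  have i3 : Integrable fun x => ‖F x‖ ^ 2 := by
    rw [← memLp_two_iff_integrable_sq_norm i1.1, hF, memLp_indicator_iff_restrict hm]
    exact hu.mono_measure (Measure.restrict_mono hδO le_rfl)
  have i4 : Integrable fun x => ‖H x‖ ^ 2 := by
    rw [← memLp_two_iff_integrable_sq_norm i2.1, hH, memLp_indicator_iff_restrict hm]
    exact hG.mono_measure (Measure.restrict_mono hδO le_rfl)
  have hs : ∀ m, ContDiff ℝ 1 (sobaM m F) := fun m =>
    (soba_contDiff i1 m).of_le (by exact_mod_cast le_top)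
  have hd : ∀ᶠ m : ℕ in atTop, ∀ x, ‖fderiv ℝ (fun y => (χ y * sobaM m F y) ^ 2) x‖ ≤
      (1 + 2 * A ^ 2) * sobaM m (fun x => ‖F x‖ ^ 2) x + 2 * sobaM m (fun x => ‖H x‖ ^ 2) x := by
    filter_upwards [tendsto_one_div_add_atTop_nhds_zero_nat.eventually
      (ge_mem_nhds (half_pos hδ))] with m hm' x
    have p1 := soba_sq i1 i3 m x
    have p2 := soba_sq i2 i4 m x
    by_cases hx : x ∈ tsupport χ
    · rw [χ.tsupport_eq] at hx
      have a1 : ∇ (sobaM m F) x = sobaM m H x := by
        rw [hF, hH]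
        refine soba_grad hO hw hC hδO fun y hy => mem_closedBall.2 ?_
        have a2 : dist x z ≤ r + δ / 2 := hx
        linarith [dist_triangle y x z, mem_closedBall.1 hy]
      have d1 := (hχ.differentiable one_ne_zero x).hasFDerivAt
      have d2 := ((hs m).differentiable one_ne_zero x).hasFDerivAt
      have d3 : fderiv ℝ (fun y => (χ y * sobaM m F y) ^ 2) x = _ := ((d1.mul d2).pow 2).fderiv
      have a3 : ‖χ x • fderiv ℝ (sobaM m F) x + sobaM m F x • fderiv ℝ χ x‖ ≤
          ‖sobaM m H x‖ + ‖sobaM m F x‖ * A := by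
        refine (norm_add_le _ _).trans (add_le_add ?_ ?_)
        · rw [norm_smul, ← norm_grad, a1, Real.norm_of_nonneg χ.nonneg]
          exact mul_le_of_le_one_left (norm_nonneg _) χ.le_one
        · rw [norm_smul]
          exact mul_le_mul_of_nonneg_left (hA x) (norm_nonneg _)
      have a4 : ‖χ x * sobaM m F x‖ ≤ ‖sobaM m F x‖ := by
        rw [norm_mul, Real.norm_of_nonneg χ.nonneg]
        exact mul_le_of_le_one_left (norm_nonneg _) χ.le_one
      rw [d3, norm_smul]
      have a5 : ‖(2 : ℕ) • ((χ : ℂ → ℝ) * sobaM m F) x ^ (2 - 1)‖ ≤ 2 * ‖sobaM m F x‖ := by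
        rw [nsmul_eq_mul, norm_mul, show 2 - 1 = 1 from rfl, pow_one]
        exact mul_le_mul (by simp) a4 (norm_nonneg _) zero_le_two
      refine (mul_le_mul a5 a3 (norm_nonneg _) (by positivity)).trans ?_
      have a6 := mul_le_mul_of_nonneg_left p1 (show 0 ≤ 1 + 2 * A ^ 2 by positivity)
      nlinarith [sq_nonneg (‖sobaM m F x‖ - (‖sobaM m H x‖ + ‖sobaM m F x‖ * A)),
        sq_nonneg (‖sobaM m H x‖ - ‖sobaM m F x‖ * A)]
    · have a1 : (fun y => (χ y * sobaM m F y) ^ 2) =ᶠ[𝓝 x] fun _ => 0 := by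
        filter_upwards [notMem_tsupport_iff_eventuallyEq.1 hx] with y hy
        rw [hy, Pi.zero_apply, zero_mul, zero_pow two_ne_zero]
      rw [a1.fderiv_eq, fderiv_const_apply, norm_zero]
      have a2 := (sq_nonneg _).trans p1
      have a3 := (sq_nonneg _).trans p2
      positivity
  have hp : NNReal.HolderConjugate (Module.finrank ℝ ℂ) 2 := by
    rw [Complex.finrank_real_complex]
    exact NNReal.HolderConjugate.two_two
  have key : eLpNorm (fun y => (χ y * F y) ^ 2) (2 : NNReal) volume ≤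
      eLpNormLESNormFDerivOneConst (volume : Measure ℂ) (2 : NNReal) *
        ENNReal.ofReal ((1 + 2 * A ^ 2) * (∫ x, ‖F x‖ ^ 2) + 2 * ∫ x, ‖H x‖ ^ 2) := by
    refine Lp.eLpNorm_le_of_ae_tendsto (u := atTop)
      (f := fun m y => (χ y * sobaM m F y) ^ 2) ?_
      (fun m => ((hχ.mul (hs m)).pow 2).continuous.aestronglyMeasurable) ?_
    · filter_upwards [hd] with m hm'
      have a1 : HasCompactSupport fun y => (χ y * sobaM m F y) ^ 2 := by
        simp only [sq, mul_assoc]
        exact χ.hasCompactSupport.mul_right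
      refine (eLpNorm_le_eLpNorm_fderiv_one volume ((hχ.mul (hs m)).pow 2) a1 hp).trans
        (mul_le_mul_right ?_ _)
      obtain ⟨j1, j2⟩ := soba_integral i3 m
      obtain ⟨j3, j4⟩ := soba_integral i4 m
      have j5 : Integrable fun x => (1 + 2 * A ^ 2) * sobaM m (fun x => ‖F x‖ ^ 2) x +
          2 * sobaM m (fun x => ‖H x‖ ^ 2) x := (j1.const_mul _).add (j3.const_mul _)
      rw [eLpNorm_one_eq_lintegral_enorm, ← j2, ← j4, ← integral_const_mul, ← integral_const_mul,
        ← integral_add (j1.const_mul _) (j3.const_mul _), ofReal_integral_eq_lintegral_ofReal j5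
          (Eventually.of_forall fun x => (norm_nonneg _).trans (hm' x))]
      refine lintegral_mono fun x => ?_
      rw [← ofReal_norm]
      exact ENNReal.ofReal_le_ofReal (hm' x)
    · filter_upwards [soba_ae i1] with y hy
      exact (hy.const_mul _).pow 2
  have k1 : MemLp (fun y => (χ y * F y) ^ 2) 2 volume :=
    ⟨(χ.continuous.aestronglyMeasurable.mul i1.1).pow 2,
      key.trans_lt (ENNReal.mul_lt_top ENNReal.coe_lt_top ENNReal.ofReal_lt_top)⟩
  have k2 : AEStronglyMeasurable u (volume.restrict (closedBall z r)) :=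
    hu.1.mono_measure (Measure.restrict_mono hb le_rfl)
  rw [← memLp_norm_rpow_iff (q := 2) k2 two_ne_zero ENNReal.ofNat_ne_top]
  have k3 : (4 : ℝ≥0∞) / 2 = 2 := by
    rw [ENNReal.div_eq_inv_mul, show (4 : ℝ≥0∞) = 2 * 2 by norm_num, ← mul_assoc,
      ENNReal.inv_mul_cancel two_ne_zero ENNReal.ofNat_ne_top, one_mul]
  rw [k3]
  refine (memLp_congr_ae ?_).1 (k1.restrict (closedBall z r))
  filter_upwards [ae_restrict_mem measurableSet_closedBall] with y hy
  have k4 : χ y = 1 := χ.one_of_mem_closedBall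
    (closedBall_subset_closedBall (show r ≤ r + δ / 4 by linarith) hy)
  rw [k4, one_mul, hF, indicator_of_mem (closedBall_subset_closedBall (by linarith) hy)]
  simp

end Vale.Agent.P128
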