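import Vale.Agent.P128.C1a
import Vale.Agent.P128.Sob
import Vale.Agent.P128.Wey
import Vale.Agent.P128.Cau

/-!
# P128 C1rep

On a ball `B` with closure in `O`, `hh = B.indicator (u - g) ∈ L⁴` (`sob`); `conj G - k` (`cau`) is
weakly holomorphic on `B` (`curl0`), so `G` has a continuous representative on `B` (`wey`). Glue the
local continuous representatives (`cont_glue`, Lindeloef) and apply `c1a`.
-/

namespace Vale.Agent.P128

open Set Metric MeasureTheory Filter Topology Complex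
open scoped ENNReal ContDiff RealInnerProductSpace Gradient Real ComplexConjugate

variable {Ω K L A S T U O X Γ P M₀ K₀ K₁ : Set ℂ} {u v w g hh ψ η : ℂ → ℝ} {G : ℂ → ℂ}
  {π₀ π₁ : ℂ → Set ℂ} {x y z c p q e a₀ F : ℂ} {lam H r s R a b t M Θ ρ ε δ d : ℝ} {n : ℕ}

theorem cont_glue (hO : IsOpen O)
    (h : ∀ z ∈ O, ∃ r, 0 < r ∧ ∃ G₁ : ℂ → ℂ, ContinuousOn G₁ (ball z r) ∧
      ∀ᵐ w : ℂ, w ∈ ball z r → G w = G₁ w) :
    ∃ G₁ : ℂ → ℂ, ContinuousOn G₁ O ∧ ∀ᵐ w : ℂ, w ∈ O → G w = G₁ w := by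
  choose! ρ hρ J hc he using h
  have key : ∀ z ∈ O, ∀ w ∈ O, w ∈ ball z (ρ z) → J w w = J z w := by
    intro z hz w hw hwz
    have hU : IsOpen (ball z (ρ z) ∩ ball w (ρ w)) := isOpen_ball.inter isOpen_ball
    refine Measure.eqOn_open_of_ae_eq (μ := volume) ?_ hU ((hc w hw).mono inter_subset_right)
      ((hc z hz).mono inter_subset_left) ⟨hwz, mem_ball_self (hρ w hw)⟩
    rw [Filter.EventuallyEq, ae_restrict_iff' hU.measurableSet]
    filter_upwards [he z hz, he w hw] with y h1 h2 hy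
    rw [← h1 hy.1, ← h2 hy.2]
  refine ⟨fun z => J z z, fun z hz => ?_, ?_⟩
  · have h1 : ContinuousAt (J z) z :=
      (hc z hz).continuousAt (ball_mem_nhds z (hρ z hz))
    have h2 : J z =ᶠ[𝓝 z] fun w => J w w := by
      filter_upwards [hO.mem_nhds hz, ball_mem_nhds z (hρ z hz)] with w h3 h4
      exact (key z hz w h3 h4).symm
    exact (h1.congr h2).continuousWithinAt
  · rw [ae_iff]
    refine measure_null_of_locally_null _ fun z hz => ?_
    have hzO : z ∈ O := by
      by_contra h3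
      exact hz fun h4 => absurd h4 h3
    refine ⟨_, inter_mem_nhdsWithin _ (ball_mem_nhds z (hρ z hzO)), ?_⟩
    refine measure_mono_null ?_ (ae_iff.1 (he z hzO))
    rintro w ⟨h3, h4⟩ h5
    exact h3 fun h6 => (h5 h4).trans (key z hzO w h6 h4).symm

theorem c1rep_zero {φ : ℂ → ℝ} (hz : z ∉ tsupport φ) : ∇ φ z = 0 := by
  have h : φ =ᶠ[𝓝 z] fun _ => 0 := notMem_tsupport_iff_eventuallyEq.1 hz
  rw [h.gradient_eq, gradient_fun_const]

theorem c1rep_cont {φ : ℂ → ℝ} (hφ : ContDiff ℝ ∞ φ) : Continuous (∇ φ) :=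
  (InnerProductSpace.toDual ℝ ℂ).symm.continuous.comp (hφ.continuous_fderiv (by simp))

theorem c1rep_loc (hO : IsOpen O) (hu : MemLp u 2 (volume.restrict O))
    (hG : MemLp G 2 (volume.restrict O)) (hw : IsWG O u G) (hg : MemLp g ⊤ (volume.restrict O))
    (hb : closedBall c r ⊆ O)
    (hE : ∀ φ : ℂ → ℝ, ContDiff ℝ ∞ φ → tsupport φ ⊆ ball c r →
      ∫ z in O, ⟪G z, ∇ φ z⟫ = -∫ z in O, (u z - g z) * φ z) :
    ∃ G₁ : ℂ → ℂ, ContinuousOn G₁ (ball c r) ∧ ∀ᵐ w : ℂ, w ∈ ball c r → G w = G₁ w := by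
  have hB : ball c r ⊆ O := ball_subset_closedBall.trans hb
  have hK := isCompact_closedBall c r
  have u4 : MemLp u 4 (volume.restrict (ball c r)) :=
    (sob hO hu hG hw hb).mono_measure (Measure.restrict_mono ball_subset_closedBall le_rfl)
  have : IsFiniteMeasure (volume.restrict (ball c r)) :=
    isFiniteMeasure_restrict.2 measure_ball_lt_top.ne
  have g4 : MemLp g 4 (volume.restrict (ball c r)) :=
    (hg.mono_measure (Measure.restrict_mono hB le_rfl)).mono_exponent le_top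
  have h4 : MemLp ((ball c r).indicator fun z => u z - g z) 4 volume :=
    (memLp_indicator_iff_restrict measurableSet_ball).2 (u4.sub g4)
  obtain ⟨k, hk, hk1, -⟩ := cau (c := c) (r := r) h4 fun w hw => indicator_of_notMem hw _
  have iG : IntegrableOn (fun z => conj (G z)) (closedBall c r) :=
    (Complex.conjCLE : ℂ →L[ℝ] ℂ).integrable_comp (hw.2.1.integrableOn_compact_subset hb hK)
  have ik : IntegrableOn k (closedBall c r) := hk.continuousOn.integrableOn_compact hK
  have i1 : IntegrableOn (fun z => conj (G z) - k z) (ball c r) :=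
    (iG.sub ik).mono_set ball_subset_closedBall
  obtain ⟨k₁, hk₁, he⟩ := wey (f := fun z => conj (G z) - k z) isOpen_ball
    i1.locallyIntegrableOn (fun φ hφ hc hs => by
      have hd := (c1rep_cont hφ).continuousOn (s := closedBall c r)
      have j1 : IntegrableOn (fun z => conj (G z) * ∇ φ z) (ball c r) :=
        (iG.mul_continuousOn hd hK).mono_set ball_subset_closedBall
      have j2 : IntegrableOn (fun z => k z * ∇ φ z) (ball c r) :=
        (ik.mul_continuousOn hd hK).mono_set ball_subset_closedBall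
      have hz : ∀ z ∉ ball c r, ∇ φ z = 0 := fun z hz => c1rep_zero fun h => hz (hs h)
      have hz' : ∀ z ∉ ball c r, φ z = 0 := fun z hz =>
        image_eq_zero_of_notMem_tsupport fun h => hz (hs h)
      have e1 : ∫ z in ball c r, k z * ∇ φ z = ∫ z, k z * ∇ φ z :=
        setIntegral_eq_integral_of_forall_compl_eq_zero fun z h => by rw [hz z h, mul_zero]
      have e2 : ∫ z, (ball c r).indicator (fun z => u z - g z) z * φ z =
          ∫ z in O, (u z - g z) * φ z := by
        rw [← setIntegral_eq_integral_of_forall_compl_eq_zero (s := O) fun z h => by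
          rw [hz' z fun h1 => h (hB h1), mul_zero]]
        refine setIntegral_congr_fun hO.measurableSet fun z _ => ?_
        by_cases h : z ∈ ball c r
        · simp only [indicator_of_mem h]
        · simp only [hz' z h, mul_zero]
      have e3 : ∫ z in O, ⟪G z, ∇ φ z⟫ = ∫ z in ball c r, ⟪G z, ∇ φ z⟫ :=
        setIntegral_eq_of_subset_of_forall_sdiff_eq_zero hO.measurableSet hB fun z h => by
          rw [hz z h.2, inner_zero_right]
      have e4 : (∫ z in ball c r, conj (G z) * ∇ φ z).re = ∫ z in ball c r, ⟪G z, ∇ φ z⟫ := by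
        rw [← Complex.reCLM_apply, ← Complex.reCLM.integral_comp_comm j1]
        simp only [Complex.reCLM_apply, conj_mul_re]
      have e5 := curl0 isOpen_ball (hw.mono isOpen_ball hO hB) hφ hc hs
      simp only [sub_mul]
      rw [integral_sub j1 j2, e1, hk1 φ hφ hc, e2, sub_eq_zero]
      refine Complex.ext ?_ ?_
      · rw [e4, ← e3, hE φ hφ hs, Complex.neg_re, Complex.ofReal_re]
      · rw [e5, Complex.neg_im, Complex.ofReal_im, neg_zero])
  refine ⟨fun w => conj (k₁ w + k w), ?_, ?_⟩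
  · exact Complex.continuous_conj.comp_continuousOn (hk₁.continuousOn.add hk.continuousOn)
  · filter_upwards [he] with w h1 h2
    rw [← h1 h2, sub_add_cancel, Complex.conj_conj]

theorem c1rep (hO : IsOpen O) (hu : MemLp u 2 (volume.restrict O))
    (hG : MemLp G 2 (volume.restrict O)) (hw : IsWG O u G) (hg : MemLp g ⊤ (volume.restrict O))
    (hE : ∀ c r, closedBall c r ⊆ O → ∀ φ : ℂ → ℝ, ContDiff ℝ ∞ φ → tsupport φ ⊆ ball c r →
      ∫ z in O, ⟪G z, ∇ φ z⟫ = -∫ z in O, (u z - g z) * φ z) :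
    ∃ v : ℂ → ℝ, ContDiffOn ℝ 1 v O ∧ ∀ᵐ z : ℂ, z ∈ O → v z = u z ∧ ∇ v z = G z := by
  obtain ⟨G₁, h1, h2⟩ := cont_glue (G := G) hO fun z hz => by
    obtain ⟨ρ, hρ, hb⟩ := nhds_basis_closedBall.mem_iff.1 (hO.mem_nhds hz)
    exact ⟨ρ, hρ, c1rep_loc hO hu hG hw hg hb (hE z ρ hb)⟩
  obtain ⟨v, h3, h4, h5⟩ := c1a hO hw h1 h2
  refine ⟨v, h3, ?_⟩
  filter_upwards [h2, h5] with z h6 h7 hz
  exact ⟨h7 hz, (h4 z hz).trans (h6 hz).symm⟩

end Vale.Agent.P128
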