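import Vale.Agent.P128.Br1a
import Vale.Agent.P128.Br1b
import Vale.Agent.P128.C1rep

/-!
# P128 Br1

From the statement to `MM`. `v` from `c1rep` on `Ω \ K` (with `br1a`, `test_of_contDiff`), `R`, `M`
from `br1b` with `M ≥ ‖g‖_∞`; `g₁` a measurable version of `g` with `|g₁| ≤ M` everywhere;
`hh = (ball x R \ K).indicator (v - g₁)`, `H = 2M`, `lam = 1 + 4π M² + 4 M²`. A test function for the ball is
a test function for `Ω`. For a competitor `(w, L)` apply `br0` to `tr M w` on the closed ball `c, r`,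
`v` outside, crack `(L ∩ closedBall c r) ∪ (K \ closedBall c r)`; `∫ |tr M w - g|² ≤ 4 M² π r²`.
-/

namespace Vale.Agent.P128

open Set Metric MeasureTheory Filter Topology Complex
open scoped ENNReal ContDiff RealInnerProductSpace Gradient Real ComplexConjugate

variable {Ω K L A S T U O X Γ P M₀ K₀ K₁ : Set ℂ} {u v w g hh ψ η : ℂ → ℝ} {G : ℂ → ℂ}
  {π₀ π₁ : ℂ → Set ℂ} {x y z c p q e a₀ F : ℂ} {lam H r s R a b t M Θ ρ ε δ d : ℝ} {n : ℕ}

theorem br1_union (hS : IsOpen S) (hT : IsOpen T) (h₁ : LocallyLipschitzOn S w)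
    (h₂ : LocallyLipschitzOn T w) : LocallyLipschitzOn (S ∪ T) w := by
  intro z hz
  rcases hz with hz | hz
  · obtain ⟨C, t, ht, hl⟩ := h₁ hz
    rw [hS.nhdsWithin_eq hz] at ht
    exact ⟨C, t, mem_nhdsWithin_of_mem_nhds ht, hl⟩
  · obtain ⟨C, t, ht, hl⟩ := h₂ hz
    rw [hT.nhdsWithin_eq hz] at ht
    exact ⟨C, t, mem_nhdsWithin_of_mem_nhds ht, hl⟩

theorem br1_bound (hΩ : IsOpen Ω) (hg : MemLp g ⊤ (volume.restrict Ω)) (M₁ : ℝ) :
    ∃ (M : ℝ) (g₁ : ℂ → ℝ), 0 ≤ M ∧ M₁ ≤ M ∧ Measurable g₁ ∧ (∀ z, |g₁ z| ≤ M) ∧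
      ∀ᵐ z : ℂ, z ∈ Ω → g₁ z = g z := by
  have h1 : eLpNormEssSup g (volume.restrict Ω) < ⊤ := by
    have := hg.2
    rwa [eLpNorm_exponent_top] at this
  obtain ⟨C, hC⟩ := eLpNormEssSup_lt_top_iff_isBoundedUnder.1 h1
  have hC' : ∀ᵐ z ∂(volume.restrict Ω), ‖g z‖₊ ≤ C := hC
  refine ⟨max (max M₁ 0) C, fun z => tr (max (max M₁ 0) C) (hg.1.mk g z),
    le_max_of_le_left (le_max_right _ _), le_max_of_le_left (le_max_left _ _), ?_, ?_, ?_⟩
  · exact (tr_lip _).continuous.measurable.comp hg.1.stronglyMeasurable_mk.measurable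
  · intro z
    exact (abs_tr_le (le_max_of_le_left (le_max_right _ _)) _).1
  · rw [← ae_restrict_iff' hΩ.measurableSet]
    filter_upwards [hC', hg.1.ae_eq_mk] with z h1 h2
    rw [← h2]
    apply tr_eq
    have : ‖g z‖ ≤ C := h1
    exact le_max_of_le_right this

theorem br1_test (hO : IsOpen (Ω \ K)) (hb : closedBall x R ⊆ Ω)
    (h : Test (ball x R) (K ∩ closedBall x R) ψ) : Test Ω K ψ := by
  obtain ⟨h1, h2, ⟨y, r, h3, h4⟩, h5⟩ := h
  refine ⟨?_, h2, ⟨y, r, h3.trans (ball_subset_closedBall.trans hb), h4⟩, ?_⟩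
  · have e1 : Ω \ K = (ball x R ∩ (Ω \ K)) ∪ ((Ω \ K) \ closedBall y r) := by
      ext z
      constructor
      · intro hz
        by_cases hy : z ∈ closedBall y r
        · exact Or.inl ⟨h3 hy, hz⟩
        · exact Or.inr ⟨hz, hy⟩
      · rintro (hz | hz)
        · exact hz.2
        · exact hz.1
    rw [e1]
    apply br1_union (isOpen_ball.inter hO) (hO.sdiff isClosed_closedBall)
    · exact h1.mono fun z hz => ⟨hz.1, fun h => hz.2.2 h.1⟩
    · refine lip_congr (u := fun _ => (0 : ℝ)) ?_ fun z hz => h4 z hz.2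
      exact (LipschitzWith.const (0 : ℝ)).locallyLipschitz.locallyLipschitzOn
  · exact ne_top_of_le_ne_top h5 (Dn_anti ψ inter_subset_left univ)

theorem br1_el {g₁ : ℂ → ℝ} (hΩ : IsOpen Ω) (hg : MemLp g ⊤ (volume.restrict Ω))
    (h : Minimizer Ω g u G K) (hae : ∀ᵐ z : ℂ, z ∈ Ω \ K → v z = u z ∧ ∇ v z = G z)
    (hb : closedBall x R ⊆ Ω) (hg₁ : ∀ᵐ z : ℂ, z ∈ Ω → g₁ z = g z)
    (hK : IsClosed (K ∩ closedBall x R)) :
    EL (ball x R) v (K ∩ closedBall x R) ((ball x R \ K).indicator fun z => v z - g₁ z) := by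
  intro ψ hψ
  have hO : IsOpen (Ω \ K) := h.1.2.1
  have key := br1a hΩ hg h (br1_test hO hb hψ)
  obtain ⟨-, -, ⟨y, r, h3, h4⟩, -⟩ := hψ
  rw [← integral_indicator hO.measurableSet, ← integral_indicator hO.measurableSet] at key
  rw [← integral_indicator hK.isOpen_compl.measurableSet]
  have e1 : ∫ z, ⟪gK (K ∩ closedBall x R) v z, gK (K ∩ closedBall x R) ψ z⟫ =
      ∫ z, (Ω \ K).indicator (fun z => ⟪G z, ∇ ψ z⟫) z := by
    apply integral_congr_ae
    filter_upwards [hae] with z hz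
    by_cases hy : z ∈ closedBall y r
    · have hzB := h3 hy
      by_cases hzK : z ∈ K
      · rw [gK_of_mem v (show z ∈ K ∩ closedBall x R from ⟨hzK, ball_subset_closedBall hzB⟩),
          inner_zero_left, indicator_of_notMem (show z ∉ Ω \ K from fun h => h.2 hzK)]
      · have hzO : z ∈ Ω \ K := ⟨hb (ball_subset_closedBall hzB), hzK⟩
        have hzK' : z ∉ K ∩ closedBall x R := fun h => hzK h.1
        rw [gK_of_notMem v hzK', gK_of_notMem ψ hzK', indicator_of_mem hzO, (hz hzO).2]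
    · have h0 : ∇ ψ z = 0 := by
        rw [← gK_of_notMem (K := ∅) ψ (notMem_empty z)]
        exact gK_eq_zero_off h4 hy
      rw [gK_eq_zero_off h4 hy, inner_zero_right]
      by_cases hzO : z ∈ Ω \ K
      · rw [indicator_of_mem hzO, h0, inner_zero_right]
      · rw [indicator_of_notMem hzO]
  have e2 : ∫ z, (K ∩ closedBall x R)ᶜ.indicator
        (fun z => (ball x R \ K).indicator (fun z => v z - g₁ z) z * ψ z) z =
      ∫ z, (Ω \ K).indicator (fun z => (u z - g z) * ψ z) z := by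
    apply integral_congr_ae
    filter_upwards [hae, hg₁] with z hz hz'
    by_cases hy : z ∈ closedBall y r
    · have hzB := h3 hy
      by_cases hzK : z ∈ K
      · rw [indicator_of_notMem (show z ∉ (K ∩ closedBall x R)ᶜ from
            fun h => h ⟨hzK, ball_subset_closedBall hzB⟩),
          indicator_of_notMem (show z ∉ Ω \ K from fun h => h.2 hzK)]
      · have hzO : z ∈ Ω \ K := ⟨hb (ball_subset_closedBall hzB), hzK⟩
        rw [indicator_of_mem (show z ∈ (K ∩ closedBall x R)ᶜ from fun h => hzK h.1),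
          indicator_of_mem hzO, indicator_of_mem (show z ∈ ball x R \ K from ⟨hzB, hzK⟩),
          (hz hzO).1, hz' hzO.1]
    · simp [indicator, h4 z hy]
  rw [e1, e2, key]

theorem br1_min {g₁ : ℂ → ℝ} (hΩ : IsOpen Ω) (hg : MemLp g ⊤ (volume.restrict Ω))
    (h : Minimizer Ω g u G K) (hv : ContDiffOn ℝ 1 v (Ω \ K))
    (hae : ∀ᵐ z : ℂ, z ∈ Ω \ K → v z = u z ∧ ∇ v z = G z)
    (hb : closedBall x R ⊆ Ω) (hg₁ : ∀ᵐ z : ℂ, z ∈ Ω → g₁ z = g z) (hM : 0 ≤ M)
    (hgM : ∀ z, |g₁ z| ≤ M) (hvM : ∀ z ∈ ball x R \ K, |v z| ≤ M) (hr : 0 < r)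
    (hc : closedBall c r ⊆ ball x R)
    (hC : Comp (ball x R) v (K ∩ closedBall x R) π₀ c r w L π₁) :
    En v (K ∩ closedBall x R) (closedBall c r) ≤
      En w L (closedBall c r) + ENNReal.ofReal (4 * π * M ^ 2 * r ^ 2) := by
  classical
  obtain ⟨hL, hw, -, hLK, he⟩ := hC
  have hO : IsOpen (Ω \ K) := h.1.2.1
  have hBΩ : ball x R ⊆ Ω := ball_subset_closedBall.trans hb
  set w' : ℂ → ℝ := fun z => if z ∈ closedBall c r then tr M (w z) else v z with hw'
  set L' : Set ℂ := (L ∩ closedBall c r) ∪ (K \ closedBall c r) with hL'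
  have hBL : IsOpen (ball x R \ L) := isOpen_ball.sdiff hL
  have e1 : Ω \ L' = (ball x R \ L) ∪ ((Ω \ K) \ closedBall c r) := by
    ext z
    constructor
    · intro hz
      by_cases hy : z ∈ closedBall c r
      · exact Or.inl ⟨hc hy, fun h => hz.2 (Or.inl ⟨h, hy⟩)⟩
      · exact Or.inr ⟨⟨hz.1, fun h => hz.2 (Or.inr ⟨h, hy⟩)⟩, hy⟩
    · rintro (hz | hz)
      · refine ⟨hBΩ hz.1, ?_⟩
        rintro (h | h)
        · exact hz.2 h.1
        · exact hz.2 ((hLK z h.2).2 ⟨h.1, ball_subset_closedBall hz.1⟩)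
      · refine ⟨hz.1.1, ?_⟩
        rintro (h | h)
        · exact hz.2 h.2
        · exact hz.1.2 h.1
  have e2 : ∀ z ∈ ball x R \ L, w' z = tr M (w z) := by
    intro z hz
    by_cases hy : z ∈ closedBall c r
    · simp only [hw', if_pos hy]
    · have hzK : z ∉ K ∩ closedBall x R := fun h => hz.2 ((hLK z hy).2 h)
      have hzK' : z ∉ K := fun h => hzK ⟨h, ball_subset_closedBall hz.1⟩
      simp only [hw', if_neg hy]
      rw [(he z ⟨hz.1, hzK⟩ hy).1, tr_eq (hvM z ⟨hz.1, hzK'⟩)]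
  have key := br0 (w := w') (L := L') hΩ hg h hv hae (hc.trans hBΩ)
    (by rw [e1]; exact hBL.union (hO.sdiff isClosed_closedBall))
    (fun z _ hy => ⟨fun h => h.elim (fun h => absurd h.2 hy) fun h => h.1,
      fun h => Or.inr ⟨h, hy⟩⟩)
    (by
      rw [e1]
      apply br1_union hBL (hO.sdiff isClosed_closedBall)
      · exact lip_congr (lip_tr hw M) e2
      · refine lip_congr ((lip_of_contDiffOn hO hv).mono sdiff_subset) fun z hz => ?_
        simp only [hw', if_neg hz.2])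
    (fun z _ hy => by simp only [hw', if_neg hy])
  have f1 : En v (K ∩ closedBall x R) (closedBall c r) = En v K (closedBall c r) := by
    unfold En Dn
    congr 1
    · apply setLIntegral_congr_fun measurableSet_closedBall
      intro z hz
      by_cases hzK : z ∈ K
      · simp only [gK_of_mem v hzK,
          gK_of_mem v (show z ∈ K ∩ closedBall x R from ⟨hzK, ball_subset_closedBall (hc hz)⟩)]
      · simp only [gK_of_notMem v hzK,
          gK_of_notMem v (show z ∉ K ∩ closedBall x R from fun h => hzK h.1)]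
    · congr 1
      ext z
      exact ⟨fun h => ⟨h.1.1, h.2⟩, fun h => ⟨⟨h.1, ball_subset_closedBall (hc h.2)⟩, h.2⟩⟩
  have f2 : En w' L' (closedBall c r) ≤ En w L (closedBall c r) := by
    unfold En Dn
    apply add_le_add
    · apply setLIntegral_mono' measurableSet_closedBall
      intro z hz
      by_cases hzL : z ∈ L
      · rw [gK_of_mem w' (show z ∈ L' from Or.inl ⟨hzL, hz⟩)]
        simp
      · have hzB : z ∈ ball x R \ L := ⟨hc hz, hzL⟩
        have hzL' : z ∉ L' := fun h => h.elim (fun h => hzL h.1) fun h => h.2 hz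
        have hn := hBL.mem_nhds hzB
        have hev : w' =ᶠ[𝓝 z] fun z => tr M (w z) := mem_of_superset hn e2
        rw [gK_of_notMem w' hzL', gK_of_notMem w hzL, hev.gradient_eq,
          grad_tr (hw.continuousOn.continuousAt hn) M]
        split_ifs
        · exact le_rfl
        · simp
    · apply measure_mono
      rintro z ⟨h | h, hz⟩
      · exact h
      · exact absurd hz h.2
  have f3 : ∫⁻ z in closedBall c r, ‖w' z - g z‖ₑ ^ 2 ≤
      ENNReal.ofReal (4 * π * M ^ 2 * r ^ 2) := by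
    calc ∫⁻ z in closedBall c r, ‖w' z - g z‖ₑ ^ 2
        ≤ ∫⁻ _ in closedBall c r, ENNReal.ofReal (4 * M ^ 2) := by
          apply setLIntegral_mono_ae' measurableSet_closedBall
          filter_upwards [hg₁] with z hz hy
          have h1 : |w' z| ≤ M := by
            simp only [hw', if_pos hy]
            exact (abs_tr_le hM _).1
          have h2 : |g z| ≤ M := by
            rw [← hz (hBΩ (hc hy))]
            exact hgM z
          have h3 : |w' z - g z| ≤ 2 * M := (abs_sub _ _).trans (by linarith)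
          rw [← ofReal_norm, ← ENNReal.ofReal_pow (norm_nonneg _)]
          apply ENNReal.ofReal_le_ofReal
          rw [Real.norm_eq_abs]
          nlinarith [abs_nonneg (w' z - g z)]
      _ = ENNReal.ofReal (4 * π * M ^ 2 * r ^ 2) := by
          rw [setLIntegral_const, Complex.volume_closedBall, ← ENNReal.ofReal_pow hr.le,
            ← ENNReal.ofReal_coe_nnreal, NNReal.coe_real_pi,
            ← ENNReal.ofReal_mul (sq_nonneg r), ← ENNReal.ofReal_mul (by positivity)]
          congr 1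
          ring
  rw [f1]
  exact le_self_add.trans (key.trans (add_le_add f2 f3))

theorem br1 (hΩ : IsOpen Ω) (hg : MemLp g ⊤ (volume.restrict Ω)) (h : Minimizer Ω g u G K)
    (hr : Reduced Ω K) (hx : x ∈ K) :
    ∃ (R lam : ℝ) (v : ℂ → ℝ), 0 < R ∧ closedBall x R ⊆ Ω ∧
      MM (ball x R) lam v (K ∩ closedBall x R) (fun _ => ∅) := by
  classical
  have hO : IsOpen (Ω \ K) := h.1.2.1
  have hle : (volume : Measure ℂ).restrict (Ω \ K) ≤ volume.restrict Ω :=
    Measure.restrict_mono sdiff_subset le_rfl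
  obtain ⟨v, hv, hae⟩ := c1rep hO (h.1.2.2.2.1.mono_measure hle) h.1.2.2.2.2.2 h.1.2.2.2.2.1
    (hg.mono_measure hle) (fun c r hc φ hφ hs => br1a hΩ hg h
      (test_of_contDiff (hφ.of_le (by exact_mod_cast le_top)) (hc.trans sdiff_subset)
        fun z hz => image_eq_zero_of_notMem_tsupport fun h => hz (ball_subset_closedBall (hs h))))
  obtain ⟨R, M₁, hR, hb, hvM₁⟩ := br1b hΩ hg h hv hae (h.1.1 hx)
  obtain ⟨M, g₁, hM, hMM, hm, hgM, hg₁⟩ := br1_bound hΩ hg M₁
  have hvM : ∀ z ∈ ball x R \ K, |v z| ≤ M := fun z hz => (hvM₁ z hz).trans hMM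
  have hP := br_pre hΩ h.1 hv hae hb
  have hBΩ : ball x R ⊆ Ω := ball_subset_closedBall.trans hb
  have hBK : IsOpen (ball x R \ K) := by
    have : ball x R \ K = ball x R ∩ (Ω \ K) := by
      ext z
      exact ⟨fun h => ⟨h.1, hBΩ h.1, h.2⟩, fun h => ⟨h.1, h.2.2⟩⟩
    rw [this]
    exact isOpen_ball.inter hO
  have hπ := Real.pi_pos
  have hπM : 0 ≤ 4 * π * M ^ 2 := by positivity
  have hM2 : 0 ≤ M ^ 2 := by positivity
  refine ⟨R, 1 + 4 * π * M ^ 2 + 4 * M ^ 2, v, hR, hb, ⟨by positivity,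
    (ball x R \ K).indicator fun z => v z - g₁ z, 2 * M,
    ⟨hP, ?_, ?_, br1_el hΩ hg h hae hb hg₁ hP.2.1⟩, ?_, ?_⟩, ?_, ?_, ?_⟩
  · have e1 : ((ball x R \ K).indicator fun z => v z - g₁ z) =
        fun z => (ball x R \ K).piecewise v (fun _ => 0) z - (ball x R \ K).indicator g₁ z := by
      ext z
      by_cases hz : z ∈ ball x R \ K
      · simp only [indicator_of_mem hz, piecewise_eq_of_mem _ _ _ hz]
      · simp only [indicator_of_notMem hz, piecewise_eq_of_notMem _ _ _ hz, sub_zero]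
    rw [e1]
    refine Measurable.sub ?_ (hm.indicator hBK.measurableSet)
    exact ContinuousOn.measurable_piecewise
      (hv.continuousOn.mono fun z hz => ⟨hBΩ hz.1, hz.2⟩) continuousOn_const hBK.measurableSet
  · intro z
    by_cases hz : z ∈ ball x R \ K
    · rw [indicator_of_mem hz]
      exact (abs_sub _ _).trans (by linarith [hvM z hz, hgM z])
    · rw [indicator_of_notMem hz, abs_zero]
      positivity
  · have h1 : (1 : ℝ) ≤ 1 + 4 * π * M ^ 2 + 4 * M ^ 2 := by linarith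
    calc (2 * M) ^ 2 ≤ 1 + 4 * π * M ^ 2 + 4 * M ^ 2 := by nlinarith
      _ ≤ _ := le_self_pow₀ h1 (by norm_num)
  · intro z hz
    have := hvM z ⟨hz.1, fun h => hz.2 ⟨h, ball_subset_closedBall hz.1⟩⟩
    nlinarith [abs_nonneg (v z)]
  · intro z _
    exact Eventually.of_forall fun _ => rfl
  · intro y hy hyB r hr0
    obtain ⟨r', hr', hs⟩ := nhds_basis_closedBall.mem_iff.1
      (inter_mem (isOpen_ball.mem_nhds hyB) (ball_mem_nhds y hr0))
    refine (hr y hy.1 r' hr' fun z hz => hBΩ (hs hz).1).trans_le (measure_mono ?_)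
    intro z hz
    have := hs (ball_subset_closedBall hz.2)
    exact ⟨⟨hz.1, ball_subset_closedBall this.1⟩, this.2⟩
  · intro c r w L π₁ hr0 hc hC
    refine (br1_min hΩ hg h hv hae hb hg₁ hM hgM hvM hr0 hc hC).trans ?_
    gcongr
    linarith

end Vale.Agent.P128
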