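import Vale.Agent.P128.LipWG

/-!
# P128 Br1a

Euler-Lagrange equation: compare `u` with `u + t ψ` (`IsWG.add_lip`), same `K`, `V` a slightly larger
ball; all energies are finite; pass to real integrals, expand the squares, let `t → 0` from both
sides.
-/

namespace Vale.Agent.P128

open Set Metric MeasureTheory Filter Topology Complex
open scoped ENNReal ContDiff RealInnerProductSpace Gradient Real ComplexConjugate

variable {Ω K L A S T U O X Γ P M₀ K₀ K₁ : Set ℂ} {u v w g hh ψ η : ℂ → ℝ} {G : ℂ → ℂ}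
  {π₀ π₁ : ℂ → Set ℂ} {x y z c p q e a₀ F : ℂ} {lam H r s R a b t M Θ ρ ε δ d : ℝ} {n : ℕ}

theorem br1a_lint {E : Type*} [NormedAddCommGroup E] {μ : Measure ℂ} {f : ℂ → E}
    (hf : MemLp f 2 μ) : ∫⁻ z, ‖f z‖ₑ ^ 2 ∂μ = ENNReal.ofReal (∫ z, ‖f z‖ ^ 2 ∂μ) := by
  have hi : Integrable (fun z => ‖f z‖ ^ 2) μ := hf.norm.integrable_sq
  rw [ofReal_integral_eq_lintegral_ofReal hi (Eventually.of_forall fun z => sq_nonneg _)]
  refine lintegral_congr fun z => ?_
  rw [ENNReal.ofReal_pow (norm_nonneg _), ofReal_norm]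

theorem br1a_exp {E : Type*} [NormedAddCommGroup E] [InnerProductSpace ℝ E] {μ : Measure ℂ}
    {f k : ℂ → E} (hf : MemLp f 2 μ) (hk : MemLp k 2 μ) (t : ℝ) :
    ∫ z, ‖f z + t • k z‖ ^ 2 ∂μ =
      ∫ z, ‖f z‖ ^ 2 ∂μ + 2 * t * ∫ z, ⟪f z, k z⟫ ∂μ + t ^ 2 * ∫ z, ‖k z‖ ^ 2 ∂μ := by
  have i1 : Integrable (fun z => ‖f z‖ ^ 2) μ := hf.norm.integrable_sq
  have i2 : Integrable (fun z => ‖k z‖ ^ 2) μ := hk.norm.integrable_sq
  have i3 : Integrable (fun z => ⟪f z, k z⟫) μ := by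
    refine Integrable.mono' (i1.add i2) (hf.1.inner hk.1) (Eventually.of_forall fun z => ?_)
    have h1 := abs_real_inner_le_norm (f z) (k z)
    have h2 := norm_nonneg (f z)
    have h3 := norm_nonneg (k z)
    simp only [Real.norm_eq_abs, Pi.add_apply]
    nlinarith [sq_nonneg (‖f z‖ - ‖k z‖)]
  have i4 : Integrable (fun z => ‖f z‖ ^ 2 + 2 * t * ⟪f z, k z⟫) μ := i1.add (i3.const_mul _)
  rw [← integral_const_mul, ← integral_const_mul, ← integral_add i1 (i3.const_mul _),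
    ← integral_add i4 (i2.const_mul _)]
  refine integral_congr_ae (Eventually.of_forall fun z => ?_)
  simp only
  rw [norm_add_sq_real, inner_smul_right, norm_smul, mul_pow, Real.norm_eq_abs, sq_abs]
  ring

theorem br1a_quad {I Q : ℝ} (h : ∀ t : ℝ, 0 ≤ 2 * t * I + t ^ 2 * Q) : I = 0 := by
  by_contra hI
  have hq : 0 < |Q| + 1 := by positivity
  have h1 := h (-I / (|Q| + 1))
  have h2 : 2 * (-I / (|Q| + 1)) * I + (-I / (|Q| + 1)) ^ 2 * Q =
      I ^ 2 / (|Q| + 1) ^ 2 * (Q - 2 * (|Q| + 1)) := by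
    field_simp
    ring
  have h3 : 0 < I ^ 2 / (|Q| + 1) ^ 2 := by positivity
  have h4 : Q - 2 * (|Q| + 1) < 0 := by linarith [le_abs_self Q, abs_nonneg Q]
  have h5 := mul_neg_of_pos_of_neg h3 h4
  linarith

theorem br1a (hΩ : IsOpen Ω) (hg : MemLp g ⊤ (volume.restrict Ω)) (h : Minimizer Ω g u G K)
    (hψ : Test Ω K ψ) :
    ∫ z in Ω \ K, ⟪G z, ∇ ψ z⟫ = -∫ z in Ω \ K, (u z - g z) * ψ z := by
  obtain ⟨⟨hKΩ, hO, hK1, hu2, hWG, hG2⟩, hmin⟩ := h
  obtain ⟨hlip, ⟨M, hM⟩, ⟨x, r, hb, hz⟩, hD⟩ := hψ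
  obtain ⟨V, hV, hCV, hVΩ, hVc⟩ :=
    exists_open_between_and_isCompact_closure (isCompact_closedBall x r) hΩ hb
  have hVΩ' : V ⊆ Ω := subset_closure.trans hVΩ
  have hK0 : volume K = 0 := vol_null hK1.ne
  have hae : ∀ S : Set ℂ, (S \ K : Set ℂ) =ᵐ[volume] S := fun S => sdiff_null_ae_eq_self hK0
  have hr : volume.restrict (Ω \ K) = volume.restrict Ω := Measure.restrict_congr_set (hae Ω)
  have hψm : AEStronglyMeasurable ψ (volume.restrict Ω) := by
    rw [← hr]
    exact hlip.continuousOn.aestronglyMeasurable hO.measurableSet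
  have hψ2 : MemLp ψ 2 (volume.restrict Ω) := by
    have h1 : MemLp ((closedBall x r).indicator fun _ => M) 2 (volume.restrict Ω) :=
      memLp_indicator_const 2 measurableSet_closedBall M
        (Or.inr ((Measure.restrict_apply_le _ _).trans_lt measure_closedBall_lt_top).ne)
    refine h1.mono' hψm (Eventually.of_forall fun z => ?_)
    by_cases hzb : z ∈ closedBall x r
    · rw [indicator_of_mem hzb]
      exact hM z
    · rw [indicator_of_notMem hzb, hz z hzb, norm_zero]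
  have hg2 : MemLp (∇ ψ) 2 (volume.restrict (Ω \ K)) := by
    rw [memLp_two_iff_integrable_sq_norm (meas_grad ψ).aestronglyMeasurable]
    refine ⟨((meas_grad ψ).norm.pow_const 2).aestronglyMeasurable, ?_⟩
    rw [hasFiniteIntegral_iff_enorm]
    refine lt_of_le_of_lt ?_ (lt_top_iff_ne_top.2 hD)
    unfold Dn
    calc ∫⁻ z in Ω \ K, ‖‖∇ ψ z‖ ^ 2‖ₑ = ∫⁻ z in Ω \ K, ‖gK K ψ z‖ₑ ^ 2 := by
          refine setLIntegral_congr_fun hO.measurableSet fun z hz => ?_
          simp only [gK_of_notMem ψ hz.2, enorm_pow, enorm_norm]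
      _ ≤ ∫⁻ z in univ, ‖gK K ψ z‖ₑ ^ 2 := lintegral_mono_set (subset_univ _)
  have hgrad0 : ∀ z ∉ closedBall x r, ∇ ψ z = 0 := by
    intro z hzb
    have h1 : ψ =ᶠ[𝓝 z] fun _ => 0 := by
      filter_upwards [isClosed_closedBall.isOpen_compl.mem_nhds hzb] with w hw using hz w hw
    rw [h1.gradient_eq]
    exact gradient_fun_const z 0
  have hfin : IsFiniteMeasure (volume.restrict V) :=
    isFiniteMeasure_restrict.2 ((measure_mono subset_closure).trans_lt hVc.measure_lt_top).ne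
  have hsub : V \ K ⊆ Ω \ K := sdiff_subset_sdiff_left hVΩ'
  have m1 : MemLp G 2 (volume.restrict (V \ K)) :=
    hG2.mono_measure (Measure.restrict_mono hsub le_rfl)
  have m2 : MemLp (∇ ψ) 2 (volume.restrict (V \ K)) :=
    hg2.mono_measure (Measure.restrict_mono hsub le_rfl)
  have m3 : MemLp (fun z => u z - g z) 2 (volume.restrict V) :=
    (hu2.mono_measure (Measure.restrict_mono hVΩ' le_rfl)).sub
      ((hg.mono_measure (Measure.restrict_mono hVΩ' le_rfl)).mono_exponent le_top)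
  have m4 : MemLp ψ 2 (volume.restrict V) :=
    hψ2.mono_measure (Measure.restrict_mono hVΩ' le_rfl)
  have key : ∀ t : ℝ, 0 ≤ 2 * t * ((∫ z in V \ K, ⟪G z, ∇ ψ z⟫) + ∫ z in V, ⟪u z - g z, ψ z⟫) +
      t ^ 2 * ((∫ z in V \ K, ‖∇ ψ z‖ ^ 2) + ∫ z in V, ‖ψ z‖ ^ 2) := by
    intro t
    have hl : LocallyLipschitzOn (Ω \ K) (fun z => t * ψ z) :=
      lip_mul (LipschitzWith.const t).locallyLipschitz.locallyLipschitzOn hlip
    have hgs : ∀ z, ∇ (fun z => t * ψ z) z = t • ∇ ψ z := fun z => by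
      rw [grad_smul, real_smul]
    have hw := hWG.add_lip hO hl
    simp only [hgs] at hw
    have hadm : Admissible Ω (fun z => u z + t * ψ z) (fun z => G z + t • ∇ ψ z) K :=
      ⟨hKΩ, hO, hK1, hu2.add (hψ2.const_mul t), hw, hG2.add (hg2.const_smul t)⟩
    have h1 := hmin V hV hVc hVΩ _ _ K hadm ⟨closedBall x r, isCompact_closedBall x r, hCV,
      by simp, Eventually.of_forall fun z hzz => by simp [hz z hzz.2]⟩
    unfold Energy at h1
    have h2 : ∀ z, u z + t * ψ z - g z = (u z - g z) + t • ψ z := fun z => by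
      rw [smul_eq_mul]; ring
    simp only [h2] at h1
    have m5 : MemLp (fun z => G z + t • ∇ ψ z) 2 (volume.restrict (V \ K)) :=
      m1.add (m2.const_smul t)
    have m6 : MemLp (fun z => (u z - g z) + t • ψ z) 2 (volume.restrict V) :=
      m3.add (m4.const_smul t)
    have hH : μH[1] (K ∩ V) ≠ ⊤ := ((measure_mono inter_subset_left).trans_lt hK1).ne
    rw [br1a_lint m1, br1a_lint m3, br1a_lint m5, br1a_lint m6, add_right_comm,
      add_right_comm _ (μH[1] (K ∩ V)), ENNReal.add_le_add_iff_right hH,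
      ← ENNReal.ofReal_add (integral_nonneg fun z => sq_nonneg _)
        (integral_nonneg fun z => sq_nonneg _),
      ← ENNReal.ofReal_add (integral_nonneg fun z => sq_nonneg _)
        (integral_nonneg fun z => sq_nonneg _),
      ENNReal.ofReal_le_ofReal_iff (add_nonneg (integral_nonneg fun z => sq_nonneg _)
        (integral_nonneg fun z => sq_nonneg _)), br1a_exp m1 m2, br1a_exp m3 m4] at h1
    linarith
  have h0 := br1a_quad key
  have e1 : ∫ z in Ω \ K, ⟪G z, ∇ ψ z⟫ = ∫ z in V \ K, ⟪G z, ∇ ψ z⟫ := by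
    refine setIntegral_eq_of_subset_of_forall_sdiff_eq_zero hO.measurableSet hsub fun z hzz => ?_
    rw [hgrad0 z fun hzb => hzz.2 ⟨hCV hzb, hzz.1.2⟩, inner_zero_right]
  have e2 : ∫ z in Ω \ K, (u z - g z) * ψ z = ∫ z in V, ⟪u z - g z, ψ z⟫ := by
    rw [hr, setIntegral_eq_of_subset_of_forall_sdiff_eq_zero hΩ.measurableSet hVΩ' fun z hzz => by
      rw [hz z fun hzb => hzz.2 (hCV hzb), mul_zero]]
    refine integral_congr_ae (Eventually.of_forall fun z => ?_)
    simp [mul_comm]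
  rw [e1, e2]
  linarith

end Vale.Agent.P128
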