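import Vale.Agent.P128.Basic
import Vale.Agent.P128.Pol

/-!
# P128 EL0

`el0`: compare with `u + t ψ`. `parab`: test with `tr M u * χ_R` (indicator off `K`), `χ_R = 1` on
`ball 0 R`, zero off `ball 0 (2R)`, `|∇χ_R| ≤ C/R`; Cauchy-Schwarz gives
`∫_{ball R, |u| < M} ‖∇u‖² ≤ C M (tail energy)^(1/2) → 0`; then `M → ∞` and continuity.
`trickA`: take a good `s > R`, `M` from `circ_bdd`; `glue` with `L = K ∩ closedBall`, `w = tr M u` shows
that `∇ u = 0` a.e., hence everywhere, on the open set `{|u| > M} ∩ ball \ K`, and also a.e. on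
`{|u| = M}`; so `{u > M} ∩ ball \ K` is open and relatively closed (`lc_of_grad`), likewise `{u < -M}`.
Let `v = tr M u` on the ball, `u` outside: near each point off `K`, `v - u` is constant (on the sphere use
a small disc: the part inside the ball is convex and has points with `|u| ≤ M` in its closure), so
`v` is `C¹` with `gK K v = gK K u`. A competitor for `v` is a competitor for `u` in a larger ball.
-/

namespace Vale.Agent.P128

open Set Metric MeasureTheory Filter Topology Complex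
open scoped ENNReal ContDiff RealInnerProductSpace Gradient Real ComplexConjugate

variable {Ω K L A S T U O X Γ P M₀ K₀ K₁ : Set ℂ} {u v w g hh ψ η : ℂ → ℝ} {G : ℂ → ℂ}
  {π₀ π₁ : ℂ → Set ℂ} {x y z c p q e a₀ F : ℂ} {lam H r s R a b t M Θ ρ ε δ d : ℝ} {n : ℕ}

theorem el0_lint {f : ℂ → ℂ} {μ : Measure ℂ} (hf : MemLp f 2 μ) :
    ∫⁻ z, ‖f z‖ₑ ^ 2 ∂μ = ENNReal.ofReal (∫ z, ‖f z‖ ^ 2 ∂μ) := by
  have hi : Integrable (fun z => ‖f z‖ ^ 2) μ := (memLp_two_iff_integrable_sq_norm hf.1).1 hf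
  rw [ofReal_integral_eq_lintegral_ofReal hi (ae_of_all _ fun z => by positivity)]
  refine lintegral_congr fun z => ?_
  rw [ENNReal.ofReal_pow (norm_nonneg _), ofReal_norm]

theorem el0_grad (h : Pre univ u L) (hψ : Test univ L ψ) (t : ℝ) :
    LocallyLipschitzOn (univ \ L) (fun z => u z + t * ψ z) ∧
      ∀ᵐ z : ℂ, gK L (fun z => u z + t * ψ z) z = gK L u z + (t : ℂ) * gK L ψ z := by
  refine ⟨lip_add h.lip (hψ.smul t).1, ?_⟩
  filter_upwards [ae_diff h.isOpen (hψ.smul t).1] with z hz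
  by_cases hzL : z ∈ L
  · simp [gK_of_mem _ hzL]
  · rw [gK_of_notMem _ hzL, gK_of_notMem _ hzL, gK_of_notMem _ hzL,
      grad_add (h.diff ⟨trivial, hzL⟩) (hz ⟨trivial, hzL⟩), grad_smul]

theorem el0 (h : Pre univ u K)
    (hm : ∀ c r w, 0 < r → LocallyLipschitzOn Kᶜ w → (∀ z ∉ closedBall c r, w z = u z) →
      Dn u K (closedBall c r) ≤ Dn w K (closedBall c r)) : NP univ 0 u K := by
  refine ⟨le_rfl, fun _ => 0, 0, ⟨h, measurable_const, by simp, fun ψ hψ => ?_⟩, by simp, by simp⟩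
  simp only [zero_mul, integral_zero, neg_zero]
  have hL := h.2.1
  obtain ⟨x, r, -, h0⟩ := hψ.2.2.1
  obtain ⟨R, hR0, hR⟩ : ∃ R : ℝ, 0 < R ∧ closedBall x r ⊆ closedBall x R :=
    ⟨max r 1, by positivity, closedBall_subset_closedBall (le_max_left _ _)⟩
  have hG := (intOn_of_Dn hL (h.2.2.2 x R (subset_univ _)).1).2
  have hΨ := hψ.memLp hL
  have hΨ0 : ∀ z ∉ closedBall x R, gK K ψ z = 0 := fun z hz =>
    gK_eq_zero_off h0 fun hz' => hz (hR hz')
  have hI := h.inner_int hψ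
  have hΨi : Integrable (fun z => ‖gK K ψ z‖ ^ 2) := (memLp_two_iff_integrable_sq_norm hΨ.1).1 hΨ
  have hGi : Integrable (fun z => ‖gK K u z‖ ^ 2) (volume.restrict (closedBall x R)) :=
    (memLp_two_iff_integrable_sq_norm hG.1).1 hG
  have key : ∀ t : ℝ, 0 ≤ (∫ z, ‖gK K ψ z‖ ^ 2) * (t * t) +
      (2 * ∫ z, ⟪gK K u z, gK K ψ z⟫) * t + 0 := by
    intro t
    obtain ⟨hw, hg⟩ := el0_grad h hψ t
    have hm2 := hm x R (fun z => u z + t * ψ z) hR0 (by rwa [compl_eq_univ_sdiff]) fun z hz => by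
      rw [h0 z fun hz' => hz (hR hz'), mul_zero, add_zero]
    have hW : MemLp (fun z => gK K u z + (t : ℂ) * gK K ψ z) 2
        (volume.restrict (closedBall x R)) := hG.add ((hΨ.restrict _).const_mul _)
    have e1 : Dn (fun z => u z + t * ψ z) K (closedBall x R) =
        ENNReal.ofReal (∫ z in closedBall x R, ‖gK K u z + (t : ℂ) * gK K ψ z‖ ^ 2) := by
      rw [← el0_lint hW, Dn]
      refine lintegral_congr_ae (ae_restrict_of_ae ?_)
      filter_upwards [hg] with z hz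
      rw [hz]
    have e2 : ∫ z in closedBall x R, ‖gK K u z + (t : ℂ) * gK K ψ z‖ ^ 2 =
        (∫ z in closedBall x R, ‖gK K u z‖ ^ 2) +
          ((2 * t) * (∫ z, ⟪gK K u z, gK K ψ z⟫) + t ^ 2 * ∫ z, ‖gK K ψ z‖ ^ 2) := by
      have hJ : Integrable (fun z => 2 * t * ⟪gK K u z, gK K ψ z⟫ + t ^ 2 * ‖gK K ψ z‖ ^ 2)
          (volume.restrict (closedBall x R)) :=
        ((hI.const_mul _).add (hΨi.const_mul _)).integrableOn
      rw [← integral_const_mul, ← integral_const_mul,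
        ← integral_add (hI.const_mul _) (hΨi.const_mul _),
        ← setIntegral_eq_integral_of_forall_compl_eq_zero (s := closedBall x R)
          (f := fun z => 2 * t * ⟪gK K u z, gK K ψ z⟫ + t ^ 2 * ‖gK K ψ z‖ ^ 2)
          (fun z hz => by simp [hΨ0 z hz]),
        ← integral_add hGi hJ]
      refine integral_congr_ae (ae_of_all _ fun z => ?_)
      have e3 : (t : ℂ) * gK K ψ z = t • gK K ψ z := by simp
      simp only []
      rw [e3, norm_add_sq_real, inner_smul_right, norm_smul, mul_pow, Real.norm_eq_abs, sq_abs]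
      ring
    rw [e1, Dn, el0_lint hG,
      ENNReal.ofReal_le_ofReal_iff (integral_nonneg fun z => by positivity), e2] at hm2
    nlinarith
  have hd := discrim_le_zero key
  rw [discrim] at hd
  exact pow_eq_zero_iff two_ne_zero |>.1 (le_antisymm (by nlinarith) (sq_nonneg _))

/-- Zero energy on an open set off `K` forces the gradient to vanish there. -/
theorem el0_open (h : Pre univ u K) (hU : IsOpen U) (hK : U ⊆ Kᶜ) (h0 : Dn u K U = 0)
    (hz : z ∈ U) : gK K u z = 0 := by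
  have hm : Measurable fun z => ‖gK K u z‖ₑ ^ 2 := (meas_gK h.2.1 u).enorm.pow_const 2
  have hae := (lintegral_eq_zero_iff hm).1 h0
  have hae' : ∇ u =ᵐ[volume.restrict U] fun _ => 0 := by
    filter_upwards [hae, ae_restrict_mem hU.measurableSet] with w hw hwU
    rw [← gK_of_notMem u (hK hwU)]
    simpa using hw
  rw [gK_of_notMem u (hK hz)]
  exact Measure.eqOn_open_of_ae_eq hae' hU (h.contGrad.mono fun w hw => ⟨trivial, hK hw⟩)
    continuousOn_const hz

theorem gK_zero (h : Pre univ u K) (hD : ∀ r, 0 < r → Dr u K x r = 0) (z : ℂ) : gK K u z = 0 := by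
  by_cases hz : z ∈ K
  · exact gK_of_mem u hz
  have hr : 0 < dist z x + 1 := by positivity
  have h1 : Dn u K (ball x (dist z x + 1)) = 0 := by
    rcases (ENNReal.toReal_eq_zero_iff _).1 (hD _ hr) with h1 | h1
    · exact h1
    · exact absurd h1 (ne_top_of_le_ne_top (h.2.2.2 x _ (subset_univ _)).1
        (Dn_mono_set u K ball_subset_closedBall))
  refine el0_open h (U := ball x (dist z x + 1) ∩ Kᶜ) (isOpen_ball.inter h.2.1.isOpen_compl)
    inter_subset_right (le_antisymm ((Dn_mono_set u K inter_subset_left).trans h1.le) zero_le)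
    ⟨by simp, hz⟩

/-- Lipschitz cutoff. -/
theorem el0_cut (hR : 0 < R) : ∃ χ : ℂ → ℝ, LocallyLipschitzOn univ χ ∧ (∀ z, 0 ≤ χ z ∧ χ z ≤ 1) ∧
    (∀ z, ‖∇ χ z‖ ≤ R⁻¹) ∧ (∀ z ∈ ball (0 : ℂ) R, χ z = 1 ∧ ∇ χ z = 0) ∧
    ∀ z ∉ closedBall (0 : ℂ) (2 * R), χ z = 0 ∧ ∇ χ z = 0 := by
  have h1 : LipschitzWith (R⁻¹).toNNReal fun z : ℂ => 2 - ‖z‖ / R := by
    refine LipschitzWith.of_dist_le' fun a b => ?_
    rw [Real.dist_eq, dist_eq_norm, show 2 - ‖a‖ / R - (2 - ‖b‖ / R) = R⁻¹ * (‖b‖ - ‖a‖) by ring,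
      abs_mul, abs_of_pos (inv_pos.2 hR), norm_sub_rev]
    exact mul_le_mul_of_nonneg_left (abs_norm_sub_norm_le _ _) (inv_pos.2 hR).le
  have h2 := (h1.const_min 1).const_max 0
  have hin : ∀ z ∈ ball (0 : ℂ) R, max 0 (min 1 (2 - ‖z‖ / R)) = 1 := by
    intro z hz
    have : ‖z‖ / R < 1 := (div_lt_one hR).2 (by simpa using hz)
    rw [min_eq_left (by linarith), max_eq_right zero_le_one]
  have hout : ∀ z ∉ closedBall (0 : ℂ) (2 * R), max 0 (min 1 (2 - ‖z‖ / R)) = 0 := by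
    intro z hz
    have : 2 < ‖z‖ / R := (lt_div_iff₀ hR).2 (by simpa using hz)
    exact max_eq_left ((min_le_right _ _).trans (by linarith))
  have hlc : ∀ (V : Set ℂ) (a : ℝ), IsOpen V → (∀ z ∈ V, max 0 (min 1 (2 - ‖z‖ / R)) = a) →
      ∀ z ∈ V, ∇ (fun z : ℂ => max 0 (min 1 (2 - ‖z‖ / R))) z = 0 := by
    intro V a hV ha z hz
    refine LC.grad (fun y hy => ?_) hV hz
    filter_upwards [self_mem_nhdsWithin] with w hw
    rw [ha w hw, ha y hy]
  refine ⟨fun z => max 0 (min 1 (2 - ‖z‖ / R)), h2.locallyLipschitz.locallyLipschitzOn,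
    fun z => ⟨le_max_left _ _, max_le zero_le_one (min_le_left _ _)⟩, fun z => ?_,
    fun z hz => ⟨hin z hz, hlc _ 1 isOpen_ball hin z hz⟩,
    fun z hz => ⟨hout z hz, hlc (closedBall 0 (2 * R))ᶜ 0 isClosed_closedBall.isOpen_compl hout z hz⟩⟩
  rw [norm_grad]
  refine (norm_fderiv_le_of_lipschitz ℝ h2).trans (le_of_eq ?_)
  exact Real.coe_toNNReal _ (inv_pos.2 hR).le

theorem el0_step (h : NP univ 0 u K) (hD : Dn u K univ ≠ ⊤) (hM : 0 ≤ M) (hR : 0 < R)
    (hd : 0 < d) (hU : MeasurableSet U) (hUb : U ⊆ ball 0 R) (hUM : ∀ z ∈ U, |u z| < M) :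
    ∫ z in U, ‖gK K u z‖ ^ 2 ≤
      M * (d⁻¹ * (∫ z in (ball 0 R)ᶜ, ‖gK K u z‖ ^ 2) + d * (4 * π)) := by
  have hp := h.pre
  have hK := hp.2.1
  obtain ⟨χ, hχ, hχ01, hχg, hχin, hχout⟩ := el0_cut hR
  obtain ⟨hGi, hG⟩ := intOn_of_Dn hK hD
  rw [integrableOn_univ] at hGi
  rw [Measure.restrict_univ] at hG
  have hlt := lip_tr hp.lip M
  have hlip := lip_mul hlt (hχ.mono (subset_univ _))
  have hg : ∀ᵐ z : ℂ, gK K (fun z => tr M (u z) * χ z) z = Kᶜ.indicator (fun z =>
      (tr M (u z) : ℂ) * ∇ χ z + (χ z : ℂ) * if |u z| < M then gK K u z else 0) z := by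
    filter_upwards [ae_diff hp.isOpen hlt, ae_diff isOpen_univ hχ] with z h1 h2
    by_cases hz : z ∈ K
    · rw [gK_of_mem _ hz, indicator_of_notMem (by simpa using hz)]
    · rw [gK_of_notMem _ hz, indicator_of_mem (by simpa using hz),
        grad_mul (h1 ⟨trivial, hz⟩) (h2 trivial),
        grad_tr (hp.diff ⟨trivial, hz⟩).continuousAt, gK_of_notMem _ hz]
  have hfin : volume (closedBall (0 : ℂ) (2 * R)) ≠ ⊤ := measure_closedBall_lt_top.ne
  have hci : Integrable ((closedBall (0 : ℂ) (2 * R)).indicator fun _ => R⁻¹ ^ 2) :=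
    (integrableOn_const hfin).integrable_indicator measurableSet_closedBall
  have hgχ : ∀ z, ‖∇ χ z‖ ^ 2 ≤ (closedBall (0 : ℂ) (2 * R)).indicator (fun _ => R⁻¹ ^ 2) z := by
    intro z
    by_cases hz : z ∈ closedBall (0 : ℂ) (2 * R)
    · rw [indicator_of_mem hz]
      exact pow_le_pow_left₀ (norm_nonneg _) (hχg z) 2
    · rw [indicator_of_notMem hz, (hχout z hz).2]
      simp
  have hT : Test univ K fun z => tr M (u z) * χ z := by
    refine ⟨hlip, ⟨M, fun z => ?_⟩, ⟨0, 2 * R, subset_univ _, fun z hz => by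
      simp only [(hχout z hz).1, mul_zero]⟩, ?_⟩
    · rw [abs_mul, abs_of_nonneg (hχ01 z).1]
      exact (mul_le_of_le_one_right (abs_nonneg _) (hχ01 z).2).trans (abs_tr_le hM _).1
    · have hi : Integrable fun z => 2 * M ^ 2 * (closedBall (0 : ℂ) (2 * R)).indicator
          (fun _ => R⁻¹ ^ 2) z + 2 * ‖gK K u z‖ ^ 2 := (hci.const_mul _).add (hGi.const_mul _)
      rw [Dn, Measure.restrict_univ]
      refine ne_top_of_le_ne_top hi.lintegral_lt_top.ne (lintegral_mono_ae ?_)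
      filter_upwards [hg] with z hz
      rw [← ofReal_norm, ← ENNReal.ofReal_pow (norm_nonneg _), hz]
      refine ENNReal.ofReal_le_ofReal ?_
      have h1 : ‖Kᶜ.indicator (fun z => (tr M (u z) : ℂ) * ∇ χ z + (χ z : ℂ) *
          if |u z| < M then gK K u z else 0) z‖ ≤ M * ‖∇ χ z‖ + ‖gK K u z‖ := by
        refine (norm_indicator_le_norm_self _ _).trans ((norm_add_le _ _).trans ?_)
        rw [norm_mul, norm_mul, norm_real, norm_real, Real.norm_eq_abs, Real.norm_eq_abs,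
          abs_of_nonneg (hχ01 z).1]
        refine add_le_add (mul_le_mul_of_nonneg_right (abs_tr_le hM _).1 (norm_nonneg _))
          ((mul_le_of_le_one_left (norm_nonneg _) (hχ01 z).2).trans ?_)
        split_ifs <;> simp
      have h2 := mul_le_mul_of_nonneg_left (hgχ z) (sq_nonneg M)
      refine (pow_le_pow_left₀ (norm_nonneg _) h1 2).trans ?_
      nlinarith [sq_nonneg (M * ‖∇ χ z‖ - ‖gK K u z‖)]
  have hI := hp.inner_int hT
  have h0 := h.el0 hT
  have hti : Integrable ((ball (0 : ℂ) R)ᶜ.indicator fun z => ‖gK K u z‖ ^ 2) :=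
    hGi.indicator measurableSet_ball.compl
  have hvol : ∫ z, (closedBall (0 : ℂ) (2 * R)).indicator (fun _ => R⁻¹ ^ 2) z = 4 * π := by
    rw [integral_indicator measurableSet_closedBall, setIntegral_const, Measure.real,
      Complex.volume_closedBall, ENNReal.toReal_mul, ENNReal.toReal_pow,
      ENNReal.toReal_ofReal (by positivity), smul_eq_mul]
    simp only [ENNReal.coe_toReal, NNReal.coe_real_pi]
    field_simp
    ring
  have hJ : Integrable fun z => M * (d⁻¹ * (ball (0 : ℂ) R)ᶜ.indicator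
      (fun z => ‖gK K u z‖ ^ 2) z + d * (closedBall (0 : ℂ) (2 * R)).indicator
        (fun _ => R⁻¹ ^ 2) z) := ((hti.const_mul _).add (hci.const_mul _)).const_mul _
  rw [← hvol, ← integral_indicator hU, ← integral_indicator measurableSet_ball.compl,
    ← integral_const_mul, ← integral_const_mul, ← integral_add (hti.const_mul _) (hci.const_mul _),
    ← integral_const_mul, ← zero_add (integral volume fun z => M * _), ← h0, ← integral_add hI hJ]
  refine integral_mono_ae (hGi.indicator hU) (hI.add hJ) ?_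
  filter_upwards [hg] with z hz
  rw [hz]
  have hn1 : 0 ≤ (ball (0 : ℂ) R)ᶜ.indicator (fun z => ‖gK K u z‖ ^ 2) z :=
    indicator_nonneg (fun _ _ => by positivity) _
  have hn2 : 0 ≤ (closedBall (0 : ℂ) (2 * R)).indicator (fun _ => R⁻¹ ^ 2) z :=
    (sq_nonneg _).trans (hgχ z)
  by_cases hzK : z ∈ K
  · have : U.indicator (fun z => ‖gK K u z‖ ^ 2) z = 0 := by
      by_cases hzU : z ∈ U <;> simp [hzU, gK_of_mem u hzK]
    rw [this, gK_of_mem u hzK, inner_zero_left, zero_add]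
    positivity
  rw [indicator_of_mem (show z ∈ Kᶜ from hzK), inner_add_right, ← real_smul, ← real_smul,
    inner_smul_right, inner_smul_right]
  have hn3 : 0 ≤ ⟪gK K u z, if |u z| < M then gK K u z else 0⟫ := by
    split_ifs
    · exact real_inner_self_nonneg
    · simp
  by_cases hzb : z ∈ ball (0 : ℂ) R
  · rw [(hχin z hzb).1, (hχin z hzb).2, inner_zero_right, mul_zero, zero_add, one_mul]
    refine le_trans ?_ (le_add_of_nonneg_right (by positivity))
    by_cases hzU : z ∈ U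
    · rw [indicator_of_mem hzU, if_pos (hUM z hzU), real_inner_self_eq_norm_sq]
    · rw [indicator_of_notMem hzU]
      exact hn3
  · rw [indicator_of_notMem fun hzU => hzb (hUb hzU), indicator_of_mem (show z ∈ (ball 0 R)ᶜ from hzb)]
    have h1 : |tr M (u z) * ⟪gK K u z, ∇ χ z⟫| ≤ M * (‖gK K u z‖ * ‖∇ χ z‖) := by
      rw [abs_mul]
      exact mul_le_mul (abs_tr_le hM _).1 (abs_real_inner_le_norm _ _) (abs_nonneg _) hM
    have h2 : ‖gK K u z‖ * ‖∇ χ z‖ ≤ d⁻¹ * ‖gK K u z‖ ^ 2 + d * ‖∇ χ z‖ ^ 2 := by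
      have h4 : d⁻¹ * ‖gK K u z‖ ^ 2 + d * ‖∇ χ z‖ ^ 2 =
          (‖gK K u z‖ ^ 2 + d ^ 2 * ‖∇ χ z‖ ^ 2) / d := by field_simp
      rw [h4, le_div_iff₀ hd]
      nlinarith [sq_nonneg (‖gK K u z‖ - d * ‖∇ χ z‖),
        mul_nonneg hd.le (mul_nonneg (norm_nonneg (gK K u z)) (norm_nonneg (∇ χ z)))]
    have h3 := mul_le_mul_of_nonneg_left (h2.trans (add_le_add le_rfl
      (mul_le_mul_of_nonneg_left (hgχ z) hd.le))) hM
    have h5 := mul_nonneg (hχ01 z).1 hn3
    have h6 := neg_abs_le (tr M (u z) * ⟪gK K u z, ∇ χ z⟫)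
    linarith

theorem parab (h : NP univ 0 u K) (hD : Dn u K univ ≠ ⊤) (z : ℂ) : gK K u z = 0 := by
  by_cases hz : z ∈ K
  · exact gK_of_mem u hz
  have hp := h.pre
  have hK := hp.2.1
  obtain ⟨hGi, hG⟩ := intOn_of_Dn hK hD
  rw [Measure.restrict_univ] at hG
  have hc : ContinuousOn (fun w => |u w|) (univ \ K) := hp.2.2.1.continuousOn.abs
  have hU : IsOpen (ball 0 (‖z‖ + 1) ∩ ((univ \ K) ∩ (fun w => |u w|) ⁻¹' Iio (|u z| + 1))) :=
    isOpen_ball.inter (hc.isOpen_inter_preimage hp.isOpen isOpen_Iio)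
  refine el0_open hp hU (fun w hw => hw.2.1.2) ?_ ⟨by simp, ⟨trivial, hz⟩, by simp⟩
  rw [Dn, el0_lint (hG.restrict _), ENNReal.ofReal_eq_zero]
  have htail : Tendsto (fun n : ℕ => ∫ w in (ball (0 : ℂ) n)ᶜ, ‖gK K u w‖ ^ 2) atTop (𝓝 0) := by
    have := tendsto_setIntegral_of_antitone (f := fun w => ‖gK K u w‖ ^ 2) (μ := volume)
      (s := fun n : ℕ => (ball (0 : ℂ) n)ᶜ) (fun n => measurableSet_ball.compl)
      (fun m n hmn => compl_subset_compl.2 (ball_subset_ball (by exact_mod_cast hmn)))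
      ⟨0, hGi.mono_set (subset_univ _)⟩
    rwa [← compl_iUnion, iUnion_ball_nat, compl_univ, setIntegral_empty] at this
  have key : ∀ d : ℝ, 0 < d → ∫ w in ball 0 (‖z‖ + 1) ∩ ((univ \ K) ∩
      (fun w => |u w|) ⁻¹' Iio (|u z| + 1)), ‖gK K u w‖ ^ 2 ≤ (|u z| + 1) * (d * (4 * π)) := by
    intro d hd
    have ht := ((htail.const_mul d⁻¹).add_const (d * (4 * π))).const_mul (|u z| + 1)
    rw [mul_zero, zero_add] at ht
    refine ge_of_tendsto ht ?_
    filter_upwards [tendsto_natCast_atTop_atTop.eventually_ge_atTop (‖z‖ + 1)] with n hn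
    exact el0_step h hD (by positivity) (lt_of_lt_of_le (by positivity) hn) hd hU.measurableSet
      (inter_subset_left.trans (ball_subset_ball hn)) fun w hw => hw.2.2
  have ht : Tendsto (fun d : ℝ => (|u z| + 1) * (d * (4 * π))) (𝓝[>] 0)
      (𝓝 ((|u z| + 1) * (0 * (4 * π)))) :=
    ((tendsto_id.mul_const _).const_mul _).mono_left nhdsWithin_le_nhds
  rw [zero_mul, mul_zero] at ht
  exact ge_of_tendsto ht (eventually_nhdsWithin_of_forall key)

theorem flat_FM (h : MM univ 0 u K π₀) (h0 : ∀ z, gK K u z = 0) :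
    FM K (fun z => (u z, π₀ z)) := by
  have hp := h.pre
  have hK := hp.2.1
  have hu : LC Kᶜ u := lc_of_grad hK.isOpen_compl
    (fun z hz => (hp.diff ⟨trivial, hz⟩).differentiableWithinAt)
    fun z hz => by rw [← gK_of_notMem u hz, h0]
  refine ⟨hK, fun x r => (hp.2.2.2 x r (subset_univ _)).2,
    hu.prod (h.2.1.mono fun z hz => ⟨trivial, hz⟩), fun x hx => h.2.2.1 x hx trivial,
    fun c r L σ₁ hr hL hσ hLK he => ?_⟩
  have hσ' : LC (univ \ L) σ₁ := hσ.mono fun z hz => hz.2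
  have hm := h.2.2.2 c r (fun z => (σ₁ z).1) L (fun z => (σ₁ z).2) hr (subset_univ _)
    ⟨hL, (hσ'.comp Prod.fst).lip, hσ'.comp Prod.snd, hLK, fun z hz hz' => by
      simp [he z hz.2 hz']⟩
  have hD : Dn (fun z => (σ₁ z).1) L (closedBall c r) = 0 := by
    have : ∀ z, gK L (fun z => (σ₁ z).1) z = 0 := by
      intro z
      by_cases hz : z ∈ L
      · exact gK_of_mem _ hz
      · rw [gK_of_notMem _ hz]
        exact (hσ.comp Prod.fst).grad hL.isOpen_compl hz
    simp [Dn, this]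
  rw [zero_mul, ENNReal.ofReal_zero, add_zero, En, En, hD, zero_add] at hm
  exact le_add_self.trans hm

end Vale.Agent.P128
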