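import Vale.Agent.P128.C1rep
import Vale.Agent.P128.EL0
import Vale.Agent.P128.Br0
import Vale.Agent.P128.Br1a

/-!
# P128 Br2

Global minimizers give `MM univ 0` with component labels. First variation `u + t φ` (same `K`, the
separation condition is trivial) and `curl0`, `wey` show that `conj G` is holomorphic off `K`; `c1a`
gives `v`. For a competitor `(w, L, π₁)` of finite energy in `closedBall c r` use the disk `ball c r'`,
`r' > r`: if `a, b` outside it are in the same component of `Lᶜ` then `π₁ a = π₁ b` (`LC.eq`), i.e.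
`cc K a = cc K b`; cancel the energies of the annulus. `el0` gives `NP`.
-/

namespace Vale.Agent.P128

open Set Metric MeasureTheory Filter Topology Complex
open scoped ENNReal ContDiff RealInnerProductSpace Gradient Real ComplexConjugate

variable {Ω K L A S T U O X Γ P M₀ K₀ K₁ : Set ℂ} {u v w g hh ψ η : ℂ → ℝ} {G : ℂ → ℂ}
  {π₀ π₁ : ℂ → Set ℂ} {x y z c p q e a₀ F : ℂ} {lam H r s R a b t M Θ ρ ε δ d : ℝ} {n : ℕ}

theorem br2_L2 (h : GPair u G K) (R : ℝ) : MemLp G 2 (volume.restrict (ball 0 R \ K)) := by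
  have hm : AEStronglyMeasurable G (volume.restrict (ball 0 R \ K)) :=
    (h.2.1.2.1.aestronglyMeasurable).mono_measure
      (Measure.restrict_mono (fun _ hz => hz.2) le_rfl)
  exact (br0_lint hm).2 (lt_of_le_of_lt le_self_add (h.2.2 R))

theorem br2_var (h : GlobalMin u G K) {φ : ℂ → ℝ} (hφ : ContDiff ℝ ∞ φ)
    (hc : HasCompactSupport φ) : ∫ z in Kᶜ, ⟪G z, ∇ φ z⟫ = 0 := by
  obtain ⟨hP, hmin⟩ := h
  have hO : IsOpen Kᶜ := hP.1.isOpen_compl
  obtain ⟨R, hR⟩ := hc.isCompact.isBounded.subset_ball (0 : ℂ)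
  have hg2 : MemLp (∇ φ) 2 volume := (wey_cgrad hφ).memLp_of_hasCompactSupport
    (HasCompactSupport.intro hc.isCompact fun z hz => wey_grad0 hz)
  have hlip : LocallyLipschitzOn Kᶜ φ := lip_of_contDiffOn hO (hφ.of_le (by simp)).contDiffOn
  have hH : ∀ R : ℝ, μH[1] (K ∩ ball 0 R) ≠ ⊤ := fun R => (lt_of_le_of_lt le_add_self (hP.2.2 R)).ne
  have key : ∀ t : ℝ, 0 ≤ 2 * t * (∫ z in ball 0 R \ K, ⟪G z, ∇ φ z⟫) +
      t ^ 2 * (∫ z in ball 0 R \ K, ‖∇ φ z‖ ^ 2) := by
    intro t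
    have hl : LocallyLipschitzOn Kᶜ (fun z => t * φ z) :=
      lip_mul (LipschitzWith.const t).locallyLipschitz.locallyLipschitzOn hlip
    have hgs : ∀ z, ∇ (fun z => t * φ z) z = t • ∇ φ z := fun z => by
      rw [grad_smul, real_smul]
    have hw := hP.2.1.add_lip hO hl
    simp only [hgs] at hw
    have m5 : ∀ R : ℝ, MemLp (fun z => G z + t • ∇ φ z) 2 (volume.restrict (ball 0 R \ K)) :=
      fun R => (br2_L2 hP R).add ((hg2.restrict _).const_smul t)
    have hadm : GPair (fun z => u z + t * φ z) (fun z => G z + t • ∇ φ z) K :=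
      ⟨hP.1, hw, fun R => ENNReal.add_lt_top.2 ⟨(br0_lint (m5 R).1).1 (m5 R), (hH R).lt_top⟩⟩
    have h1 := hmin 0 R _ _ K hadm ⟨tsupport φ, hc.isCompact, hR, by simp,
      Eventually.of_forall fun z hz => by simp [image_eq_zero_of_notMem_tsupport hz]⟩
      fun _ _ _ _ h => h
    rw [ENNReal.add_le_add_iff_right (hH R), br1a_lint (br2_L2 hP R), br1a_lint (m5 R),
      ENNReal.ofReal_le_ofReal_iff (integral_nonneg fun z => sq_nonneg _),
      br1a_exp (br2_L2 hP R) (hg2.restrict _)] at h1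
    linarith
  rw [← br1a_quad key]
  refine setIntegral_eq_of_subset_of_forall_sdiff_eq_zero hO.measurableSet (fun _ hz => hz.2)
    fun z hz => ?_
  rw [wey_grad0 fun k => hz.2 ⟨hR k, hz.1⟩, inner_zero_right]

theorem br2_rep (h : GlobalMin u G K) :
    ∃ v : ℂ → ℝ, ContDiffOn ℝ 1 v Kᶜ ∧ ∀ᵐ z : ℂ, z ∈ Kᶜ → v z = u z ∧ ∇ v z = G z := by
  have hO : IsOpen Kᶜ := h.1.1.isOpen_compl
  have hf : LocallyIntegrableOn (fun z => conj (G z)) Kᶜ :=
    (conjCLE : ℂ →L[ℝ] ℂ).locallyIntegrableOn_comp h.1.2.1.2.1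
  obtain ⟨k, hk, hae⟩ := wey hO hf fun φ hφ hc hs => by
    have hi : IntegrableOn (fun z => conj (G z) * ∇ φ z) Kᶜ :=
      (wey_int hf (wey_cgrad hφ) hc.isCompact hs fun z hz => wey_grad0 hz).integrableOn
    have e3 : (∫ w in Kᶜ, conj (G w) * ∇ φ w).re = ∫ w in Kᶜ, (conj (G w) * ∇ φ w).re :=
      (integral_re hi).symm
    refine Complex.ext ?_ (curl0 hO h.1.2.1 hφ hc hs)
    rw [e3]
    simp only [conj_mul_re]
    exact br2_var h hφ hc
  have he : ∀ᵐ z : ℂ, z ∈ Kᶜ → G z = conj (k z) := by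
    filter_upwards [hae] with z hz hzK
    rw [← hz hzK, conj_conj]
  obtain ⟨v, hv, hg, hvu⟩ := c1a hO h.1.2.1
    (continuous_conj.comp_continuousOn hk.continuousOn) he
  refine ⟨v, hv, ?_⟩
  filter_upwards [he, hvu] with z h1 h2 hz
  exact ⟨h2 hz, (hg z hz).trans (h1 hz).symm⟩

theorem br2_Dn (hL : IsClosed L) (w : ℂ → ℝ) (S : Set ℂ) :
    Dn w L S = ∫⁻ z in S \ L, ‖∇ w z‖ₑ ^ 2 := by
  have e : (fun z => ‖gK L w z‖ₑ ^ 2) = Lᶜ.indicator fun z => ‖∇ w z‖ₑ ^ 2 := by
    funext z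
    by_cases hz : z ∈ L
    · rw [gK_of_mem w hz, indicator_of_notMem (show z ∉ Lᶜ from fun k => k hz)]
      simp
    · rw [gK_of_notMem w hz, indicator_of_mem hz]
  unfold Dn
  rw [e, lintegral_indicator hL.isOpen_compl.measurableSet,
    Measure.restrict_restrict hL.isOpen_compl.measurableSet, inter_comm]
  rfl

theorem br2_En (hK : IsClosed K) (hae : ∀ᵐ z : ℂ, z ∈ Kᶜ → v z = u z ∧ ∇ v z = G z)
    (hS : MeasurableSet S) :
    En v K S = (∫⁻ z in S \ K, ‖G z‖ₑ ^ 2) + μH[1] (K ∩ S) := by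
  unfold En
  rw [br2_Dn hK]
  congr 1
  refine setLIntegral_congr_fun_ae (hS.diff hK.measurableSet) ?_
  filter_upwards [hae] with z hz hzS
  rw [(hz hzS.2).2]

theorem br2_split (u : ℂ → ℝ) (K T : Set ℂ) (hS : MeasurableSet S) :
    En u K T = En u K (T ∩ S) + En u K (T \ S) := by
  unfold En Dn
  rw [← lintegral_inter_add_sdiff _ T hS, ← measure_inter_add_sdiff (K ∩ T) hS, inter_assoc,
    inter_sdiff_assoc]
  ring

theorem br2_mono (u : ℂ → ℝ) (K : Set ℂ) (h : S ⊆ T) : En u K S ≤ En u K T :=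
  add_le_add (Dn_mono_set u K h) (measure_mono (inter_subset_inter_right _ h))

theorem br2_loc (hK : IsClosed K) (hLK : ∀ z ∉ closedBall c r, (z ∈ L ↔ z ∈ K))
    (he : ∀ z ∉ K, z ∉ closedBall c r → w z = v z) (hT : MeasurableSet T) :
    En w L (T \ closedBall c r) = En v K (T \ closedBall c r) := by
  unfold En Dn
  congr 1
  · refine setLIntegral_congr_fun (hT.diff measurableSet_closedBall) fun z hz => ?_
    by_cases hzK : z ∈ K
    · simp only [gK_of_mem v hzK, gK_of_mem w ((hLK z hz.2).2 hzK)]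
    · have h1 : w =ᶠ[𝓝 z] v := by
        filter_upwards [hK.isOpen_compl.mem_nhds hzK,
          isClosed_closedBall.isOpen_compl.mem_nhds hz.2] with y h1 h2 using he y h1 h2
      simp only [gK_of_notMem v hzK, gK_of_notMem w fun k => hzK ((hLK z hz.2).1 k),
        h1.gradient_eq]
  · congr 1
    ext z
    exact ⟨fun h => ⟨(hLK z h.2.2).1 h.1, h.2⟩, fun h => ⟨(hLK z h.2.2).2 h.1, h.2⟩⟩

theorem br2_fin (h : GPair u G K) (hae : ∀ᵐ z : ℂ, z ∈ Kᶜ → v z = u z ∧ ∇ v z = G z)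
    (hS : Bornology.IsBounded S) : En v K S ≠ ⊤ := by
  obtain ⟨R, hR⟩ := hS.subset_ball (0 : ℂ)
  refine ((br2_mono v K hR).trans_lt ?_).ne
  rw [br2_En h.1 hae measurableSet_ball]
  exact h.2.2 R

theorem br2_pre (h : GPair u G K) (hv : ContDiffOn ℝ 1 v Kᶜ)
    (hae : ∀ᵐ z : ℂ, z ∈ Kᶜ → v z = u z ∧ ∇ v z = G z) : Pre univ v K := by
  refine ⟨isOpen_univ, h.1, by rwa [← compl_eq_univ_sdiff], fun x r _ => ?_⟩
  exact ENNReal.add_ne_top.1 (br2_fin h hae isBounded_closedBall)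

theorem br2_cmp (h : GlobalMin u G K) (hv : ContDiffOn ℝ 1 v Kᶜ)
    (hae : ∀ᵐ z : ℂ, z ∈ Kᶜ → v z = u z ∧ ∇ v z = G z) (hL : IsClosed L)
    (hw : LocallyLipschitzOn Lᶜ w) (hLK : ∀ z ∉ closedBall c r, (z ∈ L ↔ z ∈ K))
    (he : ∀ z ∉ K, z ∉ closedBall c r → w z = v z)
    (hs : ∀ a b : ℂ, a ∉ closedBall c r → b ∉ closedBall c r → Separates K a b →
      Separates L a b) :
    En v K (closedBall c r) ≤ En w L (closedBall c r) := by
  by_cases hf : En w L (closedBall c r) = ⊤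
  · rw [hf]
    exact le_top
  have hid : ∀ᵐ z : ℂ, z ∈ Lᶜ → w z = w z ∧ ∇ w z = ∇ w z :=
    Eventually.of_forall fun _ _ => ⟨rfl, rfl⟩
  have hP : GPair w (∇ w) L := by
    refine ⟨hL, lipWG hL.isOpen_compl hw, fun R => ?_⟩
    rw [← br2_En hL hid measurableSet_ball,
      br2_split w L _ (measurableSet_closedBall (x := c) (ε := r)),
      br2_loc h.1.1 hLK he measurableSet_ball]
    exact ENNReal.add_lt_top.2 ⟨(br2_mono w L inter_subset_right).trans_lt (lt_top_iff_ne_top.2 hf),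
      (br2_fin h.1 hae (isBounded_ball.subset sdiff_subset)).lt_top⟩
  have hsub : closedBall c r ⊆ ball c (r + 1) := closedBall_subset_ball (by linarith)
  have hK0 : ∀ᵐ z : ℂ, z ∉ K := by
    have := (br2_pre h.1 hv hae).null
    rw [inter_univ] at this
    exact measure_eq_zero_iff_ae_notMem.1 this
  have h1 := h.2 c (r + 1) w (∇ w) L hP ⟨closedBall c r, isCompact_closedBall c r, hsub, ?_, ?_⟩
    fun a b ha hb => hs a b (fun k => ha (hsub k)) fun k => hb (hsub k)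
  · rw [← br2_En hL hid measurableSet_ball, ← br2_En h.1.1 hae measurableSet_ball,
      br2_split w L _ (measurableSet_closedBall (x := c) (ε := r)),
      br2_split v K _ (measurableSet_closedBall (x := c) (ε := r)),
      br2_loc h.1.1 hLK he measurableSet_ball, inter_eq_right.2 hsub,
      ENNReal.add_le_add_iff_right (br2_fin h.1 hae (isBounded_ball.subset sdiff_subset))] at h1
    exact h1
  · intro z hz
    by_contra hzb
    rcases hz with hz | hz
    · exact hz.2 ((hLK z hzb).1 hz.1)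
    · exact hz.2 ((hLK z hzb).2 hz.1)
  · filter_upwards [hK0, hae] with z h1 h2 h3
    rw [he z h1 h3, (h2 h1).1]

theorem br2 (h : GlobalMin u G K) (hr : Reduced univ K) : ∃ v, MM univ 0 v K (cc K) := by
  obtain ⟨v, hv, hae⟩ := br2_rep h
  have hP := br2_pre h.1 hv hae
  refine ⟨v, el0 hP fun c r w _ hw he => ?_, ?_, fun x hx _ r h0 => hr x hx r h0 (subset_univ _),
    fun c r w L π₁ _ _ hC => ?_⟩
  · have h1 := br2_cmp (c := c) (r := r) h hv hae h.1.1 hw (fun _ _ => Iff.rfl)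
      (fun z _ hz => he z hz) fun _ _ _ _ k => k
    exact (ENNReal.add_le_add_iff_right (hP.2.2.2 c r (subset_univ _)).2).1 h1
  · rw [← compl_eq_univ_sdiff]
    exact lc_cc h.1.1
  · obtain ⟨hL, hw, hπ, hLK, he⟩ := hC
    rw [← compl_eq_univ_sdiff] at hw hπ he
    refine le_add_right (br2_cmp h hv hae hL hw hLK (fun z hz hzb => (he z hz hzb).1) ?_)
    rintro a b ha hb ⟨h1, h2, h3⟩
    have ha' : a ∉ L := fun k => h1 ((hLK a ha).1 k)
    have hb' : b ∉ L := fun k => h2 ((hLK b hb).1 k)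
    refine ⟨ha', hb', fun k => h3 ?_⟩
    have h4 := hπ.eq (connectedComponentIn_subset Lᶜ a) isPreconnected_connectedComponentIn
      (mem_connectedComponentIn ha') (by rw [k]; exact mem_connectedComponentIn hb')
    rw [(he a h1 ha).2, (he b h2 hb).2] at h4
    exact h4

end Vale.Agent.P128
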