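import Vale.Agent.P128.Basic0

/-!
# P128 Pot

Potentials as limits. Choose `β V ∈ V` for nonempty `V`. The set of `z` in a component for which
`w n - w n β` is uniformly Cauchy on a closed ball around `z` is open and closed in the component (mean
value inequality on balls), so it is everything; `v z = limUnder`; `hasFDerivAt_of_tendstoUniformlyOn`
on small balls; compact sets are covered by finitely many balls.
-/

namespace Vale.Agent.P128

open Set Metric MeasureTheory Filter Topology Complex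
open scoped ENNReal ContDiff RealInnerProductSpace Gradient Real ComplexConjugate

variable {Ω K L A S T U O X Γ P M₀ K₀ K₁ : Set ℂ} {u v w g hh ψ η : ℂ → ℝ} {G : ℂ → ℂ}
  {π₀ π₁ : ℂ → Set ℂ} {x y z c p q e a₀ F : ℂ} {lam H r s R a b t M Θ ρ ε δ d : ℝ} {n : ℕ}

theorem pot_loc {w : ℕ → ℂ → ℝ}
    (hw : ∀ ε, 0 < ε → ∀ᶠ n in atTop, ∀ y ∈ closedBall z r,
      DifferentiableAt ℝ (w n) y ∧ ‖∇ (w n) y - G y‖ ≤ ε) (hr : 0 < r) (hε : 0 < ε) :
    ∃ N, ∀ n ≥ N, ∀ m ≥ N, ∀ y ∈ closedBall z r, |w n y - w m y - (w n z - w m z)| ≤ ε := by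
  obtain ⟨N, hN⟩ := eventually_atTop.1 (hw (ε / (2 * r)) (by positivity))
  refine ⟨N, fun n hn m hm y hy => ?_⟩
  have k := (convex_closedBall z r).norm_image_sub_le_of_norm_fderiv_le (𝕜 := ℝ)
    (f := fun y => w n y - w m y) (C := ε / r)
    (fun x hx => (hN n hn x hx).1.sub (hN m hm x hx).1) (fun x hx => by
      obtain ⟨a1, a2⟩ := hN n hn x hx
      obtain ⟨b1, b2⟩ := hN m hm x hx
      rw [← norm_grad, grad_sub a1 b1]
      have h1 := norm_sub_le_norm_sub_add_norm_sub (∇ (w n) x) (G x) (∇ (w m) x)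
      rw [norm_sub_rev (G x)] at h1
      have e : ε / r = ε / (2 * r) + ε / (2 * r) := by field_simp; ring
      linarith) (mem_closedBall_self hr.le) hy
  refine k.trans ((mul_le_mul_of_nonneg_left (mem_closedBall_iff_norm.1 hy)
    (by positivity)).trans (le_of_eq ?_))
  field_simp

theorem pot_ball (hK : IsClosed K) (hz : z ∉ K) : ∃ r, 0 < r ∧ closedBall z r ⊆ Kᶜ := by
  obtain ⟨r, hr, h⟩ := nhds_basis_closedBall.mem_iff.1 (hK.isOpen_compl.mem_nhds hz)
  exact ⟨r, hr, h⟩

theorem pot_cc (hr : 0 < r) (hb : closedBall z r ⊆ Kᶜ) (hy : y ∈ closedBall z r) :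
    cc K y = cc K z :=
  (connectedComponentIn_eq ((convex_closedBall z r).isPreconnected.subset_connectedComponentIn
    (mem_closedBall_self hr.le) hb hy)).symm

theorem pot_cauchy {w : ℕ → ℂ → ℝ} (hK : IsClosed K)
    (hw : ∀ C ⊆ Kᶜ, IsCompact C → ∀ ε, 0 < ε → ∀ᶠ n in atTop, ∀ z ∈ C,
      DifferentiableAt ℝ (w n) z ∧ ‖∇ (w n) z - G z‖ ≤ ε) (hz : z ∉ K) (hp : p ∈ cc K z) :
    CauchySeq fun n => w n z - w n p := by
  have h1 : LC Kᶜ fun y => CauchySeq fun n => w n y - w n p := by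
    intro y hy
    obtain ⟨r, hr, hb⟩ := pot_ball hK hy
    filter_upwards [mem_nhdsWithin_of_mem_nhds (closedBall_mem_nhds y hr)] with x hx
    have h2 : CauchySeq fun n => w n x - w n y := by
      refine Metric.cauchySeq_iff.2 fun ε hε => ?_
      obtain ⟨N, hN⟩ := pot_loc (hw _ hb (isCompact_closedBall y r)) hr (half_pos hε)
      refine ⟨N, fun n hn m hm => ?_⟩
      rw [Real.dist_eq, show w n x - w n y - (w m x - w m y) = w n x - w m x - (w n y - w m y) by
        ring]
      exact (hN n hn m hm x hx).trans_lt (half_lt_self hε)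
    refine propext ⟨fun h => ?_, fun h => ?_⟩
    · have := h.add h2.neg
      refine (congrArg CauchySeq (funext fun n => ?_)).mp this
      simp
    · have := h.add h2
      refine (congrArg CauchySeq (funext fun n => ?_)).mp this
      simp
  have h3 := h1.eq (connectedComponentIn_subset Kᶜ z) isPreconnected_connectedComponentIn
    (mem_connectedComponentIn hz) hp
  rw [h3]
  simpa using cauchySeq_const (0 : ℝ)

theorem pot {w : ℕ → ℂ → ℝ} (hK : IsClosed K) (hG : ContinuousOn G Kᶜ)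
    (hw : ∀ C ⊆ Kᶜ, IsCompact C → ∀ ε, 0 < ε → ∀ᶠ n in atTop, ∀ z ∈ C,
      DifferentiableAt ℝ (w n) z ∧ ‖∇ (w n) z - G z‖ ≤ ε) :
    ∃ (v : ℂ → ℝ) (β : Set ℂ → ℂ), ContDiffOn ℝ 1 v Kᶜ ∧ (∀ z ∉ K, ∇ v z = G z) ∧
      (∀ z ∉ K, β (cc K z) ∈ cc K z) ∧
      ∀ C ⊆ Kᶜ, IsCompact C → ∀ ε, 0 < ε → ∀ᶠ n in atTop, ∀ z ∈ C,
        |w n z - w n (β (cc K z)) - v z| ≤ ε := by
  classical
  obtain ⟨β, hβ⟩ : ∃ β : Set ℂ → ℂ, ∀ z ∉ K, β (cc K z) ∈ cc K z := by
    refine ⟨fun V => if h : V.Nonempty then h.some else 0, fun z hz => ?_⟩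
    have h : (cc K z).Nonempty := ⟨z, mem_connectedComponentIn hz⟩
    simp only [dif_pos h]
    exact h.some_mem
  obtain ⟨v, hv⟩ : ∃ v : ℂ → ℝ, ∀ z ∉ K,
      Tendsto (fun n => w n z - w n (β (cc K z))) atTop (𝓝 (v z)) :=
    ⟨fun z => limUnder atTop fun n => w n z - w n (β (cc K z)), fun z hz =>
      (pot_cauchy hK hw hz (hβ z hz)).tendsto_limUnder⟩
  have hd : ∀ z ∉ K, HasFDerivAt v (InnerProductSpace.toDual ℝ ℂ (G z)) z := by
    intro z hz
    obtain ⟨r, hr, hb⟩ := pot_ball hK hz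
    have h1 := hw _ hb (isCompact_closedBall z r)
    refine hasFDerivAt_of_tendstoUniformlyOnFilter (l := atTop)
      (f := fun n y => w n y - w n (β (cc K z))) (f' := fun n y => fderiv ℝ (w n) y)
      (g' := fun y => InnerProductSpace.toDual ℝ ℂ (G y)) ?_ ?_ ?_
    · refine Metric.tendstoUniformlyOnFilter_iff.2 fun ε hε => ?_
      filter_upwards [prod_mem_prod (h1 _ (half_pos hε)) (closedBall_mem_nhds z hr)] with q hq
      rw [dist_comm, dist_eq_norm, ← toDual_gradient, ← map_sub, LinearIsometryEquiv.norm_map]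
      exact (hq.1 q.2 hq.2).2.trans_lt (half_lt_self hε)
    · filter_upwards [prod_mem_prod (h1 _ one_pos) (closedBall_mem_nhds z hr)] with q hq
      exact (hq.1 q.2 hq.2).1.hasFDerivAt.sub_const _
    · filter_upwards [closedBall_mem_nhds z hr] with y hy
      rw [← pot_cc hr hb hy]
      exact hv y (hb hy)
  refine ⟨v, β, ?_, fun z hz => (hasGradientAt_iff_hasFDerivAt.2 (hd z hz)).gradient, hβ, ?_⟩
  · rw [show (1 : WithTop ℕ∞) = 0 + 1 from (zero_add _).symm,
      contDiffOn_succ_iff_fderiv_of_isOpen hK.isOpen_compl]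
    refine ⟨fun z hz => (hd z hz).differentiableAt.differentiableWithinAt, by simp, ?_⟩
    rw [contDiffOn_zero]
    exact ((InnerProductSpace.toDual ℝ ℂ).continuous.comp_continuousOn hG).congr
      fun z hz => (hd z hz).fderiv
  · intro C hC hCc ε hε
    refine hCc.induction_on (p := fun T => ∀ᶠ n in atTop, ∀ z ∈ T,
      |w n z - w n (β (cc K z)) - v z| ≤ ε) (by simp)
      (fun s t hst ht => ht.mono fun n hn z hz => hn z (hst hz))
      (fun s t hs ht => (hs.and ht).mono fun n hn z hz => hz.elim (hn.1 z) (hn.2 z))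
      fun z hz => ?_
    obtain ⟨r, hr, hb⟩ := pot_ball hK (hC hz)
    refine ⟨closedBall z r, mem_nhdsWithin_of_mem_nhds (closedBall_mem_nhds z hr), ?_⟩
    obtain ⟨N, hN⟩ := pot_loc (hw _ hb (isCompact_closedBall z r)) hr (half_pos hε)
    filter_upwards [eventually_ge_atTop N,
      Metric.tendsto_nhds.1 (hv z (hC hz)) _ (half_pos hε)] with n hn h2 y hy
    have h3 := hv y (hb hy)
    rw [pot_cc hr hb hy] at h3 ⊢
    have h4 : Tendsto (fun m => |w n y - w n z - ((w m y - w m (β (cc K z))) -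
        (w m z - w m (β (cc K z))))|) atTop (𝓝 |w n y - w n z - (v y - v z)|) :=
      (tendsto_const_nhds.sub (h3.sub (hv z (hC hz)))).abs
    have h5 : |w n y - w n z - (v y - v z)| ≤ ε / 2 := by
      refine le_of_tendsto h4 ?_
      filter_upwards [eventually_ge_atTop N] with m hm
      refine le_of_eq_of_le (congrArg abs ?_) (hN n hn m hm y hy)
      ring
    rw [Real.dist_eq] at h2
    have h6 := abs_add_le (w n y - w n z - (v y - v z)) (w n z - w n (β (cc K z)) - v z)
    have e : w n y - w n z - (v y - v z) + (w n z - w n (β (cc K z)) - v z) =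
        w n y - w n (β (cc K z)) - v y := by ring
    rw [e] at h6
    linarith

end Vale.Agent.P128
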