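import Vale.Agent.P128.LipWG
import Vale.Agent.P128.SobA
import Vale.Agent.P128.Pot

/-!
# P128 C1a

A function whose weak gradient is continuous has a `C¹` representative. Let
`u_n = ρ_n ⋆ (O.indicator u)` (to avoid integrability problems work on a small ball with a cut off `u`;
the values near the centre do not depend on the cutoff for large `n`). Near each point `∇ u_n = ρ_n ⋆ G`
converges uniformly to `G`, and `u_n → u` a.e.; so on a small ball `u_n` is uniformly Cauchy and the
limit is `C¹` with gradient `G` (`hasFDerivAt_of_tendstoUniformlyOn`). Local continuous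
representatives agree on overlaps; glue them (see the proof of `Vale.Agent.P071.weyl`).
-/

namespace Vale.Agent.P128

open Set Metric MeasureTheory Filter Topology Complex
open scoped ENNReal ContDiff RealInnerProductSpace Gradient Real ComplexConjugate

variable {Ω K L A S T U O X Γ P M₀ K₀ K₁ : Set ℂ} {u v w g hh ψ η : ℂ → ℝ} {G : ℂ → ℂ}
  {π₀ π₁ : ℂ → Set ℂ} {x y z c p q e a₀ F : ℂ} {lam H r s R a b t M Θ ρ ε δ d : ℝ} {n : ℕ}

theorem c1a {G₁ : ℂ → ℂ} (hO : IsOpen O) (hw : IsWG O u G) (hc : ContinuousOn G₁ O)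
    (he : ∀ᵐ z : ℂ, z ∈ O → G z = G₁ z) :
    ∃ v : ℂ → ℝ, ContDiffOn ℝ 1 v O ∧ (∀ z ∈ O, ∇ v z = G₁ z) ∧ ∀ᵐ z : ℂ, z ∈ O → v z = u z := by
  obtain ⟨A, hA, hA'⟩ := soba_exh hO
  have hK : IsClosed Oᶜ := hO.isClosed_compl
  have i1 : ∀ m, Integrable ((A m).indicator u) := fun m =>
    (hw.1.integrableOn_compact_subset (hA m).2 (hA m).1).integrable_indicator
      (hA m).1.measurableSet
  obtain ⟨v, β, h1, h2, -, h4⟩ := pot (w := fun m => sobaM m ((A m).indicator u)) (G := G₁) hK
    (by rwa [compl_compl]) (by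
    intro C hCO hC ε hε
    rw [compl_compl] at hCO
    filter_upwards [hA' C hCO hC, soba_unif hO hc hCO hC hε] with m a1 a2 y hy
    refine ⟨(soba_contDiff (i1 m) m).differentiable (by simp) y, ?_⟩
    rw [soba_grad hO hw (hA m).1 (hA m).2 (a1 y hy)]
    have b1 := soba_le (x := y) (m := m)
      ((hw.2.1.integrableOn_compact_subset (hA m).2 (hA m).1).integrable_indicator
        (hA m).1.measurableSet) (integrable_zero ℂ ℝ volume) (c := G₁ y) (ε := ε) (by
        filter_upwards [he] with z hz hz'
        rw [indicator_of_mem (a1 y hy hz'), hz ((hA m).2 (a1 y hy hz')), Pi.zero_apply, add_zero]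
        exact a2 y hy z hz')
    simpa [sobaM] using b1)
  rw [compl_compl] at h1
  obtain ⟨c, hce⟩ : ∃ c : ℂ → ℝ, c = fun z =>
    limUnder atTop fun m => sobaM m ((A m).indicator u) (β (cc Oᶜ z)) := ⟨_, rfl⟩
  have h5 : LC O c := by
    have h6 := (lc_cc hK).comp fun V => limUnder atTop fun m => sobaM m ((A m).indicator u) (β V)
    rwa [compl_compl, ← hce] at h6
  have h7 : ∀ z ∈ O, (fun y => v y + c y) =ᶠ[𝓝 z] fun y => v y + c z := by
    intro z hz
    have h8 := h5 z hz
    rw [hO.nhdsWithin_eq hz] at h8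
    filter_upwards [h8] with y hy
    rw [hy]
  refine ⟨fun y => v y + c y, fun z hz => ?_, fun z hz => ?_, ?_⟩
  · exact (((h1.contDiffAt (hO.mem_nhds hz)).add contDiffAt_const).congr_of_eventuallyEq
      (h7 z hz)).contDiffWithinAt
  · rw [← h2 z (not_not.2 hz), gradient, gradient, (h7 z hz).fderiv_eq, fderiv_add_const]
  filter_upwards [ae_all_iff.2 fun k => soba_ae (i1 k)] with z hz hzO
  have a1 := hA' {z} (singleton_subset_iff.2 hzO) isCompact_singleton
  obtain ⟨k, hk⟩ := a1.exists
  have hk' := hk z rfl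
  have a2 : Tendsto (fun m => sobaM m ((A m).indicator u) z) atTop (𝓝 (u z)) := by
    have a3 := hz k
    rw [indicator_of_mem (hk' (mem_closedBall_self (by positivity)))] at a3
    refine a3.congr' ?_
    filter_upwards [a1, eventually_ge_atTop k] with m b1 b2
    refine soba_congr fun y hy => ?_
    rw [indicator_of_mem (b1 z rfl hy), indicator_of_mem
      (hk' (closedBall_subset_closedBall (Nat.one_div_le_one_div b2) hy))]
  have a4 : Tendsto (fun m => sobaM m ((A m).indicator u) z -
      sobaM m ((A m).indicator u) (β (cc Oᶜ z))) atTop (𝓝 (v z)) := by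
    refine Metric.tendsto_nhds.2 fun ε hε => ?_
    filter_upwards [h4 {z} (singleton_subset_iff.2 (not_not.2 hzO)) isCompact_singleton _
      (half_pos hε)] with m hm
    rw [Real.dist_eq]
    exact (hm z rfl).trans_lt (half_lt_self hε)
  have a5 := a2.sub a4
  simp only [sub_sub_cancel] at a5
  rw [hce]
  simp only [a5.limUnder_eq]
  ring

end Vale.Agent.P128
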