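import Vale.Agent.P128.WirA

/-!
# P128 WirB

Deficit estimate. Let `c θ = cos ((θ - a)/2)`, `t = (1/π) ∫ (f - m) c`, `g = f - m - t c`, so
`g ⊥ 1, c`, `g' = f' + (t/2) sin ((θ - a)/2)`, `∫ g' sin = 0` (integrate by parts), and the second
eigenvalue bound `∫ g² ≤ ∫ g'²` holds (even reflection to a `4π` periodic function; Fourier modes
`0, ±1` vanish, the others have `k²/4 ≥ 1`). Put `k₁ = k - (t/2) c`. Expanding, the right side is
`2 (∫ g'² + ∫ k₁² - ∫ g k₁)` (the cross terms cancel: `∫ c² = ∫ sin² = π`) and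
`∫ g k₁ ≤ (∫ g'² + ∫ k₁²)/2`, while the left side is `∫ g'² + ∫ k₁²`.
-/

namespace Vale.Agent.P128

open Set Metric MeasureTheory Filter Topology Complex
open scoped ENNReal ContDiff RealInnerProductSpace Gradient Real ComplexConjugate

variable {Ω K L A S T U O X Γ P M₀ K₀ K₁ : Set ℂ} {u v w g hh ψ η : ℂ → ℝ} {G : ℂ → ℂ}
  {π₀ π₁ : ℂ → Set ℂ} {x y z c p q e a₀ F : ℂ} {lam H r s R a b t M Θ ρ ε δ d : ℝ} {n : ℕ}

theorem wirb_ibp {f f' φ φ' : ℝ → ℝ} (h : Prim f f' a b) (m : ℝ) (hφ : ContDiff ℝ 1 φ)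
    (hφ' : ∀ x, HasDerivAt φ (φ' x) x) (hc : Continuous φ') (ha : φ a = 0) (hb : φ b = 0) :
    ∫ θ in a..b, (f' θ * φ θ + (f θ - m) * φ' θ) = 0 := by
  obtain ⟨hab, hi, -, hp⟩ := h
  set F₀ : ℝ → ℝ := fun x => ∫ v in a..x, f' v with hF
  have hAC : AbsolutelyContinuousOnInterval F₀ a b :=
    hi.absolutelyContinuousOnInterval_intervalIntegral (c := a) (by simp)
  have hφAC : AbsolutelyContinuousOnInterval φ a b :=
    hφ.contDiffOn.absolutelyContinuousOnInterval
  have H := hAC.integral_mul_deriv_eq_deriv_mul hφAC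
  rw [ha, hb] at H
  have hd : deriv φ = φ' := funext fun x => (hφ' x).deriv
  rw [hd] at H
  set s₀ : ℝ := (a + b) / 2 with hs₀
  have hs₀m : s₀ ∈ Ioo a b := ⟨by rw [hs₀]; linarith, by rw [hs₀]; linarith⟩
  have hsub : ∀ x ∈ Ioo a b, IntervalIntegrable f' volume a x := fun x hx =>
    hi.mono_set (by
      rw [uIcc_of_le hx.1.le, uIcc_of_le hab.le]
      exact Icc_subset_Icc le_rfl hx.2.le)
  have hfF : ∀ x ∈ Ioo a b, f x - m = F₀ x + (f s₀ - F₀ s₀ - m) := by
    intro x hx
    have h1 := hp s₀ hs₀m x hx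
    have h2 := intervalIntegral.integral_interval_sub_left (hsub x hx) (hsub s₀ hs₀m)
    simp only [hF]
    linarith
  have hφint : ∫ θ in a..b, φ' θ = 0 := by
    rw [intervalIntegral.integral_eq_sub_of_hasDerivAt (fun x _ => hφ' x)
      (hc.intervalIntegrable _ _), ha, hb, sub_zero]
  have hne : ∀ᵐ x : ℝ, x ≠ b := by simp [ae_iff, measure_singleton]
  have e1 : ∫ θ in a..b, (f' θ * φ θ + (f θ - m) * φ' θ) =
      ∫ θ in a..b, ((deriv F₀ θ * φ θ + F₀ θ * φ' θ) + (f s₀ - F₀ s₀ - m) * φ' θ) := by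
    refine intervalIntegral.integral_congr_ae ?_
    filter_upwards [hi.ae_hasDerivAt_integral, hne] with x hx hxb hxm
    rw [uIoc_of_le hab.le] at hxm
    have hxo : x ∈ Ioo a b := ⟨hxm.1, lt_of_le_of_ne hxm.2 hxb⟩
    have hx' := hx (by rw [uIcc_of_le hab.le]; exact Ioo_subset_Icc_self hxo) a (by simp)
    rw [hfF x hxo, hx'.deriv]
    ring
  have i1 : IntervalIntegrable (fun θ => deriv F₀ θ * φ θ) volume a b :=
    hAC.intervalIntegrable_deriv.mul_continuousOn hφ.continuous.continuousOn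
  have i2 : IntervalIntegrable (fun θ => F₀ θ * φ' θ) volume a b :=
    (hAC.continuousOn.mul hc.continuousOn).intervalIntegrable
  have i3 : IntervalIntegrable (fun θ => (f s₀ - F₀ s₀ - m) * φ' θ) volume a b :=
    (hc.intervalIntegrable _ _).const_mul _
  rw [e1, intervalIntegral.integral_add (i1.add i2) i3, intervalIntegral.integral_add i1 i2,
    intervalIntegral.integral_const_mul, hφint, H]
  ring

theorem wirb_dsin (a x : ℝ) :
    HasDerivAt (fun θ => Real.sin ((θ - a) / 2)) (Real.cos ((x - a) / 2) / 2) x := by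
  have h1 : HasDerivAt (fun θ : ℝ => (θ - a) / 2) (1 / 2) x :=
    ((hasDerivAt_id x).sub_const a).div_const 2
  convert h1.sin using 1
  ring

theorem wirb_dcos (a x : ℝ) :
    HasDerivAt (fun θ => Real.cos ((θ - a) / 2)) (-(Real.sin ((x - a) / 2) / 2)) x := by
  have h1 : HasDerivAt (fun θ : ℝ => (θ - a) / 2) (1 / 2) x :=
    ((hasDerivAt_id x).sub_const a).div_const 2
  convert h1.cos using 1
  ring

theorem wirb_isin (a x y : ℝ) : ∫ θ in x..y, Real.sin ((θ - a) / 2) / 2 =
    Real.cos ((x - a) / 2) - Real.cos ((y - a) / 2) := by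
  have := intervalIntegral.integral_eq_sub_of_hasDerivAt (a := x) (b := y)
    (f := fun θ => -Real.cos ((θ - a) / 2)) (f' := fun θ => Real.sin ((θ - a) / 2) / 2)
    (fun θ _ => (wirb_dcos a θ).neg.congr_deriv (neg_neg _))
    ((by fun_prop : Continuous fun θ => Real.sin ((θ - a) / 2) / 2).intervalIntegrable _ _)
  rw [this]
  ring

theorem wirb_icos (a : ℝ) : ∫ θ in a..a + 2 * π, Real.cos ((θ - a) / 2) = 0 := by
  have := intervalIntegral.integral_eq_sub_of_hasDerivAt (a := a) (b := a + 2 * π)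
    (f := fun θ => 2 * Real.sin ((θ - a) / 2)) (f' := fun θ => Real.cos ((θ - a) / 2))
    (fun θ _ => ((wirb_dsin a θ).const_mul 2).congr_deriv (by ring))
    ((by fun_prop : Continuous fun θ => Real.cos ((θ - a) / 2)).intervalIntegrable _ _)
  rw [this, show (a + 2 * π - a) / 2 = π by ring]
  simp

theorem wirb_icos2 (a : ℝ) :
    ∫ θ in a..a + 2 * π, (Real.cos ((θ - a) / 2) ^ 2 - Real.sin ((θ - a) / 2) ^ 2) = 0 := by
  have := intervalIntegral.integral_eq_sub_of_hasDerivAt (a := a) (b := a + 2 * π)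
    (f := fun θ => 2 * (Real.sin ((θ - a) / 2) * Real.cos ((θ - a) / 2)))
    (f' := fun θ => Real.cos ((θ - a) / 2) ^ 2 - Real.sin ((θ - a) / 2) ^ 2)
    (fun θ _ => (((wirb_dsin a θ).mul (wirb_dcos a θ)).const_mul 2).congr_deriv (by ring))
    ((by fun_prop : Continuous fun θ =>
      Real.cos ((θ - a) / 2) ^ 2 - Real.sin ((θ - a) / 2) ^ 2).intervalIntegrable _ _)
  rw [this, show (a + 2 * π - a) / 2 = π by ring]
  simp

theorem wirb_norm (k f' t θ : ℝ) : ‖(k : ℂ) - I * f' - t / 2 * ex θ‖ ^ 2 =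
    (k - t / 2 * Real.cos θ) ^ 2 + (f' + t / 2 * Real.sin θ) ^ 2 := by
  have : (k : ℂ) - I * f' - t / 2 * ex θ =
      ((k - t / 2 * Real.cos θ : ℝ) : ℂ) + ((-(f' + t / 2 * Real.sin θ) : ℝ) : ℂ) * I := by
    unfold ex
    rw [Complex.exp_mul_I]
    push_cast
    ring
  rw [this, Complex.sq_norm, Complex.normSq_add_mul_I]
  ring

theorem wirb_sq {f φ : ℝ → ℝ} (hf : IntervalIntegrable f volume a b)
    (hf2 : IntervalIntegrable (fun t => f t ^ 2) volume a b) (hφ : Continuous φ) :
    IntervalIntegrable (fun t => (f t + φ t) ^ 2) volume a b := by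
  have h1 : IntervalIntegrable (fun t => f t ^ 2 + (f t * (2 * φ t) + φ t ^ 2)) volume a b :=
    hf2.add ((hf.mul_continuousOn (continuous_const.mul hφ).continuousOn).add
      ((hφ.pow 2).intervalIntegrable _ _))
  convert h1 using 2
  ring

theorem wir_def {f f' k : ℝ → ℝ} (h : Prim f f' a (a + 2 * π))
    (hk : IntervalIntegrable k volume a (a + 2 * π))
    (hk2 : IntervalIntegrable (fun t => k t ^ 2) volume a (a + 2 * π)) :
    ∃ t : ℝ, ∫ θ in a..a + 2 * π, ‖(k θ : ℂ) - I * f' θ - t / 2 * ex ((θ - a) / 2)‖ ^ 2 ≤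
      2 * ((∫ θ in a..a + 2 * π, f' θ ^ 2) + (∫ θ in a..a + 2 * π, k θ ^ 2) -
        ∫ θ in a..a + 2 * π, (f θ - av f a (a + 2 * π)) * k θ) := by
  have hab : a < a + 2 * π := h.1
  have hi := h.2.1
  have hi2 := h.2.2.1
  set m := av f a (a + 2 * π) with hm
  set t : ℝ := -(∫ θ in a..a + 2 * π, f' θ) / 2 with ht
  refine ⟨t, ?_⟩
  set cc : ℝ → ℝ := fun θ => Real.cos ((θ - a) / 2) with hcc
  set ss : ℝ → ℝ := fun θ => Real.sin ((θ - a) / 2) with hss
  have ccc : Continuous cc := by rw [hcc]; fun_prop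
  have css : Continuous ss := by rw [hss]; fun_prop
  have css' : Continuous fun θ => t / 2 * ss θ := continuous_const.mul css
  have ccc' : Continuous fun θ => t * cc θ := continuous_const.mul ccc
  have ig' : IntervalIntegrable (fun θ => (f' θ + t / 2 * ss θ) ^ 2) volume a (a + 2 * π) :=
    wirb_sq hi hi2 (continuous_const.mul css)
  have hP : Prim (fun θ => f θ - t * cc θ) (fun θ => f' θ + t / 2 * ss θ) a (a + 2 * π) := by
    refine ⟨hab, hi.add ((continuous_const.mul css).intervalIntegrable _ _), ig', ?_⟩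
    intro x hx y hy
    have hxy : IntervalIntegrable f' volume x y := hi.mono_set (by
      rw [uIcc_of_le hab.le]
      exact uIcc_subset_Icc (Ioo_subset_Icc_self hx) (Ioo_subset_Icc_self hy))
    have e : (fun θ => t / 2 * ss θ) = fun θ => t * (Real.sin ((θ - a) / 2) / 2) := by
      funext θ
      simp only [hss]
      ring
    beta_reduce
    rw [intervalIntegral.integral_add hxy (css'.intervalIntegrable _ _), e,
      intervalIntegral.integral_const_mul, wirb_isin, ← h.2.2.2 x hx y hy]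
    simp only [hcc]
    ring
  have h0 : ∫ θ in a..a + 2 * π, (f' θ + t / 2 * ss θ) = 0 := by
    have e : (fun θ => t / 2 * ss θ) = fun θ => t * (Real.sin ((θ - a) / 2) / 2) := by
      funext θ
      simp only [hss]
      ring
    rw [intervalIntegral.integral_add hi (css'.intervalIntegrable _ _), e,
      intervalIntegral.integral_const_mul, wirb_isin, show (a + 2 * π - a) / 2 = π by ring]
    simp only [sub_self, zero_div, Real.cos_zero, Real.cos_pi]
    rw [ht]
    ring
  have hif := (h.int m).1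
  have hif2 := (h.int m).2
  have hav : av (fun θ => f θ - t * cc θ) a (a + 2 * π) = m := by
    rw [hm]
    unfold av
    beta_reduce
    rw [intervalIntegral.integral_sub hif (ccc'.intervalIntegrable _ _),
      intervalIntegral.integral_const_mul, hcc, wirb_icos]
    simp
  have hW := wir_per hP h0
  rw [hav] at hW
  have ig0 : IntervalIntegrable (fun θ => (f θ - t * cc θ - m) ^ 2) volume a (a + 2 * π) :=
    (hP.int m).2
  have hI := wirb_ibp h m (φ := ss) (φ' := fun θ => cc θ / 2) (by rw [hss]; fun_prop)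
    (fun x => wirb_dsin a x) (ccc.div_const 2) (by simp [hss])
    (by simp only [hss]; rw [show (a + 2 * π - a) / 2 = π by ring, Real.sin_pi])
  have hifm : IntervalIntegrable (fun θ => f θ - m) volume a (a + 2 * π) :=
    hif.sub intervalIntegrable_const
  have hprod : IntervalIntegrable (fun θ => (f θ - m) * k θ) volume a (a + 2 * π) :=
    (cs_int hab.le hif2 hk2 hifm.1.aestronglyMeasurable hk.1.aestronglyMeasurable).1
  have ik1 : IntervalIntegrable (fun θ => (k θ - t / 2 * cc θ) ^ 2) volume a (a + 2 * π) := by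
    have := wirb_sq (φ := fun θ => -(t / 2 * cc θ)) hk hk2 (continuous_const.mul ccc).neg
    simpa only [sub_eq_add_neg] using this
  have iibp : IntervalIntegrable (fun θ => f' θ * ss θ + (f θ - m) * (cc θ / 2)) volume a
      (a + 2 * π) :=
    (hi.mul_continuousOn css.continuousOn).add
      (hifm.mul_continuousOn (ccc.div_const 2).continuousOn)
  have ic2 : IntervalIntegrable (fun θ => cc θ ^ 2 - ss θ ^ 2) volume a (a + 2 * π) :=
    ((ccc.pow 2).sub (css.pow 2)).intervalIntegrable _ _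
  have hc2 : ∫ θ in a..a + 2 * π, (cc θ ^ 2 - ss θ ^ 2) = 0 := wirb_icos2 a
  have e1 : ∫ θ in a..a + 2 * π, ‖(k θ : ℂ) - I * f' θ - t / 2 * ex ((θ - a) / 2)‖ ^ 2 =
      ∫ θ in a..a + 2 * π, ((k θ - t / 2 * cc θ) ^ 2 + (f' θ + t / 2 * ss θ) ^ 2) := by
    refine intervalIntegral.integral_congr fun θ _ => ?_
    exact wirb_norm (k θ) (f' θ) t ((θ - a) / 2)
  have hle : ∫ θ in a..a + 2 * π, ((((k θ - t / 2 * cc θ) ^ 2 + (f' θ + t / 2 * ss θ) ^ 2) +
      ((f' θ + t / 2 * ss θ) ^ 2 - (f θ - t * cc θ - m) ^ 2)) +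
      (t ^ 2 / 2 * (cc θ ^ 2 - ss θ ^ 2) - 2 * t * (f' θ * ss θ + (f θ - m) * (cc θ / 2)))) ≤
      ∫ θ in a..a + 2 * π, 2 * ((f' θ ^ 2 + k θ ^ 2) - (f θ - m) * k θ) := by
    refine intervalIntegral.integral_mono_on hab.le
      (((ik1.add ig').add (ig'.sub ig0)).add ((ic2.const_mul _).sub (iibp.const_mul _)))
      (((hi2.add hk2).sub hprod).const_mul 2) fun θ _ => ?_
    nlinarith [sq_nonneg ((f θ - t * cc θ - m) - (k θ - t / 2 * cc θ))]
  rw [intervalIntegral.integral_add ((ik1.add ig').add (ig'.sub ig0))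
      ((ic2.const_mul _).sub (iibp.const_mul _)),
    intervalIntegral.integral_add (ik1.add ig') (ig'.sub ig0),
    intervalIntegral.integral_sub ig' ig0,
    intervalIntegral.integral_sub (ic2.const_mul _) (iibp.const_mul _),
    intervalIntegral.integral_const_mul, intervalIntegral.integral_const_mul, hc2, hI,
    intervalIntegral.integral_const_mul, intervalIntegral.integral_sub (hi2.add hk2) hprod,
    intervalIntegral.integral_add hi2 hk2] at hle
  rw [e1]
  linarith

end Vale.Agent.P128
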