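import Vale.Agent.P128.Bon
import Vale.Agent.P128.WirB

/-!
# P128 Circ1

One point on the circle. With `k = un`, `f' = ut` on `(α, α + 2π)`: `bon1`, `wir_def`. Let
`g = un - i ut = g₀ + e`, `g₀ = (t/2) ex ((θ - α)/2)` with the best real `t`, so `∫ re (conj g₀ e) = 0` and
`‖e‖² ≤ 2δ`. Then `s Zc ex α = ∫ g² ex (α - θ) = π t²/2 + 2 ∫ conj g₀ e + ∫ e² ex (α - θ)` and
`E2 = π t²/2 + ‖e‖²`; also `|E2 - Dr| ≤ δ`.
-/

namespace Vale.Agent.P128

open Set Metric MeasureTheory Filter Topology Complex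
open scoped ENNReal ContDiff RealInnerProductSpace Gradient Real ComplexConjugate

variable {Ω K L A S T U O X Γ P M₀ K₀ K₁ : Set ℂ} {u v w g hh ψ η : ℂ → ℝ} {G : ℂ → ℂ}
  {π₀ π₁ : ℂ → Set ℂ} {x y z c p q e a₀ F : ℂ} {lam H r s R a b t M Θ ρ ε δ d : ℝ} {n : ℕ}

theorem circ1_ex (θ : ℝ) : ex θ = (Real.cos θ : ℂ) + (Real.sin θ : ℂ) * I := by
  rw [ex, exp_mul_I, ofReal_cos, ofReal_sin]

theorem circ1_ex_add (θ φ : ℝ) : ex (θ + φ) = ex θ * ex φ := by
  rw [ex, ex, ex, ← Complex.exp_add, ofReal_add, add_mul]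

theorem circ1_conj (θ : ℝ) : conj (ex θ) = ex (-θ) := by
  rw [circ1_ex, circ1_ex, Real.cos_neg, Real.sin_neg, map_add, map_mul, conj_ofReal, conj_ofReal,
    conj_I, ofReal_neg]
  ring

/-- Real part of the rotated boundary gradient. -/
noncomputable def circ1P (k f : ℝ → ℝ) (a θ : ℝ) : ℝ :=
  k θ * Real.cos ((θ - a) / 2) - f θ * Real.sin ((θ - a) / 2)

/-- Imaginary part of the rotated boundary gradient. -/
noncomputable def circ1Q (k f : ℝ → ℝ) (a θ : ℝ) : ℝ :=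
  -(k θ * Real.sin ((θ - a) / 2) + f θ * Real.cos ((θ - a) / 2))

theorem circ1_sq (k f : ℝ → ℝ) (a θ : ℝ) :
    circ1P k f a θ ^ 2 + circ1Q k f a θ ^ 2 = f θ ^ 2 + k θ ^ 2 := by
  have h := Real.sin_sq_add_cos_sq ((θ - a) / 2)
  rw [circ1P, circ1Q]
  linear_combination (f θ ^ 2 + k θ ^ 2) * h

theorem circ1_norm (k f : ℝ → ℝ) (a t θ : ℝ) :
    ‖(k θ : ℂ) - I * f θ - t / 2 * ex ((θ - a) / 2)‖ ^ 2 =
      f θ ^ 2 + k θ ^ 2 - t * circ1P k f a θ + t ^ 2 / 4 := by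
  have h := Real.sin_sq_add_cos_sq ((θ - a) / 2)
  have e : (k θ : ℂ) - I * f θ - t / 2 * ex ((θ - a) / 2) =
      ((k θ - t / 2 * Real.cos ((θ - a) / 2) : ℝ) : ℂ) +
        ((-(f θ + t / 2 * Real.sin ((θ - a) / 2)) : ℝ) : ℂ) * I := by
    rw [circ1_ex]
    simp only [ofReal_sub, ofReal_mul, ofReal_div, ofReal_neg, ofReal_add, ofReal_ofNat]
    ring
  rw [e, Complex.sq_norm, normSq_add_mul_I, circ1P]
  linear_combination (t ^ 2 / 4) * h

theorem circ1_cx (k f : ℝ → ℝ) (a θ : ℝ) :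
    ((k θ : ℂ) - I * f θ) ^ 2 * conj (ex θ) * ex a =
      ((circ1P k f a θ ^ 2 - circ1Q k f a θ ^ 2 : ℝ) : ℂ) +
        ((2 * (circ1P k f a θ * circ1Q k f a θ) : ℝ) : ℂ) * I := by
  have e1 : conj (ex θ) * ex a = ex (-((θ - a) / 2)) ^ 2 := by
    rw [circ1_conj, sq, ← circ1_ex_add, ← circ1_ex_add]
    congr 1
    ring
  have e2 : ((k θ : ℂ) - I * f θ) * ex (-((θ - a) / 2)) =
      (circ1P k f a θ : ℂ) + (circ1Q k f a θ : ℂ) * I := by
    rw [circ1_ex, Real.cos_neg, Real.sin_neg, circ1P, circ1Q]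
    simp only [ofReal_sub, ofReal_mul, ofReal_neg, ofReal_add]
    linear_combination ((f θ : ℂ) * (Real.sin ((θ - a) / 2) : ℂ)) * I_sq
  rw [mul_assoc, e1, ← mul_pow, e2]
  simp only [ofReal_sub, ofReal_mul, ofReal_pow, ofReal_ofNat]
  linear_combination ((circ1Q k f a θ : ℂ) ^ 2) * I_sq

theorem circ1_abs {k f : ℝ → ℝ} (hab : a ≤ b) (hk : IntervalIntegrable k volume a b)
    (hf : IntervalIntegrable f volume a b)
    (hk2 : IntervalIntegrable (fun θ => k θ ^ 2) volume a b)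
    (hf2 : IntervalIntegrable (fun θ => f θ ^ 2) volume a b) {E : ℝ}
    (hE : E = (∫ θ in a..b, f θ ^ 2) + ∫ θ in a..b, k θ ^ 2)
    (ht : ∫ θ in a..b, ‖(k θ : ℂ) - I * f θ - t / 2 * ex ((θ - a) / 2)‖ ^ 2 ≤ 2 * δ) :
    |E - (∫ θ in a..b, ((k θ : ℂ) - I * f θ) ^ 2 * conj (ex θ) * ex a).re| ≤ 4 * δ ∧
      |(∫ θ in a..b, ((k θ : ℂ) - I * f θ) ^ 2 * conj (ex θ) * ex a).im| ≤ 3 * √(E * δ) := by
  have hc : Continuous fun θ : ℝ => Real.cos ((θ - a) / 2) := by fun_prop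
  have hs : Continuous fun θ : ℝ => Real.sin ((θ - a) / 2) := by fun_prop
  have iP : IntervalIntegrable (circ1P k f a) volume a b :=
    (hk.mul_continuousOn hc.continuousOn).sub (hf.mul_continuousOn hs.continuousOn)
  have iQ : IntervalIntegrable (circ1Q k f a) volume a b :=
    ((hk.mul_continuousOn hs.continuousOn).add (hf.mul_continuousOn hc.continuousOn)).neg
  have mP := iP.1.aestronglyMeasurable
  have mQ := iQ.1.aestronglyMeasurable
  have i2 := hf2.add hk2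
  have iP2 : IntervalIntegrable (fun θ => circ1P k f a θ ^ 2) volume a b := by
    rw [intervalIntegrable_iff_integrableOn_Ioc_of_le hab]
    refine i2.1.mono' (mP.pow 2) (Eventually.of_forall fun θ => ?_)
    rw [Real.norm_of_nonneg (sq_nonneg _), ← circ1_sq k f a θ]
    exact le_add_of_nonneg_right (sq_nonneg _)
  have iQ2 : IntervalIntegrable (fun θ => circ1Q k f a θ ^ 2) volume a b := by
    rw [intervalIntegrable_iff_integrableOn_Ioc_of_le hab]
    refine i2.1.mono' (mQ.pow 2) (Eventually.of_forall fun θ => ?_)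
    rw [Real.norm_of_nonneg (sq_nonneg _), ← circ1_sq k f a θ]
    exact le_add_of_nonneg_left (sq_nonneg _)
  obtain ⟨iPQ, cs⟩ := cs_int hab iP2 iQ2 mP mQ
  have e1 : E = (∫ θ in a..b, circ1P k f a θ ^ 2) + ∫ θ in a..b, circ1Q k f a θ ^ 2 := by
    rw [hE, ← intervalIntegral.integral_add hf2 hk2, ← intervalIntegral.integral_add iP2 iQ2]
    simp only [circ1_sq]
  have e2 : ∫ θ in a..b, circ1Q k f a θ ^ 2 ≤ 2 * δ := by
    refine le_trans ?_ ht
    simp only [circ1_norm]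
    refine intervalIntegral.integral_mono_on hab iQ2
      ((i2.sub (iP.const_mul t)).add intervalIntegrable_const) fun θ _ => ?_
    rw [← circ1_sq k f a θ]
    nlinarith [sq_nonneg (circ1P k f a θ - t / 2)]
  have e3 : ∫ θ in a..b, ((k θ : ℂ) - I * f θ) ^ 2 * conj (ex θ) * ex a =
      (((∫ θ in a..b, circ1P k f a θ ^ 2) - ∫ θ in a..b, circ1Q k f a θ ^ 2 : ℝ) : ℂ) +
        ((2 * ∫ θ in a..b, circ1P k f a θ * circ1Q k f a θ : ℝ) : ℂ) * I := by
    have j1 : IntervalIntegrable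
        (fun θ => ((circ1P k f a θ ^ 2 - circ1Q k f a θ ^ 2 : ℝ) : ℂ)) volume a b :=
      ⟨(iP2.sub iQ2).1.ofReal, (iP2.sub iQ2).2.ofReal⟩
    have j2 : IntervalIntegrable
        (fun θ => ((2 * (circ1P k f a θ * circ1Q k f a θ) : ℝ) : ℂ)) volume a b :=
      ⟨(iPQ.const_mul 2).1.ofReal, (iPQ.const_mul 2).2.ofReal⟩
    simp only [circ1_cx]
    rw [intervalIntegral.integral_add j1 (j2.mul_const I), intervalIntegral.integral_mul_const,
      intervalIntegral.integral_ofReal, intervalIntegral.integral_ofReal,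
      intervalIntegral.integral_sub iP2 iQ2, intervalIntegral.integral_const_mul]
  have p0 : 0 ≤ ∫ θ in a..b, circ1P k f a θ ^ 2 :=
    intervalIntegral.integral_nonneg hab fun θ _ => sq_nonneg _
  have q0 : 0 ≤ ∫ θ in a..b, circ1Q k f a θ ^ 2 :=
    intervalIntegral.integral_nonneg hab fun θ _ => sq_nonneg _
  rw [e3]
  simp only [add_re, ofReal_re, mul_re, I_re, mul_zero, ofReal_im, I_im, mul_one, sub_self,
    add_zero, add_im, mul_im, zero_add]
  generalize ∫ θ in a..b, circ1P k f a θ ^ 2 = p2 at *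
  generalize ∫ θ in a..b, circ1Q k f a θ ^ 2 = q2 at *
  generalize ∫ θ in a..b, circ1P k f a θ * circ1Q k f a θ = pq at *
  refine ⟨abs_le.2 ⟨by linarith, by linarith⟩, ?_⟩
  have c1 : √(p2 * q2) ≤ 3 / 2 * √(E * δ) := by
    rw [show (3 / 2 : ℝ) = √((3 / 2) ^ 2) from (Real.sqrt_sq (by norm_num)).symm,
      ← Real.sqrt_mul (by norm_num)]
    refine Real.sqrt_le_sqrt ?_
    have c2 : p2 * q2 ≤ E * (2 * δ) := mul_le_mul (by linarith) e2 q0 (by linarith)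
    have c3 : 0 ≤ E * δ := mul_nonneg (by linarith) (by linarith)
    linarith
  rw [abs_mul, abs_two]
  linarith

theorem circ1_Z (u : ℂ → ℝ) (K : Set ℂ) (x : ℂ) (hs : 0 < s) (α : ℝ) :
    (s : ℂ) * (Zc u K x s * ex α) = ∫ θ in α..α + 2 * π,
      ((un u K x s θ : ℂ) - I * ut u K x s θ) ^ 2 * conj (ex θ) * ex α := by
  have hp : Function.Periodic
      (fun θ => ((un u K x s θ : ℂ) - I * ut u K x s θ) ^ 2 * conj (ex θ)) (2 * π) := fun θ => by
    have e : ex (θ + 2 * π) = ex θ := by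
      rw [circ1_ex, circ1_ex, Real.cos_add_two_pi, Real.sin_add_two_pi]
    simp only [(ut_per u K x s).1 θ, (ut_per u K x s).2 θ, e]
  have h2 := hp.intervalIntegral_add_eq α 0
  rw [zero_add] at h2
  rw [intervalIntegral.integral_mul_const, h2, Zc, ← mul_assoc,
    mul_inv_cancel_left₀ (ofReal_ne_zero.2 hs.ne')]

theorem circ1 {α : ℝ} (h : NP Ω lam u K) (hb : closedBall x s ⊆ Ω) (hg : Good u K x s)
    (hn : K ∩ sphere x s = {circleMap x s α})
    (hδ : δ = E2 u K x s - Dr u K x s + 4 * lam * (π * s ^ 2)) :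
    0 ≤ δ ∧ |Dr u K x s - s * (Zc u K x s * ex α).re| ≤ 10 * δ ∧
      |s * (Zc u K x s * ex α).im| ≤ 10 * (√(E2 u K x s * δ) + δ) ∧
      ∃ t : ℝ, ∫ θ in α..α + 2 * π,
        ‖(un u K x s θ : ℂ) - I * ut u K x s θ - t / 2 * ex ((θ - α) / 2)‖ ^ 2 ≤ 2 * δ := by
  have hab : α ≤ α + 2 * π := le_add_of_nonneg_right Real.two_pi_pos.le
  obtain ⟨i1, i2, i3, i4⟩ := hg.int h.pre.2.1 α (α + 2 * π)
  have hp := arc_prim h.pre (sphere_subset_closedBall.trans hb) hg (freeArc_one hg.1 hn.le)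
  obtain ⟨t, ht⟩ := wir_def hp i2 i4
  have h1 := abs_le.1 (bon1 h hb hg hn)
  have hL : 0 ≤ lam * (π * s ^ 2) := mul_nonneg h.1 (by positivity)
  have hE : E2 u K x s = (∫ θ in α..α + 2 * π, ut u K x s θ ^ 2) +
      ∫ θ in α..α + 2 * π, un u K x s θ ^ 2 := by
    rw [(A2_shift u K x s α).1, (A2_shift u K x s α).2, E2]
  rw [← hE] at ht
  have h0 : 0 ≤ ∫ θ in α..α + 2 * π,
      ‖(un u K x s θ : ℂ) - I * ut u K x s θ - t / 2 * ex ((θ - α) / 2)‖ ^ 2 :=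
    intervalIntegral.integral_nonneg hab fun θ _ => sq_nonneg _
  have h2 : ∫ θ in α..α + 2 * π,
      ‖(un u K x s θ : ℂ) - I * ut u K x s θ - t / 2 * ex ((θ - α) / 2)‖ ^ 2 ≤ 2 * δ := by
    linarith [h1.2]
  obtain ⟨h3, h4⟩ := circ1_abs hab i2 i1 i4 i3 hE h2
  rw [← circ1_Z u K x hg.1, re_ofReal_mul] at h3
  rw [← circ1_Z u K x hg.1, im_ofReal_mul] at h4
  have h5 := abs_le.1 h3
  have h6 := Real.sqrt_nonneg (E2 u K x s * δ)
  have h7 : 0 ≤ δ := by linarith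
  exact ⟨h7, abs_le.2 ⟨by linarith [h1.2], by linarith [h1.2]⟩, by linarith, t, h2⟩

end Vale.Agent.P128
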