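import Vale.Agent.P128.Pot
import Vale.Agent.P128.LipWG
import Vale.Agent.P128.SobA

/-!
# P128 Pot2

Mollify: with bumps `ρ_m` of radius `1/(m+1)` choose `n = n m` with
`‖∇ w_n - G‖₂ ‖ρ_m‖₂ ≤ 1/(m+1)`. Let `w' m z = ∫ ρ_m (z - y) w_n y` (cut `w_n` off by a Lipschitz or smooth
cutoff equal to `1` on `{infDist ≥ 1/(m+1)} ∩ ball 0 (m+1)` to make it integrable). On a compact
`C ⊆ Kᶜ` and `m` large, `∇ (w' m) = ρ_m ⋆ ∇ w_n` (`lipWG`), which is within `1/(m+1)` of `ρ_m ⋆ G`, and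
this tends to `G` uniformly on `C`. Apply `pot`.
-/

namespace Vale.Agent.P128

open Set Metric MeasureTheory Filter Topology Complex
open scoped ENNReal ContDiff RealInnerProductSpace Gradient Real ComplexConjugate

variable {Ω K L A S T U O X Γ P M₀ K₀ K₁ : Set ℂ} {u v w g hh ψ η : ℂ → ℝ} {G : ℂ → ℂ}
  {π₀ π₁ : ℂ → Set ℂ} {x y z c p q e a₀ F : ℂ} {lam H r s R a b t M Θ ρ ε δ d : ℝ} {n : ℕ}

theorem pot2 {w : ℕ → ℂ → ℝ} (hK : IsClosed K) (hG : ContinuousOn G Kᶜ)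
    (hw : ∀ n, LocallyLipschitzOn Kᶜ (w n))
    (hl : Tendsto (fun n => ∫⁻ z in Kᶜ, ‖∇ (w n) z - G z‖ₑ ^ 2) atTop (𝓝 0)) :
    ∃ v : ℂ → ℝ, ContDiffOn ℝ 1 v Kᶜ ∧ ∀ z ∉ K, ∇ v z = G z := by
  have hO : IsOpen Kᶜ := hK.isOpen_compl
  obtain ⟨A, hA, hA'⟩ := soba_exh hO
  choose B hB hB' using soba_bound
  have h1 : ∀ m : ℕ, ∃ n, ∫⁻ z in Kᶜ, ‖∇ (w n) z - G z‖ₑ ^ 2 ≤
      ENNReal.ofReal ((1 / (m + 1)) ^ 2 / B m) := fun m =>
    (hl.eventually (ge_mem_nhds (ENNReal.ofReal_pos.2 (div_pos (by positivity) (hB m))))).exists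
  choose N hN using h1
  obtain ⟨v, -, h2, h3, -⟩ := pot (w := fun m => sobaM m ((A m).indicator (w (N m)))) hK hG (by
    intro C hCO hC ε hε
    filter_upwards [hA' C hCO hC, soba_unif hO hG hCO hC (half_pos hε),
      tendsto_one_div_add_atTop_nhds_zero_nat.eventually
        (ge_mem_nhds (show (0 : ℝ) < ε / 4 by positivity))] with m a1 a2 a3 y hy
    have hW := lipWG hO (hw (N m))
    have hm := (hA m).1.measurableSet
    have i1 : Integrable ((A m).indicator (w (N m))) :=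
      (hW.1.integrableOn_compact_subset (hA m).2 (hA m).1).integrable_indicator hm
    have i2 : IntegrableOn (∇ (w (N m))) (A m) :=
      hW.2.1.integrableOn_compact_subset (hA m).2 (hA m).1
    have i3 : IntegrableOn G (A m) := (hG.mono (hA m).2).integrableOn_compact (hA m).1
    refine ⟨(soba_contDiff i1 m).differentiable (by simp) y, ?_⟩
    rw [soba_grad hO hW (hA m).1 (hA m).2 (a1 y hy)]
    have hη : (0 : ℝ) < 1 / (m + 1) := by positivity
    obtain ⟨η, hηe⟩ : ∃ η : ℝ, η = 1 / (m + 1) := ⟨_, rfl⟩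
    have b1 : ∫⁻ z in A m, ‖∇ (w (N m)) z - G z‖ₑ ^ 2 ≤ ENNReal.ofReal (η ^ 2 / B m) := by
      rw [hηe]
      exact (lintegral_mono_set (hA m).2).trans (hN m)
    have b2 : ∀ z, ENNReal.ofReal (‖∇ (w (N m)) z - G z‖ ^ 2) = ‖∇ (w (N m)) z - G z‖ₑ ^ 2 :=
      fun z => by rw [ENNReal.ofReal_pow (norm_nonneg _), ofReal_norm]
    have b3 : AEStronglyMeasurable (fun z => ‖∇ (w (N m)) z - G z‖ ^ 2) (volume.restrict (A m)) :=
      (i2.sub i3).1.norm.pow 2
    have b4 : IntegrableOn (fun z => ‖∇ (w (N m)) z - G z‖ ^ 2) (A m) := by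
      refine ⟨b3, (hasFiniteIntegral_iff_ofReal
        (Eventually.of_forall fun z => sq_nonneg _)).2 ?_⟩
      simp only [b2]
      exact b1.trans_lt ENNReal.ofReal_lt_top
    have b5 : ∫ z in A m, ‖∇ (w (N m)) z - G z‖ ^ 2 ≤ η ^ 2 / B m := by
      rw [integral_eq_lintegral_of_nonneg_ae (Eventually.of_forall fun z => sq_nonneg _) b3]
      simp only [b2]
      exact ENNReal.toReal_le_of_le_ofReal (div_nonneg (sq_nonneg _) (hB m).le) b1
    have i4 := b4.integrable_indicator hm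
    rw [← hηe] at hη a3
    have b6 := soba_le (x := y) (m := m) (i2.integrable_indicator hm) (i4.const_mul (1 / η))
      (c := G y) (ε := ε / 2 + η) (Eventually.of_forall fun z hz => by
        rw [indicator_of_mem (a1 y hy hz), indicator_of_mem (a1 y hy hz)]
        have c1 := norm_sub_le_norm_sub_add_norm_sub (∇ (w (N m)) z) (G z) (G y)
        have c2 := a2 y hy z hz
        have c3 : η + 1 / η * ‖∇ (w (N m)) z - G z‖ ^ 2 - 2 * ‖∇ (w (N m)) z - G z‖ =
            (η - ‖∇ (w (N m)) z - G z‖) ^ 2 / η := by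
          field_simp
          ring
        have c4 : 0 ≤ (η - ‖∇ (w (N m)) z - G z‖) ^ 2 / η := by positivity
        linarith [norm_nonneg (∇ (w (N m)) z - G z)])
    have b7 := hB' m _ i4 (fun z => indicator_nonneg (fun z _ => sq_nonneg _) z) y
    rw [integral_indicator hm] at b7
    have b8 := b7.trans (mul_le_mul_of_nonneg_left b5 (hB m).le)
    rw [mul_div_cancel₀ _ (hB m).ne'] at b8
    rw [soba_mul] at b6
    have b9 := mul_le_mul_of_nonneg_left b8 (one_div_pos.2 hη).le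
    have b10 : 1 / η * η ^ 2 = η := by field_simp
    linarith)
  exact ⟨v, h2, h3⟩

end Vale.Agent.P128
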