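import Vale.Agent.P128.Proj
import Vale.Agent.P128.Wey
import Vale.Agent.P128.Pot2

/-!
# P128 Close

Adding the set `S` to the crack. For a test function `ψ` of `K ∪ S`, `(u + t ψ, K ∪ S)` is a competitor,
so `0 ≤ 2 t ∫ ⟪∇u, ∇ψ⟫ + t² ‖∇ψ‖² + ℓ₀`, i.e. `|∫ ⟪∇u, ∇ψ⟫| ≤ √ℓ₀ ‖∇ψ‖`. Apply `proj` with `G = gK K u`.
The field `G - Φ` is weakly divergence free and curl free off `K ∪ S` (limit of `∇ (u - ψ_n)`), so it is
`conj f` a.e. (`wey`); `pot2` gives `v`.
-/

namespace Vale.Agent.P128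

open Set Metric MeasureTheory Filter Topology Complex
open scoped ENNReal ContDiff RealInnerProductSpace Gradient Real ComplexConjugate

variable {Ω K L A S T U O X Γ P M₀ K₀ K₁ : Set ℂ} {u v w g hh ψ η : ℂ → ℝ} {G : ℂ → ℂ}
  {π₀ π₁ : ℂ → Set ℂ} {x y z c p q e a₀ F : ℂ} {lam H r s R a b t M Θ ρ ε δ d : ℝ} {n : ℕ}

theorem close_int {f k : ℂ → ℂ} (hf : ∀ R, MemLp f 2 (volume.restrict (closedBall 0 R)))
    (hk : MemLp k 2 volume) (h0 : ∀ z ∉ closedBall x r, k z = 0) :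
    Integrable (fun z => conj (f z) * k z) := by
  have h1 : MemLp (fun z => conj (f z)) 2 (volume.restrict (closedBall 0 (‖x‖ + r))) :=
    conjCLE.toContinuousLinearMap.comp_memLp' (hf _)
  have h2 : IntegrableOn (fun z => conj (f z) * k z) (closedBall 0 (‖x‖ + r)) :=
    h1.integrable_mul (hk.restrict _)
  refine h2.integrable_of_forall_notMem_eq_zero fun z hz => ?_
  rw [h0 z fun hz' => hz ?_, mul_zero]
  rw [mem_closedBall, dist_eq_norm] at hz' ⊢
  have := norm_add_le (z - x) x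
  simp only [sub_add_cancel] at this
  simp only [sub_zero]
  linarith

theorem close_inner {f k : ℂ → ℂ} (h : Integrable (fun z => conj (f z) * k z)) :
    Integrable (fun z => ⟪f z, k z⟫) ∧ (∫ z, conj (f z) * k z).re = ∫ z, ⟪f z, k z⟫ := by
  have h1 := reCLM.integrable_comp h
  have h2 := reCLM.integral_comp_comm h
  simp only [reCLM_apply, conj_mul_re] at h1 h2
  exact ⟨h1, h2.symm⟩

theorem close_lint {f : ℂ → ℂ} {μ : Measure ℂ} (hf : MemLp f 2 μ) :
    ∫⁻ z, ‖f z‖ₑ ^ 2 ∂μ = ENNReal.ofReal (∫ z, ‖f z‖ ^ 2 ∂μ) := by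
  have hi : Integrable (fun z => ‖f z‖ ^ 2) μ := (memLp_two_iff_integrable_sq_norm hf.1).1 hf
  rw [ofReal_integral_eq_lintegral_ofReal hi (ae_of_all _ fun z => by positivity)]
  refine lintegral_congr fun z => ?_
  rw [ENNReal.ofReal_pow (norm_nonneg _), ofReal_norm]

theorem close_lim {E : ℕ → ℂ → ℂ} {k : ℂ → ℂ} (hE : ∀ n, MemLp (E n) 2 volume)
    (hk : MemLp k 2 volume) (hl : Tendsto (fun n => ∫ z, ‖E n z‖ ^ 2) atTop (𝓝 0))
    (ha : ∀ n, a = (∫ z, conj (E n z) * k z).im) : a = 0 := by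
  have hki : Integrable (fun z => ‖k z‖ ^ 2) := (memLp_two_iff_integrable_sq_norm hk.1).1 hk
  have hb : 0 ≤ ∫ z, ‖k z‖ ^ 2 := integral_nonneg fun z => by positivity
  have key : ∀ d : ℝ, 0 < d → |a| ≤ d * ∫ z, ‖k z‖ ^ 2 := by
    intro d hd
    have hn : ∀ n, |a| ≤ d⁻¹ * (∫ z, ‖E n z‖ ^ 2) + d * ∫ z, ‖k z‖ ^ 2 := by
      intro n
      have hi : Integrable (fun z => ‖E n z‖ ^ 2) :=
        (memLp_two_iff_integrable_sq_norm (hE n).1).1 (hE n)
      rw [ha n, ← integral_const_mul, ← integral_const_mul,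
        ← integral_add (hi.const_mul _) (hki.const_mul _)]
      refine (abs_im_le_norm _).trans (norm_integral_le_of_norm_le
        ((hi.const_mul _).add (hki.const_mul _)) (ae_of_all _ fun z => ?_))
      rw [norm_mul, norm_conj]
      have h1 := norm_nonneg (E n z)
      have h2 := norm_nonneg (k z)
      have h3 : d * (‖E n z‖ * ‖k z‖) ≤ ‖E n z‖ ^ 2 + d ^ 2 * ‖k z‖ ^ 2 := by
        nlinarith [sq_nonneg (‖E n z‖ - d * ‖k z‖), mul_nonneg hd.le (mul_nonneg h1 h2)]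
      have h4 : d⁻¹ * ‖E n z‖ ^ 2 + d * ‖k z‖ ^ 2 = (‖E n z‖ ^ 2 + d ^ 2 * ‖k z‖ ^ 2) / d := by
        field_simp
      show _ ≤ d⁻¹ * ‖E n z‖ ^ 2 + d * ‖k z‖ ^ 2
      rw [h4, le_div_iff₀ hd]
      linarith
    have ht := (hl.const_mul d⁻¹).add_const (d * ∫ z, ‖k z‖ ^ 2)
    rw [mul_zero, zero_add] at ht
    exact ge_of_tendsto' ht hn
  have ht : Tendsto (fun d : ℝ => d * ∫ z, ‖k z‖ ^ 2) (𝓝[>] 0) (𝓝 (0 * ∫ z, ‖k z‖ ^ 2)) :=
    (tendsto_id.mul_const _).mono_left nhdsWithin_le_nhds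
  rw [zero_mul] at ht
  exact abs_nonpos_iff.1 (ge_of_tendsto ht (eventually_nhdsWithin_of_forall key))

theorem close_pre (h : Pre univ u K) (hS : IsCompact S) (hl : μH[1] S ≠ ⊤) :
    Pre univ u (K ∪ S) := by
  refine ⟨isOpen_univ, h.2.1.union hS.isClosed,
    h.2.2.1.mono (sdiff_subset_sdiff_right subset_union_left), fun x r hb => ⟨?_, ?_⟩⟩
  · exact ne_top_of_le_ne_top (h.2.2.2 x r hb).1 (Dn_anti u subset_union_left _)
  · refine ne_top_of_le_ne_top (ENNReal.add_ne_top.2 ⟨(h.2.2.2 x r hb).2, hl⟩) ?_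
    refine (measure_mono ?_).trans (measure_union_le _ _)
    rintro z ⟨hz | hz, hz'⟩
    · exact Or.inl ⟨hz, hz'⟩
    · exact Or.inr hz

/-- The gradient of `u + t ψ`. -/
theorem close_grad (h : Pre univ u L) (hψ : Test univ L ψ) (t : ℝ) :
    LocallyLipschitzOn (univ \ L) (fun z => u z + t * ψ z) ∧
      ∀ᵐ z : ℂ, gK L (fun z => u z + t * ψ z) z = gK L u z + (t : ℂ) * gK L ψ z := by
  refine ⟨lip_add h.lip (hψ.smul t).1, ?_⟩
  filter_upwards [ae_diff h.isOpen (hψ.smul t).1] with z hz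
  by_cases hzL : z ∈ L
  · simp [gK_of_mem _ hzL]
  · rw [gK_of_notMem _ hzL, gK_of_notMem _ hzL, gK_of_notMem _ hzL,
      grad_add (h.diff ⟨trivial, hzL⟩) (hz ⟨trivial, hzL⟩), grad_smul]

theorem close_est (h : MM univ 0 u K π₀) (hS : IsCompact S) (hl : μH[1] S ≠ ⊤)
    (hψ : Test univ (K ∪ S) ψ) :
    |∫ z, ⟪gK (K ∪ S) u z, gK (K ∪ S) ψ z⟫| ≤
      √(μH[1] S).toReal * √(∫ z, ‖gK (K ∪ S) ψ z‖ ^ 2) := by
  have hp := close_pre h.pre hS hl
  have hL := hp.2.1
  obtain ⟨x, r, -, h0⟩ := hψ.2.2.1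
  obtain ⟨R₁, hR₁⟩ := (hS.isBounded.union (isBounded_closedBall (x := x) (r := r))).subset_closedBall 0
  obtain ⟨R, hR0, hR⟩ : ∃ R : ℝ, 0 < R ∧ S ∪ closedBall x r ⊆ closedBall 0 R :=
    ⟨max R₁ 1, by positivity, hR₁.trans (closedBall_subset_closedBall (le_max_left _ _))⟩
  have hG := (intOn_of_Dn hL (hp.2.2.2 0 R (subset_univ _)).1).2
  have hΨ := hψ.memLp hL
  have hΨ0 : ∀ z ∉ closedBall (0 : ℂ) R, gK (K ∪ S) ψ z = 0 := fun z hz =>
    gK_eq_zero_off h0 fun hz' => hz (hR (Or.inr hz'))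
  have hI := hp.inner_int hψ
  have hΨi : Integrable (fun z => ‖gK (K ∪ S) ψ z‖ ^ 2) :=
    (memLp_two_iff_integrable_sq_norm hΨ.1).1 hΨ
  have hGi : Integrable (fun z => ‖gK (K ∪ S) u z‖ ^ 2) (volume.restrict (closedBall 0 R)) :=
    (memLp_two_iff_integrable_sq_norm hG.1).1 hG
  have key : ∀ t : ℝ, 0 ≤ (∫ z, ‖gK (K ∪ S) ψ z‖ ^ 2) * (t * t) +
      (2 * ∫ z, ⟪gK (K ∪ S) u z, gK (K ∪ S) ψ z⟫) * t + (μH[1] S).toReal := by
    intro t
    obtain ⟨hw, hg⟩ := close_grad hp hψ t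
    have hc : Comp univ u K π₀ 0 R (fun z => u z + t * ψ z) (K ∪ S) π₀ := by
      refine ⟨hL, hw, h.2.1.mono (sdiff_subset_sdiff_right subset_union_left), fun z hz => ?_,
        fun z _ hz => ⟨?_, rfl⟩⟩
      · exact ⟨fun hz' => hz'.resolve_right fun hs => hz (hR (Or.inl hs)), Or.inl⟩
      · show u z + t * ψ z = u z
        rw [h0 z fun hz' => hz (hR (Or.inr hz')), mul_zero, add_zero]
    have hm := h.2.2.2 0 R _ _ _ hR0 (subset_univ _) hc
    rw [zero_mul, ENNReal.ofReal_zero, add_zero, En, En] at hm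
    have hlen : μH[1] ((K ∪ S) ∩ closedBall 0 R) ≤ μH[1] S + μH[1] (K ∩ closedBall 0 R) := by
      refine (measure_mono ?_).trans (measure_union_le _ _)
      rintro z ⟨hz | hz, hz'⟩
      · exact Or.inr ⟨hz, hz'⟩
      · exact Or.inl hz
    have hm2 : Dn u (K ∪ S) (closedBall 0 R) ≤
        Dn (fun z => u z + t * ψ z) (K ∪ S) (closedBall 0 R) + μH[1] S := by
      refine (Dn_anti u subset_union_left _).trans ?_
      refine ENNReal.le_of_add_le_add_right (h.pre.2.2.2 0 R (subset_univ _)).2 (hm.trans ?_)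
      rw [add_assoc]
      gcongr
    have hW : MemLp (fun z => gK (K ∪ S) u z + (t : ℂ) * gK (K ∪ S) ψ z) 2
        (volume.restrict (closedBall 0 R)) := hG.add ((hΨ.restrict _).const_mul _)
    have e1 : Dn (fun z => u z + t * ψ z) (K ∪ S) (closedBall 0 R) =
        ENNReal.ofReal (∫ z in closedBall 0 R, ‖gK (K ∪ S) u z + (t : ℂ) * gK (K ∪ S) ψ z‖ ^ 2) := by
      rw [← close_lint hW, Dn]
      refine lintegral_congr_ae (ae_restrict_of_ae ?_)
      filter_upwards [hg] with z hz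
      rw [hz]
    have e2 : ∫ z in closedBall 0 R, ‖gK (K ∪ S) u z + (t : ℂ) * gK (K ∪ S) ψ z‖ ^ 2 =
        (∫ z in closedBall 0 R, ‖gK (K ∪ S) u z‖ ^ 2) +
          ((2 * t) * (∫ z, ⟪gK (K ∪ S) u z, gK (K ∪ S) ψ z⟫) +
            t ^ 2 * ∫ z, ‖gK (K ∪ S) ψ z‖ ^ 2) := by
      have hJ : Integrable (fun z => 2 * t * ⟪gK (K ∪ S) u z, gK (K ∪ S) ψ z⟫ +
          t ^ 2 * ‖gK (K ∪ S) ψ z‖ ^ 2) (volume.restrict (closedBall 0 R)) :=
        ((hI.const_mul _).add (hΨi.const_mul _)).integrableOn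
      rw [← integral_const_mul, ← integral_const_mul,
        ← integral_add (hI.const_mul _) (hΨi.const_mul _),
        ← setIntegral_eq_integral_of_forall_compl_eq_zero (s := closedBall (0 : ℂ) R)
          (f := fun z => 2 * t * ⟪gK (K ∪ S) u z, gK (K ∪ S) ψ z⟫ + t ^ 2 * ‖gK (K ∪ S) ψ z‖ ^ 2)
          (fun z hz => by simp [hΨ0 z hz]),
        ← integral_add hGi hJ]
      refine integral_congr_ae (ae_of_all _ fun z => ?_)
      have e3 : (t : ℂ) * gK (K ∪ S) ψ z = t • gK (K ∪ S) ψ z := by simp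
      simp only []
      rw [e3, norm_add_sq_real, inner_smul_right, norm_smul, mul_pow, Real.norm_eq_abs, sq_abs]
      ring
    rw [e1, Dn, close_lint hG, ← ENNReal.ofReal_toReal hl,
      ← ENNReal.ofReal_add (integral_nonneg fun z => by positivity) ENNReal.toReal_nonneg,
      ENNReal.ofReal_le_ofReal_iff (add_nonneg (integral_nonneg fun z => by positivity)
        ENNReal.toReal_nonneg), e2] at hm2
    nlinarith
  have hd := discrim_le_zero key
  rw [← Real.sqrt_mul ENNReal.toReal_nonneg]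
  refine Real.abs_le_sqrt ?_
  rw [discrim] at hd
  nlinarith

theorem close (h : MM univ 0 u K π₀) (hS : IsCompact S) (hl : μH[1] S ≠ ⊤) :
    ∃ v : ℂ → ℝ, NP univ 0 v (K ∪ S) ∧
      ∫⁻ z, ‖gK K u z - gK (K ∪ S) v z‖ₑ ^ 2 ≤ μH[1] S := by
  have hp := close_pre h.pre hS hl
  have hest := fun ψ (hψ : Test univ (K ∪ S) ψ) => close_est h hS hl hψ
  have hKL : K ⊆ K ∪ S := subset_union_left
  generalize K ∪ S = L at hp hest hKL ⊢
  have hL := hp.2.1
  have hU : IsOpen Lᶜ := hL.isOpen_compl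
  have hnull : ∀ᵐ z : ℂ, z ∉ L := by
    have := hp.null
    rw [inter_univ] at this
    exact measure_eq_zero_iff_ae_notMem.1 this
  have hG : ∀ R, MemLp (gK L u) 2 (volume.restrict (closedBall 0 R)) := fun R =>
    (intOn_of_Dn hL (hp.2.2.2 0 R (subset_univ _)).1).2
  obtain ⟨Φ, ψ, hΦ, hΦB, hψ, hlim, hrep⟩ := proj hL hG (Real.sqrt_nonneg _) hest
  rw [Real.sq_sqrt ENNReal.toReal_nonneg] at hΦB
  have hF : ∀ R, MemLp (fun z => gK L u z - Φ z) 2 (volume.restrict (closedBall 0 R)) := fun R =>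
    (hG R).sub (hΦ.restrict _)
  have hE : ∀ n, MemLp (fun z => gK L (ψ n) z - Φ z) 2 volume := fun n => ((hψ n).memLp hL).sub hΦ
  have hdiv : ∀ χ, Test univ L χ → ∫ z, ⟪gK L u z - Φ z, gK L χ z⟫ = 0 := by
    intro χ hχ
    obtain ⟨x, r, -, h0⟩ := hχ.2.2.1
    have h1 := (close_inner (close_int (fun R => hΦ.restrict _) (hχ.memLp hL)
      fun z hz => gK_eq_zero_off h0 hz)).1
    simp only [inner_sub_left]
    rw [integral_sub (hp.inner_int hχ) h1, hrep χ hχ, sub_self]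
  have hw : ∀ n, LocallyLipschitzOn Lᶜ (fun z => u z + (-1 : ℝ) * ψ n z) := fun n => by
    rw [compl_eq_univ_sdiff]
    exact (close_grad hp (hψ n) (-1)).1
  have hwg : ∀ n, ∀ᵐ z : ℂ, ∇ (fun z => u z + (-1 : ℝ) * ψ n z) z =
      (gK L u z - Φ z) - (gK L (ψ n) z - Φ z) := fun n => by
    filter_upwards [(close_grad hp (hψ n) (-1)).2, hnull] with z hz hzL
    rw [gK_of_notMem _ hzL] at hz
    rw [hz]
    push_cast
    ring
  obtain ⟨k, hk, hkF⟩ : ∃ k : ℂ → ℂ, DifferentiableOn ℂ k Lᶜ ∧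
      ∀ᵐ z : ℂ, z ∈ Lᶜ → conj (gK L u z - Φ z) = k z := by
    refine wey hU (LocallyIntegrable.locallyIntegrableOn (fun z => ?_) _) fun φ hφ hc hs => ?_
    · refine ⟨closedBall 0 (‖z‖ + 1), closedBall_mem_nhds_of_mem (by simp), ?_⟩
      have : IsFiniteMeasure (volume.restrict (closedBall (0 : ℂ) (‖z‖ + 1))) :=
        isFiniteMeasure_restrict.2 measure_closedBall_lt_top.ne
      exact (conjCLE.toContinuousLinearMap.comp_memLp' (hF _)).integrable one_le_two
    · obtain ⟨r, hr⟩ := hc.isCompact.isBounded.subset_closedBall 0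
      have h0 : ∀ z ∉ closedBall (0 : ℂ) r, φ z = 0 := fun z hz =>
        image_eq_zero_of_notMem_tsupport fun hz' => hz (hr hz')
      have hT : Test univ L φ := test_of_contDiff (hφ.of_le (by simp)) (subset_univ _) h0
      have hk := hT.memLp hL
      have hk0 : ∀ z ∉ closedBall (0 : ℂ) r, gK L φ z = 0 := fun z hz => gK_eq_zero_off h0 hz
      have hres : ∀ f : ℂ → ℂ, ∫ z in Lᶜ, f z * ∇ φ z = ∫ z, f z * gK L φ z := by
        intro f
        rw [← integral_indicator hU.measurableSet]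
        refine integral_congr_ae (ae_of_all _ fun z => ?_)
        by_cases hz : z ∈ L
        · simp [gK_of_mem _ hz, hz]
        · simp [gK_of_notMem _ hz, hz]
      have hi := close_int hF hk hk0
      rw [hres]
      refine Complex.ext ?_ ?_
      · rw [(close_inner hi).2, hdiv φ hT, zero_re]
      · refine close_lim hE hk hlim fun n => ?_
        have hc0 := curl0 hU (lipWG hU (hw n)) hφ hc hs
        have hi' := close_int (fun R => (hE n).restrict _) hk hk0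
        rw [hres, integral_congr_ae (g := fun z => conj (gK L u z - Φ z) * gK L φ z -
          conj (gK L (ψ n) z - Φ z) * gK L φ z) ?_, integral_sub hi hi', sub_im] at hc0
        · linarith
        · filter_upwards [hwg n] with z hz
          rw [hz, map_sub, sub_mul]
  have hkF' : ∀ᵐ z : ℂ, conj (k z) = gK L u z - Φ z := by
    filter_upwards [hkF, hnull] with z hz hzL
    rw [← hz hzL, conj_conj]
  obtain ⟨v, hv, hvg⟩ : ∃ v : ℂ → ℝ, ContDiffOn ℝ 1 v Lᶜ ∧ ∀ z ∉ L, ∇ v z = conj (k z) := by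
    refine pot2 hL (continuous_conj.comp_continuousOn hk.continuousOn) hw ?_
    have ht := ENNReal.tendsto_ofReal hlim
    rw [ENNReal.ofReal_zero] at ht
    refine tendsto_of_tendsto_of_tendsto_of_le_of_le tendsto_const_nhds ht (fun n => zero_le)
      fun n => ?_
    show _ ≤ ENNReal.ofReal _
    rw [← close_lint (hE n)]
    refine (setLIntegral_le_lintegral _ _).trans (le_of_eq (lintegral_congr_ae ?_))
    filter_upwards [hwg n, hkF'] with z h1 h2
    rw [h1, h2, sub_sub_cancel_left, enorm_neg]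
  have hvF : ∀ᵐ z : ℂ, gK L v z = gK L u z - Φ z := by
    filter_upwards [hkF', hnull] with z hz hzL
    rw [gK_of_notMem _ hzL, hvg z hzL, hz]
  refine ⟨v, ⟨le_rfl, fun _ => 0, 0, ⟨⟨isOpen_univ, hL, by rwa [← compl_eq_univ_sdiff],
    fun x r hb => ⟨?_, (hp.2.2.2 x r hb).2⟩⟩, measurable_const, by simp, fun χ hχ => ?_⟩, by simp,
    by simp⟩, ?_⟩
  · have hsub : closedBall x r ⊆ closedBall 0 (‖x‖ + r) :=
      closedBall_subset_closedBall' (by simp [add_comm])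
    refine ne_top_of_le_ne_top ?_ (Dn_mono_set v L hsub)
    rw [Dn, lintegral_congr_ae (g := fun z => ‖gK L u z - Φ z‖ₑ ^ 2) (ae_restrict_of_ae ?_),
      close_lint (hF _)]
    · exact ENNReal.ofReal_ne_top
    · filter_upwards [hvF] with z hz
      rw [hz]
  · simp only [zero_mul, integral_zero, neg_zero]
    rw [← hdiv χ hχ]
    refine integral_congr_ae ?_
    filter_upwards [hvF] with z hz
    rw [hz]
  · rw [lintegral_congr_ae (g := fun z => ‖Φ z‖ₑ ^ 2) ?_, close_lint hΦ]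
    · exact (ENNReal.ofReal_le_ofReal hΦB).trans (ENNReal.ofReal_toReal hl).le
    · filter_upwards [hvF, hnull] with z hz hzL
      rw [hz, gK_of_notMem u hzL, gK_of_notMem u fun hzK => hzL (hKL hzK), sub_sub_cancel]

end Vale.Agent.P128
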