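import Vale.Agent.P128.Top
import Vale.Agent.P128.Eil

/-!
# P128 Cls

Plane topology. `sep`: in the compact Hausdorff space `X` components are intersections of clopen
sets (`connectedComponent_eq_iInter_isClopen`). `reach`: otherwise separate the component of `p` in
`K ∩ closedBall p R` from the compact `K ∩ sphere p R` by a clopen set, which is a compact isolated piece.
`pick`: maximize `(R - ‖a - p‖)/‖a - b‖` on `U ×ˢ V`. `classes`: `Join K univ` is an equivalence
relation on `K`; `m` inequivalent points give `m` disjoint continua crossing every sphere of radius in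
`(R₀, R)`, so `m (R - R₀) ≤ 7 R` (`eil_low`), `m ≤ 7`; take a maximal finite family of inequivalent points
and let `S` be the union of the segments from one of them to the others.
-/

namespace Vale.Agent.P128

open Set Metric MeasureTheory Filter Topology Complex
open scoped ENNReal ContDiff RealInnerProductSpace Gradient Real ComplexConjugate

variable {Ω K L A S T U O X Γ P M₀ K₀ K₁ : Set ℂ} {u v w g hh ψ η : ℂ → ℝ} {G : ℂ → ℂ}
  {π₀ π₁ : ℂ → Set ℂ} {x y z c p q e a₀ F : ℂ} {lam H r s R a b t M Θ ρ ε δ d : ℝ} {n : ℕ}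

theorem cls_refl (hp : p ∈ K) : Join K univ p p :=
  ⟨{p}, isCompact_singleton, isPreconnected_singleton, by simpa using hp, rfl, rfl⟩

theorem cls_cross (hK : IsClosed K) (hN : NoIso K) (hp : p ∈ K) (hs : ‖p‖ ≤ s) :
    ∃ z, z ∈ K ∩ sphere 0 s ∧ Join K univ p z := by
  have h0 := norm_nonneg p
  obtain ⟨q, hq, Γ, h1, h2, h3, h4, h5⟩ := reach (R := s + ‖p‖ + 1) hK hN hp (by linarith)
  have h6 := norm_sub_le q p
  obtain ⟨z, hz, hzs⟩ := cross_sph (x := 0) (s := s) h2 h4 h5 (by rwa [sub_zero])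
    (by rw [sub_zero]; linarith)
  exact ⟨z, ⟨(h3 hz).1, by rwa [mem_sphere, dist_eq_norm]⟩, Γ, h1, h2, h3, h4, hz⟩

theorem cls_card (hK : IsClosed K) (hN : NoIso K) {F : Finset ℂ} (hF : ∀ p ∈ F, p ∈ K)
    (hI : ∀ p ∈ F, ∀ q ∈ F, Join K univ p q → p = q) (hs : ∀ p ∈ F, ‖p‖ ≤ s) :
    (F.card : ℕ∞) ≤ (K ∩ sphere 0 s).encard := by
  have h1 : ∀ p : ℂ, ∃ z, p ∈ F → z ∈ K ∩ sphere 0 s ∧ Join K univ p z := by
    intro p
    by_cases hp : p ∈ F
    · obtain ⟨z, hz⟩ := cls_cross hK hN (hF p hp) (hs p hp)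
      exact ⟨z, fun _ => hz⟩
    · exact ⟨0, fun h => absurd h hp⟩
  choose f hf using h1
  rw [← encard_coe_eq_coe_finsetCard]
  refine encard_le_encard_of_injOn (f := f) (fun p hp => (hf p hp).1) fun p hp q hq hpq => ?_
  refine hI p hp q hq ((hf p hp).2.trans ?_)
  rw [hpq]
  exact (hf q hq).2.symm

theorem cls_rad (F : Finset ℂ) : ∃ R₀ : ℝ, 0 ≤ R₀ ∧ ∀ p ∈ F, ‖p‖ ≤ R₀ :=
  ⟨∑ p ∈ F, ‖p‖, Finset.sum_nonneg fun _ _ => norm_nonneg _,
    fun _ hp => Finset.single_le_sum (f := fun p : ℂ => ‖p‖) (fun _ _ => norm_nonneg _) hp⟩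

theorem cls_bound (hK : IsClosed K) (hN : NoIso K)
    (hL : ∀ R, 0 < R → μH[1] (K ∩ closedBall 0 R) ≤ ENNReal.ofReal (7 * R))
    {F : Finset ℂ} (hF : ∀ p ∈ F, p ∈ K)
    (hI : ∀ p ∈ F, ∀ q ∈ F, Join K univ p q → p = q) : F.card ≤ 7 := by
  by_contra hc
  have h8 : 8 ≤ F.card := by omega
  obtain ⟨R₀, h0, hR₀⟩ := cls_rad F
  have h1 := eil_low (n := 8) K (f := fun z => ‖z‖) lipschitzWith_one_norm
    (J := Icc R₀ (8 * R₀ + 1)) measurableSet_Icc fun t ht => by
      have h2 := cls_card hK hN hF hI fun p hp => (hR₀ p hp).trans ht.1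
      have h3 : sphere (0 : ℂ) t = (fun z : ℂ => ‖z‖) ⁻¹' {t} := by
        ext z; simp
      rw [h3] at h2
      exact le_trans (by exact_mod_cast h8) h2
  have h2 : K ∩ (fun z : ℂ => ‖z‖) ⁻¹' Icc R₀ (8 * R₀ + 1) ⊆ K ∩ closedBall 0 (8 * R₀ + 1) :=
    fun z hz => ⟨hz.1, mem_closedBall_zero_iff.2 hz.2.2⟩
  have h3 := (h1.trans (measure_mono h2)).trans (hL _ (by linarith))
  rw [Real.volume_Icc, ← ENNReal.ofReal_natCast, ← ENNReal.ofReal_mul (by positivity),
    ENNReal.ofReal_le_ofReal_iff (by linarith)] at h3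
  push_cast at h3
  linarith

theorem classes (hK : IsClosed K) (hN : NoIso K)
    (hL : ∀ R, 0 < R → μH[1] (K ∩ closedBall 0 R) ≤ ENNReal.ofReal (7 * R)) (hc : ¬ CC K) :
    ∃ (S : Set ℂ) (R₀ : ℝ), IsCompact S ∧ μH[1] S ≠ ⊤ ∧ CC (K ∪ S) ∧
      ∀ s, R₀ ≤ s → 2 ≤ (K ∩ sphere 0 s).encard := by
  classical
  let Q : ℕ → Prop := fun n => ∃ F : Finset ℂ, (∀ p ∈ F, p ∈ K) ∧
    (∀ p ∈ F, ∀ q ∈ F, Join K univ p q → p = q) ∧ F.card = n
  have hQ2 : Q 2 := by
    unfold CC at hc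
    push Not at hc
    obtain ⟨p, hp, q, hq, hpq⟩ := hc
    have hne : p ≠ q := fun e => hpq (e ▸ cls_refl hp)
    refine ⟨{p, q}, ?_, ?_, Finset.card_pair hne⟩
    · intro z hz
      rcases Finset.mem_insert.1 hz with rfl | hz
      · exact hp
      · rw [Finset.mem_singleton.1 hz]; exact hq
    · intro a ha b hb hab
      simp only [Finset.mem_insert, Finset.mem_singleton] at ha hb
      rcases ha with rfl | rfl <;> rcases hb with rfl | rfl
      · rfl
      · exact absurd hab hpq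
      · exact absurd hab.symm hpq
      · rfl
  obtain ⟨F, hF, hI, hcard⟩ : Q (Nat.findGreatest Q 7) := Nat.findGreatest_spec (by norm_num) hQ2
  have h2 : 2 ≤ F.card := hcard ▸ Nat.le_findGreatest (by norm_num) hQ2
  have hmax : ∀ z ∈ K, ∃ f ∈ F, Join K univ f z := by
    intro z hz
    by_contra hno
    push Not at hno
    have hzF : z ∉ F := fun h => hno z h (cls_refl hz)
    have h3 : ∀ p ∈ insert z F, p ∈ K := by
      intro p hp
      rcases Finset.mem_insert.1 hp with rfl | hp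
      · exact hz
      · exact hF p hp
    have h4 : ∀ p ∈ insert z F, ∀ q ∈ insert z F, Join K univ p q → p = q := by
      intro p hp q hq hpq
      rcases Finset.mem_insert.1 hp with e1 | hp <;> rcases Finset.mem_insert.1 hq with e2 | hq
      · rw [e1, e2]
      · exact absurd (e1 ▸ hpq.symm) (hno q hq)
      · exact absurd (e2 ▸ hpq) (hno p hp)
      · exact hI p hp q hq hpq
    have h5 := Nat.le_findGreatest (P := Q) (cls_bound hK hN hL h3 h4) ⟨_, h3, h4, rfl⟩
    rw [Finset.card_insert_of_notMem hzF, ← hcard] at h5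
    omega
  obtain ⟨p₀, hp₀⟩ : F.Nonempty := Finset.card_pos.1 (by omega)
  obtain ⟨R₀, -, hR₀⟩ := cls_rad F
  have hseg : ∀ f : ℂ, IsCompact (segment ℝ p₀ f) := fun f => by
    rw [segment_eq_image_lineMap]
    exact isCompact_Icc.image AffineMap.lineMap_continuous
  have hj : ∀ f ∈ F, ∀ z ∈ segment ℝ p₀ f, Join (K ∪ ⋃ f ∈ F, segment ℝ p₀ f) univ p₀ z :=
    fun f hf z hz => ⟨segment ℝ p₀ f, hseg f, (convex_segment _ _).isPreconnected,
      fun w hw => ⟨Or.inr (mem_biUnion hf hw), mem_univ _⟩, left_mem_segment _ _ _, hz⟩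
  have hall : ∀ z ∈ K ∪ ⋃ f ∈ F, segment ℝ p₀ f,
      Join (K ∪ ⋃ f ∈ F, segment ℝ p₀ f) univ p₀ z := by
    rintro z (hz | hz)
    · obtain ⟨f, hf, hfz⟩ := hmax z hz
      exact (hj f hf f (right_mem_segment _ _ _)).trans (hfz.mono subset_union_left subset_rfl)
    · obtain ⟨f, hf, hz⟩ := mem_iUnion₂.1 hz
      exact hj f hf z hz
  refine ⟨⋃ f ∈ F, segment ℝ p₀ f, R₀, F.isCompact_biUnion fun f _ => hseg f, ?_,
    fun a ha b hb => (hall a ha).symm.trans (hall b hb), fun s hs => ?_⟩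
  · refine ne_top_of_le_ne_top ?_ (measure_biUnion_finset_le F _)
    refine ENNReal.sum_ne_top.2 fun f _ => ?_
    rw [hausdorffMeasure_segment]
    exact edist_ne_top _ _
  · exact le_trans (by exact_mod_cast h2) (cls_card hK hN hF hI fun p hp => (hR₀ p hp).trans hs)

end Vale.Agent.P128
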