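import Vale.Agent.P128.Hext
import Vale.Agent.P128.Arcs

/-!
# P128 Cone

Cone competitors (`hext` + `glueR`, labels by `lc_rp`). `cone_zero`: `T = ∅`, `β = 1`, `m` the
mean, `wir_per`. `cone_gap`: `T = K ∩ sphere`, `β = π/Θ`, `m` from `arc_mean`, `cone_len`.
-/

namespace Vale.Agent.P128

open Set Metric MeasureTheory Filter Topology Complex
open scoped ENNReal ContDiff RealInnerProductSpace Gradient Real ComplexConjugate

variable {Ω K L A S T U O X Γ P M₀ K₀ K₁ : Set ℂ} {u v w g hh ψ η : ℂ → ℝ} {G : ℂ → ℂ}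
  {π₀ π₁ : ℂ → Set ℂ} {x y z c p q e a₀ F : ℂ} {lam H r s R a b t M Θ ρ ε δ d : ℝ} {n : ℕ}

theorem cone_core {β : ℝ} {m : ℂ → ℝ} (h : MM Ω lam u K π₀) (hb : closedBall x s ⊆ Ω)
    (hg : Good u K x s) (hβ : 0 < β) (hm : LC (sphere x s \ K) m)
    (h2 : IntervalIntegrable (fun θ => (u (circleMap x s θ) - m (circleMap x s θ)) ^ 2) volume 0
      (2 * π)) :
    Dr u K x s + Lr K x s ≤
      β / 2 * (∫ θ in (0 : ℝ)..2 * π, (u (circleMap x s θ) - m (circleMap x s θ)) ^ 2) +
        1 / (2 * β) * A2 u K x s + Nn K x s * s + lam * s ^ 2 := by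
  have hP := h.pre
  have hs : 0 < s := hg.1
  have hTf : (K ∩ sphere x s).Finite := hg.2.1
  have hT : K ∩ sphere x s ⊆ sphere x s := inter_subset_right
  have hsub : sphere x s \ (K ∩ sphere x s) ⊆ Ω \ K := fun z hz =>
    ⟨hb (sphere_subset_closedBall hz.1), fun hK => hz.2 ⟨hK, hz.1⟩⟩
  have hsub' : sphere x s \ (K ∩ sphere x s) ⊆ sphere x s \ K := fun z hz =>
    ⟨hz.1, fun hK => hz.2 ⟨hK, hz.1⟩⟩
  have hd : ∀ᵐ θ : ℝ, θ ∈ Ioo 0 (0 + 2 * π) →
      HasDerivAt (fun θ => u (circleMap x s θ)) (ut u K x s θ) θ := by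
    filter_upwards [ae_notMem hs hTf] with θ hθ _
    exact circ_deriv hP ⟨hb (sphere_subset_closedBall (circleMap_mem_sphere x hs.le θ)), hθ⟩
  obtain ⟨w, hw, hwu, hD⟩ := hext (a := 0) (β := β) (φ := u) (m := m) hs hβ hT hTf
    (hP.lip.mono hsub) (hm.mono hsub') hd (hg.int hP.2.1 _ _).2.2.1 (by rwa [zero_add])
  rw [zero_add] at hD
  obtain ⟨c1, c2⟩ := cone_sub (F := x) (mem_ball_self hs) hT
  have hl : μH[1] (cone x (K ∩ sphere x s)) ≤ ENNReal.ofReal (Nn K x s * s) := by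
    refine (cone_len hTf x).trans (le_of_eq ?_)
    congr 1
    rw [Finset.sum_congr rfl (g := fun _ => s), Finset.sum_const, nsmul_eq_mul]
    · unfold Nn
      rw [Set.ncard_eq_toFinset_card _ hTf]
    · intro p hp
      rw [Finite.mem_toFinset] at hp
      exact mem_sphere_iff_norm.1 hp.2
  have hI : 0 ≤ ∫ θ in (0 : ℝ)..2 * π, (u (circleMap x s θ) - m (circleMap x s θ)) ^ 2 :=
    intervalIntegral.integral_nonneg (by positivity) fun θ _ => sq_nonneg _
  have hA := (A2_nonneg u K x s).1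
  have hdiff : sphere x s \ cone x (K ∩ sphere x s) ⊆ sphere x s \ (K ∩ sphere x s) :=
    fun z hz => ⟨hz.1, fun hK => hz.2 (by
      have : z ∈ cone x (K ∩ sphere x s) ∩ sphere x s := by rw [c2]; exact hK
      exact this.1)⟩
  have key := glueR (π₁ := fun z => π₀ (rp x s z)) h hs hb (cone_closed hTf x).isClosed c1
    (fun z hz => by
      have : z ∈ cone x (K ∩ sphere x s) ∩ sphere x s := by rw [c2]; exact hz
      exact this.1) hw (lc_rp hs hT (h.2.1.mono hsub))
    (fun z hz => ⟨hwu z (hdiff hz), by rw [(rp_facts hs hT).2.2.2 z hz.1]⟩)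
    (add_nonneg (mul_nonneg (by positivity) hI) (mul_nonneg (by positivity) hA))
    (by positivity) hD hl
  have hL := Lr_le_Lc (hP.2.2.2 x s hb).2
  linarith

theorem cone_zero (h : MM Ω lam u K π₀) (hb : closedBall x s ⊆ Ω) (hg : Good u K x s)
    (hn : K ∩ sphere x s = ∅) : Dr u K x s + Lr K x s ≤ A2 u K x s + lam * s ^ 2 := by
  have hP := h.pre
  have hs : 0 < s := hg.1
  have hK : ∀ θ, circleMap x s θ ∉ K := fun θ hθ => by
    have : circleMap x s θ ∈ K ∩ sphere x s := ⟨hθ, circleMap_mem_sphere x hs.le θ⟩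
    rw [hn] at this
    exact this
  have hF : FreeArc K x s 0 (0 + 2 * π) :=
    ⟨by have := Real.pi_pos; linarith, le_rfl, fun t _ => hK t⟩
  have hp := arc_prim hP (sphere_subset_closedBall.trans hb) hg hF
  have h0 : ∫ t in (0 : ℝ)..0 + 2 * π, ut u K x s t = 0 := by
    rw [intervalIntegral.integral_eq_sub_of_hasDerivAt
      (f := fun θ => u (circleMap x s θ)) (fun θ _ => circ_deriv hP
        ⟨hb (sphere_subset_closedBall (circleMap_mem_sphere x hs.le θ)), hK θ⟩) hp.2.1,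
      periodic_circleMap x s 0, sub_self]
  have hw := wir_per hp h0
  have hi := (hp.int (av (fun θ => u (circleMap x s θ)) 0 (0 + 2 * π))).2
  rw [zero_add] at hw hi
  have key := cone_core (β := 1) (m := fun _ => av (fun θ => u (circleMap x s θ)) 0 (2 * π)) h hb
    hg one_pos (fun z _ => Eventually.of_forall fun _ => rfl) hi
  have hN : Nn K x s = 0 := by
    unfold Nn
    rw [hn, Set.ncard_empty]
  have hA : A2 u K x s = ∫ θ in (0 : ℝ)..2 * π, ut u K x s θ ^ 2 := rfl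
  rw [hN] at key
  push_cast at key
  linarith

theorem cone_gap (h : MM Ω lam u K π₀) (hb : closedBall x s ⊆ Ω) (hg : Good u K x s)
    (hn : (K ∩ sphere x s).Nonempty) (hΘ : MaxGap K x s Θ) :
    Dr u K x s + Lr K x s ≤ Nn K x s * s + Θ / π * A2 u K x s + lam * s ^ 2 := by
  have hΘ0 : 0 < Θ := hΘ.pos hg.1 hg.2.1
  have hπ := Real.pi_pos
  obtain ⟨m, hm, -, -, hi, hw⟩ := arc_mean h.pre (sphere_subset_closedBall.trans hb) hg hn hΘ
  have key := cone_core (β := π / Θ) h hb hg (by positivity) hm hi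
  have h1 := mul_le_mul_of_nonneg_left hw (show 0 ≤ π / Θ / 2 by positivity)
  have e : π / Θ / 2 * ((Θ / π) ^ 2 * A2 u K x s) + 1 / (2 * (π / Θ)) * A2 u K x s =
      Θ / π * A2 u K x s := by
    field_simp
    ring
  linarith

theorem cone_all (h : MM Ω lam u K π₀) (hb : closedBall x s ⊆ Ω) (hg : Good u K x s) :
    Dr u K x s + Lr K x s ≤ Nn K x s * s + 2 * A2 u K x s + lam * s ^ 2 := by
  have hA := (A2_nonneg u K x s).1
  rcases (K ∩ sphere x s).eq_empty_or_nonempty with hn | hn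
  · have := cone_zero h hb hg hn
    have h1 : 0 ≤ (Nn K x s : ℝ) * s := mul_nonneg (Nat.cast_nonneg _) hg.1.le
    linarith
  · have := cone_gap h hb hg hn (maxGap_triv K x s)
    rwa [mul_div_cancel_right₀ _ Real.pi_pos.ne'] at this

end Vale.Agent.P128
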