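import Vale.Agent.P128.Hext
import Vale.Agent.P128.Arcs

/-!
# P128 Cone1

`cone_one`: let `p` be the point of `K` on the circle (any point if none), `c₀` a value of `u` on the
circle minus `p`; `|u - c₀| ≤ ω` there (`Prim.osc`, `freeArc_one`). `φ = c₀ + χ (u - c₀)` with
`χ z = clamp ((‖z - p‖/s - σ/2)/(σ/2))` in `[0,1]`, `T = ∅`, `m = c₀`; extra cut
`sphere ∩ closedBall p (σ s)` (`cap_len`); labels are constant on the circle minus `p`
(`sphere_diff_preconn`). `∫ φ'² ≤ 2 A2 + 2 (2/σ)² (πσ) ω²`. A smooth `χ` also works.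
`cone_thin`: `T = {circleMap x s a}`, `β = 1/2`; for `b' < b` close to `b` use the function equal to
`u (circleMap x s (min θ b'))` at angle `θ ∈ (a, a + 2π)` (define it on the circle through
`a + π + arg (-(z - x) * ex (-a))`), extra cut `circleMap x s '' Icc b' (a + 2π)` (`arc_len`), `wir_int`
on `(a, a + 2π)`, constant labels; let `b' → b`.
-/

namespace Vale.Agent.P128

open Set Metric MeasureTheory Filter Topology Complex
open scoped ENNReal ContDiff RealInnerProductSpace Gradient Real ComplexConjugate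

variable {Ω K L A S T U O X Γ P M₀ K₀ K₁ : Set ℂ} {u v w g hh ψ η : ℂ → ℝ} {G : ℂ → ℂ}
  {π₀ π₁ : ℂ → Set ℂ} {x y z c p q e a₀ F : ℂ} {lam H r s R a b t M Θ ρ ε δ d : ℝ} {n : ℕ}

/-- the cutoff near `p` -/
noncomputable def cone1_chi (p : ℂ) (t : ℝ) (z : ℂ) : ℝ := max 0 (min 1 (2 / t * ‖z - p‖ - 1))

theorem cone1_lip (p : ℂ) (ht : 0 < t) : LipschitzWith (2 / t).toNNReal (cone1_chi p t) := by
  refine LipschitzWith.const_max (LipschitzWith.const_min ?_ 1) 0
  refine LipschitzWith.of_dist_le_mul fun z w => ?_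
  have h0 : 0 ≤ 2 / t := by positivity
  rw [Real.coe_toNNReal _ h0, Real.dist_eq, sub_sub_sub_cancel_right, ← mul_sub, abs_mul,
    abs_of_nonneg h0, dist_eq_norm]
  refine mul_le_mul_of_nonneg_left ((abs_norm_sub_norm_le _ _).trans_eq ?_) h0
  rw [sub_sub_sub_cancel_right]

theorem cone1_abs (p : ℂ) (t : ℝ) (z : ℂ) : |cone1_chi p t z| ≤ 1 := by
  unfold cone1_chi
  rw [abs_of_nonneg (le_max_left _ _)]
  exact max_le zero_le_one (min_le_left _ _)

theorem cone1_one (ht : 0 < t) (h : t ≤ ‖z - p‖) : cone1_chi p t z = 1 := by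
  have : 2 ≤ 2 / t * ‖z - p‖ := by
    rw [div_mul_eq_mul_div, le_div_iff₀ ht]
    linarith
  unfold cone1_chi
  rw [min_eq_left (by linarith), max_eq_right zero_le_one]

theorem cone1_zero (ht : 0 < t) (h : ‖z - p‖ ≤ t / 2) : cone1_chi p t z = 0 := by
  have : 2 / t * ‖z - p‖ ≤ 1 := by
    rw [div_mul_eq_mul_div, div_le_iff₀ ht]
    linarith
  exact max_eq_left ((min_le_right _ _).trans (by linarith))

theorem cone1_far {σ θ : ℝ} (hs : 0 < s) (hσ : 0 < σ)
    (hθ : θ ∈ Ioo (a + 2 * σ) (a + 2 * π - 2 * σ)) :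
    σ * s ≤ ‖circleMap x s θ - circleMap x s a‖ := by
  have e : circleMap x s θ - circleMap x s a =
      s * cexp (a * I) * (cexp (I * (θ - a : ℝ)) - 1) := by
    rw [mul_sub, mul_assoc, ← Complex.exp_add]
    simp only [circleMap]
    rw [show (a : ℂ) * I + I * (θ - a : ℝ) = θ * I by push_cast; ring]
    ring
  have hπ : 1 / 2 ≤ 2 / π := by
    rw [le_div_iff₀ Real.pi_pos]
    linarith [Real.pi_lt_four]
  have key : ∀ y : ℝ, σ ≤ y → y ≤ π / 2 → σ / 2 ≤ Real.sin y := fun y h1 h2 => by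
    have := Real.mul_le_sin (hσ.le.trans h1) h2
    nlinarith
  have h3 : σ / 2 ≤ Real.sin ((θ - a) / 2) := by
    rcases le_total ((θ - a) / 2) (π / 2) with h | h
    · exact key _ (by linarith [hθ.1]) h
    · rw [← Real.sin_pi_sub]
      exact key _ (by linarith [hθ.2]) (by linarith)
  rw [e, norm_mul, norm_mul, Complex.norm_exp_I_mul_ofReal_sub_one, norm_exp_ofReal_mul_I,
    Complex.norm_of_nonneg hs.le, Real.norm_of_nonneg (by linarith)]
  nlinarith

theorem cone1_dom {f k : ℝ → ℝ} (hab : a ≤ b) (hk : IntervalIntegrable k volume a b)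
    (hf : AEStronglyMeasurable f (volume.restrict (Ioo a b))) (h0 : ∀ t, 0 ≤ f t)
    (h : ∀ t ∈ Ioo a b, f t ≤ k t) :
    IntervalIntegrable f volume a b ∧ ∫ t in a..b, f t ≤ ∫ t in a..b, k t := by
  have h1 : IntervalIntegrable f volume a b := by
    rw [intervalIntegrable_iff_integrableOn_Ioo_of_le hab] at hk ⊢
    exact Integrable.mono' hk hf (ae_restrict_of_forall_mem measurableSet_Ioo fun t ht => by
      rw [Real.norm_of_nonneg (h0 t)]
      exact h t ht)
  exact ⟨h1, intervalIntegral.integral_mono_on_of_le_Ioo hab h1 hk h⟩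

theorem cone1_int {σ : ℝ} {k : ℝ → ℝ} (hσ : 0 < σ) (hσ1 : σ ≤ 1) (hk : Measurable k)
    (h1 : ∀ t, |k t| ≤ 2 / σ) (h2 : ∀ t ∈ Ioo (a + 2 * σ) (a + 2 * π - 2 * σ), k t = 0) :
    IntervalIntegrable (fun t => k t ^ 2) volume a (a + 2 * π) ∧
      ∫ t in a..a + 2 * π, k t ^ 2 ≤ 16 / σ := by
  have hm : ∀ S : Set ℝ, AEStronglyMeasurable (fun t => k t ^ 2) (volume.restrict S) :=
    fun S => (hk.pow_const 2).aestronglyMeasurable
  have hb : ∀ t, k t ^ 2 ≤ (2 / σ) ^ 2 := fun t => by
    rw [← sq_abs]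
    exact pow_le_pow_left₀ (abs_nonneg _) (h1 t) 2
  have hπ := Real.pi_gt_three
  obtain ⟨i1, j1⟩ := cone1_dom (a := a) (b := a + 2 * σ) (by linarith)
    (intervalIntegrable_const (c := (2 / σ) ^ 2)) (hm _) (fun t => sq_nonneg _) fun t _ => hb t
  obtain ⟨i2, j2⟩ := cone1_dom (a := a + 2 * σ) (b := a + 2 * π - 2 * σ) (by linarith)
    (intervalIntegrable_const (c := (0 : ℝ))) (hm _) (fun t => sq_nonneg _) fun t ht => by
      rw [h2 t ht]
      norm_num
  obtain ⟨i3, j3⟩ := cone1_dom (a := a + 2 * π - 2 * σ) (b := a + 2 * π) (by linarith)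
    (intervalIntegrable_const (c := (2 / σ) ^ 2)) (hm _) (fun t => sq_nonneg _) fun t _ => hb t
  refine ⟨(i1.trans i2).trans i3, ?_⟩
  rw [← intervalIntegral.integral_add_adjacent_intervals (i1.trans i2) i3,
    ← intervalIntegral.integral_add_adjacent_intervals i1 i2]
  rw [intervalIntegral.integral_const, smul_eq_mul] at j1 j2 j3
  have e : σ * (2 / σ) ^ 2 = 16 / σ / 4 := by
    field_simp
    norm_num
  linarith

theorem cone_one {σ β : ℝ} (h : MM Ω lam u K π₀) (hb : closedBall x s ⊆ Ω) (hg : Good u K x s)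
    (hn : Nn K x s ≤ 1) (hσ : 0 < σ) (hσ1 : σ ≤ 1) (hβ : 0 < β) :
    Dr u K x s + Lr K x s ≤ 4 * σ * s + 4 * β * (∫ θ in (0 : ℝ)..2 * π, |ut u K x s θ|) ^ 2 +
      (A2 u K x s + 20 * (∫ θ in (0 : ℝ)..2 * π, |ut u K x s θ|) ^ 2 / σ) / β + lam * s ^ 2 := by
  have hs := hg.1
  have hP := h.pre
  have hK := hP.2.1
  have hπ := Real.pi_pos
  have hsph : sphere x s ⊆ Ω := sphere_subset_closedBall.trans hb
  obtain ⟨a, ha⟩ : ∃ a, K ∩ sphere x s ⊆ {circleMap x s a} := by
    rcases (K ∩ sphere x s).eq_empty_or_nonempty with h0 | ⟨p, hp⟩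
    · exact ⟨0, by simp [h0]⟩
    · obtain ⟨a, rfl⟩ : p ∈ range (circleMap x s) := by
        rw [range_circleMap, abs_of_pos hs]
        exact hp.2
      exact ⟨a, fun z hz => (Set.ncard_le_one hg.2.1).1 hn z hz _ hp⟩
  have hA := freeArc_one hs ha
  have hpr := arc_prim hP hsph hg hA
  have hω : ∫ θ in a..a + 2 * π, |ut u K x s θ| = ∫ θ in (0 : ℝ)..2 * π, |ut u K x s θ| := by
    have := Function.Periodic.intervalIntegral_add_eq ((ut_per u K x s).1.comp abs) a 0
    rwa [zero_add] at this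
  have hmid : a + π ∈ Ioo a (a + 2 * π) := ⟨by linarith, by linarith⟩
  have hosc : ∀ θ ∈ Ioo a (a + 2 * π), |u (circleMap x s θ) - u (circleMap x s (a + π))| ≤
      ∫ θ in (0 : ℝ)..2 * π, |ut u K x s θ| := fun θ hθ => hω ▸ hpr.osc hmid hθ
  generalize ∫ θ in (0 : ℝ)..2 * π, |ut u K x s θ| = W at hosc ⊢
  have hin : ∀ θ ∈ Ioo a (a + 2 * π), circleMap x s θ ∈ Ω \ K := fun θ hθ =>
    ⟨hsph (circleMap_mem_sphere x hs.le θ), hA.2.2 θ hθ⟩
  have hout : sphere x s \ {circleMap x s a} ⊆ Ω \ K := fun z hz =>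
    ⟨hsph hz.1, fun hk => hz.2 (ha ⟨hk, hz.1⟩)⟩
  have hσs : 0 < σ * s := mul_pos hσ hs
  have hpS : circleMap x s a ∈ sphere x s := circleMap_mem_sphere x hs.le a
  have hq : circleMap x s (a + π) ∈ sphere x s \ {circleMap x s a} := by
    refine ⟨circleMap_mem_sphere x hs.le _, fun h0 => ?_⟩
    have := cone1_far (x := x) (a := a) (θ := a + π) hs hσ
      ⟨by linarith [Real.pi_gt_three], by linarith [Real.pi_gt_three]⟩
    rw [mem_singleton_iff.1 h0, sub_self, norm_zero] at this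
    linarith
  generalize hc : u (circleMap x s (a + π)) = c₀ at hosc
  generalize hp : circleMap x s a = p at ha hout hpS hq
  have hχ := cone1_lip p hσs
  have hκ := hχ.comp (lipschitzWith_circleMap x s)
  obtain ⟨k1, k2⟩ := cone1_int (a := a) hσ hσ1
    (measurable_deriv (cone1_chi p (σ * s) ∘ circleMap x s))
    (fun t => (norm_deriv_le_of_lipschitz hκ).trans_eq (by
      rw [NNReal.coe_mul, Real.coe_toNNReal _ (by positivity), Real.coe_nnabs, abs_of_pos hs]
      field_simp))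
    (fun t ht => by
      have : (cone1_chi p (σ * s) ∘ circleMap x s) =ᶠ[𝓝 t] fun _ => 1 :=
        Filter.mem_of_superset (Ioo_mem_nhds ht.1 ht.2) fun y hy =>
          cone1_one hσs (hp ▸ cone1_far hs hσ hy)
      rw [this.deriv_eq, deriv_const])
  have hab : a ≤ a + 2 * π := by linarith
  have mu : AEStronglyMeasurable (fun θ => u (circleMap x s θ))
      (volume.restrict (Ioo a (a + 2 * π))) :=
    ((intervalIntegrable_iff_integrableOn_Ioo_of_le hab).1 (hpr.int 0).1).aestronglyMeasurable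
  have mt : AEStronglyMeasurable (ut u K x s) (volume.restrict (Ioo a (a + 2 * π))) :=
    ((intervalIntegrable_iff_integrableOn_Ioo_of_le hab).1 hpr.2.1).aestronglyMeasurable
  have mκ : AEStronglyMeasurable (cone1_chi p (σ * s) ∘ circleMap x s)
      (volume.restrict (Ioo a (a + 2 * π))) := hκ.continuous.aestronglyMeasurable
  have hsq : ∀ θ ∈ Ioo a (a + 2 * π), (u (circleMap x s θ) - c₀) ^ 2 ≤ W ^ 2 := fun θ hθ => by
    rw [← sq_abs]
    exact pow_le_pow_left₀ (abs_nonneg _) (hosc θ hθ) 2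
  have hχ2 : ∀ z, cone1_chi p (σ * s) z ^ 2 ≤ 1 := fun z =>
    (sq_le_one_iff_abs_le_one _).2 (cone1_abs _ _ _)
  obtain ⟨i1, j1⟩ := cone1_dom (f := fun θ => (deriv (cone1_chi p (σ * s) ∘ circleMap x s) θ *
      (u (circleMap x s θ) - c₀) + (cone1_chi p (σ * s) ∘ circleMap x s) θ * ut u K x s θ) ^ 2)
    hab ((k1.const_mul (2 * W ^ 2)).add (hpr.2.2.1.const_mul 2))
    ((((measurable_deriv _).aestronglyMeasurable.mul (mu.sub aestronglyMeasurable_const)).add
      (mκ.mul mt)).pow 2) (fun _ => sq_nonneg _) fun θ hθ => by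
      have b1 := mul_le_mul_of_nonneg_left (hsq θ hθ)
        (sq_nonneg (deriv (cone1_chi p (σ * s) ∘ circleMap x s) θ))
      have b2 := mul_le_mul_of_nonneg_right (hχ2 (circleMap x s θ)) (sq_nonneg (ut u K x s θ))
      simp only [Function.comp_apply]
      nlinarith [sq_nonneg (deriv (cone1_chi p (σ * s) ∘ circleMap x s) θ *
        (u (circleMap x s θ) - c₀) - cone1_chi p (σ * s) (circleMap x s θ) * ut u K x s θ)]
  obtain ⟨i2, j2⟩ := cone1_dom (f := fun θ => (c₀ + cone1_chi p (σ * s) (circleMap x s θ) *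
      (u (circleMap x s θ) - c₀) - c₀) ^ 2) hab (intervalIntegrable_const (c := W ^ 2))
    (((aestronglyMeasurable_const.add (mκ.mul (mu.sub aestronglyMeasurable_const))).sub
      aestronglyMeasurable_const).pow 2) (fun _ => sq_nonneg _) fun θ hθ => by
      rw [add_sub_cancel_left, mul_pow]
      exact (mul_le_of_le_one_left (sq_nonneg _) (hχ2 _)).trans (hsq θ hθ)
  rw [intervalIntegral.integral_add (k1.const_mul _) (hpr.2.2.1.const_mul 2),
    intervalIntegral.integral_const_mul, intervalIntegral.integral_const_mul,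
    (A2_shift u K x s a).1] at j1
  rw [intervalIntegral.integral_const, smul_eq_mul, add_sub_cancel_left] at j2
  have hφ : LocallyLipschitzOn (sphere x s \ ∅)
      fun z => c₀ + cone1_chi p (σ * s) z * (u z - c₀) := by
    intro z hz
    by_cases hzp : z = p
    · refine ⟨0, ball p (σ * s / 2),
        mem_nhdsWithin_of_mem_nhds (hzp ▸ ball_mem_nhds z (by positivity)), fun y hy y' hy' => ?_⟩
      simp only [cone1_zero hσs (mem_ball_iff_norm.1 hy).le,
        cone1_zero hσs (mem_ball_iff_norm.1 hy').le, zero_mul, edist_self, zero_le]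
    · have hl : LocallyLipschitzOn (Ω \ K) fun z => c₀ + cone1_chi p (σ * s) z * (u z - c₀) :=
        lip_add (LipschitzWith.const c₀).locallyLipschitz.locallyLipschitzOn
          (lip_mul hχ.locallyLipschitz.locallyLipschitzOn
            (lip_add hP.lip (LipschitzWith.const (-c₀)).locallyLipschitz.locallyLipschitzOn))
      have hz' := hout ⟨hz.1, hzp⟩
      obtain ⟨C, t, ht, hl⟩ := hl hz'
      rw [hP.isOpen.nhdsWithin_eq hz'] at ht
      exact ⟨C, t, mem_nhdsWithin_of_mem_nhds ht, hl⟩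
  obtain ⟨w, w1, w2, w3⟩ := hext (x := x) (T := ∅) (a := a) (m := fun _ => c₀) hs hβ
    (empty_subset _) finite_empty hφ (fun _ _ => Eventually.of_forall fun _ => rfl)
    (hκ.ae_differentiableAt_real.mono fun θ hθ hI =>
      (hθ.hasDerivAt.fun_mul ((circ_deriv hP (hin θ hI)).sub_const c₀)).const_add c₀) i1 i2
  have hcs := cone_sub (T := ∅) (mem_ball_self hs : x ∈ ball x s) (empty_subset _)
  have hA2 := (A2_nonneg u K x s).1
  have key := glueR (L := cone x ∅ ∪ sphere x s ∩ closedBall p (σ * s))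
    (π₁ := fun _ => π₀ (circleMap x s (a + π)))
    (a := 4 * β * W ^ 2 + (A2 u K x s + 20 * W ^ 2 / σ) / β) (b := 4 * (σ * s)) h hs hb
    ((cone_closed finite_empty x).isClosed.union (isClosed_sphere.inter isClosed_closedBall))
    (union_subset hcs.1 (inter_subset_left.trans sphere_subset_closedBall))
    (fun z hz => Or.inr ⟨hz.2, by
      rw [mem_singleton_iff.1 (ha hz)]
      exact mem_closedBall_self hσs.le⟩)
    (w1.mono (sdiff_subset_sdiff_right subset_union_left))
    (fun _ _ => Eventually.of_forall fun _ => rfl)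
    (fun z hz => by
      have h1 : σ * s < ‖z - p‖ :=
        not_le.1 fun h1 => hz.2 (Or.inr ⟨hz.1, mem_closedBall_iff_norm.2 h1⟩)
      refine ⟨?_, h.2.1.eq hout (sphere_diff_preconn subsingleton_singleton x s) hq
        ⟨hz.1, fun h0 => ?_⟩⟩
      · rw [w2 z ⟨hz.1, notMem_empty z⟩, cone1_one hσs h1.le]
        ring
      · rw [mem_singleton_iff.1 h0, sub_self, norm_zero] at h1
        linarith)
    (by positivity) (by positivity)
    ((Dn_anti w subset_union_left _).trans (w3.trans (ENNReal.ofReal_le_ofReal (by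
      have b1 := mul_le_mul_of_nonneg_left j2 (by positivity : 0 ≤ β / 2)
      have b2 := mul_le_mul_of_nonneg_left j1 (by positivity : 0 ≤ 1 / (2 * β))
      have b3 := mul_le_mul_of_nonneg_left k2 (by positivity : 0 ≤ 1 / (2 * β) * (2 * W ^ 2))
      have b4 := mul_le_mul_of_nonneg_left Real.pi_lt_four.le (by positivity : 0 ≤ β * W ^ 2)
      have b5 : 0 ≤ W ^ 2 / σ / β := by positivity
      have e1 : (A2 u K x s + 20 * W ^ 2 / σ) / β =
          1 / (2 * β) * (2 * A2 u K x s) + 20 * (W ^ 2 / σ / β) := by field_simp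
      have e2 : 1 / (2 * β) * (2 * W ^ 2) * (16 / σ) = 16 * (W ^ 2 / σ / β) := by field_simp
      rw [e1]
      linarith))))
    ((measure_union_le _ _).trans (by
      rw [len_finite (S := cone x ∅) (by simp [cone]), zero_add]
      exact cap_len hpS hσs.le))
  have := Lr_le_Lc (hP.2.2.2 x s hb).2
  linarith

end Vale.Agent.P128
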