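import Vale.Agent.P128.Hext
import Vale.Agent.P128.Arcs

/-!
# P128 Cone2

`cone_one`: let `p` be the point of `K` on the circle (any point if none), `c₀` a value of `u` on the
circle minus `p`; `|u - c₀| ≤ ω` there (`Prim.osc`, `freeArc_one`). `φ = c₀ + χ (u - c₀)` with
`χ z = clamp ((‖z - p‖/s - σ/2)/(σ/2))` in `[0,1]`, `T = ∅`, `m = c₀`; extra cut
`sphere ∩ closedBall p (σ s)` (`cap_len`); labels are constant on the circle minus `p`
(`sphere_diff_preconn`). `∫ φ'² ≤ 2 A2 + 2 (2/σ)² (πσ) ω²`. A smooth `χ` also works.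
`cone_thin`: `T = {circleMap x s a}`, `β = 1/2`; for `b' < b` close to `b` use the function equal to
`u (circleMap x s (min θ b'))` at angle `θ ∈ (a, a + 2π)` (define it on the circle through
`a + π + arg (-(z - x) * ex (-a))`), extra cut `circleMap x s '' Icc b' (a + 2π)` (`arc_len`), `wir_int`
on `(a, a + 2π)`, constant labels; let `b' → b`.
-/

namespace Vale.Agent.P128

open Set Metric MeasureTheory Filter Topology Complex
open scoped ENNReal ContDiff RealInnerProductSpace Gradient Real ComplexConjugate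

variable {Ω K L A S T U O X Γ P M₀ K₀ K₁ : Set ℂ} {u v w g hh ψ η : ℂ → ℝ} {G : ℂ → ℂ}
  {π₀ π₁ : ℂ → Set ℂ} {x y z c p q e a₀ F : ℂ} {lam H r s R a b t M Θ ρ ε δ d : ℝ} {n : ℕ}

/-- the angle in `(a, a + 2π]` -/
noncomputable def cone2_ang (x : ℂ) (a : ℝ) (z : ℂ) : ℝ := a + π + arg (-(z - x) * ex (-a))

theorem cone2_form (x : ℂ) (s a θ : ℝ) : -(circleMap x s θ - x) * ex (-a) =
    s * (cos (θ - a - π : ℝ) + sin (θ - a - π : ℝ) * I) := by
  rw [← exp_mul_I, show ((θ - a - π : ℝ) : ℂ) * I = θ * I + (-a : ℝ) * I - π * I by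
    push_cast; ring, Complex.exp_sub, Complex.exp_add, exp_pi_mul_I]
  simp only [circleMap, ex]
  ring

theorem cone2_arg {θ : ℝ} (hs : 0 < s) (hθ : θ ∈ Ioo a (a + 2 * π)) :
    arg (-(circleMap x s θ - x) * ex (-a)) = θ - a - π := by
  rw [cone2_form, arg_mul_cos_add_sin_mul_I hs ⟨by linarith [hθ.1], by linarith [hθ.2]⟩]

theorem cone2_inv {θ : ℝ} (hs : 0 < s) (hθ : θ ∈ Ioo a (a + 2 * π)) :
    cone2_ang x a (circleMap x s θ) = θ := by
  rw [cone2_ang, cone2_arg hs hθ]
  ring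

theorem cone2_surj (hs : 0 < s) (hz : z ∈ sphere x s \ {circleMap x s a}) :
    ∃ θ ∈ Ioo a (a + 2 * π), circleMap x s θ = z := by
  have h1 : z ∈ circleMap x s '' Ioc a (a + 2 * π) := by
    rw [(periodic_circleMap x s).image_Ioc Real.two_pi_pos, range_circleMap, abs_of_pos hs]
    exact hz.1
  obtain ⟨θ, hθ, rfl⟩ := h1
  refine ⟨θ, ⟨hθ.1, hθ.2.lt_of_ne fun h => hz.2 ?_⟩, rfl⟩
  rw [h, periodic_circleMap]
  rfl

theorem cone2_lip (hs : 0 < s) :
    LocallyLipschitzOn (sphere x s \ {circleMap x s a}) (cone2_ang x a) := by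
  intro z hz
  obtain ⟨θ, hθ, rfl⟩ := cone2_surj hs hz
  have h1 : -(circleMap x s θ - x) * ex (-a) ∈ slitPlane := by
    refine mem_slitPlane_iff_arg.2 ⟨?_, mul_ne_zero (neg_ne_zero.2 (sub_ne_zero.2
      (circleMap_ne_center hs.ne'))) (Complex.exp_ne_zero _)⟩
    rw [cone2_arg hs hθ]
    linarith [hθ.2]
  have h2 : ContDiffAt ℝ 1 (fun z : ℂ => -(z - x) * ex (-a)) (circleMap x s θ) := by fun_prop
  have h3 := ContDiffAt.comp (f := fun z : ℂ => -(z - x) * ex (-a)) (circleMap x s θ)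
    ((Complex.contDiffAt_log h1 (n := 1)).restrict_scalars ℝ) h2
  have h4 := (contDiffAt_const (c := a + π)).add (imCLM.contDiff.contDiffAt.comp _ h3)
  obtain ⟨C, t, ht, hl⟩ := h4.exists_lipschitzOnWith
  refine ⟨C, t, mem_nhdsWithin_of_mem_nhds ht, ?_⟩
  have e : cone2_ang x a = fun z => a + π + (imCLM ∘ Complex.log ∘ fun z : ℂ =>
      -(z - x) * ex (-a)) z := funext fun z => by simp [cone2_ang, Complex.log_im]
  rw [e]
  exact hl

theorem cone2_comp {α β γ : Type*} [PseudoEMetricSpace α] [PseudoEMetricSpace β]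
    [PseudoEMetricSpace γ] {f : β → γ} {k : α → β} {S : Set α} {T : Set β}
    (hf : LocallyLipschitzOn T f) (hk : LocallyLipschitzOn S k) (hm : MapsTo k S T) :
    LocallyLipschitzOn S fun z => f (k z) := by
  intro z hz
  obtain ⟨C, t, ht, h1⟩ := hf (hm hz)
  obtain ⟨D, r, hr, h2⟩ := hk hz
  have h3 : k ⁻¹' t ∈ 𝓝[S] z := (hk.continuousOn z hz).tendsto_nhdsWithin hm ht
  exact ⟨C * D, r ∩ k ⁻¹' t, inter_mem hr h3,
    h1.comp (h2.mono inter_subset_left) fun _ hy => hy.2⟩

theorem cone2_prim {f f' : ℝ → ℝ} {b' c : ℝ} (h : Prim f f' a b) (hb : b' ∈ Ioo a b) (hc : a < c)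
    (h1 : ∀ r t, IntervalIntegrable f' volume r t)
    (h2 : IntervalIntegrable (fun t => f' t ^ 2) volume a c) :
    Prim (fun θ => f (min θ b')) (indicator {θ | θ ≤ b'} f') a c ∧
      ∫ t in a..c, indicator {θ | θ ≤ b'} f' t ^ 2 ≤ ∫ t in a..c, f' t ^ 2 := by
  have i1 : ∀ r t, IntervalIntegrable (indicator {θ | θ ≤ b'} f') volume r t := fun r t =>
    intervalIntegrable_iff.2 ((intervalIntegrable_iff.1 (h1 r t)).indicator measurableSet_Iic)
  have e : (fun t => indicator {θ | θ ≤ b'} f' t ^ 2) =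
      indicator {θ | θ ≤ b'} fun t => f' t ^ 2 := funext fun t => by
    by_cases ht : t ∈ {θ | θ ≤ b'} <;> simp [ht]
  have i2 : IntervalIntegrable (fun t => indicator {θ | θ ≤ b'} f' t ^ 2) volume a c := by
    rw [e]
    exact intervalIntegrable_iff.2 ((intervalIntegrable_iff.1 h2).indicator measurableSet_Iic)
  have key : ∀ t, a ≤ t → ∫ τ in a..t, indicator {θ | θ ≤ b'} f' τ = ∫ τ in a..min t b', f' τ := by
    intro t ht
    rcases le_total t b' with h3 | h3
    · rw [min_eq_left h3]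
      refine intervalIntegral.integral_congr fun y hy => indicator_of_mem ?_ _
      rw [uIcc_of_le ht] at hy
      exact hy.2.trans h3
    · rw [min_eq_right h3, intervalIntegral.integral_indicator ⟨hb.1.le, h3⟩]
  refine ⟨⟨hc, i1 _ _, i2, fun r hr t ht => ?_⟩,
    intervalIntegral.integral_mono_on hc.le i2 h2 fun t _ => ?_⟩
  · rw [← intervalIntegral.integral_interval_sub_left (i1 a t) (i1 a r), key t ht.1.le,
      key r hr.1.le, intervalIntegral.integral_interval_sub_left (h1 _ _) (h1 _ _)]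
    exact h.2.2.2 _ ⟨lt_min hr.1 hb.1, (min_le_right _ _).trans_lt hb.2⟩ _
      ⟨lt_min ht.1 hb.1, (min_le_right _ _).trans_lt hb.2⟩
  · by_cases ht : t ∈ {θ | θ ≤ b'}
    · rw [indicator_of_mem ht]
    · rw [indicator_of_notMem ht, zero_pow two_ne_zero]
      exact sq_nonneg _

theorem cone2_step {b' : ℝ} (h : MM Ω lam u K π₀) (hb : closedBall x s ⊆ Ω) (hg : Good u K x s)
    (ha : FreeArc K x s a b) (hb' : b' ∈ Ioo a b) :
    Dr u K x s + Lc K x s ≤ 2 * A2 u K x s + (s + s * (a + 2 * π - b')) + lam * s ^ 2 := by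
  have hs := hg.1
  have hP := h.pre
  have hK := hP.2.1
  have hπ := Real.pi_pos
  have hsph : sphere x s ⊆ Ω := sphere_subset_closedBall.trans hb
  have hin : ∀ θ ∈ Ioo a b, circleMap x s θ ∈ Ω \ K := fun θ hθ =>
    ⟨hsph (circleMap_mem_sphere x hs.le θ), ha.2.2 θ hθ⟩
  have hb2 : b' ≤ a + 2 * π := hb'.2.le.trans ha.2.1
  obtain ⟨hpr, j1⟩ := cone2_prim (c := a + 2 * π) (arc_prim hP hsph hg ha) hb' (by linarith)
    (fun r t => (hg.int hK r t).1) (hg.int hK _ _).2.2.1
  rw [(A2_shift u K x s a).1] at j1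
  have j2 := wir_int hpr
  rw [add_sub_cancel_left, mul_div_cancel_right₀ _ hπ.ne'] at j2
  have i2 := (hpr.int (av (fun θ => u (circleMap x s (min θ b'))) a (a + 2 * π))).2
  generalize av (fun θ => u (circleMap x s (min θ b'))) a (a + 2 * π) = m at j2 i2
  have hT : ({circleMap x s a} : Set ℂ) ⊆ sphere x s :=
    singleton_subset_iff.2 (circleMap_mem_sphere x hs.le a)
  have hφ : LocallyLipschitzOn (sphere x s \ {circleMap x s a})
      fun z => u (circleMap x s (min (cone2_ang x a z) b')) := by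
    refine cone2_comp hP.lip (cone2_comp (T := univ) (k := cone2_ang x a)
      (f := fun θ => circleMap x s (min θ b'))
      ((lipschitzWith_circleMap x s).comp
        (LipschitzWith.id.min_const b')).locallyLipschitz.locallyLipschitzOn
      (cone2_lip hs) (mapsTo_univ _ _)) fun z hz => ?_
    obtain ⟨θ, hθ, rfl⟩ := cone2_surj hs hz
    rw [cone2_inv hs hθ]
    exact hin _ ⟨lt_min hθ.1 hb'.1, (min_le_right _ _).trans_lt hb'.2⟩
  have hab : a ≤ a + 2 * π := by linarith
  have hEq : EqOn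
      (fun θ => (u (circleMap x s (min (cone2_ang x a (circleMap x s θ)) b')) - m) ^ 2)
      (fun θ => (u (circleMap x s (min θ b')) - m) ^ 2) (Ioo a (a + 2 * π)) := fun θ hθ => by
    simp only [cone2_inv hs hθ]
  have i3 : IntervalIntegrable
      (fun θ => (u (circleMap x s (min (cone2_ang x a (circleMap x s θ)) b')) - m) ^ 2) volume a
      (a + 2 * π) := by
    rw [intervalIntegrable_iff_integrableOn_Ioo_of_le hab] at i2 ⊢
    exact i2.congr_fun hEq.symm measurableSet_Ioo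
  obtain ⟨w, w1, w2, w3⟩ := hext (x := x) (a := a) (m := fun _ => m) (β := 1 / 2) hs one_half_pos
    hT (finite_singleton _) hφ (fun _ _ => Eventually.of_forall fun _ => rfl)
    (φ' := indicator {θ | θ ≤ b'} (ut u K x s))
    ((Measure.ae_ne volume b').mono fun θ hne hI => by
      rcases hne.lt_or_gt with h1 | h1
      · rw [indicator_of_mem (show θ ∈ {θ | θ ≤ b'} from h1.le)]
        refine (circ_deriv hP (hin θ ⟨hI.1, h1.trans hb'.2⟩)).congr_of_eventuallyEq ?_
        filter_upwards [Ioo_mem_nhds hI.1 h1] with y hy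
        rw [cone2_inv hs ⟨hy.1, hy.2.trans_le hb2⟩, min_eq_left hy.2.le]
      · rw [indicator_of_notMem (show θ ∉ {θ | θ ≤ b'} from not_le.2 h1)]
        refine (hasDerivAt_const θ (u (circleMap x s b'))).congr_of_eventuallyEq ?_
        filter_upwards [Ioo_mem_nhds h1 hI.2] with y hy
        rw [cone2_inv hs ⟨hb'.1.trans hy.1, hy.2⟩, min_eq_right hy.1.le]) hpr.2.2.1 i3
  have j3 := intervalIntegral.integral_mono_on_of_le_Ioo hab i3 i2 fun θ hθ => (hEq hθ).le
  have hcs := cone_sub (mem_ball_self hs : x ∈ ball x s) hT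
  have hpc : circleMap x s a ∈ cone x {circleMap x s a} :=
    (hcs.2.symm.subset (mem_singleton _)).1
  have hA2 := (A2_nonneg u K x s).1
  have hl : 0 ≤ s * (a + 2 * π - b') := mul_nonneg hs.le (by linarith)
  exact glueR (L := cone x {circleMap x s a} ∪ circleMap x s '' Icc b' (a + 2 * π))
    (π₁ := fun _ => π₀ (circleMap x s b')) h hs hb
    ((cone_closed (finite_singleton _) x).isClosed.union
      (isCompact_Icc.image (continuous_circleMap x s)).isClosed)
    (union_subset hcs.1 (image_subset_iff.2 fun θ _ => circleMap_mem_closedBall x hs.le θ))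
    (fun z hz => by
      by_cases hp : z = circleMap x s a
      · exact Or.inl (hp ▸ hpc)
      · obtain ⟨θ, hθ, rfl⟩ := cone2_surj hs ⟨hz.2, hp⟩
        exact Or.inr ⟨θ, ⟨not_lt.1 fun h1 => ha.2.2 θ ⟨hθ.1, h1.trans hb'.2⟩ hz.1, hθ.2.le⟩, rfl⟩)
    (w1.mono (sdiff_subset_sdiff_right subset_union_left))
    (fun _ _ => Eventually.of_forall fun _ => rfl)
    (fun z hz => by
      have hz' : z ∈ sphere x s \ {circleMap x s a} :=
        ⟨hz.1, fun h0 => hz.2 (Or.inl (mem_singleton_iff.1 h0 ▸ hpc))⟩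
      obtain ⟨θ, hθ, rfl⟩ := cone2_surj hs hz'
      have h1 : θ < b' := not_le.1 fun h1 => hz.2 (Or.inr ⟨θ, ⟨h1, hθ.2.le⟩, rfl⟩)
      refine ⟨?_, h.2.1.eq (image_subset_iff.2 hin)
        (isPreconnected_Ioo.image _ (continuous_circleMap x s).continuousOn) ⟨b', hb', rfl⟩
        ⟨θ, ⟨hθ.1, h1.trans hb'.2⟩, rfl⟩⟩
      rw [w2 _ hz', cone2_inv hs hθ, min_eq_left h1.le])
    (by positivity) (by positivity)
    ((Dn_anti w subset_union_left _).trans (w3.trans (ENNReal.ofReal_le_ofReal (by linarith))))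
    ((measure_union_le _ _).trans (by
      rw [ENNReal.ofReal_add hs.le hl]
      refine add_le_add ((cone_len (finite_singleton _) x).trans_eq ?_) (arc_len hs.le x _ _)
      simp [abs_of_pos hs]))

theorem cone_thin {η : ℝ} (h : MM Ω lam u K π₀) (hb : closedBall x s ⊆ Ω) (hg : Good u K x s)
    (ha : FreeArc K x s a b) (hη : 2 * π - 2 * η ≤ b - a) :
    Dr u K x s + Lr K x s ≤ (1 + 2 * η) * s + 2 * A2 u K x s + lam * s ^ 2 := by
  have hs := hg.1
  refine le_of_forall_pos_le_add fun ε hε => ?_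
  have h1 := cone2_step (b' := max ((a + b) / 2) (b - ε / s)) h hb hg ha
    ⟨lt_max_of_lt_left (by linarith [ha.1]),
      max_lt (by linarith [ha.1]) (by linarith [div_pos hε hs])⟩
  have h2 := Lr_le_Lc (h.pre.2.2.2 x s hb).2
  have h3 := mul_le_mul_of_nonneg_left (le_max_right ((a + b) / 2) (b - ε / s)) hs.le
  have h4 := mul_le_mul_of_nonneg_left hη hs.le
  have h5 : s * (ε / s) = ε := mul_div_cancel₀ _ hs.ne'
  nlinarith

end Vale.Agent.P128
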