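import Vale.Agent.P128.DLB
import Vale.Agent.P128.Cone1

/-!
# P128 CptB2

Two points or large energy. Suppose `Nn ≤ 1` and `E2 < A s` on the circle. With
`ω_j = ∫ |ut_j|`: on the angles within `τ` of the finite set `K₀ ∩ sphere` (measure `≤ C τ`) use
Cauchy-Schwarz with `A2_j ≤ A s`; on the rest (compact, off `K₀`) use uniform convergence; so
`ω_j² ≤ 20 t s` eventually. `cone_one` with `σ = c₀/64`, `β` large, then `t` small gives
`Lr_j x s < c₀ s/2`, contradicting `dlb` at a point `x_j ∈ K j` near `x` with radius `s/2`.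
-/

namespace Vale.Agent.P128

open Set Metric MeasureTheory Filter Topology Complex
open scoped ENNReal ContDiff RealInnerProductSpace Gradient Real ComplexConjugate

variable {Ω K L A S T U O X Γ P M₀ K₀ K₁ : Set ℂ} {u v w g hh ψ η : ℂ → ℝ} {G : ℂ → ℂ}
  {π₀ π₁ : ℂ → Set ℂ} {x y z c p q e a₀ F : ℂ} {lam H r s R a b t M Θ ρ ε δ d : ℝ} {n : ℕ}

theorem cptb2_amgm {κ : ℝ} (hκ : 0 < κ) (a : ℝ) : |a| ≤ κ * a ^ 2 + 1 / (4 * κ) := by
  have h1 : κ * a ^ 2 + 1 / (4 * κ) - |a| = (2 * κ * |a| - 1) ^ 2 / (4 * κ) := by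
    rw [← sq_abs a]
    field_simp
    ring
  have h2 : 0 ≤ (2 * κ * |a| - 1) ^ 2 / (4 * κ) := by positivity
  linarith

theorem cptb2_small (hK : IsClosed K₀) (hne : K₀.Nonempty) (hs : 0 < s)
    (hf : (K₀ ∩ sphere x s).Finite) {τ : ℝ} (hτ : 0 < τ) :
    ∃ δ, 0 < δ ∧
      volume.real (Ioc 0 (2 * π) ∩ {θ : ℝ | infDist (circleMap x s θ) K₀ < δ}) ≤ τ := by
  set N : ℕ → Set ℝ := fun n =>
    Ioc 0 (2 * π) ∩ {θ : ℝ | infDist (circleMap x s θ) K₀ < 1 / ((n : ℝ) + 1)} with hN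
  have hc : Continuous fun θ : ℝ => infDist (circleMap x s θ) K₀ :=
    (continuous_infDist_pt K₀).comp (continuous_circleMap x s)
  have hm : ∀ n, MeasurableSet (N n) := fun n =>
    measurableSet_Ioc.inter (isOpen_lt hc continuous_const).measurableSet
  have hanti : Antitone N := by
    intro n m hnm θ hθ
    have h1 : infDist (circleMap x s θ) K₀ < 1 / ((m : ℝ) + 1) := hθ.2
    exact ⟨hθ.1, h1.trans_le (Nat.one_div_le_one_div hnm)⟩
  have hfin : ∀ n, volume (N n) ≠ ⊤ := fun n =>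
    ne_top_of_le_ne_top measure_Ioc_lt_top.ne (measure_mono inter_subset_left)
  have ht := tendsto_measure_iInter_atTop (μ := volume) (fun n => (hm n).nullMeasurableSet) hanti
    ⟨0, hfin 0⟩
  have h0 : volume (⋂ n, N n) = 0 := by
    refine measure_mono_null ?_ (ae_iff.1 (ae_notMem (K := K₀) (x := x) hs hf))
    intro θ hθ
    simp only [mem_iInter] at hθ
    simp only [mem_ofPred_eq, not_not]
    rw [hK.mem_iff_infDist_zero hne]
    refine le_antisymm ?_ infDist_nonneg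
    refine ge_of_tendsto' tendsto_one_div_add_atTop_nhds_zero_nat (fun n => ?_)
    exact (hθ n).2.le
  rw [h0] at ht
  have h1 := (ENNReal.tendsto_toReal ENNReal.zero_ne_top).comp ht
  simp only [ENNReal.toReal_zero] at h1
  obtain ⟨n, hn⟩ := (h1.eventually (ge_mem_nhds hτ)).exists
  exact ⟨1 / ((n : ℝ) + 1), by positivity, hn⟩

theorem cptb2_ut_sub {θ : ℝ} (hs : 0 < s) (h1 : circleMap x s θ ∉ K)
    (h2 : circleMap x s θ ∉ K₀)
    (h : ‖∇ u (circleMap x s θ) - ∇ v (circleMap x s θ)‖ ≤ ε) :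
    |ut u K x s θ| ≤ |ut v K₀ x s θ| + s * ε := by
  have h3 : ut u K x s θ - ut v K₀ x s θ =
      s * ⟪∇ u (circleMap x s θ) - ∇ v (circleMap x s θ), I * ex θ⟫ := by
    rw [ut, ut, gK_of_notMem u h1, gK_of_notMem v h2, inner_sub_left]
    ring
  have h4 : |ut u K x s θ - ut v K₀ x s θ| ≤ s * ε := by
    rw [h3, abs_mul, abs_of_pos hs]
    refine mul_le_mul_of_nonneg_left ((abs_real_inner_le_norm _ _).trans ?_) hs.le
    rw [norm_mul, norm_I, ex_norm, one_mul, mul_one]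
    exact h
  have h5 := abs_sub_abs_le_abs_sub (ut u K x s θ) (ut v K₀ x s θ)
  linarith

theorem cptb2_omega {κ κ' τ : ℝ} (hK : IsClosed K) (hK₀ : IsClosed K₀)
    (hg : Good u K x s) (hg₀ : Good v K₀ x s) (hκ : 0 < κ) (hκ' : 0 < κ') (hδ : 0 < δ)
    (hε : 0 ≤ ε)
    (hτ : volume.real (Ioc 0 (2 * π) ∩ {θ : ℝ | infDist (circleMap x s θ) K₀ < δ}) ≤ τ)
    (h : ∀ z ∈ sphere x s ∩ {z | δ ≤ infDist z K₀}, z ∉ K ∧ ‖∇ u z - ∇ v z‖ ≤ ε) :
    ∫ θ in (0 : ℝ)..2 * π, |ut u K x s θ| ≤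
      κ' * A2 v K₀ x s + 2 * π * (1 / (4 * κ') + s * ε) + κ * A2 u K x s + τ / (4 * κ) := by
  have hs := hg.1
  set N : Set ℝ := {θ : ℝ | infDist (circleMap x s θ) K₀ < δ} with hN
  have hc : Continuous fun θ : ℝ => infDist (circleMap x s θ) K₀ :=
    (continuous_infDist_pt K₀).comp (continuous_circleMap x s)
  have hm : MeasurableSet N := (isOpen_lt hc continuous_const).measurableSet
  have hpi : (0 : ℝ) ≤ 2 * π := by positivity
  have i1 := (Good.int hK hg 0 (2 * π)).1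
  have i2 := (Good.int hK hg 0 (2 * π)).2.2.1
  have i3 := (Good.int hK₀ hg₀ 0 (2 * π)).2.2.1
  have i4 : IntervalIntegrable (N.indicator fun _ => 1 / (4 * κ)) volume 0 (2 * π) := by
    rw [intervalIntegrable_iff_integrableOn_Ioc_of_le hpi]
    exact (integrableOn_const measure_Ioc_lt_top.ne).indicator hm
  have hpt : ∀ θ, |ut u K x s θ| ≤ κ' * ut v K₀ x s θ ^ 2 + (1 / (4 * κ') + s * ε) +
      κ * ut u K x s θ ^ 2 + N.indicator (fun _ => 1 / (4 * κ)) θ := by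
    intro θ
    have a1 := cptb2_amgm hκ (ut u K x s θ)
    have a2 := cptb2_amgm hκ' (ut v K₀ x s θ)
    have a3 : 0 ≤ s * ε := by positivity
    have a4 := abs_nonneg (ut v K₀ x s θ)
    by_cases hθ : θ ∈ N
    · rw [indicator_of_mem hθ]
      linarith
    · rw [indicator_of_notMem hθ]
      have hz : circleMap x s θ ∈ sphere x s ∩ {z | δ ≤ infDist z K₀} :=
        ⟨circleMap_mem_sphere x hs.le θ,
          (not_lt.1 hθ : δ ≤ infDist (circleMap x s θ) K₀)⟩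
      have h2 : circleMap x s θ ∉ K₀ := by
        intro h2
        have := hz.2
        simp only [mem_ofPred_eq, infDist_zero_of_mem h2] at this
        linarith
      have a5 := cptb2_ut_sub hs (h _ hz).1 h2 (h _ hz).2
      have a6 : 0 ≤ κ * ut u K x s θ ^ 2 := by positivity
      linarith
  have j1 := i3.const_mul κ'
  have j2 := i2.const_mul κ
  have j3 : IntervalIntegrable (fun _ : ℝ => 1 / (4 * κ') + s * ε) volume 0 (2 * π) :=
    intervalIntegrable_const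
  have hle := intervalIntegral.integral_mono hpi i1.abs (((j1.add j3).add j2).add i4) hpt
  rw [intervalIntegral.integral_add ((j1.add j3).add j2) i4,
    intervalIntegral.integral_add (j1.add j3) j2, intervalIntegral.integral_add j1 j3,
    intervalIntegral.integral_const_mul, intervalIntegral.integral_const_mul,
    intervalIntegral.integral_const] at hle
  have hI : ∫ θ in (0 : ℝ)..2 * π, N.indicator (fun _ => 1 / (4 * κ)) θ ≤ τ / (4 * κ) := by
    rw [intervalIntegral.integral_of_le hpi, setIntegral_indicator hm, setIntegral_const,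
      smul_eq_mul, mul_one_div]
    exact div_le_div_of_nonneg_right hτ (by positivity)
  simp only [sub_zero, smul_eq_mul] at hle
  unfold A2
  linarith

theorem cptB2 {A : ℝ} (hA : 0 < A) : ∃ t : ℝ, 0 < t ∧
    ∀ {Ω : ℕ → Set ℂ} {lam : ℕ → ℝ} {u : ℕ → ℂ → ℝ} {K : ℕ → Set ℂ} {π₀ : ℕ → ℂ → Set ℂ}
      {u₀ : ℂ → ℝ} {K₀ : Set ℂ} {β : Set ℂ → ℂ}, Sq Ω lam u K π₀ → Cv0 Ω u K π₀ u₀ K₀ β →
      ∀ x ∈ K₀, ∀ s, Good u₀ K₀ x s → A2 u₀ K₀ x s ≤ t * s →
        ∀ᶠ j in atTop, Good (u j) (K j) x s →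
          2 ≤ Nn (K j) x s ∨ A * s ≤ E2 (u j) (K j) x s := by
  obtain ⟨c₀, hc₀, hc₁, hdlb⟩ := dlb
  obtain ⟨σ, hσ⟩ : ∃ σ : ℝ, σ = c₀ / 64 := ⟨_, rfl⟩
  obtain ⟨b, hb⟩ : ∃ b : ℝ, b = 16 * A / c₀ := ⟨_, rfl⟩
  have hσ0 : 0 < σ := by rw [hσ]; positivity
  have hb0 : 0 < b := by rw [hb]; positivity
  obtain ⟨W, hW⟩ : ∃ W : ℝ, W = 4 * b + 20 / σ / b := ⟨_, rfl⟩
  have hW0 : 0 < W := by rw [hW]; positivity
  obtain ⟨m, hm0, hm2⟩ : ∃ m : ℝ, 0 < m ∧ m ^ 2 = c₀ / (16 * 36 * W) :=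
    ⟨√(c₀ / (16 * 36 * W)), Real.sqrt_pos.2 (by positivity), Real.sq_sqrt (by positivity)⟩
  refine ⟨m ^ 2, by positivity, ?_⟩
  intro Ω lam u K π₀ u₀ K₀ β hS hC x hx s hg₀ hA₀
  have hs := hg₀.1
  obtain ⟨ρ, hρ0, hρ2⟩ : ∃ ρ : ℝ, 0 < ρ ∧ ρ ^ 2 = s :=
    ⟨√s, Real.sqrt_pos.2 hs, Real.sq_sqrt hs.le⟩
  have hpi := Real.pi_pos
  have hpi4 := Real.pi_le_four
  obtain ⟨κ, hκ⟩ : ∃ κ : ℝ, κ = m / (A * ρ) := ⟨_, rfl⟩
  have hκ0 : 0 < κ := by rw [hκ]; positivity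
  obtain ⟨δ, hδ, hτ⟩ := cptb2_small hC.1 ⟨x, hx⟩ hs hg₀.2.1
    (τ := 4 * κ * (m * ρ)) (by positivity)
  have hcpt : IsCompact (sphere x s ∩ {z | δ ≤ infDist z K₀}) :=
    (isCompact_sphere x s).inter_right (isClosed_le continuous_const (continuous_infDist_pt K₀))
  have hsub : sphere x s ∩ {z | δ ≤ infDist z K₀} ⊆ K₀ᶜ := by
    intro z hz h2
    have := hz.2
    simp only [mem_ofPred_eq, infDist_zero_of_mem h2] at this
    linarith
  have e1 := hC.2.2.2 _ hsub hcpt (m / (8 * ρ)) (by positivity)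
  have e2 := hS.2.1 (‖x‖ + s)
  have e3 := hS.2.2.eventually (ge_mem_nhds (show 0 < c₀ / (16 * s) by positivity))
  have e4 := hC.2.2.1 ‖x‖ (s / 2) (by positivity)
  filter_upwards [e1, e2, e3, e4] with j e1 e2 e3 e4 hg
  by_contra hcon
  push Not at hcon
  obtain ⟨hn, hE⟩ := hcon
  have hM := hS.1 j
  have hP := hM.pre
  have hball : closedBall x s ⊆ Ω j := by
    refine Subset.trans ?_ e2
    refine closedBall_subset_closedBall' ?_
    rw [dist_zero_right]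
    linarith
  have hA2 : A2 (u j) (K j) x s ≤ A * s := by
    have := (A2_nonneg (u j) (K j) x s).2
    unfold E2 at hE
    linarith
  have hom := cptb2_omega (κ' := 1 / (m * ρ)) hP.2.1 hC.1 hg hg₀ hκ0 (by positivity) hδ
    (show 0 ≤ m / (8 * ρ) by positivity) hτ (fun z hz => ⟨(e1 z hz).1.2, (e1 z hz).2.1⟩)
  have hcone := cone_one (σ := σ) (β := b) hM hball hg (by omega) hσ0 (by linarith) hb0
  have hom0 : 0 ≤ ∫ θ in (0 : ℝ)..2 * π, |ut (u j) (K j) x s θ| :=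
    intervalIntegral.integral_nonneg (by positivity) (fun θ _ => abs_nonneg _)
  generalize ∫ θ in (0 : ℝ)..2 * π, |ut (u j) (K j) x s θ| = om at hom hcone hom0
  have hom1 : om ≤ 6 * (m * ρ) := by
    have b1 : 1 / (m * ρ) * A2 u₀ K₀ x s ≤ m * ρ := by
      calc 1 / (m * ρ) * A2 u₀ K₀ x s ≤ 1 / (m * ρ) * (m ^ 2 * s) := by gcongr
        _ = m * ρ := by rw [← hρ2]; field_simp
    have b2 : 1 / (4 * (1 / (m * ρ))) + s * (m / (8 * ρ)) = 3 / 8 * (m * ρ) := by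
      rw [← hρ2]; field_simp; ring
    have b3 : κ * A2 (u j) (K j) x s ≤ m * ρ := by
      calc κ * A2 (u j) (K j) x s ≤ κ * (A * s) := by gcongr
        _ = m * ρ := by rw [hκ, ← hρ2]; field_simp
    have b4 : 4 * κ * (m * ρ) / (4 * κ) = m * ρ := by field_simp
    have b5 : 2 * π * (3 / 8 * (m * ρ)) ≤ 2 * 4 * (3 / 8 * (m * ρ)) := by gcongr
    rw [b2, b4] at hom
    linarith
  have hom2 : W * om ^ 2 ≤ c₀ * s / 16 := by
    calc W * om ^ 2 ≤ W * (6 * (m * ρ)) ^ 2 := by gcongr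
      _ = W * 36 * m ^ 2 * ρ ^ 2 := by ring
      _ = c₀ * s / 16 := by rw [hm2, hρ2]; field_simp
  have c1 : 4 * b * om ^ 2 + (A2 (u j) (K j) x s + 20 * om ^ 2 / σ) / b =
      W * om ^ 2 + A2 (u j) (K j) x s / b := by
    rw [hW]; field_simp; ring
  have c2 : A2 (u j) (K j) x s / b ≤ c₀ * s / 16 := by
    calc A2 (u j) (K j) x s / b ≤ A * s / b := by gcongr
      _ = c₀ * s / 16 := by rw [hb]; field_simp
  have c3 : lam j * s ≤ c₀ / 16 := by
    calc lam j * s ≤ c₀ / (16 * s) * s := by gcongr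
      _ = c₀ / 16 := by field_simp
  have c4 : lam j * s ^ 2 ≤ c₀ * s / 16 := by
    calc lam j * s ^ 2 = lam j * s * s := by ring
      _ ≤ c₀ / 16 * s := by gcongr
      _ = c₀ * s / 16 := by ring
  obtain ⟨y, hy, hyx⟩ := e4.1 x ⟨hx, by simp⟩
  have hl0 : 0 ≤ lam j := hM.1.1
  have hd := hdlb hM y hy (s / 2) (by positivity)
    (Subset.trans (closedBall_subset_closedBall' (by rw [dist_eq_norm]; linarith)) hball)
    (by linarith)
  have hmono : Lr (K j) y (s / 2) ≤ Lr (K j) x s :=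
    Lr_mono (hP.2.2.2 x s hball).2 (ball_subset_ball' (by rw [dist_eq_norm]; linarith))
  have hD := Dr_nonneg (u j) (K j) x s
  have c5 : 0 < c₀ * s := by positivity
  have c6 : 4 * σ * s = c₀ * s / 16 := by rw [hσ]; ring
  linarith

end Vale.Agent.P128
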