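import Vale.Agent.P128.Basic

/-!
# P128 CptY

Two measure theoretic lemmas. `dens0`: for `t > 0` the set of `y ∈ K` with `Dr y ρ > t ρ` for
arbitrarily small `ρ` is `μH[1]`-null: Vitali covering (`Vitali.exists_disjoint_subfamily_covering_enlargement_closedBall`)
inside an open set `U ⊇ K ∩ ball` with `∫_U ‖gK‖²` small (the set `K` is Lebesgue null).
`fine_cover`: Besicovitch (`Besicovitch.exists_disjoint_closedBall_covering_ae`) for the finite measure
`μH[1]` restricted to `K ∩ ball x r`; the uncovered part is null, so by the definition of `μH[1]`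
(`Measure.hausdorffMeasure_apply`) the diameters add up to almost the length if all radii are small;
keep finitely many balls.
-/

namespace Vale.Agent.P128

open Set Metric MeasureTheory Filter Topology Complex
open scoped ENNReal ContDiff RealInnerProductSpace Gradient Real ComplexConjugate

variable {Ω K L A S T U O X Γ P M₀ K₀ K₁ : Set ℂ} {u v w g hh ψ η : ℂ → ℝ} {G : ℂ → ℂ}
  {π₀ π₁ : ℂ → Set ℂ} {x y z c p q e a₀ F : ℂ} {lam H r s R a b t M Θ ρ ε δ d : ℝ} {n : ℕ}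

theorem cpty_diam (y : ℂ) (ρ : ℝ) : ediam (closedBall y ρ) ≤ ENNReal.ofReal (2 * ρ) := by
  refine ediam_le fun a ha b hb => ?_
  rw [edist_dist]
  refine ENNReal.ofReal_le_ofReal ?_
  linarith [dist_triangle_right a b y, mem_closedBall.1 ha, mem_closedBall.1 hb]

theorem cpty_cover {ν : Measure ℂ} {A U : Set ℂ} {t δ : ℝ} (ht : 0 < t)
    (h : ∀ y ∈ A, ∃ ρ, 0 < ρ ∧ ρ ≤ δ ∧ closedBall y ρ ⊆ U ∧
      ENNReal.ofReal (t * ρ) ≤ ν (closedBall y ρ)) :
    ∃ (T : Set ℂ) (B : ℂ → Set ℂ), T.Countable ∧ (∀ y ∈ T, ediam (B y) ≤ ENNReal.ofReal (8 * δ)) ∧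
      A ⊆ ⋃ y : T, B y ∧ ∑' y : T, ediam (B y) ^ (1 : ℝ) ≤ ENNReal.ofReal (8 / t) * ν U := by
  choose! ρ h1 h2 h3 h4 using h
  obtain ⟨T, hT, hd, hc⟩ := Vitali.exists_disjoint_subfamily_covering_enlargement_closedBall A
    (fun y => y) ρ δ h2 4 (by norm_num)
  have hTc : T.Countable := hd.countable_of_nonempty_interior fun y hy =>
    (nonempty_ball.2 (h1 y (hT hy))).mono ball_subset_interior_closedBall
  refine ⟨T, fun y => closedBall y (4 * ρ y), hTc, fun y hy => (cpty_diam _ _).trans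
    (ENNReal.ofReal_le_ofReal (by linarith [h2 y (hT hy)])), fun y hy => ?_, ?_⟩
  · obtain ⟨b, hb, hs⟩ := hc y hy
    exact mem_iUnion.2 ⟨⟨b, hb⟩, hs (mem_closedBall_self (h1 y hy).le)⟩
  · have h5 : ∑' y : T, ν (closedBall (y : ℂ) (ρ y)) ≤ ν U := by
      rw [← measure_biUnion hTc hd fun y _ => measurableSet_closedBall]
      exact measure_mono (iUnion₂_subset fun y hy => h3 y (hT hy))
    refine le_trans ?_ (mul_le_mul_right h5 _)
    rw [← ENNReal.tsum_mul_left]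
    refine ENNReal.tsum_le_tsum fun y => ?_
    rw [ENNReal.rpow_one]
    refine (cpty_diam _ _).trans (le_trans (le_of_eq ?_) (mul_le_mul_right (h4 y (hT y.2)) _))
    rw [← ENNReal.ofReal_mul (by positivity)]
    congr 1
    field_simp
    ring

theorem cpty_null (h : Pre univ u K) (ht : 0 < t) :
    μH[1] {y | y ∈ K ∧ ∃ᶠ ρ in 𝓝[>] (0 : ℝ), t * ρ ≤ Dr u K y ρ} = 0 := by
  obtain ⟨ν, hν⟩ : ∃ ν : Measure ℂ, ν = volume.withDensity fun z => ‖gK K u z‖ₑ ^ 2 := ⟨_, rfl⟩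
  have h1 : ∀ S, MeasurableSet S → ν S = Dn u K S := fun S hS => by
    rw [hν, withDensity_apply _ hS, Dn]
  have h2 : IsLocallyFiniteMeasure ν := ⟨fun y => ⟨closedBall y 1, closedBall_mem_nhds y one_pos, by
    rw [h1 _ measurableSet_closedBall]
    exact (h.2.2.2 y 1 (subset_univ _)).1.lt_top⟩⟩
  have h3 : ν K = 0 := by
    rw [h1 _ h.2.1.measurableSet, Dn]
    refine (setLIntegral_congr_fun h.2.1.measurableSet (g := fun _ => 0) fun z hz => ?_).trans
      lintegral_zero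
    simp [gK_of_mem u hz]
  have h4 : ∀ n : ℕ, ∃ (T : Set ℂ) (B : ℂ → Set ℂ), T.Countable ∧
      (∀ y ∈ T, ediam (B y) ≤ ENNReal.ofReal (8 * (1 / (n + 1)))) ∧
      {y | y ∈ K ∧ ∃ᶠ ρ in 𝓝[>] (0 : ℝ), t * ρ ≤ Dr u K y ρ} ⊆ ⋃ y : T, B y ∧
      ∑' y : T, ediam (B y) ^ (1 : ℝ) ≤ ENNReal.ofReal (8 / t * (1 / (n + 1))) := by
    intro n
    have hn : (0 : ℝ) < 1 / (n + 1) := by positivity
    obtain ⟨U, hKU, hU, hνU⟩ := K.exists_isOpen_lt_of_lt (μ := ν) (ENNReal.ofReal (1 / (n + 1)))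
      (by rw [h3]; exact ENNReal.ofReal_pos.2 hn)
    obtain ⟨T, B, a1, a2, a3, a4⟩ := cpty_cover (ν := ν) (U := U) (δ := 1 / (n + 1))
      (A := {y | y ∈ K ∧ ∃ᶠ ρ in 𝓝[>] (0 : ℝ), t * ρ ≤ Dr u K y ρ}) ht (fun y hy => by
        obtain ⟨ε, hε, hεU⟩ := nhds_basis_closedBall.mem_iff.1 (hU.mem_nhds (hKU hy.1))
        obtain ⟨ρ, b1, b2⟩ := (hy.2.and_eventually (Ioc_mem_nhdsGT (lt_min hε hn))).exists
        refine ⟨ρ, b2.1, b2.2.trans (min_le_right _ _),
          (closedBall_subset_closedBall (b2.2.trans (min_le_left _ _))).trans hεU, ?_⟩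
        rw [h1 _ measurableSet_closedBall, Dn_closedBall]
        exact (ENNReal.ofReal_le_ofReal b1).trans ENNReal.ofReal_toReal_le)
    refine ⟨T, B, a1, a2, a3, a4.trans ?_⟩
    rw [ENNReal.ofReal_mul (by positivity)]
    exact mul_le_mul_right hνU.le _
  choose T B a1 a2 a3 a4 using h4
  have a5 : ∀ n, Countable (T n) := fun n => (a1 n).to_subtype
  have a6 : ∀ c : ℝ, Tendsto (fun n : ℕ => ENNReal.ofReal (c * (1 / (n + 1)))) atTop (𝓝 0) := by
    intro c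
    have a7 := ENNReal.tendsto_ofReal
      ((tendsto_one_div_add_atTop_nhds_zero_nat (𝕜 := ℝ)).const_mul c)
    rwa [mul_zero, ENNReal.ofReal_zero] at a7
  refine nonpos_iff_eq_zero.1 ((Measure.hausdorffMeasure_le_liminf_tsum (ι := fun n => T n) 1 _ _
    (a6 8) (fun n y => B n y) (Eventually.of_forall fun n y => a2 n y y.2)
    (Eventually.of_forall a3)).trans ?_)
  rw [← (a6 (8 / t)).liminf_eq]
  exact liminf_le_liminf (Eventually.of_forall a4)

theorem dens0 (h : Pre univ u K) :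
    μH[1] {y | y ∈ K ∧ ¬ Tendsto (fun ρ => Dr u K y ρ / ρ) (𝓝[>] 0) (𝓝 0)} = 0 := by
  refine measure_mono_null (fun y hy => ?_) (measure_iUnion_null fun k : ℕ =>
    cpty_null h (t := 1 / (k + 1)) (by positivity))
  by_contra hc
  refine hy.2 (Metric.tendsto_nhds.2 fun ε hε => ?_)
  obtain ⟨k, hk⟩ := exists_nat_one_div_lt hε
  have h1 : ¬ ∃ᶠ ρ in 𝓝[>] (0 : ℝ), 1 / (k + 1) * ρ ≤ Dr u K y ρ := fun h2 =>
    hc (mem_iUnion.2 ⟨k, hy.1, h2⟩)
  filter_upwards [not_frequently.1 h1, self_mem_nhdsWithin] with ρ h2 h3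
  have h4 : 0 < ρ := h3
  rw [Real.dist_eq, sub_zero, abs_of_nonneg (div_nonneg (Dr_nonneg _ _ _ _) h4.le),
    div_lt_iff₀ h4]
  exact (not_le.1 h2).trans (mul_lt_mul_of_pos_right hk h4)

end Vale.Agent.P128
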