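import Vale.Agent.P128.Basic

/-!
# P128 CptZ

Two measure theoretic lemmas. `dens0`: for `t > 0` the set of `y ∈ K` with `Dr y ρ > t ρ` for
arbitrarily small `ρ` is `μH[1]`-null: Vitali covering (`Vitali.exists_disjoint_subfamily_covering_enlargement_closedBall`)
inside an open set `U ⊇ K ∩ ball` with `∫_U ‖gK‖²` small (the set `K` is Lebesgue null).
`fine_cover`: Besicovitch (`Besicovitch.exists_disjoint_closedBall_covering_ae`) for the finite measure
`μH[1]` restricted to `K ∩ ball x r`; the uncovered part is null, so by the definition of `μH[1]`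
(`Measure.hausdorffMeasure_apply`) the diameters add up to almost the length if all radii are small;
keep finitely many balls.
-/

namespace Vale.Agent.P128

open Set Metric MeasureTheory Filter Topology Complex
open scoped ENNReal ContDiff RealInnerProductSpace Gradient Real ComplexConjugate

variable {Ω K L A S T U O X Γ P M₀ K₀ K₁ : Set ℂ} {u v w g hh ψ η : ℂ → ℝ} {G : ℂ → ℂ}
  {π₀ π₁ : ℂ → Set ℂ} {x y z c p q e a₀ F : ℂ} {lam H r s R a b t M Θ ρ ε δ d : ℝ} {n : ℕ}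

theorem fine_cover {Z : Set ℂ} {Q : ℂ → ℝ → Prop} (hK : IsClosed K)
    (hf : μH[1] (K ∩ closedBall x r) ≠ ⊤) (hZ : μH[1] Z = 0)
    (hQ : ∀ y ∈ K ∩ ball x r, y ∉ Z → ∀ᶠ ρ in 𝓝[>] (0 : ℝ), Q y ρ) (hε : 0 < ε) :
    ∃ (B : Finset ℂ) (ρ : ℂ → ℝ), (∀ y ∈ B, y ∈ K ∧ 0 < ρ y ∧ Q y (ρ y) ∧
        closedBall y (ρ y) ⊆ ball x r) ∧
      (B : Set ℂ).PairwiseDisjoint (fun y => closedBall y (ρ y)) ∧
      Lr K x r - ε ≤ ∑ y ∈ B, 2 * ρ y := by
  classical
  by_contra hcon
  push Not at hcon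
  set S : Set ℂ := K ∩ ball x r with hS
  have hSm : MeasurableSet S := hK.measurableSet.inter measurableSet_ball
  have hSf : μH[1] S ≠ ⊤ :=
    ne_top_of_le_ne_top hf (measure_mono (inter_subset_inter_right _ ball_subset_closedBall))
  have : IsFiniteMeasure ((μH[1] : Measure ℂ).restrict S) :=
    ⟨by rw [Measure.restrict_apply_univ]; exact hSf.lt_top⟩
  have hcov : ∀ m : ℕ, ∃ (t : Set ℂ) (ρ : ℂ → ℝ), t.Countable ∧ t ⊆ S \ Z ∧
      (∀ y ∈ t, ρ y ∈ {a : ℝ | Q y a ∧ closedBall y a ⊆ ball x r} ∩ Ioo 0 (1 / (m + 1 : ℝ))) ∧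
      ((μH[1] : Measure ℂ).restrict S) ((S \ Z) \ ⋃ y ∈ t, closedBall y (ρ y)) = 0 ∧
      t.PairwiseDisjoint fun y => closedBall y (ρ y) := by
    intro m
    refine Besicovitch.exists_disjoint_closedBall_covering_ae _
      (fun y => {a : ℝ | Q y a ∧ closedBall y a ⊆ ball x r}) (S \ Z) ?_
      (fun _ => 1 / (m + 1 : ℝ)) (fun _ _ => by positivity)
    intro y hy δ hδ
    have h1 := hQ y hy.1 hy.2
    have h2 : ∀ᶠ a in 𝓝[>] (0 : ℝ), closedBall y a ⊆ ball x r :=
      nhdsWithin_le_nhds (eventually_closedBall_subset (isOpen_ball.mem_nhds hy.1.2))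
    have h3 : ∀ᶠ a in 𝓝[>] (0 : ℝ), a ∈ Ioo 0 δ := Ioo_mem_nhdsGT hδ
    obtain ⟨a, ha⟩ := ((h1.and h2).and h3).exists
    exact ⟨a, ha⟩
  choose t ρ htc hts hρ hnull hdisj using hcov
  set N : Set ℂ := ⋃ m : ℕ, ((S \ Z) \ ⋃ y ∈ t m, closedBall y (ρ m y)) with hN
  have hN0 : μH[1] N = 0 := by
    refine measure_iUnion_null fun m => ?_
    have h := hnull m
    rw [Measure.restrict_apply' hSm, inter_eq_left.2 (sdiff_subset.trans sdiff_subset)] at h
    exact h
  have hSS : μH[1] S ≤ μH[1] ((S \ Z) \ N) := by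
    rw [measure_sdiff_null hN0, measure_sdiff_null hZ]
  have : ∀ m, Countable (t m) := fun m => (htc m).to_subtype
  have hdiam : ∀ m (i : t m), Metric.ediam (closedBall (i : ℂ) (ρ m i)) ≤
      ENNReal.ofReal (2 * ρ m i) := by
    intro m i
    refine Metric.ediam_le_of_forall_dist_le fun a ha b hb => ?_
    have := dist_triangle_right a b (i : ℂ)
    rw [mem_closedBall] at ha hb
    linarith
  have hlim : Tendsto (fun m : ℕ => ENNReal.ofReal (2 * (1 / (m + 1 : ℝ)))) atTop (𝓝 0) := by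
    have h := (tendsto_one_div_add_atTop_nhds_zero_nat (𝕜 := ℝ)).const_mul 2
    rw [mul_zero] at h
    simpa using ENNReal.tendsto_ofReal h
  have hle := Measure.hausdorffMeasure_le_liminf_tsum (ι := fun m : ℕ => t m) 1 ((S \ Z) \ N)
    (l := atTop) _ hlim (fun m i => closedBall (i : ℂ) (ρ m i))
    (Eventually.of_forall fun m i => (hdiam m i).trans
      (ENNReal.ofReal_le_ofReal (by linarith [(hρ m i i.2).2.2])))
    (Eventually.of_forall fun m z hz => by
      have h1 : z ∉ (S \ Z) \ ⋃ y ∈ t m, closedBall y (ρ m y) := fun h =>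
        hz.2 (mem_iUnion.2 ⟨m, h⟩)
      have h2 : z ∈ ⋃ y ∈ t m, closedBall y (ρ m y) := by
        by_contra h
        exact h1 ⟨hz.1, h⟩
      obtain ⟨y, hy, hzy⟩ := mem_iUnion₂.1 h2
      exact mem_iUnion.2 ⟨⟨y, hy⟩, hzy⟩)
  have hsum : ∀ m, ∑' i : t m, Metric.ediam (closedBall (i : ℂ) (ρ m i)) ^ (1 : ℝ) ≤
      ENNReal.ofReal (Lr K x r - ε) := by
    intro m
    rw [ENNReal.tsum_eq_iSup_sum]
    refine iSup_le fun B => ?_
    have hB := hcon (B.map (Function.Embedding.subtype _)) (ρ m) (by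
      intro y hy
      obtain ⟨i, -, rfl⟩ := Finset.mem_map.1 hy
      exact ⟨(hts m i.2).1.1, (hρ m i i.2).2.1, (hρ m i i.2).1.1, (hρ m i i.2).1.2⟩) (by
      refine (hdisj m).subset ?_
      intro y hy
      obtain ⟨i, -, rfl⟩ := Finset.mem_map.1 (Finset.mem_coe.1 hy)
      exact i.2)
    rw [Finset.sum_map] at hB
    calc ∑ i ∈ B, Metric.ediam (closedBall (i : ℂ) (ρ m i)) ^ (1 : ℝ)
        ≤ ∑ i ∈ B, ENNReal.ofReal (2 * ρ m i) :=
          Finset.sum_le_sum fun i _ => by rw [ENNReal.rpow_one]; exact hdiam m i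
      _ = ENNReal.ofReal (∑ i ∈ B, 2 * ρ m i) :=
          (ENNReal.ofReal_sum_of_nonneg fun i _ => by linarith [(hρ m i i.2).2.1]).symm
      _ ≤ ENNReal.ofReal (Lr K x r - ε) := ENNReal.ofReal_le_ofReal hB.le
  have hfin : μH[1] S ≤ ENNReal.ofReal (Lr K x r - ε) :=
    hSS.trans (hle.trans (liminf_le_of_frequently_le' (Frequently.of_forall hsum)))
  have h0 := hcon ∅ (fun _ => 0) (by simp) (by simp)
  rw [Finset.sum_empty] at h0
  have h1 : Lr K x r ≤ Lr K x r - ε := ENNReal.toReal_le_of_le_ofReal h0.le hfin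
  linarith

end Vale.Agent.P128
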