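import Vale.Agent.P128.CptB1
import Vale.Agent.P128.CptB2
import Vale.Agent.P128.CptZ
import Vale.Agent.P128.CptY

/-!
# P128 CptB3

Lower semicontinuity of length. Fix `A`, `κ`, and `t` from `cptB2`. At `y ∈ K₀` off the null set of
`dens0` and small `ρ`, the radii `s ∈ (0, ρ)` with `E2/s > t` have measure `≤ Dr/t ≤ κ ρ` (Chebyshev,
`Pre.Dr_sub`). For a.e. other `s` all `Good (u j) (K j) y s` hold eventually, so
`liminf (Nn_j + (2/A) E2_j/s) ≥ 2`; Fatou gives eventually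
`Lr_j y ρ + (2/A) Dr_j y ρ ≥ 2 (1 - 2κ) ρ` (`Nn_int`). Sum over `fine_cover`, use `ub8`.
-/

namespace Vale.Agent.P128

open Set Metric MeasureTheory Filter Topology Complex
open scoped ENNReal ContDiff RealInnerProductSpace Gradient Real ComplexConjugate

variable {Ω K L A S T U O X Γ P M₀ K₀ K₁ : Set ℂ} {u v w g hh ψ η : ℂ → ℝ} {G : ℂ → ℂ}
  {π₀ π₁ : ℂ → Set ℂ} {x y z c p q e a₀ F : ℂ} {lam H r s R a b t M Θ ρ ε δ d : ℝ} {n : ℕ}

theorem cptb3_sum (m : Measure ℂ) (hm : m (ball x r) ≠ ⊤) (B : Finset ℂ) (ρ : ℂ → ℝ)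
    (hs : ∀ y ∈ B, closedBall y (ρ y) ⊆ ball x r)
    (hd : (B : Set ℂ).PairwiseDisjoint (fun y => closedBall y (ρ y))) :
    ∑ y ∈ B, (m (ball y (ρ y))).toReal ≤ (m (ball x r)).toReal := by
  have hd' : (B : Set ℂ).PairwiseDisjoint (fun y => ball y (ρ y)) :=
    hd.mono fun _ => ball_subset_closedBall
  have h1 : ∑ y ∈ B, m (ball y (ρ y)) ≤ m (ball x r) := by
    rw [← measure_biUnion_finset hd' fun _ _ => measurableSet_ball]
    exact measure_mono (iUnion₂_subset fun y hy => ball_subset_closedBall.trans (hs y hy))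
  rw [← ENNReal.toReal_sum fun y hy => ne_top_of_le_ne_top hm
    (measure_mono (ball_subset_closedBall.trans (hs y hy)))]
  exact ENNReal.toReal_mono hm h1

theorem cptb3_sumL (hf : μH[1] (K ∩ closedBall x r) ≠ ⊤) (B : Finset ℂ)
    (ρ : ℂ → ℝ) (hs : ∀ y ∈ B, closedBall y (ρ y) ⊆ ball x r)
    (hd : (B : Set ℂ).PairwiseDisjoint (fun y => closedBall y (ρ y))) :
    ∑ y ∈ B, Lr K y (ρ y) ≤ Lr K x r := by
  have e : ∀ y s, (μH[1] : Measure ℂ).restrict K (ball y s) = μH[1] (K ∩ ball y s) := by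
    intro y s
    rw [Measure.restrict_apply measurableSet_ball, inter_comm]
  have := cptb3_sum ((μH[1] : Measure ℂ).restrict K) (x := x) (r := r) (by
    rw [e]
    exact ne_top_of_le_ne_top hf
      (measure_mono (inter_subset_inter_right _ ball_subset_closedBall))) B ρ hs hd
  simpa only [e, Lr] using this

theorem cptb3_sumD (hf : Dn u K (closedBall x r) ≠ ⊤) (B : Finset ℂ)
    (ρ : ℂ → ℝ) (hs : ∀ y ∈ B, closedBall y (ρ y) ⊆ ball x r)
    (hd : (B : Set ℂ).PairwiseDisjoint (fun y => closedBall y (ρ y))) :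
    ∑ y ∈ B, Dr u K y (ρ y) ≤ Dr u K x r := by
  have e : ∀ y s, volume.withDensity (fun z => ‖gK K u z‖ₑ ^ 2) (ball y s) =
      Dn u K (ball y s) := fun y s => withDensity_apply _ measurableSet_ball
  have := cptb3_sum (volume.withDensity (fun z => ‖gK K u z‖ₑ ^ 2)) (x := x) (r := r) (by
    rw [e]
    exact ne_top_of_le_ne_top hf (Dn_mono_set u K ball_subset_closedBall)) B ρ hs hd
  simpa only [e, Dr] using this

theorem cptb3_dct {μ : Measure ℝ} [IsFiniteMeasure μ] {f : ℕ → ℝ → ℝ}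
    (hf : ∀ j, Measurable (f j)) (h0 : ∀ j, ∀ᵐ s ∂μ, 0 ≤ f j s)
    (h2 : ∀ᵐ s ∂μ, ∀ᶠ j in atTop, 2 ≤ f j s) (hδ : 0 < δ) :
    ∀ᶠ j in atTop, Integrable (f j) μ → 2 * μ.real univ - δ ≤ ∫ s, f j s ∂μ := by
  have hm : ∀ j, AEStronglyMeasurable (fun s => min (f j s) 2) μ := fun j =>
    ((hf j).min measurable_const).aestronglyMeasurable
  have hb : ∀ j, ∀ᵐ s ∂μ, ‖min (f j s) 2‖ ≤ 2 := by
    intro j
    filter_upwards [h0 j] with s hs
    rw [Real.norm_eq_abs, abs_of_nonneg (le_min hs (by norm_num))]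
    exact min_le_right _ _
  have ht := tendsto_integral_of_dominated_convergence (μ := μ)
    (F := fun j s => min (f j s) 2) (f := fun _ => (2 : ℝ)) (fun _ => 2) hm
    (integrable_const _) hb (by
      filter_upwards [h2] with s hs
      refine tendsto_const_nhds.congr' ?_
      filter_upwards [hs] with j hj
      exact (min_eq_right hj).symm)
  rw [integral_const, smul_eq_mul] at ht
  have hlt : 2 * μ.real univ - δ < μ.real univ * 2 := by linarith
  filter_upwards [ht.eventually (lt_mem_nhds hlt)] with j hj hi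
  refine hj.le.trans (integral_mono ?_ hi fun s => min_le_left _ _)
  exact Integrable.of_bound (hm j) 2 (hb j)

theorem cptb3_E2 (u : ℂ → ℝ) (K : Set ℂ) (x : ℂ) (s : ℝ) : 0 ≤ E2 u K x s :=
  add_nonneg (A2_nonneg u K x s).1 (A2_nonneg u K x s).2

theorem cptb3_ball {Ω : ℕ → Set ℂ} (h : ∀ R, ∀ᶠ j in atTop, closedBall 0 R ⊆ Ω j) (x : ℂ) (r : ℝ) :
    ∀ᶠ j in atTop, closedBall x r ⊆ Ω j := by
  filter_upwards [h (‖x‖ + r)] with j hj
  refine Subset.trans (closedBall_subset_closedBall' ?_) hj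
  rw [dist_zero_right]
  linarith

theorem cptb3_loc {Ω : ℕ → Set ℂ} {lam : ℕ → ℝ} {u : ℕ → ℂ → ℝ} {K : ℕ → Set ℂ}
    {π₀ : ℕ → ℂ → Set ℂ} {u₀ : ℂ → ℝ} {A κ : ℝ} (h : Sq Ω lam u K π₀) (h₀ : Pre univ u₀ K₀)
    (hA : 0 < A) (ht : 0 < t) (hκ : 0 < κ) (hρ : 0 < ρ)
    (hB : ∀ s, Good u₀ K₀ y s → A2 u₀ K₀ y s ≤ t * s → ∀ᶠ j in atTop, Good (u j) (K j) y s →
      2 ≤ Nn (K j) y s ∨ A * s ≤ E2 (u j) (K j) y s)
    (hD : Dr u₀ K₀ y ρ ≤ κ * t * ρ) :
    ∀ᶠ j in atTop, (1 - 2 * κ) * (2 * ρ) ≤ Lr (K j) y ρ + 2 / A * Dr (u j) (K j) y ρ := by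
  set μ : Measure ℝ := volume.restrict (Ioo 0 ρ) with hμ
  have hfin : IsFiniteMeasure μ := ⟨by simp [hμ]⟩
  have hmem : ∀ᵐ s ∂μ, s ∈ Ioo 0 ρ := ae_restrict_mem measurableSet_Ioo
  have hint : ∀ f : ℝ → ℝ, ∫ s in (0 : ℝ)..ρ, f s = ∫ s, f s ∂μ := fun f => by
    rw [intervalIntegral.integral_of_le hρ.le, integral_Ioc_eq_integral_Ioo]
  have hii : ∀ f : ℝ → ℝ, IntervalIntegrable f volume 0 ρ → Integrable f μ := fun f hf =>
    (intervalIntegrable_iff_integrableOn_Ioo_of_le hρ.le).1 hf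
  have huniv : μ.real univ = ρ := by
    simp [hμ, Measure.real, hρ.le]
  set S : Set ℝ := {s | t ≤ E2 u₀ K₀ y s / s} with hS
  have hSm : MeasurableSet S :=
    measurableSet_le measurable_const ((meas_E2 h₀.2.1 u₀ y).2.2.1.div measurable_id)
  have hSμ : μ.real S ≤ κ * ρ := by
    obtain ⟨h1, h2⟩ := h₀.Dr_sub (x := y) (R := ρ) (subset_univ _) le_rfl hρ.le le_rfl
    have h3 := mul_meas_ge_le_integral_of_nonneg (μ := μ) (f := fun s => E2 u₀ K₀ y s / s)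
      (by
        filter_upwards [hmem] with s hs
        exact div_nonneg (cptb3_E2 _ _ _ _) hs.1.le) (hii _ h1) t
    rw [hint] at h2
    have h4 := Dr_nonneg u₀ K₀ y 0
    have h5 : t * μ.real S ≤ t * (κ * ρ) := by
      have : t * μ.real S ≤ ∫ s, E2 u₀ K₀ y s / s ∂μ := h3
      linarith
    exact le_of_mul_le_mul_left h5 ht
  have hν : (1 - κ) * ρ ≤ (μ.restrict Sᶜ).real univ := by
    have h1 := measureReal_add_measureReal_compl (μ := μ) hSm
    have h2 : (μ.restrict Sᶜ).real univ = μ.real Sᶜ := by simp [Measure.real]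
    linarith
  have hcl : ∀ j, IsClosed (K j) := fun j => (h.1 j).pre.2.1
  have h0 : ∀ j, ∀ᵐ s ∂μ, 0 ≤ (Nn (K j) y s : ℝ) + 2 / A * (E2 (u j) (K j) y s / s) := by
    intro j
    filter_upwards [hmem] with s hs
    have := div_nonneg (cptb3_E2 (u j) (K j) y s) hs.1.le
    positivity
  have hg : ∀ᵐ s : ℝ, ∀ j, closedBall y ρ ⊆ Ω j → s ∈ Ioo 0 ρ → Good (u j) (K j) y s := by
    refine ae_all_iff.2 fun j => ?_
    by_cases hj : closedBall y ρ ⊆ Ω j
    · filter_upwards [(h.1 j).pre.ae_good hj] with s hs _ using hs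
    · exact Eventually.of_forall fun s hs => absurd hs hj
  have hb := cptb3_ball h.2.1 y ρ
  have key := cptb3_dct (μ := μ.restrict Sᶜ) (δ := 2 * κ * ρ)
    (f := fun j s => (Nn (K j) y s : ℝ) + 2 / A * (E2 (u j) (K j) y s / s))
    (fun j => (meas_Nn (hcl j) y).add
      (((meas_E2 (hcl j) (u j) y).2.2.1.div measurable_id).const_mul _))
    (fun j => ae_restrict_of_ae (h0 j)) (by
      filter_upwards [ae_restrict_mem hSm.compl, ae_restrict_of_ae hmem,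
        ae_restrict_of_ae (ae_restrict_of_ae hg),
        ae_restrict_of_ae (ae_restrict_of_ae (h₀.ae_good (x := y) (R := ρ) (subset_univ _)))]
        with s hs hs' hgj hg0
      have h1 : E2 u₀ K₀ y s / s < t := not_le.1 hs
      have h2 : A2 u₀ K₀ y s ≤ t * s := by
        rw [div_lt_iff₀ hs'.1] at h1
        have := (A2_nonneg u₀ K₀ y s).2
        unfold E2 at h1
        linarith
      filter_upwards [hB s (hg0 hs') h2, hb] with j hj hj'
      have h3 := div_nonneg (cptb3_E2 (u j) (K j) y s) hs'.1.le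
      rcases hj (hgj j hj' hs') with h4 | h4
      · have h5 : (2 : ℝ) ≤ Nn (K j) y s := by exact_mod_cast h4
        have : 0 ≤ 2 / A * (E2 (u j) (K j) y s / s) := by positivity
        linarith
      · have h5 : A ≤ E2 (u j) (K j) y s / s := by rwa [le_div_iff₀ hs'.1]
        have h6 : 2 / A * A ≤ 2 / A * (E2 (u j) (K j) y s / s) :=
          mul_le_mul_of_nonneg_left h5 (by positivity)
        rw [div_mul_cancel₀ _ hA.ne'] at h6
        have : (0 : ℝ) ≤ Nn (K j) y s := Nat.cast_nonneg _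
        linarith) (by positivity)
  filter_upwards [key, hb] with j hj hj'
  have hp := (h.1 j).pre
  obtain ⟨a1, a2⟩ := Nn_int (hp.2.2.2 y ρ hj').2 (hcl j) le_rfl hρ.le le_rfl
  obtain ⟨b1, b2⟩ := hp.Dr_sub hj' le_rfl hρ.le le_rfl
  rw [hint] at a2 b2
  have hI : Integrable (fun s => (Nn (K j) y s : ℝ) + 2 / A * (E2 (u j) (K j) y s / s)) μ :=
    (hii _ a1).add ((hii _ b1).const_mul _)
  have c1 := hj hI.restrict
  have c2 := setIntegral_le_integral (s := Sᶜ) hI (h0 j)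
  rw [integral_add (hii _ a1) ((hii _ b1).const_mul _), integral_const_mul] at c2
  have c3 := Lr_nonneg (K j) y 0
  have c4 : 2 / A * ∫ s, E2 (u j) (K j) y s / s ∂μ ≤ 2 / A * Dr (u j) (K j) y ρ := by
    have := Dr_nonneg (u j) (K j) y 0
    exact mul_le_mul_of_nonneg_left (by linarith) (by positivity)
  linarith

theorem cptB3 {Ω : ℕ → Set ℂ} {lam : ℕ → ℝ} {u : ℕ → ℂ → ℝ} {K : ℕ → Set ℂ}
    {π₀ : ℕ → ℂ → Set ℂ} {u₀ : ℂ → ℝ} {β : Set ℂ → ℂ} (h : Sq Ω lam u K π₀)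
    (hc : Cv0 Ω u K π₀ u₀ K₀ β) (x : ℂ) (r : ℝ) (hε : 0 < ε) :
    ∀ᶠ j in atTop, Lr K₀ x r - ε ≤ Lr (K j) x r := by
  rcases le_or_gt r 0 with hr | hr
  · refine Eventually.of_forall fun j => ?_
    have e : Lr K₀ x r = 0 := by simp [Lr, ball_eq_empty.2 hr]
    have := Lr_nonneg (K j) x r
    linarith
  have h₀ := (cptB1 h hc).1
  have hL := Lr_nonneg K₀ x r
  have hA : 0 < 64 * r / ε := by positivity
  obtain ⟨t, ht, hB⟩ := cptB2 hA
  obtain ⟨κ, hκ, hκ1, hκ2⟩ : ∃ κ : ℝ, 0 < κ ∧ κ ≤ 1 / 4 ∧ 2 * κ * Lr K₀ x r ≤ ε / 4 := by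
    refine ⟨min (1 / 4) (ε / (8 * (Lr K₀ x r + 1))), by positivity, min_le_left _ _, ?_⟩
    have h1 : min (1 / 4) (ε / (8 * (Lr K₀ x r + 1))) ≤ ε / (8 * (Lr K₀ x r + 1)) :=
      min_le_right _ _
    rw [le_div_iff₀ (by positivity)] at h1
    have h2 : 0 ≤ min (1 / 4) (ε / (8 * (Lr K₀ x r + 1))) := by positivity
    nlinarith
  obtain ⟨B, ρ, hB1, hB2, hB3⟩ := fine_cover (x := x) (r := r) (ε := ε / 4)
    (Q := fun y ρ => Dr u₀ K₀ y ρ ≤ κ * t * ρ) h₀.2.1 (h₀.2.2.2 x r (subset_univ _)).2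
    (dens0 h₀) (by
      intro y hy hZ
      have h1 : Tendsto (fun ρ => Dr u₀ K₀ y ρ / ρ) (𝓝[>] 0) (𝓝 0) := by
        by_contra h1
        exact hZ ⟨hy.1, h1⟩
      filter_upwards [h1.eventually (gt_mem_nhds (mul_pos hκ ht)), self_mem_nhdsWithin]
        with ρ h2 h3
      exact ((div_lt_iff₀ h3).1 h2).le) (by positivity)
  have hall : ∀ᶠ j in atTop, ∀ y ∈ B, (1 - 2 * κ) * (2 * ρ y) ≤
      Lr (K j) y (ρ y) + 2 / (64 * r / ε) * Dr (u j) (K j) y (ρ y) := by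
    refine (eventually_all_finset B).2 fun y hy => ?_
    obtain ⟨a1, a2, a3, -⟩ := hB1 y hy
    exact cptb3_loc h h₀ hA ht hκ a2 (hB h hc y a1) a3
  have hl : ∀ᶠ j in atTop, lam j * r ≤ 1 := by
    have : Tendsto (fun j => lam j * r) atTop (𝓝 (0 * r)) := h.2.2.mul_const r
    rw [zero_mul] at this
    exact (this.eventually (gt_mem_nhds one_pos)).mono fun j hj => hj.le
  filter_upwards [hall, hl, cptb3_ball h.2.1 x r] with j h1 h2 h3
  have hp := (h.1 j).pre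
  have hs : ∀ y ∈ B, closedBall y (ρ y) ⊆ ball x r := fun y hy => (hB1 y hy).2.2.2
  have c1 := cptb3_sumL (hp.2.2.2 x r h3).2 B ρ hs hB2
  have c2 := cptb3_sumD (hp.2.2.2 x r h3).1 B ρ hs hB2
  have c3 := Finset.sum_le_sum h1
  rw [Finset.sum_add_distrib, ← Finset.mul_sum B (fun y => 2 * ρ y),
    ← Finset.mul_sum B (fun y => Dr (u j) (K j) y (ρ y))] at c3
  have c4 := ub8 (h.1 j) hr h3 h2
  have c5 := Lr_nonneg (K j) x r
  have c6 : 2 / (64 * r / ε) * ∑ y ∈ B, Dr (u j) (K j) y (ρ y) ≤ ε / 4 := by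
    have e : 2 / (64 * r / ε) * (8 * r) = ε / 4 := by field_simp; norm_num
    rw [← e]
    exact mul_le_mul_of_nonneg_left (by linarith) (by positivity)
  have c7 : (1 - 2 * κ) * (Lr K₀ x r - ε / 4) ≤ (1 - 2 * κ) * ∑ y ∈ B, 2 * ρ y :=
    mul_le_mul_of_nonneg_left hB3 (by linarith)
  have c8 : 0 ≤ κ * ε := by positivity
  linarith

end Vale.Agent.P128
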