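import Vale.Agent.P128.Hext
import Vale.Agent.P128.Arcs

/-!
# P128 CptC

Gluing a competitor of the limit into `(u j, K j)`. Let `T = K₀ ∩ sphere c s` (finite), `S` the union
of the caps `sphere ∩ closedBall p τ`, `p ∈ T` (`cap_len`), `χ` a `C¹` or Lipschitz cutoff equal to `0`
within `τ/2` of `T` and `1` beyond `τ`, `φ_j = χ (u_j - u_j (β (cc K₀ ·)) - u₀)` on the circle: `φ_j` and
its angular derivative tend to `0` uniformly (`Cv0` on the compact `sphere \ ⋃ ball p (τ/4)`, `lc_cc`,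
`circ_deriv`). Extend by `hext` (`T = ∅`, `β = 1`, `m = 0`) to `Φ_j`. Apply `glue` with crack
`(L ∩ closedBall c s) ∪ S ∪ {c}`, function `w + u_j (β (π₁ ·)) + Φ_j`, labels `π₀ j (β (π₁ ·))`, and
`‖a + b‖² ≤ (1 + κ) ‖a‖² + (1 + 1/κ) ‖b‖²`.
-/

namespace Vale.Agent.P128

open Set Metric MeasureTheory Filter Topology Complex
open scoped ENNReal ContDiff RealInnerProductSpace Gradient Real ComplexConjugate

variable {Ω K L A S T U O X Γ P M₀ K₀ K₁ : Set ℂ} {u v w g hh ψ η : ℂ → ℝ} {G : ℂ → ℂ}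
  {π₀ π₁ : ℂ → Set ℂ} {x y z c p q e a₀ F : ℂ} {lam H r s R a b t M Θ ρ ε δ d : ℝ} {n : ℕ}

theorem cptc_cut (hT : T.Finite) {τ : ℝ} (hτ : 0 < τ) :
    ∃ χ : ℂ → ℝ, ContDiff ℝ 1 χ ∧ (∀ z, |χ z| ≤ 1) ∧
      (∀ p ∈ T, ∀ z ∈ closedBall p (τ / 2), χ z = 0) ∧
      ∀ z, (∀ p ∈ T, z ∉ ball p τ) → χ z = 1 := by
  have h1 : IsClosed (⋃ p ∈ T, closedBall p (τ / 2)) :=
    hT.isClosed_biUnion fun _ _ => isClosed_closedBall
  have h2 : IsClosed (⋃ p ∈ T, ball p τ)ᶜ := (isOpen_biUnion fun _ _ => isOpen_ball).isClosed_compl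
  obtain ⟨f, h3, h4, h5⟩ := exists_contMDiffMap_zero_one_of_isClosed (n := 1)
    (modelWithCornersSelf ℝ ℂ) h1 h2 (disjoint_compl_right_iff_subset.2
      (iUnion₂_mono fun _ _ => closedBall_subset_ball (by linarith)))
  refine ⟨f, f.contMDiff.contDiff, fun z => ?_, fun p hp z hz => h3 (mem_biUnion hp hz),
    fun z hz => h4 fun k => ?_⟩
  · rw [abs_of_nonneg (h5 z).1]
    exact (h5 z).2
  · obtain ⟨p, hp, k⟩ := mem_iUnion₂.1 k
    exact hz p hp k

theorem cptc_ext {φ : ℂ → ℝ} (hs : 0 < s)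
    (h : ∀ z ∈ sphere c s, ContDiffAt ℝ 1 φ z ∧ |φ z| ≤ δ ∧ ‖fderiv ℝ φ z‖ ≤ δ) :
    ∃ Φ : ℂ → ℝ, LocallyLipschitzOn (closedBall c s \ {c}) Φ ∧ (∀ z ∈ sphere c s, Φ z = φ z) ∧
      Dn Φ {c} (ball c s) ≤ ENNReal.ofReal (π * (1 + s ^ 2) * δ ^ 2) := by
  have hm : ∀ θ, circleMap c s θ ∈ sphere c s := fun θ => circleMap_mem_sphere c hs.le θ
  have hF : ContDiff ℝ 1 fun θ => φ (circleMap c s θ) := contDiff_iff_contDiffAt.2 fun θ =>
    (h _ (hm θ)).1.comp θ (contDiff_circleMap c s).contDiffAt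
  have hd : ∀ θ, |deriv (fun θ => φ (circleMap c s θ)) θ| ≤ δ * s := by
    intro θ
    have h1 := ((h _ (hm θ)).1.differentiableAt one_ne_zero).hasFDerivAt.comp_hasDerivAt θ
      (hasDerivAt_circleMap c s θ)
    have h2 : deriv (fun θ => φ (circleMap c s θ)) θ = _ := h1.deriv
    rw [h2, ← Real.norm_eq_abs]
    refine (ContinuousLinearMap.le_opNorm _ _).trans ?_
    rw [norm_mul, norm_I, mul_one, norm_circleMap_zero, abs_of_pos hs]
    exact mul_le_mul_of_nonneg_right (h _ (hm θ)).2.2 hs.le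
  have c1 : Continuous fun θ => deriv (fun θ => φ (circleMap c s θ)) θ ^ 2 :=
    (hF.continuous_deriv le_rfl).pow 2
  have c2 : Continuous fun θ => (φ (circleMap c s θ) - 0) ^ 2 :=
    (hF.continuous.sub continuous_const).pow 2
  obtain ⟨Φ, h1, h2, h3⟩ := hext (x := c) (T := ∅) (β := 1) (φ := φ) (m := fun _ => 0) (a := 0)
    (φ' := deriv fun θ => φ (circleMap c s θ)) hs one_pos (empty_subset _) finite_empty
    (fun z hz => by
      obtain ⟨k, t, ht, e⟩ := (h z hz.1).1.exists_lipschitzOnWith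
      exact ⟨k, t, mem_nhdsWithin_of_mem_nhds ht, e⟩)
    (fun _ _ => Eventually.of_forall fun _ => rfl)
    (Eventually.of_forall fun θ _ => (hF.differentiable one_ne_zero θ).hasDerivAt)
    (c1.intervalIntegrable _ _) (c2.intervalIntegrable _ _)
  have e : cone c ∅ = {c} := by simp [cone]
  rw [e] at h1 h3
  refine ⟨Φ, h1, fun z hz => h2 z ⟨hz, notMem_empty z⟩, h3.trans (ENNReal.ofReal_le_ofReal ?_)⟩
  have hπ : (0 : ℝ) ≤ 0 + 2 * π := by positivity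
  have i1 := intervalIntegral.integral_mono_on hπ (c1.intervalIntegrable (μ := volume) _ _)
    (intervalIntegrable_const (c := (δ * s) ^ 2)) fun θ _ => by
      rw [← sq_abs]
      exact pow_le_pow_left₀ (abs_nonneg _) (hd θ) 2
  have i2 := intervalIntegral.integral_mono_on hπ (c2.intervalIntegrable (μ := volume) _ _)
    (intervalIntegrable_const (c := δ ^ 2)) fun θ _ => by
      rw [sub_zero, ← sq_abs]
      exact pow_le_pow_left₀ (abs_nonneg _) (h _ (hm θ)).2.1 2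
  rw [intervalIntegral.integral_const, smul_eq_mul] at i1 i2
  nlinarith

theorem cptc_pt (a b : ℂ) {κ : ℝ} (hκ : 0 < κ) :
    ‖a + b‖ₑ ^ 2 ≤ ENNReal.ofReal (1 + κ) * ‖a‖ₑ ^ 2 + ENNReal.ofReal (1 + 1 / κ) * ‖b‖ₑ ^ 2 := by
  rw [← ofReal_norm, ← ofReal_norm, ← ofReal_norm,
    ← ENNReal.ofReal_pow (norm_nonneg _), ← ENNReal.ofReal_pow (norm_nonneg _),
    ← ENNReal.ofReal_pow (norm_nonneg _), ← ENNReal.ofReal_mul (by positivity),
    ← ENNReal.ofReal_mul (by positivity), ← ENNReal.ofReal_add (by positivity) (by positivity)]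
  refine ENNReal.ofReal_le_ofReal ?_
  have h1 := pow_le_pow_left₀ (norm_nonneg _) (norm_add_le a b) 2
  have h2 : 0 ≤ (κ * ‖a‖ - ‖b‖) ^ 2 / κ := by positivity
  have h3 : (κ * ‖a‖ - ‖b‖) ^ 2 / κ = κ * ‖a‖ ^ 2 - 2 * ‖a‖ * ‖b‖ + 1 / κ * ‖b‖ ^ 2 := by
    field_simp
    ring
  nlinarith

theorem cptc_dn {ℓ Φ : ℂ → ℝ} {κ : ℝ} (hκ : 0 < κ) (hL : IsClosed L) (hA : L ∩ ball c s ⊆ A)
    (hc : c ∈ A) (hw : LocallyLipschitzOn (univ \ L) w) (hℓ : LC (univ \ L) ℓ)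
    (hΦ : LocallyLipschitzOn (closedBall c s \ {c}) Φ) :
    Dn (fun z => w z + ℓ z + Φ z) A (ball c s) ≤ ENNReal.ofReal (1 + κ) * Dn w L (ball c s) +
      ENNReal.ofReal (1 + 1 / κ) * Dn Φ {c} (ball c s) := by
  have ho : IsOpen (univ \ L) := isOpen_univ.sdiff hL
  have m1 : Measurable fun z => ‖gK L w z‖ₑ ^ 2 := (meas_gK hL w).enorm.pow_const 2
  have m2 : Measurable fun z => ‖gK {c} Φ z‖ₑ ^ 2 :=
    (meas_gK isClosed_singleton Φ).enorm.pow_const 2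
  unfold Dn
  rw [← lintegral_const_mul _ m1, ← lintegral_const_mul _ m2,
    ← lintegral_add_left (m1.const_mul _)]
  refine lintegral_mono_ae ((ae_restrict_iff' measurableSet_ball).2 ?_)
  filter_upwards [ae_diff ho hw, ae_diff (isOpen_ball.sdiff isClosed_singleton)
    (hΦ.mono (sdiff_subset_sdiff_left ball_subset_closedBall))] with z h1 h2 hz
  by_cases hzA : z ∈ A
  · rw [gK_of_mem _ hzA]
    simp
  have hzL : z ∉ L := fun k => hzA (hA ⟨k, hz⟩)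
  have hzc : z ∉ ({c} : Set ℂ) := fun k => hzA (mem_singleton_iff.1 k ▸ hc)
  have h3 : ℓ =ᶠ[𝓝 z] fun _ => ℓ z := by
    have := hℓ z ⟨mem_univ z, hzL⟩
    rwa [ho.nhdsWithin_eq ⟨mem_univ z, hzL⟩] at this
  have h4 : DifferentiableAt ℝ ℓ z := (differentiableAt_const _).congr_of_eventuallyEq h3
  have h5 := h1 ⟨mem_univ z, hzL⟩
  rw [gK_of_notMem _ hzA, gK_of_notMem _ hzL, gK_of_notMem _ hzc,
    grad_add (u := fun z => w z + ℓ z) (h5.add h4) (h2 ⟨hz, hzc⟩), grad_add h5 h4,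
    hℓ.grad ho ⟨mem_univ z, hzL⟩, add_zero]
  exact cptc_pt _ _ hκ

theorem cptc_phi {χ u₀ ℓ : ℂ → ℝ} (hχ : ContDiff ℝ 1 χ) (h1 : |χ z| ≤ 1) (h2 : ‖fderiv ℝ χ z‖ ≤ M)
    (hu : ContDiffAt ℝ 1 u z) (hu₀ : ContDiffAt ℝ 1 u₀ z) (hℓ : ℓ =ᶠ[𝓝 z] fun _ => ℓ z)
    (h3 : ‖∇ u z - ∇ u₀ z‖ ≤ δ) (h4 : |u z - ℓ z - u₀ z| ≤ δ) :
    ContDiffAt ℝ 1 (fun z => χ z * (u z - ℓ z - u₀ z)) z ∧
      |χ z * (u z - ℓ z - u₀ z)| ≤ (M + 1) * δ ∧
      ‖fderiv ℝ (fun z => χ z * (u z - ℓ z - u₀ z)) z‖ ≤ (M + 1) * δ := by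
  have hδ : 0 ≤ δ := (abs_nonneg _).trans h4
  have hM : 0 ≤ M := (norm_nonneg _).trans h2
  have hl : ContDiffAt ℝ 1 ℓ z := contDiffAt_const.congr_of_eventuallyEq hℓ
  have hg : ContDiffAt ℝ 1 (fun z => u z - ℓ z - u₀ z) z := (hu.sub hl).sub hu₀
  have du := hu.differentiableAt one_ne_zero
  have du₀ := hu₀.differentiableAt one_ne_zero
  have dl := hl.differentiableAt one_ne_zero
  have h5 : ∇ ℓ z = 0 := by rw [hℓ.gradient_eq, gradient_fun_const]
  have h6 : ‖∇ (fun z => u z - ℓ z - u₀ z) z‖ ≤ δ := by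
    rw [grad_sub (u := fun z => u z - ℓ z) (du.sub dl) du₀, grad_sub du dl, h5, sub_zero]
    exact h3
  refine ⟨hχ.contDiffAt.mul hg, ?_, ?_⟩
  · rw [abs_mul]
    nlinarith [abs_nonneg (χ z), abs_nonneg (u z - ℓ z - u₀ z)]
  · rw [← norm_grad, grad_mul (hχ.differentiable one_ne_zero z) (hg.differentiableAt one_ne_zero)]
    refine (norm_add_le _ _).trans ?_
    rw [norm_mul, norm_mul, norm_real, norm_real, Real.norm_eq_abs, Real.norm_eq_abs, norm_grad χ]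
    have h7 := mul_le_mul h1 h6 (norm_nonneg _) zero_le_one
    have h8 := mul_le_mul h4 h2 (norm_nonneg _) hδ
    linarith

theorem cptC {Ω : ℕ → Set ℂ} {lam : ℕ → ℝ} {u : ℕ → ℂ → ℝ} {K : ℕ → Set ℂ}
    {π₀ : ℕ → ℂ → Set ℂ} {u₀ : ℂ → ℝ} {β : Set ℂ → ℂ} (h : Sq Ω lam u K π₀)
    (hc : Cv0 Ω u K π₀ u₀ K₀ β) (hw : Comp univ u₀ K₀ (cc K₀) c r w L π₁) (hrs : r < s)
    (hs : 0 < s) (hf : (K₀ ∩ sphere c s).Finite) (hε : 0 < ε) :
    ∀ᶠ j in atTop, En (u j) (K j) (closedBall c s) ≤ En w L (closedBall c s) + ENNReal.ofReal ε := by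
  obtain ⟨hL, hwl, hπ₁, hLK, hwu⟩ := hw
  obtain ⟨hK₀, hu₀, -, hcv⟩ := hc
  rcases eq_or_ne (Dn w L (ball c s)) ⊤ with hD | hD
  · refine Eventually.of_forall fun j => ?_
    rw [En.eq_1 w, Dn_closedBall, hD, top_add, top_add]
    exact le_top
  obtain ⟨D, hD0, hD⟩ : ∃ D : ℝ, 0 ≤ D ∧ Dn w L (ball c s) = ENNReal.ofReal D :=
    ⟨_, ENNReal.toReal_nonneg, (ENNReal.ofReal_toReal hD).symm⟩
  set N : ℕ := hf.toFinset.card with hN
  obtain ⟨τ, hτ, hτ'⟩ : ∃ τ : ℝ, 0 < τ ∧ N * (4 * τ) ≤ ε / 4 := by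
    refine ⟨ε / (16 * (N + 1)), by positivity, ?_⟩
    rw [show (N : ℝ) * (4 * (ε / (16 * (N + 1)))) = ε / 4 * (N / (N + 1)) by field_simp; ring]
    exact mul_le_of_le_one_right (by positivity) (div_le_one_of_le₀ (by linarith) (by positivity))
  obtain ⟨κ, hκ, hκ'⟩ : ∃ κ : ℝ, 0 < κ ∧ κ * D ≤ ε / 4 := by
    refine ⟨ε / (4 * (D + 1)), by positivity, ?_⟩
    rw [show ε / (4 * (D + 1)) * D = ε / 4 * (D / (D + 1)) by field_simp]
    exact mul_le_of_le_one_right (by positivity) (div_le_one_of_le₀ (by linarith) (by positivity))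
  obtain ⟨χ, hχ, hχ1, hχ0, hχ2⟩ := cptc_cut hf hτ
  obtain ⟨M, hM⟩ := (isCompact_sphere c s).exists_bound_of_continuousOn
    (hχ.continuous_fderiv one_ne_zero).continuousOn
  obtain ⟨δ, hδ, hδ'⟩ : ∃ δ : ℝ, 0 < δ ∧
      (1 + 1 / κ) * (π * (1 + s ^ 2) * ((|M| + 1) * δ) ^ 2) ≤ ε / 4 := by
    have h1 : ContinuousAt (fun δ : ℝ => (1 + 1 / κ) * (π * (1 + s ^ 2) * ((|M| + 1) * δ) ^ 2)) 0 := by
      fun_prop
    have h2 := h1.tendsto.eventually_le_const (u := ε / 4) (by simpa using hε)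
    obtain ⟨δ, h3, h4⟩ := ((h2.filter_mono nhdsWithin_le_nhds).and
      (self_mem_nhdsWithin (a := (0 : ℝ)) (s := Ioi 0))).exists
    exact ⟨δ, h4, h3⟩
  set S : Set ℂ := ⋃ p ∈ K₀ ∩ sphere c s, sphere c s ∩ closedBall p τ with hS
  set C : Set ℂ := sphere c s \ ⋃ p ∈ K₀ ∩ sphere c s, ball p (τ / 4) with hC
  have hCc : IsCompact C := (isCompact_sphere c s).diff (isOpen_biUnion fun _ _ => isOpen_ball)
  have hCK : C ⊆ K₀ᶜ := fun z hz k => hz.2 (mem_biUnion ⟨k, hz.1⟩ (mem_ball_self (by positivity)))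
  have hSc : IsClosed S := hf.isClosed_biUnion fun _ _ => isClosed_sphere.inter isClosed_closedBall
  have hSl : μH[1] S ≤ ENNReal.ofReal (ε / 4) := by
    have h1 : S = ⋃ p ∈ hf.toFinset, sphere c s ∩ closedBall p τ := by simp [hS]
    rw [h1]
    refine (measure_biUnion_finset_le _ _).trans ((Finset.sum_le_card_nsmul _ _
      (ENNReal.ofReal (4 * τ)) fun p hp => cap_len (hf.mem_toFinset.1 hp).2 hτ.le).trans ?_)
    rw [nsmul_eq_mul, ← ENNReal.ofReal_natCast, ← ENNReal.ofReal_mul (Nat.cast_nonneg _)]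
    exact ENNReal.ofReal_le_ofReal hτ'
  have hCS : ∀ z ∈ sphere c s, z ∉ S → z ∈ C ∧ χ z = 1 := fun z hz k =>
    ⟨⟨hz, fun k' => by
      obtain ⟨p, hp, k'⟩ := mem_iUnion₂.1 k'
      exact k (mem_biUnion hp ⟨hz, ball_subset_closedBall (ball_subset_ball (by linarith) k')⟩)⟩,
    hχ2 z fun p hp k' => k (mem_biUnion hp ⟨hz, ball_subset_closedBall k'⟩)⟩
  set A : Set ℂ := L ∩ closedBall c s ∪ S ∪ {c} with hA
  have hAc : IsClosed A := ((hL.inter isClosed_closedBall).union hSc).union isClosed_singleton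
  have hAs : A ⊆ closedBall c s := by
    refine union_subset (union_subset inter_subset_right ?_)
      (singleton_subset_iff.2 (mem_closedBall_self hs.le))
    exact iUnion₂_subset fun _ _ => inter_subset_left.trans sphere_subset_closedBall
  have hAl : μH[1] A ≤ μH[1] (L ∩ closedBall c s) + ENNReal.ofReal (ε / 4) := by
    refine (measure_union_le _ _).trans ?_
    rw [len_finite (finite_singleton c), add_zero]
    exact (measure_union_le _ _).trans (add_le_add_right hSl _)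
  have hAL : closedBall c s \ A ⊆ univ \ L := fun z hz =>
    ⟨mem_univ z, fun k => hz.2 (Or.inl (Or.inl ⟨k, hz.1⟩))⟩
  have hl : ∀ᶠ j in atTop, lam j * s ^ 2 ≤ ε / 4 :=
    (h.2.2.mul_const (s ^ 2)).eventually (ge_mem_nhds (by simpa using hε))
  filter_upwards [hcv C hCK hCc δ hδ, h.2.1 (‖c‖ + s), hl] with j hj hΩ hl
  have hb : closedBall c s ⊆ Ω j :=
    (closedBall_subset_closedBall' (by rw [dist_zero_right, add_comm])).trans hΩ
  have hp := (h.1 j).pre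
  obtain ⟨Φ, hΦ, hΦe, hΦD⟩ := cptc_ext (c := c) (δ := (|M| + 1) * δ)
    (φ := fun z => χ z * (u j z - u j (β (cc K₀ z)) - u₀ z)) hs fun z hz => by
      by_cases hzC : z ∈ C
      · obtain ⟨h1, h2, h3, -⟩ := hj z hzC
        refine cptc_phi (ℓ := fun z => u j (β (cc K₀ z))) hχ (hχ1 z)
          ((hM z hz).trans (le_abs_self M)) (hp.2.2.1.contDiffAt (hp.isOpen.mem_nhds h1))
          (hu₀.contDiffAt (hK₀.isOpen_compl.mem_nhds (hCK hzC))) ?_ h2 h3
        have := (lc_cc hK₀).comp (fun t => u j (β t)) z (hCK hzC)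
        rwa [hK₀.isOpen_compl.nhdsWithin_eq (hCK hzC)] at this
      · obtain ⟨p, hp, k⟩ := mem_iUnion₂.1 (not_not.1 fun k => hzC ⟨hz, k⟩)
        have h1 : (fun z => χ z * (u j z - u j (β (cc K₀ z)) - u₀ z)) =ᶠ[𝓝 z] fun _ => 0 := by
          filter_upwards [isOpen_ball.mem_nhds k] with y hy
          rw [hχ0 p hp y (ball_subset_closedBall (ball_subset_ball (by linarith) hy)), zero_mul]
        refine ⟨contDiffAt_const.congr_of_eventuallyEq h1, ?_, ?_⟩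
        · rw [h1.eq_of_nhds, abs_zero]
          positivity
        · rw [h1.fderiv_eq, fderiv_fun_const, Pi.zero_apply, norm_zero]
          positivity
  have hℓ : LC (univ \ L) fun z => u j (β (π₁ z)) := hπ₁.comp fun t => u j (β t)
  have h1 := glue (w := fun z => w z + u j (β (π₁ z)) + Φ z) (π₁ := fun z => π₀ j (β (π₁ z)))
    (h.1 j) hs hb hAc hAs
    (fun z hz => by
      by_contra k
      exact (hj z (hCS z hz.2 fun k' => k (Or.inl (Or.inr k'))).1).1.2 hz.1)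
    (lip_add (lip_add (hwl.mono hAL) (hℓ.mono hAL).lip)
      (hΦ.mono fun z hz => ⟨hz.1, fun k => hz.2 (Or.inr k)⟩))
    ((hπ₁.mono hAL).comp fun t => π₀ j (β t))
    (fun z hz => by
      obtain ⟨h1, h2⟩ := hCS z hz.1 fun k' => hz.2 (Or.inl (Or.inr k'))
      obtain ⟨h3, h4⟩ := hwu z ⟨mem_univ z, hCK h1⟩ fun k => by
        rw [mem_closedBall, mem_sphere.1 hz.1] at k
        linarith
      refine ⟨?_, ?_⟩
      · simp only [h3, h4, hΦe z hz.1, h2]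
        ring
      · simp only [h4]
        exact (hj z h1).2.2.2.symm)
  have h2 := cptc_dn (A := A) hκ hL (fun z hz => Or.inl (Or.inl ⟨hz.1, ball_subset_closedBall hz.2⟩))
    (Or.inr rfl) hwl hℓ hΦ
  have h3 : Dn (fun z => w z + u j (β (π₁ z)) + Φ z) A (ball c s) ≤
      ENNReal.ofReal D + ENNReal.ofReal (ε / 2) := by
    refine h2.trans ((add_le_add_right (mul_le_mul_right hΦD _) _).trans ?_)
    rw [hD, ← ENNReal.ofReal_mul (by positivity), ← ENNReal.ofReal_mul (by positivity),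
      ← ENNReal.ofReal_add (by positivity) (by positivity),
      ← ENNReal.ofReal_add hD0 (by positivity)]
    exact ENNReal.ofReal_le_ofReal (by linarith)
  refine h1.trans ((add_le_add (add_le_add h3 hAl) (ENNReal.ofReal_le_ofReal hl)).trans_eq ?_)
  have e : ENNReal.ofReal ε =
      ENNReal.ofReal (ε / 2) + ENNReal.ofReal (ε / 4) + ENNReal.ofReal (ε / 4) := by
    rw [← ENNReal.ofReal_add (by positivity) (by positivity),
      ← ENNReal.ofReal_add (by positivity) (by positivity)]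
    congr 1
    ring
  rw [En.eq_1 w, Dn_closedBall, hD, e]
  ring

end Vale.Agent.P128
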