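import Vale.Agent.P128.CptA
import Vale.Agent.P128.CptB3
import Vale.Agent.P128.CptC
import Vale.Agent.P128.EL0

/-!
# P128 Cpt

Compactness theorem. Minimality of the limit: for a competitor in `closedBall c r` take `s > r` with
finite `K₀ ∩ sphere c s` (`eil_fin`); `cptB1`, `cptB3`, `cptC` give `En u₀ K₀ ≤ En w L` on the ball of
radius `s`; cancel the annulus. `el0` gives `NP`. With `(w, L) = (u₀, K₀)` one gets
`limsup (Dr_j + Lr_j) ≤ Dr + Lr` at such `s`, so both converge there; monotonicity, `Pre.Dr_cont` and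
continuity from above of the length give `Cv`. Reduced: `dlb` and the upper bound in `Cv`.
-/

namespace Vale.Agent.P128

open Set Metric MeasureTheory Filter Topology Complex
open scoped ENNReal ContDiff RealInnerProductSpace Gradient Real ComplexConjugate

variable {Ω K L A S T U O X Γ P M₀ K₀ K₁ : Set ℂ} {u v w g hh ψ η : ℂ → ℝ} {G : ℂ → ℂ}
  {π₀ π₁ : ℂ → Set ℂ} {x y z c p q e a₀ F : ℂ} {lam H r s R a b t M Θ ρ ε δ d : ℝ} {n : ℕ}

theorem cpt_pick {Q : ℝ → Prop} (hK : IsClosed K)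
    (hf : ∀ R, μH[1] (K ∩ closedBall x R) ≠ ⊤) (hr : 0 ≤ r) (hQ : ∀ᶠ s in 𝓝[>] r, Q s) :
    ∃ s, r < s ∧ Q s ∧ (K ∩ sphere x s).Finite := by
  obtain ⟨b, hb, hs⟩ := mem_nhdsGT_iff_exists_Ioo_subset.1 hQ
  have h1 : volume (Ioo r b) ≠ 0 := by
    rw [Real.volume_Ioo]
    exact (ENNReal.ofReal_pos.2 (sub_pos.2 hb)).ne'
  obtain ⟨s, hs1, hs2⟩ := Measure.exists_mem_of_measure_ne_zero_of_ae h1
    (ae_restrict_of_ae (eil_fin (hf b) hK))
  exact ⟨s, hs1.1, hs hs1, hs2 ⟨hr.trans_lt hs1.1, hs1.2⟩⟩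

theorem cpt_split (u : ℂ → ℝ) (K : Set ℂ) (hT : MeasurableSet T) (h : T ⊆ S) :
    En u K S = En u K T + En u K (S \ T) := by
  have h1 : Dn u K S = Dn u K T + Dn u K (S \ T) := by
    unfold Dn
    rw [← lintegral_inter_add_sdiff _ S hT, inter_eq_right.2 h]
  have h2 : μH[1] (K ∩ S) = μH[1] (K ∩ T) + μH[1] (K ∩ (S \ T)) := by
    rw [← measure_inter_add_sdiff (K ∩ S) hT, inter_assoc, inter_eq_right.2 h, inter_sdiff_assoc]
  unfold En
  rw [h1, h2, add_add_add_comm]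

theorem cpt_ann (hK : IsClosed K) (hw : Comp univ u K π₀ c r w L π₁) (S : Set ℂ)
    (hS : MeasurableSet S) : En w L (S \ closedBall c r) = En u K (S \ closedBall c r) := by
  obtain ⟨-, -, -, h1, h2⟩ := hw
  have e1 : L ∩ (S \ closedBall c r) = K ∩ (S \ closedBall c r) := by
    ext z
    exact and_congr_left fun hz => h1 z hz.2
  have e2 : Dn w L (S \ closedBall c r) = Dn u K (S \ closedBall c r) := by
    refine setLIntegral_congr_fun (hS.diff measurableSet_closedBall) fun z hz => ?_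
    by_cases hk : z ∈ K
    · simp only [gK_of_mem u hk, gK_of_mem w ((h1 z hz.2).2 hk)]
    · have h3 : w =ᶠ[𝓝 z] u := by
        filter_upwards [hK.isOpen_compl.mem_nhds hk,
          isClosed_closedBall.isOpen_compl.mem_nhds hz.2] with y hy hy'
        exact (h2 y ⟨mem_univ _, hy⟩ hy').1
      simp only [gK_of_notMem u hk, gK_of_notMem w fun hl => hk ((h1 z hz.2).1 hl),
        h3.gradient_eq]
  unfold En
  rw [e1, e2]

theorem cpt_self (h : Pre univ u K) (hw : LocallyLipschitzOn Kᶜ w)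
    (he : ∀ z ∉ closedBall c r, w z = u z) : Comp univ u K (cc K) c r w K (cc K) := by
  refine ⟨h.2.1, ?_, ?_, fun _ _ => Iff.rfl, fun z _ hz => ⟨he z hz, rfl⟩⟩
  · rwa [← compl_eq_univ_sdiff]
  · rw [← compl_eq_univ_sdiff]
    exact lc_cc h.2.1

theorem cpt_above (hK : IsClosed K) (hf : ∀ R, μH[1] (K ∩ closedBall x R) ≠ ⊤) (r : ℝ)
    (hε : 0 < ε) : ∀ᶠ s in 𝓝[>] r, Lc K x s ≤ Lc K x r + ε := by
  have h1 := tendsto_measure_biInter_gt (μ := (μH[1] : Measure ℂ))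
    (s := fun s : ℝ => K ∩ closedBall x s) (a := r)
    (fun s _ => (hK.inter isClosed_closedBall).measurableSet.nullMeasurableSet)
    (fun i j _ hij => inter_subset_inter_right _ (closedBall_subset_closedBall hij))
    ⟨r + 1, by linarith, hf _⟩
  have e : ⋂ s > r, K ∩ closedBall x s = K ∩ closedBall x r := by
    ext z
    simp only [mem_iInter, mem_inter_iff, mem_closedBall]
    exact ⟨fun h => ⟨(h (r + 1) (by linarith)).1, le_of_forall_gt_imp_ge_of_dense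
      fun s hs => (h s hs).2⟩, fun h s hs => ⟨h.1, h.2.trans hs.le⟩⟩
  rw [e] at h1
  have h2 := (ENNReal.tendsto_toReal (hf r)).comp h1
  exact (h2.eventually (gt_mem_nhds (lt_add_of_pos_right _ hε))).mono fun s hs => hs.le

section
variable {Ω : ℕ → Set ℂ} {lam : ℕ → ℝ} {u : ℕ → ℂ → ℝ} {K : ℕ → Set ℂ}
  {π₀ : ℕ → ℂ → Set ℂ} {u₀ : ℂ → ℝ} {β : Set ℂ → ℂ}

theorem cpt_sub (h : Sq Ω lam u K π₀) (x : ℂ) (r : ℝ) :
    ∀ᶠ j in atTop, closedBall x r ⊆ Ω j := by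
  filter_upwards [h.2.1 (r + dist x 0)] with j hj
  exact (closedBall_subset_closedBall' le_rfl).trans hj

theorem cpt_min0 (h : Sq Ω lam u K π₀) (hc : Cv0 Ω u K π₀ u₀ K₀ β)
    (hw : Comp univ u₀ K₀ (cc K₀) c r w L π₁) (hrs : r < s) (hs : 0 < s)
    (hf : (K₀ ∩ sphere c s).Finite) :
    En u₀ K₀ (closedBall c s) ≤ En w L (closedBall c s) := by
  obtain ⟨hp, hD⟩ := cptB1 h hc
  refine ENNReal.le_of_forall_pos_le_add fun ε hε _ => ?_
  have hε' : (0 : ℝ) < ε / 3 := by positivity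
  obtain ⟨j, h1, h2, h3, h4⟩ := ((hD c s _ hε').and ((cptB3 h hc c s hε').and
    ((cptC h hc hw hrs hs hf hε').and (cpt_sub h c s)))).exists
  have hj := (h.1 j).pre
  have h5 := Lr_le_Lc (hj.2.2.2 c s h4).2
  have h6 := Dr_nonneg (u j) (K j) c s
  have h7 := Lr_nonneg (K j) c s
  rw [hp.En_eq (subset_univ _), Lc_eq_Lr hf]
  calc ENNReal.ofReal (Dr u₀ K₀ c s + Lr K₀ c s)
      ≤ ENNReal.ofReal (Dr (u j) (K j) c s + Lc (K j) c s + 2 * (ε / 3)) :=
        ENNReal.ofReal_le_ofReal (by linarith)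
    _ = En (u j) (K j) (closedBall c s) + ENNReal.ofReal (2 * (ε / 3)) := by
        rw [ENNReal.ofReal_add (by linarith) (by linarith), hj.En_eq h4]
    _ ≤ En w L (closedBall c s) + ENNReal.ofReal (ε / 3) + ENNReal.ofReal (2 * (ε / 3)) := by
        gcongr
    _ = En w L (closedBall c s) + ε := by
        rw [add_assoc, ← ENNReal.ofReal_add hε'.le (by linarith),
          show (ε : ℝ) / 3 + 2 * (ε / 3) = ε by ring, ENNReal.ofReal_coe_nnreal]

theorem cpt_min (h : Sq Ω lam u K π₀) (hc : Cv0 Ω u K π₀ u₀ K₀ β)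
    (hw : Comp univ u₀ K₀ (cc K₀) c r w L π₁) (hr : 0 < r) :
    En u₀ K₀ (closedBall c r) ≤ En w L (closedBall c r) := by
  have hp := (cptB1 h hc).1
  obtain ⟨s, hs, -, hf⟩ := cpt_pick (x := c) (Q := fun _ => True) hc.1
    (fun R => (hp.2.2.2 c R (subset_univ _)).2) hr.le (Eventually.of_forall fun _ => trivial)
  have h1 := cpt_min0 h hc hw hs (hr.trans hs) hf
  have h2 := closedBall_subset_closedBall (x := c) hs.le
  have h3 := cpt_split u₀ K₀ measurableSet_closedBall h2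
  rw [h3, cpt_split w L measurableSet_closedBall h2, cpt_ann hc.1 hw _ measurableSet_closedBall]
    at h1
  refine (ENNReal.add_le_add_iff_right fun ht => ?_).1 h1
  rw [ht, add_top, hp.En_eq (subset_univ _)] at h3
  exact ENNReal.ofReal_ne_top h3

theorem cpt_up (h : Sq Ω lam u K π₀) (hc : Cv0 Ω u K π₀ u₀ K₀ β) (hs : 0 < s)
    (hf : (K₀ ∩ sphere c s).Finite) (hε : 0 < ε) : ∀ᶠ j in atTop,
      Dr (u j) (K j) c s ≤ Dr u₀ K₀ c s + ε ∧ Lr (K j) c s ≤ Lr K₀ c s + ε := by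
  obtain ⟨hp, hD⟩ := cptB1 h hc
  have hε' : (0 : ℝ) < ε / 2 := by positivity
  have hw : Comp univ u₀ K₀ (cc K₀) c 0 u₀ K₀ (cc K₀) :=
    cpt_self hp (by rw [compl_eq_univ_sdiff]; exact hp.lip) fun _ _ => rfl
  filter_upwards [hD c s _ hε', cptB3 h hc c s hε', cptC h hc hw hs hs hf hε', cpt_sub h c s]
    with j h1 h2 h3 h4
  have hj := (h.1 j).pre
  have h5 := Lr_le_Lc (hj.2.2.2 c s h4).2
  have h6 := Dr_nonneg u₀ K₀ c s
  have h7 := Lr_nonneg K₀ c s
  rw [hp.En_eq (subset_univ _), Lc_eq_Lr hf, hj.En_eq h4,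
    ← ENNReal.ofReal_add (by linarith) hε'.le, ENNReal.ofReal_le_ofReal_iff (by linarith)] at h3
  constructor <;> linarith

theorem cpt_cv (h : Sq Ω lam u K π₀) (hc : Cv0 Ω u K π₀ u₀ K₀ β) : Cv u K u₀ K₀ := by
  obtain ⟨hp, hD⟩ := cptB1 h hc
  have hf : ∀ x R, μH[1] (K₀ ∩ closedBall x R) ≠ ⊤ := fun x R => (hp.2.2.2 x R (subset_univ _)).2
  refine ⟨hc.2.2.1, fun x r => ?_, fun x r ε hε => ?_⟩
  · rcases le_or_gt r 0 with hr | hr
    · simp only [Dr, Dn, ball_eq_empty.2 hr, Measure.restrict_empty, lintegral_zero_measure]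
      exact tendsto_const_nhds
    refine Metric.tendsto_nhds.2 fun ε hε => ?_
    have hε' : (0 : ℝ) < ε / 3 := by positivity
    have h1 : ContinuousAt (Dr u₀ K₀ x) r :=
      (hp.Dr_cont (R := r + 1) (subset_univ _)).continuousAt (Icc_mem_nhds hr (by linarith))
    obtain ⟨s, hs, h2, h3⟩ := cpt_pick hc.1 (hf x) hr.le
      ((h1.eventually (gt_mem_nhds (lt_add_of_pos_right _ hε'))).filter_mono nhdsWithin_le_nhds)
    filter_upwards [hD x r _ hε', cpt_up h hc (hr.trans hs) h3 hε', cpt_sub h x s] with j h4 h5 h6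
    have h7 := (h.1 j).pre.Dr_mono h6 ((ball_subset_ball hs.le).trans ball_subset_closedBall)
    rw [Real.dist_eq, abs_lt]
    constructor <;> linarith [h5.1]
  · refine (cptB3 h hc x r hε).and ?_
    rcases le_or_gt r 0 with hr | hr
    · refine Eventually.of_forall fun j => ?_
      simp only [Lr, ball_eq_empty.2 hr, inter_empty, measure_empty, ENNReal.toReal_zero]
      exact add_nonneg ENNReal.toReal_nonneg hε.le
    have hε' : (0 : ℝ) < ε / 2 := by positivity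
    obtain ⟨s, hs, h2, h3⟩ := cpt_pick hc.1 (hf x) hr.le (cpt_above hc.1 (hf x) r hε')
    filter_upwards [cpt_up h hc (hr.trans hs) h3 hε', cpt_sub h x s] with j h5 h6
    have h7 := Lr_mono ((h.1 j).pre.2.2.2 x s h6).2 (ball_subset_ball hs.le)
    rw [Lc_eq_Lr h3] at h2
    linarith [h5.2]

theorem cpt_red (h : Sq Ω lam u K π₀) (hc : Cv u K u₀ K₀) (hx : x ∈ K₀) (hr : 0 < r) :
    0 < μH[1] (K₀ ∩ ball x r) := by
  obtain ⟨c₀, h0, -, hd⟩ := dlb
  have h1 : ∀ᶠ j in atTop, lam j * (r / 4) < c₀ := by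
    have h2 := h.2.2.mul_const (r / 4)
    rw [zero_mul] at h2
    exact h2.eventually (gt_mem_nhds h0)
  obtain ⟨j, h2, h3, h4, h5⟩ := (h1.and ((hc.1 ‖x‖ (r / 4) (by positivity)).and
    ((hc.2.2 x (r / 2) (c₀ * r / 8) (by positivity)).and (cpt_sub h x (r / 2))))).exists
  obtain ⟨y, hy, hyx⟩ := h3.1 x ⟨hx, mem_closedBall_zero_iff.2 le_rfl⟩
  rw [← dist_eq_norm] at hyx
  have h6 := hd (h.1 j) y hy (r / 4) (by positivity)
    ((closedBall_subset_closedBall' (by linarith)).trans h5) h2.le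
  have h7 := Lr_mono (y := y) (ρ := r / 4) ((h.1 j).pre.2.2.2 x _ h5).2
    (ball_subset_ball' (by linarith))
  have h8 : 0 < Lc K₀ x (r / 2) := by
    have := mul_pos h0 hr
    linarith [h4.2]
  exact (ENNReal.toReal_pos_iff.1 h8).1.trans_le
    (measure_mono (inter_subset_inter_right _ (closedBall_subset_ball (by linarith))))

theorem cpt_mm (h : Sq Ω lam u K π₀) (hc : Cv0 Ω u K π₀ u₀ K₀ β) : MM univ 0 u₀ K₀ (cc K₀) := by
  have hp := (cptB1 h hc).1
  refine ⟨el0 hp fun c r w hr hw he => ?_, ?_, fun x hx _ r hr => cpt_red h (cpt_cv h hc) hx hr,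
    fun c r w L π₁ hr _ hw => (cpt_min h hc hw hr).trans le_self_add⟩
  · exact (ENNReal.add_le_add_iff_right (hp.2.2.2 c r (subset_univ _)).2).1
      (cpt_min h hc (cpt_self hp hw he) hr)
  · rw [← compl_eq_univ_sdiff]
    exact lc_cc hc.1

end

theorem cpt {Ω : ℕ → Set ℂ} {lam : ℕ → ℝ} {u : ℕ → ℂ → ℝ} {K : ℕ → Set ℂ}
    {π₀ : ℕ → ℂ → Set ℂ} (h : Sq Ω lam u K π₀) :
    ∃ φ : ℕ → ℕ, StrictMono φ ∧ ∃ u₀ K₀, MM univ 0 u₀ K₀ (cc K₀) ∧
      Cv (fun j => u (φ j)) (fun j => K (φ j)) u₀ K₀ := by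
  obtain ⟨φ, hφ, u₀, K₀, β, hc⟩ := cptA h
  exact ⟨φ, hφ, u₀, K₀, cpt_mm (h.sub hφ) hc, cpt_cv (h.sub hφ) hc⟩

end Vale.Agent.P128
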