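import Vale.Agent.P128.CptH
import Vale.Agent.P128.Int
import Vale.Agent.P128.Pot
import Vale.Agent.P128.Glue
import Vale.Agent.P128.Pol

/-!
# P128 CptA

Extraction of the gradients. On a ball `B(z, 4ρ)` with closure in `K₀ᶜ`, eventually
`conj ∇u_j = f_j + O(H_j ρ)` (`int_est`, `H_j² ≤ lam_j³ → 0`), `∫ ‖f_j‖²` is bounded (`ub8`), so `f_j` is
bounded on `B(z, 2ρ)` (mean value property) and equi-Lipschitz on `B(z, ρ)` (Cauchy estimate
`Complex.norm_deriv_le_of_forall_mem_sphere_norm_le`). Take a subsequence along which `∇ u_j` converges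
(in a compact ball or the one point compactification, or via `arctan`) at the points of a countable dense
set; it is then locally uniformly Cauchy on `K₀ᶜ`; the limit is continuous; apply `pot`. Labels: cover
`C` by finitely many closed balls in `K₀ᶜ`, each joined to its base point by a path in the component
(open connected sets are path connected), use `HC.avoid` and `LC.eq`.
-/

namespace Vale.Agent.P128

open Set Metric MeasureTheory Filter Topology Complex
open scoped ENNReal ContDiff RealInnerProductSpace Gradient Real ComplexConjugate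

variable {Ω K L A S T U O X Γ P M₀ K₀ K₁ : Set ℂ} {u v w g hh ψ η : ℂ → ℝ} {G : ℂ → ℂ}
  {π₀ π₁ : ℂ → Set ℂ} {x y z c p q e a₀ F : ℂ} {lam H r s R a b t M Θ ρ ε δ d : ℝ} {n : ℕ}

theorem cpta_mean {f : ℂ → ℂ} (hρ : 0 < ρ) (hf : DifferentiableOn ℂ f (ball z ρ))
    (hi : IntegrableOn f (ball z ρ)) : π * ρ ^ 2 * ‖f z‖ ≤ ∫ w in ball z ρ, ‖f w‖ := by
  refine le_trans (le_of_eq ?_) (norm_integral_le_integral_norm _)
  have h1 := (polar_ann hi le_rfl hρ.le).2.2
  rw [ball_zero, sdiff_empty] at h1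
  have h2 : ∫ s in (0 : ℝ)..ρ, s • ∫ θ in (0 : ℝ)..2 * π, f (circleMap z s θ) =
      ∫ s in (0 : ℝ)..ρ, s • ((2 * π) • f z) := by
    refine intervalIntegral.integral_congr_ae ?_
    filter_upwards [(countable_singleton ρ).ae_notMem volume] with s hs hs'
    rw [uIoc_of_le hρ.le] at hs'
    have hlt : s < ρ := lt_of_le_of_ne hs'.2 hs
    have := DiffContOnCl.circleAverage (c := z) (R := s) (f := f)
      (hf.diffContOnCl_ball (by
        rw [abs_of_pos hs'.1]; exact closedBall_subset_ball hlt))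
    rw [← this, Real.circleAverage_def, smul_inv_smul₀ (by positivity)]
  rw [h1, h2, intervalIntegral.integral_smul_const, integral_id, norm_smul, norm_smul,
    Real.norm_of_nonneg (by nlinarith), Real.norm_of_nonneg (by positivity)]
  ring

theorem cpta_one (h : MM Ω lam u K π₀) (hρ : 0 < ρ) (hb : closedBall z (4 * ρ) ⊆ Ω)
    (hK : closedBall z (4 * ρ) ⊆ Kᶜ) (hl : lam * (4 * ρ) ≤ 1) (hε : 0 < ε) (hε1 : ε ≤ 1)
    (hl2 : lam ^ 3 ≤ (ε / (16 * ρ)) ^ 2) :
    ∀ w ∈ closedBall z ρ, ∀ w' ∈ closedBall z ρ,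
      ‖∇ u w‖ ≤ (32 / ρ + 33) * (1 + 1 / ρ) ∧
        ‖∇ u w - ∇ u w'‖ ≤ (32 / ρ + 33) * (1 + 1 / ρ) * ‖w - w'‖ + ε := by
  obtain ⟨-, hh, H, hN, hH, -⟩ := h.1
  obtain ⟨f, hf, he⟩ := int_est hN hb (ball_subset_closedBall.trans hK)
  have hH' : H ≤ ε / (16 * ρ) := (abs_le_of_sq_le_sq' (hH.trans hl2) (by positivity)).2
  have hτ : 2 * H * (4 * ρ) ≤ ε / 2 := by
    rw [le_div_iff₀ (by positivity)] at hH'
    linarith
  have hD : ∫ w in ball z (4 * ρ), ‖gK K u w‖ ^ 2 ≤ 32 * ρ := by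
    have := ub8 h (by positivity) hb hl
    rw [Dr_eq h.pre.2.1] at this
    linarith [Lr_nonneg K z (4 * ρ)]
  have iG : IntegrableOn (fun w => ‖gK K u w‖ ^ 2) (ball z (4 * ρ)) :=
    (intOn_of_Dn h.pre.2.1 (h.pre.2.2.2 z _ hb).1).1.mono_set ball_subset_closedBall
  have iB : IntegrableOn (fun w => ‖gK K u w‖ ^ 2 + 2) (ball z (4 * ρ)) :=
    iG.add (integrableOn_const measure_ball_lt_top.ne)
  have pt : ∀ w ∈ ball z (4 * ρ), ‖f w‖ ≤ ‖gK K u w‖ ^ 2 + 2 := fun w hw => by
    rw [gK_of_notMem u (hK (ball_subset_closedBall hw))]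
    have h1 := norm_sub_norm_le (f w) (conj (∇ u w))
    rw [norm_sub_rev, norm_conj] at h1
    nlinarith [he w hw, sq_nonneg (‖∇ u w‖ - 1)]
  have iF : IntegrableOn f (ball z (4 * ρ)) :=
    iB.mono' (hf.continuousOn.aestronglyMeasurable measurableSet_ball)
      ((ae_restrict_iff' measurableSet_ball).2 (Eventually.of_forall pt))
  have b0 : ∀ w ∈ closedBall z (3 * ρ), ‖f w‖ ≤ 32 / ρ + 32 := fun w hw => by
    have hs : ball w ρ ⊆ ball z (4 * ρ) := ball_subset_ball' (by
      rw [mem_closedBall] at hw; linarith)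
    have h1 := cpta_mean hρ (hf.mono hs) (iF.mono_set hs)
    have h2 : ∫ w in ball w ρ, ‖f w‖ ≤ ∫ w in ball z (4 * ρ), ‖f w‖ :=
      setIntegral_mono_set iF.norm (Eventually.of_forall fun _ => norm_nonneg _) hs.eventuallyLE
    have h3 := setIntegral_mono_on iF.norm iB measurableSet_ball pt
    rw [integral_add iG (integrableOn_const measure_ball_lt_top.ne), setIntegral_const,
      Measure.real, Complex.volume_ball, ENNReal.toReal_mul, ENNReal.toReal_pow,
      ENNReal.toReal_ofReal (by positivity), ENNReal.coe_toReal, NNReal.coe_real_pi,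
      smul_eq_mul] at h3
    have h4 : π * ρ ^ 2 * ‖f w‖ ≤ π * ρ ^ 2 * (32 / ρ + 32) := by
      have e : π * ρ ^ 2 * (32 / ρ + 32) = 32 * ρ * π + (4 * ρ) ^ 2 * π * 2 := by
        field_simp
        ring
      nlinarith [Real.pi_gt_three]
    exact le_of_mul_le_mul_left h4 (by positivity)
  have b1 : ∀ w ∈ closedBall z ρ, ‖deriv f w‖ ≤ (32 / ρ + 32) / ρ := fun w hw => by
    rw [mem_closedBall] at hw
    refine norm_deriv_le_of_forall_mem_sphere_norm_le hρ
      (hf.diffContOnCl_ball (closedBall_subset_ball' (by linarith))) fun y hy => b0 y ?_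
    exact closedBall_subset_closedBall' (by linarith) (sphere_subset_closedBall hy)
  have s1 : closedBall z ρ ⊆ ball z (4 * ρ) := closedBall_subset_ball (by linarith)
  have p1 : 0 < 32 / ρ := by positivity
  have p2 : 0 < 1 / ρ := by positivity
  intro w hw w' hw'
  have e1 := he w (s1 hw)
  have e2 := he w' (s1 hw')
  constructor
  · have h1 := norm_sub_norm_le (conj (∇ u w)) (f w)
    rw [norm_conj] at h1
    have h2 := b0 w (closedBall_subset_closedBall (by linarith) hw)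
    nlinarith
  · have h1 := (convex_closedBall z ρ).norm_image_sub_le_of_norm_deriv_le
      (fun y hy => hf.differentiableAt (isOpen_ball.mem_nhds (s1 hy))) b1 hw' hw
    have h2 : conj (∇ u w - ∇ u w') =
        (conj (∇ u w) - f w) - (conj (∇ u w') - f w') + (f w - f w') := by
      rw [map_sub]
      ring
    have h3 := (norm_add_le _ _).trans (add_le_add (norm_sub_le (conj (∇ u w) - f w)
      (conj (∇ u w') - f w')) h1)
    rw [← h2, norm_conj] at h3
    have h4 : (32 / ρ + 32) / ρ * ‖w - w'‖ ≤ (32 / ρ + 33) * (1 + 1 / ρ) * ‖w - w'‖ := by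
      refine mul_le_mul_of_nonneg_right ?_ (norm_nonneg _)
      rw [div_eq_mul_one_div (32 / ρ + 32)]
      nlinarith
    linarith

theorem cpta_ext {k : ℕ → ℂ → ℂ} (hU : IsOpen U)
    (h : ∀ z ∈ U, ∃ ρ B : ℝ, 0 < ρ ∧ 0 < B ∧ closedBall z ρ ⊆ U ∧ ∀ ε, 0 < ε → ∀ᶠ j in atTop,
      ∀ w ∈ closedBall z ρ, ∀ w' ∈ closedBall z ρ,
        ‖k j w‖ ≤ B ∧ ‖k j w - k j w'‖ ≤ B * ‖w - w'‖ + ε) :
    ∃ φ : ℕ → ℕ, StrictMono φ ∧ ∃ G : ℂ → ℂ, ContinuousOn G U ∧
      ∀ C ⊆ U, IsCompact C → ∀ ε, 0 < ε → ∀ᶠ j in atTop, ∀ z ∈ C, ‖k (φ j) z - G z‖ ≤ ε := by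
  classical
  choose! ρ B hρ hB hs hk using h
  set D := TopologicalSpace.denseSeq ℂ
  obtain ⟨a, -, φ, hφ, ha⟩ := (isCompact_univ_pi fun n =>
    isCompact_closedBall (0 : ℂ) |B (D n)|).tendsto_subseq
      (x := fun j n => if ‖k j (D n)‖ ≤ |B (D n)| then k j (D n) else 0) fun j n _ => by
        beta_reduce
        split_ifs with hh
        · exact mem_closedBall_zero_iff.2 hh
        · exact mem_closedBall_self (abs_nonneg _)
  have ht := hφ.tendsto_atTop
  have hD : ∀ n, D n ∈ U → Tendsto (fun j => k (φ j) (D n)) atTop (𝓝 (a n)) := fun n hn => by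
    refine (tendsto_pi_nhds.1 ha n).congr' ?_
    filter_upwards [ht.eventually (hk _ hn 1 one_pos)] with j hj
    exact if_pos ((hj _ (mem_closedBall_self (hρ _ hn).le) _
      (mem_closedBall_self (hρ _ hn).le)).1.trans (le_abs_self _))
  have hc : ∀ z ∈ U, ∃ l, Tendsto (fun j => k (φ j) z) atTop (𝓝 l) := fun z hz => by
    refine cauchySeq_tendsto_of_complete (Metric.cauchySeq_iff'.2 fun ε hε => ?_)
    have b0 := hB z hz
    obtain ⟨n, hn⟩ := (TopologicalSpace.denseRange_denseSeq ℂ).exists_dist_lt z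
      (lt_min (hρ z hz) (show 0 < ε / (8 * B z) by positivity))
    have h1 : D n ∈ closedBall z (ρ z) := mem_closedBall'.2 (hn.le.trans (min_le_left _ _))
    have h2 : B z * ‖z - D n‖ ≤ ε / 8 := by
      have := hn.le.trans (min_le_right _ _)
      rw [dist_eq_norm, le_div_iff₀ (by positivity)] at this
      linarith
    obtain ⟨N, hN⟩ := eventually_atTop.1 ((ht.eventually (hk z hz (ε / 8) (by positivity))).and
      (Metric.tendsto_nhds.1 (hD n (hs z hz h1)) (ε / 8) (by positivity)))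
    refine ⟨N, fun j hj => ?_⟩
    have m := mem_closedBall_self (x := z) (hρ z hz).le
    have t1 := ((hN j hj).1 z m _ h1).2
    have t2 := ((hN N le_rfl).1 z m _ h1).2
    have t3 := dist_triangle_right (k (φ j) (D n)) (k (φ N) (D n)) (a n)
    have t4 := dist_triangle4 (k (φ j) z) (k (φ j) (D n)) (k (φ N) (D n)) (k (φ N) z)
    rw [dist_comm (k (φ N) (D n)) (k (φ N) z), dist_eq_norm (k (φ j) z) (k (φ j) (D n)),
      dist_eq_norm (k (φ N) z) (k (φ N) (D n))] at t4
    linarith [(hN j hj).2, (hN N le_rfl).2]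
  choose! G hG using hc
  have hL : ∀ z ∈ U, ∀ w ∈ closedBall z (ρ z), ‖G w - G z‖ ≤ B z * ‖w - z‖ := fun z hz w hw => by
    refine le_of_forall_pos_le_add fun ε hε => ?_
    refine le_of_tendsto ((hG w (hs z hz hw)).sub (hG z hz)).norm ?_
    filter_upwards [ht.eventually (hk z hz ε hε)] with j hj
    exact (hj w hw z (mem_closedBall_self (hρ z hz).le)).2
  refine ⟨φ, hφ, G, fun z hz => ContinuousAt.continuousWithinAt ?_, fun C hC hCc ε hε => ?_⟩
  · rw [ContinuousAt, tendsto_iff_norm_sub_tendsto_zero]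
    have : Tendsto (fun w => B z * ‖w - z‖) (𝓝 z) (𝓝 (B z * ‖z - z‖)) :=
      Continuous.tendsto (by fun_prop) z
    rw [sub_self, norm_zero, mul_zero] at this
    refine squeeze_zero' (Eventually.of_forall fun _ => norm_nonneg _) ?_ this
    filter_upwards [closedBall_mem_nhds z (hρ z hz)] with w hw using hL z hz w hw
  · refine hCc.induction_on (p := fun S => ∀ᶠ j in atTop, ∀ z ∈ S, ‖k (φ j) z - G z‖ ≤ ε)
      (by simp) (fun S T hST hT => hT.mono fun j hj z hz => hj z (hST hz))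
      (fun S T hS hT => (hS.and hT).mono fun j hj z hz => hz.elim (hj.1 z) (hj.2 z))
      fun z hz => ?_
    have hz := hC hz
    have b0 := hB z hz
    refine ⟨closedBall z (min (ρ z) (ε / (4 * B z))), mem_nhdsWithin_of_mem_nhds
      (closedBall_mem_nhds z (lt_min (hρ z hz) (by positivity))), ?_⟩
    filter_upwards [ht.eventually (hk z hz (ε / 4) (by positivity)),
      Metric.tendsto_nhds.1 (hG z hz) (ε / 4) (by positivity)] with j h1 h2 w hw
    have w1 := closedBall_subset_closedBall (min_le_left _ _) hw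
    have w2 : B z * ‖w - z‖ ≤ ε / 4 := by
      have := (mem_closedBall_iff_norm.1 hw).trans (min_le_right _ _)
      rw [le_div_iff₀ (by positivity)] at this
      linarith
    have t1 := (h1 w w1 z (mem_closedBall_self (hρ z hz).le)).2
    have t2 := hL z hz w w1
    have t3 := dist_triangle4 (k (φ j) w) (k (φ j) z) (G z) (G w)
    rw [dist_comm (G z), dist_eq_norm, dist_eq_norm, dist_eq_norm (G w)] at t3
    linarith

theorem cptA {Ω : ℕ → Set ℂ} {lam : ℕ → ℝ} {u : ℕ → ℂ → ℝ} {K : ℕ → Set ℂ}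
    {π₀ : ℕ → ℂ → Set ℂ} (h : Sq Ω lam u K π₀) :
    ∃ φ : ℕ → ℕ, StrictMono φ ∧ ∃ u₀ K₀ β, Cv0 (fun j => Ω (φ j)) (fun j => u (φ j))
      (fun j => K (φ j)) (fun j => π₀ (φ j)) u₀ K₀ β := by
  obtain ⟨φ₁, hφ₁, K₀, hK₀, hH⟩ := cptH K
  have h₁ := h.sub hφ₁
  have av : ∀ {φ : ℕ → ℕ}, StrictMono φ → ∀ C ⊆ K₀ᶜ, IsCompact C →
      ∀ᶠ j in atTop, C ⊆ Ω (φ₁ (φ j)) \ K (φ₁ (φ j)) := fun {φ} hφ C hC hCc => by
    obtain ⟨R, hR⟩ := hCc.isBounded.subset_closedBall 0
    filter_upwards [hφ.tendsto_atTop.eventually ((h₁.2.1 R).and (hH.avoid hK₀ hCc hC))]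
      with j hj z hz using ⟨hj.1 (hR hz), hj.2 hz⟩
  obtain ⟨φ₂, hφ₂, G, hG, hc⟩ := cpta_ext (k := fun j => ∇ (u (φ₁ j))) hK₀.isOpen_compl
    fun z hz => by
      obtain ⟨r, hr, hs⟩ := nhds_basis_closedBall.mem_iff.1 (hK₀.isOpen_compl.mem_nhds hz)
      have r4 : 4 * (r / 4) = r := by ring
      refine ⟨r / 4, (32 / (r / 4) + 33) * (1 + 1 / (r / 4)), by positivity, by positivity,
        (closedBall_subset_closedBall (by linarith)).trans hs, fun ε hε => ?_⟩
      have e0 : 0 < min ε 1 := lt_min hε one_pos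
      have l1 := (h₁.2.2.mul_const r).eventually_le_const (u := 1) (by simp)
      have l2 := (h₁.2.2.pow 3).eventually_le_const (u := (min ε 1 / (16 * (r / 4))) ^ 2)
        (by rw [zero_pow three_ne_zero]; positivity)
      filter_upwards [av strictMono_id _ hs (isCompact_closedBall z r), l1, l2]
        with j j1 j2 j3 w hw w' hw'
      have := cpta_one (h₁.1 j) (z := z) (ρ := r / 4) (by positivity)
        (r4.symm ▸ fun y hy => (j1 hy).1) (r4.symm ▸ fun y hy => (j1 hy).2) (r4.symm ▸ j2) e0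
        (min_le_right _ _) j3 w hw w' hw'
      exact ⟨this.1, this.2.trans (by linarith [min_le_left ε 1])⟩
  obtain ⟨v, β, hv, hvG, hβ, hu⟩ := pot (w := fun j => u (φ₁ (φ₂ j))) hK₀ hG
    fun C hC hCc ε hε => by
      filter_upwards [hc C hC hCc ε hε, av hφ₂ C hC hCc] with j j1 j2 z hz
      exact ⟨(h.1 _).pre.diff (j2 hz), j1 z hz⟩
  refine ⟨φ₁ ∘ φ₂, hφ₁.comp hφ₂, v, K₀, β, hK₀, hv, hH.sub hφ₂, fun C hC hCc ε hε => ?_⟩
  have lab : ∀ᶠ j in atTop, ∀ z ∈ C,
      π₀ (φ₁ (φ₂ j)) z = π₀ (φ₁ (φ₂ j)) (β (cc K₀ z)) := by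
    refine hCc.induction_on (p := fun S => ∀ᶠ j in atTop, ∀ z ∈ S,
      π₀ (φ₁ (φ₂ j)) z = π₀ (φ₁ (φ₂ j)) (β (cc K₀ z)))
      (by simp) (fun S T hST hT => hT.mono fun j hj z hz => hj z (hST hz))
      (fun S T hS hT => (hS.and hT).mono fun j hj z hz => hz.elim (hj.1 z) (hj.2 z))
      fun z hz => ?_
    have hz := hC hz
    obtain ⟨r, hr, hs⟩ := nhds_basis_closedBall.mem_iff.1 (hK₀.isOpen_compl.mem_nhds hz)
    have pc : IsPathConnected (cc K₀ z) :=
      (hK₀.isOpen_compl.connectedComponentIn).isConnected_iff_isPathConnected.1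
        (isConnected_connectedComponentIn_iff.2 hz)
    obtain ⟨γ, hγ⟩ := pc.joinedIn z (mem_connectedComponentIn hz) _ (hβ z hz)
    have t1 : closedBall z r ∪ range γ ⊆ K₀ᶜ := union_subset hs (range_subset_iff.2 fun t =>
      connectedComponentIn_subset _ _ (hγ t))
    have t2 : IsPreconnected (closedBall z r ∪ range γ) :=
      IsPreconnected.union z (mem_closedBall_self hr.le) γ.source_mem_range
        (convex_closedBall z r).isPreconnected (isPreconnected_range γ.continuous)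
    refine ⟨closedBall z r, mem_nhdsWithin_of_mem_nhds (closedBall_mem_nhds z hr), ?_⟩
    filter_upwards [av hφ₂ _ t1 ((isCompact_closedBall z r).union (isCompact_range γ.continuous))]
      with j hj w hw
    rw [(lc_cc hK₀).eq hs (convex_closedBall z r).isPreconnected hw (mem_closedBall_self hr.le)]
    exact (h.1 _).2.1.eq hj t2 (Or.inl hw) (Or.inr γ.target_mem_range)
  filter_upwards [hc C hC hCc ε hε, av hφ₂ C hC hCc, hu C hC hCc ε hε, lab] with j j1 j2 j3 j4 z hz
  exact ⟨j2 hz, hvG z (hC hz) ▸ j1 z hz, j3 z hz, j4 z hz⟩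

end Vale.Agent.P128
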