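import Vale.Agent.P128.DLB

/-!
# P128 CptB1

Finite energy and length of the limit. Fatou (`lintegral_liminf_le`) on the ball with pointwise
convergence of `gK` off `K₀` and `ub8`. Length: for `τ > 0` take a maximal `τ`-separated finite subset
`y_1..y_m` of `K₀ ∩ closedBall x r`; the balls of radius `τ/2` are disjoint and each contains a ball of
radius `τ/4` centred on `K j`, so `m c₀ τ/4 ≤ 8 (r + 1)` by `dlb`; the balls of radius `τ` cover, so
`Measure.hausdorffMeasure_le_liminf_sum` gives a finite bound.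
-/

namespace Vale.Agent.P128

open Set Metric MeasureTheory Filter Topology Complex
open scoped ENNReal ContDiff RealInnerProductSpace Gradient Real ComplexConjugate

variable {Ω K L A S T U O X Γ P M₀ K₀ K₁ : Set ℂ} {u v w g hh ψ η : ℂ → ℝ} {G : ℂ → ℂ}
  {π₀ π₁ : ℂ → Set ℂ} {x y z c p q e a₀ F : ℂ} {lam H r s R a b t M Θ ρ ε δ d : ℝ} {n : ℕ}

theorem cptb1_len {C : ℝ} (h : ∀ τ : ℝ, 0 < τ → τ ≤ 1 → ∀ Y : Finset ℂ, (Y : Set ℂ) ⊆ A →
    (Y : Set ℂ).Pairwise (fun y z => τ < dist y z) → Y.card * τ ≤ C) : μH[1] A ≠ ⊤ := by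
  classical
  have key : ∀ τ : ℝ, 0 < τ → τ ≤ 1 → ∃ Y : Finset ℂ, Y.card * τ ≤ C ∧
      A ⊆ ⋃ y : Y, closedBall (y : ℂ) τ := by
    intro τ h0 h1
    let D : Set ℕ := {m | ∃ Y : Finset ℂ, (Y : Set ℂ) ⊆ A ∧
      (Y : Set ℂ).Pairwise (fun y z => τ < dist y z) ∧ Y.card = m}
    have hb : BddAbove D := ⟨⌈C / τ⌉₊, by
      rintro _ ⟨Y, h2, h3, rfl⟩
      exact_mod_cast ((le_div_iff₀ h0).2 (h τ h0 h1 Y h2 h3)).trans (Nat.le_ceil _)⟩
    obtain ⟨Y, h2, h3, h4⟩ := Nat.sSup_mem (s := D) ⟨0, ∅, by simp, by simp, rfl⟩ hb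
    refine ⟨Y, h τ h0 h1 Y h2 h3, fun z hz => by_contra fun hn => ?_⟩
    have h5 : ∀ y ∈ Y, τ < dist z y := fun y hy =>
      not_le.1 fun h' => hn (mem_iUnion.2 ⟨⟨y, hy⟩, h'⟩)
    have h6 : z ∉ Y := fun h' => by simpa [h0.not_gt] using h5 z h'
    have h7 : (insert z Y).card ≤ sSup D := le_csSup hb ⟨_, by
      rw [Finset.coe_insert]; exact insert_subset hz h2, by
      rw [Finset.coe_insert]
      exact h3.insert fun y hy _ => ⟨h5 y hy, dist_comm z y ▸ h5 y hy⟩, rfl⟩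
    rw [Finset.card_insert_of_notMem h6] at h7
    omega
  have hp : ∀ n : ℕ, (0 : ℝ) < 1 / (n + 1) := fun n => by positivity
  choose Y h1 h2 using fun n : ℕ => key (1 / (n + 1)) (hp n)
    ((div_le_one (by positivity)).2 (by linarith [n.cast_nonneg (α := ℝ)]))
  have h3 : ∀ (n : ℕ) (y : ℂ), ediam (closedBall y (1 / (n + 1))) ≤
      ENNReal.ofReal (2 * (1 / (n + 1))) := fun n y =>
    ediam_le_of_forall_dist_le fun a ha b hb => by
      linarith [dist_triangle_right a b y, mem_closedBall.1 ha, mem_closedBall.1 hb]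
  refine ne_top_of_le_ne_top (ENNReal.ofReal_ne_top (r := 2 * C))
    ((Measure.hausdorffMeasure_le_liminf_sum (l := atTop) 1 A
      (fun n : ℕ => ENNReal.ofReal (2 * (1 / (n + 1)))) ?_
      (fun n (y : Y n) => closedBall (y : ℂ) (1 / (n + 1)))
      (Eventually.of_forall fun n y => h3 n y) (Eventually.of_forall h2)).trans
      (liminf_le_of_frequently_le' (Frequently.of_forall fun n => ?_)))
  · simpa using ENNReal.tendsto_ofReal
      ((tendsto_one_div_add_atTop_nhds_zero_nat (𝕜 := ℝ)).const_mul 2)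
  · simp only [ENNReal.rpow_one]
    refine (Finset.sum_le_card_nsmul _ _ _ fun (y : Y n) _ => h3 n y).trans ?_
    rw [Finset.card_univ, Fintype.card_coe, nsmul_eq_mul, ← ENNReal.ofReal_natCast,
      ← ENNReal.ofReal_mul (Nat.cast_nonneg _)]
    exact ENNReal.ofReal_le_ofReal (by linarith [h1 n])

theorem cptb1_ub {Ω : ℕ → Set ℂ} {lam : ℕ → ℝ} {u : ℕ → ℂ → ℝ} {K : ℕ → Set ℂ}
    {π₀ : ℕ → ℂ → Set ℂ} (h : Sq Ω lam u K π₀) (hR : 0 < R) :
    ∀ᶠ j in atTop, closedBall 0 R ⊆ Ω j ∧ Dr (u j) (K j) 0 R + Lr (K j) 0 R ≤ 8 * R := by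
  have h1 := h.2.2.mul_const R
  rw [zero_mul] at h1
  filter_upwards [h.2.1 R, h1.eventually (gt_mem_nhds zero_lt_one)] with j h2 h3
  exact ⟨h2, ub8 (h.1 j) hR h2 h3.le⟩

theorem cptB1 {Ω : ℕ → Set ℂ} {lam : ℕ → ℝ} {u : ℕ → ℂ → ℝ} {K : ℕ → Set ℂ}
    {π₀ : ℕ → ℂ → Set ℂ} {u₀ : ℂ → ℝ} {β : Set ℂ → ℂ} (h : Sq Ω lam u K π₀)
    (hc : Cv0 Ω u K π₀ u₀ K₀ β) :
    Pre univ u₀ K₀ ∧ ∀ x r ε, 0 < ε → ∀ᶠ j in atTop, Dr u₀ K₀ x r - ε ≤ Dr (u j) (K j) x r := by
  have hsub : ∀ (x : ℂ) (r : ℝ), ∀ z ∈ closedBall x r, ‖z‖ ≤ ‖x‖ + |r| := fun x r z hz => by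
    linarith [norm_le_norm_add_norm_sub' z x, mem_closedBall_iff_norm.1 hz, le_abs_self r]
  have hF : ∀ x r, Dn u₀ K₀ (ball x r) ≤ liminf (fun j => Dn (u j) (K j) (ball x r)) atTop := by
    intro x r
    refine (lintegral_mono fun z => ?_).trans (lintegral_liminf_le fun j =>
      (meas_gK (h.1 j).pre.2.1 (u j)).enorm.pow_const 2)
    by_cases hz : z ∈ K₀
    · simp [gK_of_mem _ hz]
    have h1 : Tendsto (fun j => gK (K j) (u j) z) atTop (𝓝 (gK K₀ u₀ z)) := by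
      refine Metric.tendsto_nhds.2 fun ε hε => ?_
      filter_upwards [hc.2.2.2 {z} (singleton_subset_iff.2 hz) isCompact_singleton _
        (half_pos hε)] with j hj
      rw [gK_of_notMem _ (hj z rfl).1.2, gK_of_notMem _ hz, dist_eq_norm]
      linarith [(hj z rfl).2.1]
    exact (ENNReal.Tendsto.pow h1.enorm).liminf_eq.ge
  have hB : ∀ x r, ∀ᶠ j in atTop,
      Dn (u j) (K j) (ball x r) ≤ ENNReal.ofReal (8 * (‖x‖ + |r| + 2)) := by
    intro x r
    filter_upwards [cptb1_ub h (R := ‖x‖ + |r| + 2) (by positivity)] with j hj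
    refine (Dn_mono_set _ _ (T := ball 0 (‖x‖ + |r| + 2)) fun z hz => ?_).trans ?_
    · rw [mem_ball_zero_iff]
      linarith [hsub x r z (ball_subset_closedBall hz)]
    · have := ((h.1 j).pre.2.2.2 _ _ hj.1).1
      rw [Dn_closedBall] at this
      exact (ENNReal.le_ofReal_iff_toReal_le this (by positivity)).2
        ((le_add_of_nonneg_right (Lr_nonneg _ _ _)).trans hj.2)
  have hD : ∀ x r, Dn u₀ K₀ (ball x r) ≠ ⊤ := fun x r =>
    ne_top_of_le_ne_top ENNReal.ofReal_ne_top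
      ((hF x r).trans (liminf_le_of_frequently_le' (hB x r).frequently))
  refine ⟨⟨isOpen_univ, hc.1, by rw [← compl_eq_univ_sdiff]; exact hc.2.1, fun x r _ =>
    ⟨by rw [Dn_closedBall]; exact hD x r, ?_⟩⟩, fun x r ε hε => ?_⟩
  · obtain ⟨c, c0, -, hd⟩ := dlb
    refine cptb1_len (C := 4 / c * (8 * (‖x‖ + |r| + 2))) fun τ t0 t1 Y hY hs => ?_
    obtain ⟨j, ⟨h1, h2⟩, h3, h4⟩ := ((cptb1_ub h (R := ‖x‖ + |r| + 2) (by positivity)).and
      ((hc.2.2.1 (‖x‖ + |r|) (τ / 4) (by positivity)).and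
        (h.2.2.eventually (gt_mem_nhds c0)))).exists
    choose! w w1 w2 using h3.1
    have hm : ∀ y ∈ Y, y ∈ K₀ ∩ closedBall 0 (‖x‖ + |r|) := fun y hy =>
      ⟨(hY hy).1, mem_closedBall_zero_iff.2 (hsub x r y (hY hy).2)⟩
    have h5 : ∀ y ∈ Y, closedBall (w y) (τ / 4) ⊆ ball 0 (‖x‖ + |r| + 2) := fun y hy z hz => by
      rw [mem_ball_zero_iff]
      linarith [norm_le_norm_add_norm_sub' z (w y), mem_closedBall_iff_norm.1 hz,
        norm_le_norm_add_norm_sub' (w y) y, w2 y (hm y hy), hsub x r y (hY hy).2]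
    have hf : μH[1] (K j ∩ ball 0 (‖x‖ + |r| + 2)) ≠ ⊤ := ne_top_of_le_ne_top
      ((h.1 j).pre.2.2.2 _ _ h1).2 (measure_mono (inter_subset_inter_right _ ball_subset_closedBall))
    have h6 : ∀ y ∈ Y, K j ∩ ball (w y) (τ / 4) ⊆ K j ∩ ball 0 (‖x‖ + |r| + 2) := fun y hy =>
      inter_subset_inter_right _ (ball_subset_closedBall.trans (h5 y hy))
    have h7 : ∑ y ∈ Y, Lr (K j) (w y) (τ / 4) ≤ Lr (K j) 0 (‖x‖ + |r| + 2) := by
      refine (measureReal_biUnion_finset (μ := μH[1]) (fun y hy z hz hne => ?_)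
        (fun y _ => (h.1 j).pre.2.1.measurableSet.inter measurableSet_ball)
        fun y hy => ne_top_of_le_ne_top hf (measure_mono (h6 y hy))).ge.trans
        (measureReal_mono (iUnion₂_subset h6) hf)
      refine (ball_disjoint_ball ?_).mono inter_subset_right inter_subset_right
      have h8 := dist_triangle4 y (w y) (w z) z
      rw [dist_comm y (w y), dist_eq_norm (w y) y, dist_eq_norm (w z) z] at h8
      linarith [hs hy hz hne, w2 y (hm y hy), w2 z (hm z hz)]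
    have h9 := Finset.card_nsmul_le_sum Y (fun y => Lr (K j) (w y) (τ / 4)) (c * (τ / 4))
      fun y hy => hd (h.1 j) _ (w1 y (hm y hy)) _ (by positivity)
        ((h5 y hy).trans (ball_subset_closedBall.trans h1)) (by nlinarith)
    rw [nsmul_eq_mul] at h9
    rw [div_mul_eq_mul_div, le_div_iff₀ c0]
    linarith [Dr_nonneg (u j) (K j) 0 (‖x‖ + |r| + 2)]
  · by_cases h1 : Dr u₀ K₀ x r ≤ ε
    · exact Eventually.of_forall fun j => by linarith [Dr_nonneg (u j) (K j) x r]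
    have h2 : ENNReal.ofReal (Dr u₀ K₀ x r - ε) < Dn u₀ K₀ (ball x r) :=
      (ENNReal.ofReal_lt_iff_lt_toReal (by linarith) (hD x r)).2 (sub_lt_self _ hε)
    filter_upwards [eventually_lt_of_lt_liminf (h2.trans_le (hF x r)), hB x r] with j h3 h4
    exact (ENNReal.ofReal_le_iff_le_toReal (ne_top_of_le_ne_top ENNReal.ofReal_ne_top h4)).1 h3.le

end Vale.Agent.P128
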