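import Vale.Agent.P128.Basic

/-!
# P128 CptH

Extraction of a Hausdorff limit. Let `d j z = min 1 (infEDist z (K j))` as a real number; it is
`1`-Lipschitz with values in `[0,1]`. Take a subsequence converging on a countable dense set (compact
metrizable `ℕ → Icc 0 1`), hence locally uniformly; `K₀` is the zero set of the limit.
-/

namespace Vale.Agent.P128

open Set Metric MeasureTheory Filter Topology Complex
open scoped ENNReal ContDiff RealInnerProductSpace Gradient Real ComplexConjugate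

variable {Ω K L A S T U O X Γ P M₀ K₀ K₁ : Set ℂ} {u v w g hh ψ η : ℂ → ℝ} {G : ℂ → ℂ}
  {π₀ π₁ : ℂ → Set ℂ} {x y z c p q e a₀ F : ℂ} {lam H r s R a b t M Θ ρ ε δ d : ℝ} {n : ℕ}

theorem cpth_unif {C : Set ℂ} (hC : IsCompact C) (Q : ℕ → ℂ → Prop)
    (h : ∀ z ∈ C, ∃ U ∈ 𝓝 z, ∀ᶠ j in atTop, ∀ w ∈ U, Q j w) : ∀ᶠ j in atTop, ∀ w ∈ C, Q j w := by
  refine hC.induction_on (p := fun S => ∀ᶠ j in atTop, ∀ w ∈ S, Q j w) (by simp) ?_ ?_ ?_
  · intro S T hST hT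
    exact hT.mono fun j hj w hw => hj w (hST hw)
  · intro S T hS hT
    filter_upwards [hS, hT] with j h1 h2 w hw
    exact hw.elim (h1 w) (h2 w)
  · intro z hz
    obtain ⟨U, hU, hU'⟩ := h z hz
    exact ⟨U, mem_nhdsWithin_of_mem_nhds hU, hU'⟩

theorem cptH (K : ℕ → Set ℂ) :
    ∃ φ : ℕ → ℕ, StrictMono φ ∧ ∃ K₀, IsClosed K₀ ∧ HC (fun j => K (φ j)) K₀ := by
  classical
  have : Countable (TopologicalSpace.countableBasis ℂ) :=
    (TopologicalSpace.countable_countableBasis ℂ).to_subtype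
  obtain ⟨B, φ, hφ, hB⟩ := CompactSpace.tendsto_subseq
    (fun (j : ℕ) (U : TopologicalSpace.countableBasis ℂ) => decide (∀ w ∈ U.1, w ∉ K j))
  have hev : ∀ U : TopologicalSpace.countableBasis ℂ, (∃ᶠ j in atTop, ∀ w ∈ U.1, w ∉ K (φ j)) →
      ∀ᶠ j in atTop, ∀ w ∈ U.1, w ∉ K (φ j) := by
    intro U hU
    have h1 := tendsto_pi_nhds.1 hB U
    rw [nhds_discrete, tendsto_pure] at h1
    obtain ⟨j, hj1, hj2⟩ := (hU.and_eventually h1).exists
    filter_upwards [h1] with i hi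
    simp only [Function.comp] at hi hj2
    rw [← hj2, decide_eq_decide] at hi
    exact hi.2 hj1
  refine ⟨φ, hφ, {z | ∀ ε, 0 < ε → ∀ᶠ j in atTop, ∃ w ∈ K (φ j), ‖w - z‖ < ε}, ?_, ?_⟩
  · refine isClosed_of_closure_subset fun z hz ε hε => ?_
    obtain ⟨z', hz', hd⟩ := Metric.mem_closure_iff.1 hz (ε / 2) (half_pos hε)
    filter_upwards [hz' (ε / 2) (half_pos hε)] with j ⟨w, hw, hw'⟩
    refine ⟨w, hw, ?_⟩
    have := norm_sub_le_norm_sub_add_norm_sub w z' z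
    rw [dist_comm, dist_eq_norm] at hd
    linarith
  · have hcl : IsClosed {z : ℂ | ∀ ε, 0 < ε → ∀ᶠ j in atTop, ∃ w ∈ K (φ j), ‖w - z‖ < ε} := by
      refine isClosed_of_closure_subset fun z hz ε hε => ?_
      obtain ⟨z', hz', hd⟩ := Metric.mem_closure_iff.1 hz (ε / 2) (half_pos hε)
      filter_upwards [hz' (ε / 2) (half_pos hε)] with j ⟨w, hw, hw'⟩
      refine ⟨w, hw, ?_⟩
      have := norm_sub_le_norm_sub_add_norm_sub w z' z
      rw [dist_comm, dist_eq_norm] at hd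
      linarith
    intro R ε hε
    refine Eventually.and ?_ ?_
    · refine cpth_unif ((isCompact_closedBall 0 R).inter_left hcl)
        (fun j z => ∃ w ∈ K (φ j), ‖w - z‖ ≤ ε) fun z hz => ?_
      refine ⟨ball z (ε / 2), ball_mem_nhds z (half_pos hε), ?_⟩
      filter_upwards [hz.1 (ε / 2) (half_pos hε)] with j ⟨w, hw, hw'⟩ z' hz'
      refine ⟨w, hw, ?_⟩
      have := norm_sub_le_norm_sub_add_norm_sub w z z'
      rw [mem_ball, dist_comm, dist_eq_norm] at hz'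
      linarith
    · refine (cpth_unif (isCompact_closedBall (0 : ℂ) R) (fun j w => w ∈ K (φ j) →
        ∃ z ∈ {z : ℂ | ∀ ε, 0 < ε → ∀ᶠ j in atTop, ∃ w ∈ K (φ j), ‖w - z‖ < ε}, ‖w - z‖ ≤ ε)
        fun z _ => ?_).mono fun j hj w hw => hj w hw.2 hw.1
      by_cases hz : ∀ ε, 0 < ε → ∀ᶠ j in atTop, ∃ w ∈ K (φ j), ‖w - z‖ < ε
      · refine ⟨ball z ε, ball_mem_nhds z hε, Eventually.of_forall fun j w hw _ => ⟨z, hz, ?_⟩⟩
        exact (mem_ball_iff_norm.1 hw).le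
      · push Not at hz
        obtain ⟨d, hd, hfr⟩ := hz
        obtain ⟨U, hU, hzU, hUs⟩ := (TopologicalSpace.isBasis_countableBasis ℂ).mem_nhds_iff.1
          (ball_mem_nhds z hd)
        refine ⟨U, ((TopologicalSpace.isBasis_countableBasis ℂ).isOpen hU).mem_nhds hzU, ?_⟩
        refine (hev ⟨U, hU⟩ (hfr.mono fun j hj w hw hwK => ?_)).mono
          fun j hj w hw hwK => absurd hwK (hj w hw)
        exact absurd (mem_ball_iff_norm.1 (hUs hw)) (not_lt.2 (hj w hwK))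

theorem HC.avoid {K : ℕ → Set ℂ} {C : Set ℂ} (h : HC K K₀) (hK : IsClosed K₀) (hC : IsCompact C)
    (hs : C ⊆ K₀ᶜ) : ∀ᶠ j in atTop, C ⊆ (K j)ᶜ := by
  obtain ⟨d, hd, hd'⟩ := hC.exists_thickening_subset_open hK.isOpen_compl hs
  obtain ⟨R, hR⟩ := hC.isBounded.subset_closedBall 0
  filter_upwards [h R (d / 2) (half_pos hd)] with j hj w hw hwK
  obtain ⟨z, hz, hz'⟩ := hj.2 w ⟨hwK, hR hw⟩
  refine hd' (mem_thickening_iff.2 ⟨w, hw, ?_⟩) hz
  rw [dist_comm, dist_eq_norm]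
  linarith

theorem HC.sub {K : ℕ → Set ℂ} (h : HC K K₀) {φ : ℕ → ℕ} (hφ : StrictMono φ) :
    HC (fun j => K (φ j)) K₀ := fun R ε hε => hφ.tendsto_atTop.eventually (h R ε hε)

end Vale.Agent.P128
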