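import Vale.Agent.P128.DLBa
import Vale.Agent.P128.Bon

/-!
# P128 DLB

Density lower bound. `dlbE`: suppose `F(x, r) = Dr + Lr ≤ r/20`, `lam r ≤ 1/20`. For `y ∈ K` within
`r/2` of `x` put `R = r/2`, `f = E2/s + Nn`. For a.e. `s`: if `Nn = 0`, `cone_zero` gives
`F ≤ s f + lam s²`; if `Nn ≥ 1` and `F s ≤ s` then `F ≤ s f`. By induction on `k`, `F(y, ρ) ≤ ρ/4` on
`[R/2^k, R]` (monotonicity gives `F s ≤ s` on the next dyadic piece, then `gr` with `β = 1`). So
`μ = μH[1]` restricted to `A = K ∩ ball x (r/2)` has `2 μ S ≤ diam S` for small `S`, and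
`Measure.le_hausdorffMeasure` gives `2 μH[1] A ≤ μH[1] A`, contradicting reducedness.
`dlb`: if `Lr ≤ η r`, apply `gr` with `β = 2`, `F = Dr`, on `[κ r, r]`, `h = 16 r Nn + 4π lam s²`
(`bon0` when `Nn = 0`, `ub8` otherwise, `∫ Nn ≤ η r`), so `Dr (κ r) + Lr (κ r) < κ r/20`.
-/

namespace Vale.Agent.P128

open Set Metric MeasureTheory Filter Topology Complex
open scoped ENNReal ContDiff RealInnerProductSpace Gradient Real ComplexConjugate

variable {Ω K L A S T U O X Γ P M₀ K₀ K₁ : Set ℂ} {u v w g hh ψ η : ℂ → ℝ} {G : ℂ → ℂ}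
  {π₀ π₁ : ℂ → Set ℂ} {x y z c p q e a₀ F : ℂ} {lam H r s R a b t M Θ ρ ε δ d : ℝ} {n : ℕ}

theorem dlb_pt (h : MM Ω lam u K π₀) (hb : closedBall x r ⊆ Ω) (hl : lam * r ≤ 1)
    (hg : Good u K x s) (hs : s ≤ r) :
    2 * Dr u K x s ≤ s * (E2 u K x s / s) + (16 * r * Nn K x s + 16 * (lam * r) * r) := by
  have s0 := hg.1
  have hl0 : 0 ≤ lam := h.1.1
  have hb' : closedBall x s ⊆ Ω := (closedBall_subset_closedBall hs).trans hb
  obtain ⟨hA, hB⟩ := A2_nonneg u K x s
  have hN : (0 : ℝ) ≤ Nn K x s := Nat.cast_nonneg _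
  have h1 : 0 ≤ lam * r * r := by have := s0.le.trans hs; positivity
  rw [mul_div_cancel₀ _ s0.ne', E2]
  rcases (K ∩ sphere x s).eq_empty_or_nonempty with hn | hn
  · have h2 := bon0 h.1 hb' hg hn
    have h3 : √(A2 u K x s * B2 u K x s) ≤ (A2 u K x s + B2 u K x s) / 2 :=
      Real.sqrt_le_iff.2 ⟨by positivity, by nlinarith [sq_nonneg (A2 u K x s - B2 u K x s)]⟩
    have h4 : π * s ^ 2 ≤ 4 * r ^ 2 :=
      mul_le_mul Real.pi_le_four (pow_le_pow_left₀ s0.le hs 2) (by positivity) (by norm_num)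
    have h5 : 0 ≤ r * Nn K x s := mul_nonneg (s0.le.trans hs) hN
    nlinarith [mul_le_mul_of_nonneg_left h4 hl0]
  · have h2 := ub8 h s0 hb' ((mul_le_mul_of_nonneg_left hs hl0).trans hl)
    have h3 : (1 : ℝ) ≤ Nn K x s := by
      have : 0 < Nn K x s := (Set.ncard_pos hg.2.1).2 hn
      exact_mod_cast this
    have h4 := Lr_nonneg K x s
    nlinarith [mul_le_mul_of_nonneg_left h3 (s0.le.trans hs)]

theorem dlb : ∃ c₀ : ℝ, 0 < c₀ ∧ c₀ ≤ 1 ∧ ∀ {Ω lam u K π₀}, MM Ω lam u K π₀ → ∀ x ∈ K, ∀ r, 0 < r →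
    closedBall x r ⊆ Ω → lam * r ≤ c₀ → c₀ * r ≤ Lr K x r := by
  refine ⟨1 / 10 ^ 9, by norm_num, by norm_num, fun {Ω lam u K π₀} h x hx r hr hb hl => ?_⟩
  by_contra hL
  push Not at hL
  have hP := h.pre
  have hl0 : 0 ≤ lam := h.1.1
  have hfin := (hP.2.2.2 x r hb).2
  obtain ⟨a, ha⟩ : ∃ a, r = 400 * a := ⟨r / 400, by ring⟩
  have a0 : 0 < a := by linarith
  have har : a ≤ r := by linarith
  have hba : closedBall x a ⊆ Ω := (closedBall_subset_closedBall har).trans hb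
  obtain ⟨hN, hN'⟩ := Nn_int hfin hP.2.1 a0.le har le_rfl
  have hh : IntervalIntegrable (fun s => 16 * r * (Nn K x s : ℝ) + 16 * (lam * r) * r) volume a r :=
    (hN.const_mul _).add intervalIntegrable_const
  have h1 := gr (F := Dr u K x) (f := fun s => E2 u K x s / s) (β := 2) a0 har two_pos
    (hP.Dr_sub hb a0.le har le_rfl).1 hh
    (fun t ht => (hP.Dr_sub hb a0.le ht.1 ht.2).2.le) (by
      filter_upwards [hP.ae_good hb] with s hs hs'
      exact dlb_pt h hb (by linarith) (hs ⟨a0.trans hs'.1, hs'.2⟩) hs'.2.le)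
  have hc : ContinuousOn (fun s : ℝ => (s ^ ((2 : ℝ) + 1))⁻¹) (uIcc a r) := by
    rw [uIcc_of_le har]
    exact (continuousOn_id.rpow_const fun s _ => Or.inr (by norm_num)).inv₀
      fun s hs => (Real.rpow_pos_of_pos (a0.trans_le hs.1) _).ne'
  have h2 : ∫ s in a..r, (16 * r * (Nn K x s : ℝ) + 16 * (lam * r) * r) / s ^ ((2 : ℝ) + 1) ≤
      ∫ s in a..r, (16 * r * (Nn K x s : ℝ) + 16 * (lam * r) * r) / a ^ 3 := by
    refine intervalIntegral.integral_mono_on har ?_ (hh.div_const _) fun s hs => ?_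
    · simpa only [div_eq_mul_inv] using hh.mul_continuousOn hc
    · rw [show (2 : ℝ) + 1 = (3 : ℕ) by norm_num, Real.rpow_natCast]
      exact div_le_div_of_nonneg_left (by positivity) (by positivity)
        (pow_le_pow_left₀ a0.le hs.1 3)
  rw [intervalIntegral.integral_div, intervalIntegral.integral_add (hN.const_mul _)
    intervalIntegrable_const, intervalIntegral.integral_const_mul,
    intervalIntegral.integral_const, smul_eq_mul] at h2
  rw [Real.rpow_two, Real.rpow_two] at h1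
  have h3 := ub8 h hr hb (by linarith)
  have h4 := dlbE h hx a0 hba (by nlinarith)
  have h5 := Lr_mono hfin (ball_subset_ball (x := x) har)
  have h6 := Lr_nonneg K x a
  have h7 := Lr_nonneg K x r
  have h8 : Dr u K x r / r ^ 2 ≤ a / 50 / a ^ 2 := by
    rw [div_le_div_iff₀ (by positivity) (by positivity)]
    have : Dr u K x r ≤ 3200 * a := by linarith
    have := mul_le_mul_of_nonneg_right this (sq_nonneg a)
    have e4 : a / 50 * r ^ 2 = 3200 * a * a ^ 2 := by rw [ha]; ring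
    linarith
  have h9 : (16 * r * ∫ s in a..r, (Nn K x s : ℝ)) + (r - a) * (16 * (lam * r) * r) ≤
      a / 100 * a := by
    have e1 : ∫ s in a..r, (Nn K x s : ℝ) ≤ 1 / 10 ^ 9 * r := by linarith
    have e2 := mul_le_mul_of_nonneg_left e1 (by positivity : 0 ≤ 16 * r)
    have e3 : (r - a) * (16 * (lam * r) * r) ≤ r * (16 * (1 / 10 ^ 9) * r) := by
      gcongr
      linarith
    have e4 : r * r = 160000 * (a * a) := by rw [ha]; ring
    nlinarith [mul_pos a0 a0]
  have h10 := (div_le_div_of_nonneg_right h9 (by positivity : 0 ≤ a ^ 3))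
  have h11 : Dr u K x a / a ^ 2 ≤ (a / 50 + a / 100) / a ^ 2 := by
    have : a / 100 * a / a ^ 3 = a / 100 / a ^ 2 := by field_simp
    rw [add_div]
    linarith
  rw [div_le_div_iff_of_pos_right (by positivity)] at h11
  linarith

end Vale.Agent.P128
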