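import Vale.Agent.P128.Cone
import Vale.Agent.P128.Gr

/-!
# P128 DLBa

Density lower bound. `dlbE`: suppose `F(x, r) = Dr + Lr ≤ r/20`, `lam r ≤ 1/20`. For `y ∈ K` within
`r/2` of `x` put `R = r/2`, `f = E2/s + Nn`. For a.e. `s`: if `Nn = 0`, `cone_zero` gives
`F ≤ s f + lam s²`; if `Nn ≥ 1` and `F s ≤ s` then `F ≤ s f`. By induction on `k`, `F(y, ρ) ≤ ρ/4` on
`[R/2^k, R]` (monotonicity gives `F s ≤ s` on the next dyadic piece, then `gr` with `β = 1`). So
`μ = μH[1]` restricted to `A = K ∩ ball x (r/2)` has `2 μ S ≤ diam S` for small `S`, and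
`Measure.le_hausdorffMeasure` gives `2 μH[1] A ≤ μH[1] A`, contradicting reducedness.
`dlb`: if `Lr ≤ η r`, apply `gr` with `β = 2`, `F = Dr`, on `[κ r, r]`, `h = 16 r Nn + 4π lam s²`
(`bon0` when `Nn = 0`, `ub8` otherwise, `∫ Nn ≤ η r`), so `Dr (κ r) + Lr (κ r) < κ r/20`.
-/

namespace Vale.Agent.P128

open Set Metric MeasureTheory Filter Topology Complex
open scoped ENNReal ContDiff RealInnerProductSpace Gradient Real ComplexConjugate

variable {Ω K L A S T U O X Γ P M₀ K₀ K₁ : Set ℂ} {u v w g hh ψ η : ℂ → ℝ} {G : ℂ → ℂ}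
  {π₀ π₁ : ℂ → Set ℂ} {x y z c p q e a₀ F : ℂ} {lam H r s R a b t M Θ ρ ε δ d : ℝ} {n : ℕ}

theorem dlba_step (h : MM Ω lam u K π₀) (hb : closedBall y R ⊆ Ω) (hl : lam * R ≤ 1 / 40)
    (hF : Dr u K y R + Lr K y R ≤ R / 10) (ha : 0 < a) (haR : a ≤ R)
    (hs : ∀ s ∈ Ioo a R, Dr u K y s + Lr K y s ≤ s) : Dr u K y a + Lr K y a ≤ a / 4 := by
  have hP := h.pre
  have hK : IsClosed K := hP.2.1
  have hfin := (hP.2.2.2 y R hb).2
  have hlam : 0 ≤ lam := h.1.1
  have hR : 0 < R := ha.trans_le haR
  have H := gr (F := fun s => Dr u K y s + Lr K y s) (f := fun s => E2 u K y s / s + Nn K y s)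
    (h := fun s => lam * s ^ 2) (β := 1) ha haR one_pos
    ((hP.Dr_sub hb ha.le haR le_rfl).1.add (Nn_int hfin hK ha.le haR le_rfl).1)
    ((by fun_prop : Continuous fun s : ℝ => lam * s ^ 2).intervalIntegrable _ _)
    (fun t ht => by
      obtain ⟨i1, e1⟩ := hP.Dr_sub hb ha.le ht.1 ht.2
      obtain ⟨i2, e2⟩ := Nn_int hfin hK ha.le ht.1 ht.2
      rw [intervalIntegral.integral_add i1 i2]
      linarith)
    (by
      filter_upwards [hP.ae_good hb] with s hg hsm
      have hs0 : 0 < s := ha.trans hsm.1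
      have hg' := hg ⟨hs0, hsm.2⟩
      have hA := A2_nonneg u K y s
      have e : s * (E2 u K y s / s + Nn K y s) = A2 u K y s + B2 u K y s + s * Nn K y s := by
        unfold E2
        field_simp
      have hN : (0 : ℝ) ≤ s * Nn K y s := by positivity
      have hls : 0 ≤ lam * s ^ 2 := by positivity
      rw [e, one_mul]
      rcases (K ∩ sphere y s).eq_empty_or_nonempty with hn | hn
      · have := cone_zero h ((closedBall_subset_closedBall hsm.2.le).trans hb) hg' hn
        linarith [hA.2]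
      · have h1 : 1 ≤ Nn K y s := (Set.ncard_pos hg'.2.1).2 hn
        have h2 : (1 : ℝ) ≤ Nn K y s := by exact_mod_cast h1
        have h3 := hs s hsm
        nlinarith [hA.1, hA.2])
  have e : ∫ s in a..R, lam * s ^ 2 / s ^ ((1 : ℝ) + 1) = ∫ _ in a..R, lam := by
    refine intervalIntegral.integral_congr fun s hsm => ?_
    rw [uIcc_of_le haR] at hsm
    have hs0 : 0 < s := ha.trans_le hsm.1
    rw [show (1 : ℝ) + 1 = (2 : ℕ) by norm_num, Real.rpow_natCast]
    field_simp
  simp only [Real.rpow_one] at H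
  rw [e, intervalIntegral.integral_const, smul_eq_mul] at H
  have h1 : (Dr u K y R + Lr K y R) / R ≤ 1 / 10 := by
    rw [div_le_iff₀ hR]
    linarith
  have h2 : (R - a) * lam ≤ 1 / 40 := by nlinarith
  have h3 : (Dr u K y a + Lr K y a) / a ≤ 1 / 4 := by linarith
  rw [div_le_iff₀ ha] at h3
  linarith

theorem dlba_all (h : MM Ω lam u K π₀) (hb : closedBall y R ⊆ Ω) (hl : lam * R ≤ 1 / 40)
    (hF : Dr u K y R + Lr K y R ≤ R / 10) (ha : 0 < a) (haR : a ≤ R) :
    Dr u K y a + Lr K y a ≤ a / 4 := by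
  have hP := h.pre
  have hR : 0 < R := ha.trans_le haR
  have key : ∀ k : ℕ, ∀ a, R / 2 ^ k ≤ a → a ≤ R → Dr u K y a + Lr K y a ≤ a / 4 := by
    intro k
    induction k with
    | zero =>
      intro a h1 h2
      have : a = R := le_antisymm h2 (by simpa using h1)
      rw [this]
      linarith
    | succ k ih =>
      intro a h1 h2
      have hp : 0 < R / 2 ^ (k + 1) := by positivity
      have e : R / 2 ^ k = 2 * (R / 2 ^ (k + 1)) := by
        rw [pow_succ]
        field_simp
      refine dlba_step h hb hl hF (hp.trans_le h1) h2 fun s hs => ?_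
      rcases le_total (R / 2 ^ k) s with h3 | h3
      · have := ih s h3 hs.2.le
        linarith [hs.1]
      · have hk : R / 2 ^ k ≤ R := div_le_self hR.le (one_le_pow₀ one_le_two)
        have hsub := (closedBall_subset_closedBall (x := y) hk).trans hb
        have m1 : Dr u K y s ≤ Dr u K y (R / 2 ^ k) :=
          hP.Dr_mono hsub ((ball_subset_ball h3).trans ball_subset_closedBall)
        have m2 : Lr K y s ≤ Lr K y (R / 2 ^ k) :=
          Lr_mono (hP.2.2.2 y _ hsub).2 (ball_subset_ball h3)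
        have := ih _ le_rfl hk
        linarith [hs.1]
  obtain ⟨k, hk⟩ := pow_unbounded_of_one_lt (R / a) (one_lt_two : (1 : ℝ) < 2)
  refine key k a ?_ haR
  rw [div_lt_iff₀ ha] at hk
  rw [div_le_iff₀ (by positivity)]
  linarith

theorem dlbE (h : MM Ω lam u K π₀) (hx : x ∈ K) (hr : 0 < r) (hb : closedBall x r ⊆ Ω)
    (hl : lam * r ≤ 1 / 20) : r / 20 ≤ Dr u K x r + Lr K x r := by
  by_contra hc
  push Not at hc
  have hP := h.pre
  have hK : IsClosed K := hP.2.1
  have hfin := (hP.2.2.2 x r hb).2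
  set A : Set ℂ := K ∩ ball x (r / 2) with hA
  have hAm : MeasurableSet A := hK.measurableSet.inter measurableSet_ball
  have hsubs : ∀ y ∈ ball x (r / 2), closedBall y (r / 2) ⊆ ball x r := fun y hy =>
    closedBall_subset_ball' (by rw [mem_ball] at hy; linarith)
  have hall : ∀ y ∈ ball x (r / 2), ∀ a, 0 < a → a ≤ r / 2 → Lr K y a ≤ a / 4 := by
    intro y hy a ha har
    have h1 : closedBall y (r / 2) ⊆ Ω := ((hsubs y hy).trans ball_subset_closedBall).trans hb
    have m1 : Dr u K y (r / 2) ≤ Dr u K x r :=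
      hP.Dr_mono hb ((ball_subset_closedBall.trans (hsubs y hy)).trans ball_subset_closedBall)
    have m2 : Lr K y (r / 2) ≤ Lr K x r := Lr_mono hfin (ball_subset_closedBall.trans (hsubs y hy))
    have := dlba_all h h1 (by linarith) (by linarith) ha har
    linarith [Dr_nonneg u K y a]
  have hle : (2 : ℝ≥0∞) • (μH[1] : Measure ℂ).restrict A ≤ μH[1] := by
    refine Measure.le_hausdorffMeasure 1 _ (ENNReal.ofReal (r / 4)) (by simpa using hr)
      fun S hS => ?_
    rw [Measure.smul_apply, Measure.restrict_apply' hAm, smul_eq_mul, ENNReal.rpow_one]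
    rcases (S ∩ A).eq_empty_or_nonempty with hn | ⟨y, hyS, hyK, hyb⟩
    · simp [hn]
    have hSt : ediam S ≠ ⊤ := ne_top_of_le_ne_top ENNReal.ofReal_ne_top hS
    set δ := (ediam S).toReal with hδ
    have hδ0 : 0 ≤ δ := ENNReal.toReal_nonneg
    have hδr : δ ≤ r / 4 := ENNReal.toReal_le_of_le_ofReal (by linarith) hS
    have hd : ∀ z ∈ S, dist z y ≤ δ := fun z hz => dist_le_diam_of_mem' hSt hz hyS
    rcases hδ0.eq_or_lt with h0 | h0
    · have : (S ∩ A).Finite := (finite_singleton y).subset fun z hz => by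
        have := hd z hz.1
        rw [← h0] at this
        exact dist_le_zero.1 this
      simp [len_finite this]
    · have hsub : S ∩ A ⊆ K ∩ ball y (2 * δ) := fun z hz =>
        ⟨hz.2.1, by rw [mem_ball]; linarith [hd z hz.1]⟩
      have hf2 : μH[1] (K ∩ ball y (2 * δ)) ≠ ⊤ := by
        refine ne_top_of_le_ne_top hfin (measure_mono (inter_subset_inter_right _ ?_))
        exact (((ball_subset_ball (by linarith)).trans ball_subset_closedBall).trans
          (hsubs y hyb)).trans ball_subset_closedBall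
      have h1 : μH[1] (K ∩ ball y (2 * δ)) ≤ ENNReal.ofReal (δ / 2) := by
        rw [← ENNReal.ofReal_toReal hf2]
        refine ENNReal.ofReal_le_ofReal ?_
        have := hall y hyb (2 * δ) (by linarith) (by linarith)
        unfold Lr at this
        linarith
      calc 2 * μH[1] (S ∩ A) ≤ 2 * ENNReal.ofReal (δ / 2) := by
            gcongr
            exact (measure_mono hsub).trans h1
        _ = ENNReal.ofReal δ := by
            rw [← ENNReal.ofReal_ofNat, ← ENNReal.ofReal_mul (by norm_num)]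
            congr 1
            ring
        _ = ediam S := ENNReal.ofReal_toReal hSt
  have h2 := hle A
  rw [Measure.smul_apply, Measure.restrict_apply_self, smul_eq_mul] at h2
  have hpos : 0 < μH[1] A := h.2.2.1 x hx (hb (mem_closedBall_self hr.le)) (r / 2) (by linarith)
  have hAt : μH[1] A ≠ ⊤ := by
    refine ne_top_of_le_ne_top hfin (measure_mono (inter_subset_inter_right _ ?_))
    exact (ball_subset_ball (by linarith)).trans ball_subset_closedBall
  rw [two_mul] at h2
  exact absurd h2 (not_le.2 (ENNReal.lt_add_right hAt hpos.ne'))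

end Vale.Agent.P128
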