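import Vale.Agent.P128.Stmt

/-!
# Working definitions for the Mumford-Shah proof
-/

namespace Vale.Agent.P128

open Set Metric MeasureTheory Filter Topology Complex
open scoped ENNReal ContDiff RealInnerProductSpace Gradient Real ComplexConjugate

/-- `f` is locally constant on `S` (relative neighbourhoods). -/
def LC {β : Type*} (S : Set ℂ) (f : ℂ → β) : Prop := ∀ z ∈ S, ∀ᶠ w in 𝓝[S] z, f w = f z

/-- Gradient of `u` off `K`, zero on `K`. -/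
noncomputable def gK (K : Set ℂ) (u : ℂ → ℝ) : ℂ → ℂ := Kᶜ.indicator (∇ u)

/-- Dirichlet energy in `S`. -/
noncomputable def Dn (u : ℂ → ℝ) (K S : Set ℂ) : ℝ≥0∞ := ∫⁻ z in S, ‖gK K u z‖ₑ ^ 2

/-- Dirichlet energy plus length in `S`. -/
noncomputable def En (u : ℂ → ℝ) (K S : Set ℂ) : ℝ≥0∞ := Dn u K S + μH[1] (K ∩ S)

/-- Real Dirichlet energy in an open ball. -/
noncomputable def Dr (u : ℂ → ℝ) (K : Set ℂ) (x : ℂ) (r : ℝ) : ℝ := (Dn u K (ball x r)).toReal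

/-- Real length in an open ball. -/
noncomputable def Lr (K : Set ℂ) (x : ℂ) (r : ℝ) : ℝ := (μH[1] (K ∩ ball x r)).toReal

/-- Real length in a closed ball. -/
noncomputable def Lc (K : Set ℂ) (x : ℂ) (r : ℝ) : ℝ := (μH[1] (K ∩ closedBall x r)).toReal

/-- Unit vector of angle `θ`. -/
noncomputable def ex (θ : ℝ) : ℂ := cexp (θ * I)

/-- `s` times the normal derivative on the circle. -/
noncomputable def un (u : ℂ → ℝ) (K : Set ℂ) (x : ℂ) (s θ : ℝ) : ℝ :=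
  s * ⟪gK K u (circleMap x s θ), ex θ⟫

/-- `s` times the tangential derivative on the circle (the `θ` derivative of `u`). -/
noncomputable def ut (u : ℂ → ℝ) (K : Set ℂ) (x : ℂ) (s θ : ℝ) : ℝ :=
  s * ⟪gK K u (circleMap x s θ), I * ex θ⟫

/-- Tangential energy on the circle. -/
noncomputable def A2 (u : ℂ → ℝ) (K : Set ℂ) (x : ℂ) (s : ℝ) : ℝ :=
  ∫ θ in (0 : ℝ)..2 * π, ut u K x s θ ^ 2

/-- Normal energy on the circle. -/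
noncomputable def B2 (u : ℂ → ℝ) (K : Set ℂ) (x : ℂ) (s : ℝ) : ℝ :=
  ∫ θ in (0 : ℝ)..2 * π, un u K x s θ ^ 2

/-- `s` times the derivative of `Dr` at `s`. -/
noncomputable def E2 (u : ℂ → ℝ) (K : Set ℂ) (x : ℂ) (s : ℝ) : ℝ := A2 u K x s + B2 u K x s

/-- Number of points of `K` on the circle (junk `0` if infinite). -/
noncomputable def Nn (K : Set ℂ) (x : ℂ) (s : ℝ) : ℕ := (K ∩ sphere x s).ncard

/-- Good radius. -/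
def Good (u : ℂ → ℝ) (K : Set ℂ) (x : ℂ) (s : ℝ) : Prop :=
  0 < s ∧ (K ∩ sphere x s).Finite ∧
    IntervalIntegrable (fun θ => ‖gK K u (circleMap x s θ)‖ ^ 2) volume 0 (2 * π)

/-- The open arc of angles `(a, b)` misses `K`. -/
def FreeArc (K : Set ℂ) (x : ℂ) (s a b : ℝ) : Prop :=
  a < b ∧ b ≤ a + 2 * π ∧ ∀ t ∈ Ioo a b, circleMap x s t ∉ K

/-- Every free arc has angular size at most `Θ`. -/
def MaxGap (K : Set ℂ) (x : ℂ) (s Θ : ℝ) : Prop := ∀ a b, FreeArc K x s a b → b - a ≤ Θ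

/-- `a 0 < ... < a n = a 0 + 2π` list the angles of the points of `K` on the circle. -/
def Gaps (K : Set ℂ) (x : ℂ) (s : ℝ) (n : ℕ) (a : ℕ → ℝ) : Prop :=
  0 < n ∧ a n = a 0 + 2 * π ∧ (∀ k ≤ n, circleMap x s (a k) ∈ K) ∧
    ∀ k < n, FreeArc K x s (a k) (a (k + 1))

/-- Mean of `f` over `(a, b)`. -/
noncomputable def av (f : ℝ → ℝ) (a b : ℝ) : ℝ := (∫ t in a..b, f t) / (b - a)

/-- `f'` is square integrable on `(a, b)` and `f` is its primitive inside `(a, b)`. -/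
def Prim (f f' : ℝ → ℝ) (a b : ℝ) : Prop :=
  a < b ∧ IntervalIntegrable f' volume a b ∧ IntervalIntegrable (fun t => f' t ^ 2) volume a b ∧
    ∀ s ∈ Ioo a b, ∀ t ∈ Ioo a b, f t - f s = ∫ τ in s..t, f' τ

/-- Truncation at level `M`. -/
def tr (M t : ℝ) : ℝ := max (-M) (min M t)

/-- Basic regularity and local finiteness. -/
def Pre (Ω : Set ℂ) (u : ℂ → ℝ) (K : Set ℂ) : Prop :=
  IsOpen Ω ∧ IsClosed K ∧ ContDiffOn ℝ 1 u (Ω \ K) ∧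
    ∀ x r, closedBall x r ⊆ Ω →
      Dn u K (closedBall x r) ≠ ⊤ ∧ μH[1] (K ∩ closedBall x r) ≠ ⊤

/-- Test functions: may jump across `K`. -/
def Test (Ω K : Set ℂ) (ψ : ℂ → ℝ) : Prop :=
  LocallyLipschitzOn (Ω \ K) ψ ∧ (∃ M, ∀ z, |ψ z| ≤ M) ∧
    (∃ x r, closedBall x r ⊆ Ω ∧ ∀ z ∉ closedBall x r, ψ z = 0) ∧ Dn ψ K univ ≠ ⊤

/-- Weak equation `Δ u = h` off `K` with Neumann condition on `K`. -/
def EL (Ω : Set ℂ) (u : ℂ → ℝ) (K : Set ℂ) (h : ℂ → ℝ) : Prop :=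
  ∀ ψ, Test Ω K ψ → ∫ z, ⟪gK K u z, gK K ψ z⟫ = -∫ z in Kᶜ, h z * ψ z

/-- Solution of the Neumann problem with bounded right side `h`, `|h| ≤ H`. -/
def NH (Ω : Set ℂ) (u : ℂ → ℝ) (K : Set ℂ) (h : ℂ → ℝ) (H : ℝ) : Prop :=
  Pre Ω u K ∧ Measurable h ∧ (∀ z, |h z| ≤ H) ∧ EL Ω u K h

/-- Neumann problem with right side controlled by `lam`. -/
def NP (Ω : Set ℂ) (lam : ℝ) (u : ℂ → ℝ) (K : Set ℂ) : Prop :=
  0 ≤ lam ∧ ∃ h H, NH Ω u K h H ∧ H ^ 2 ≤ lam ^ 3 ∧ ∀ z ∈ Ω \ K, H * |u z| ≤ lam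

/-- Competitor in the closed ball, with labels. -/
def Comp (Ω : Set ℂ) (u : ℂ → ℝ) (K : Set ℂ) (π₀ : ℂ → Set ℂ) (c : ℂ) (r : ℝ)
    (w : ℂ → ℝ) (L : Set ℂ) (π₁ : ℂ → Set ℂ) : Prop :=
  IsClosed L ∧ LocallyLipschitzOn (Ω \ L) w ∧ LC (Ω \ L) π₁ ∧
    (∀ z ∉ closedBall c r, (z ∈ L ↔ z ∈ K)) ∧
    ∀ z ∈ Ω \ K, z ∉ closedBall c r → w z = u z ∧ π₁ z = π₀ z

/-- Reduced labelled almost minimizer. -/
def MM (Ω : Set ℂ) (lam : ℝ) (u : ℂ → ℝ) (K : Set ℂ) (π₀ : ℂ → Set ℂ) : Prop :=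
  NP Ω lam u K ∧ LC (Ω \ K) π₀ ∧
    (∀ x ∈ K, x ∈ Ω → ∀ r, 0 < r → 0 < μH[1] (K ∩ ball x r)) ∧
    ∀ c r w L π₁, 0 < r → closedBall c r ⊆ Ω → Comp Ω u K π₀ c r w L π₁ →
      En u K (closedBall c r) ≤ En w L (closedBall c r) + ENNReal.ofReal (lam * r ^ 2)

/-- Flat label-minimal set in the plane. -/
def FM {β : Type} (K : Set ℂ) (σ : ℂ → β) : Prop :=
  IsClosed K ∧ (∀ x r, μH[1] (K ∩ closedBall x r) ≠ ⊤) ∧ LC Kᶜ σ ∧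
    (∀ x ∈ K, ∀ r, 0 < r → 0 < μH[1] (K ∩ ball x r)) ∧
    ∀ c r L (σ₁ : ℂ → β), 0 < r → IsClosed L → LC Lᶜ σ₁ →
      (∀ z ∉ closedBall c r, (z ∈ L ↔ z ∈ K)) →
      (∀ z ∉ K, z ∉ closedBall c r → σ₁ z = σ z) →
      μH[1] (K ∩ closedBall c r) ≤ μH[1] (L ∩ closedBall c r)

/-- `p` and `q` lie in a compact connected subset of `K ∩ S`. -/
def Join (K S : Set ℂ) (p q : ℂ) : Prop :=
  ∃ Γ : Set ℂ, IsCompact Γ ∧ IsPreconnected Γ ∧ Γ ⊆ K ∩ S ∧ p ∈ Γ ∧ q ∈ Γ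

/-- Any two points of `K` are joined by a continuum in `K`. -/
def CC (K : Set ℂ) : Prop := ∀ p ∈ K, ∀ q ∈ K, Join K univ p q

/-- Uniform local connectedness on `S`. -/
def LCn (K S : Set ℂ) (M : ℝ) : Prop :=
  ∀ p ∈ K ∩ S, ∀ q ∈ K ∩ S, Join K (closedBall p (M * ‖p - q‖)) p q

/-- `K` has no nonempty compact relatively open piece. -/
def NoIso (K : Set ℂ) : Prop := ∀ A ⊆ K, IsCompact A → IsClosed (K \ A) → A = ∅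

/-- The `k`-th of `n` equally spaced directions starting from `e`. -/
noncomputable def dir (n : ℕ) (e : ℂ) (k : ℕ) : ℂ := e * ex (2 * π * k / n)

/-- `n` equally spaced closed half-lines from `x`. -/
def star (n : ℕ) (x e : ℂ) : Set ℂ := {z | ∃ k < n, ∃ t : ℝ, 0 ≤ t ∧ z = x + t * dir n e k}

/-- A line or a propeller. -/
def Mdl (M : Set ℂ) : Prop := ∃ c e : ℂ, ‖e‖ = 1 ∧ (M = star 2 c e ∨ M = star 3 c e)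

/-- `K` and `M` are `η r` close in the closed ball of radius `2 r`. -/
def Near (η : ℝ) (x : ℂ) (r : ℝ) (K M : Set ℂ) : Prop :=
  (∀ z ∈ K ∩ closedBall x (2 * r), ∃ w ∈ M, ‖z - w‖ ≤ η * r) ∧
    ∀ w ∈ M ∩ closedBall x (2 * r), ∃ z ∈ K, ‖z - w‖ ≤ η * r

/-- Admissible small scale. -/
def Adm (Ω : Set ℂ) (lam : ℝ) (x : ℂ) (R ε : ℝ) : Prop :=
  0 < R ∧ closedBall x (R / ε) ⊆ Ω ∧ lam * R ≤ ε ^ 2

/-- Admissible scale with small Dirichlet energy at all radii up to `R / ε`. -/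
def Quiet (Ω : Set ℂ) (lam : ℝ) (u : ℂ → ℝ) (K : Set ℂ) (x : ℂ) (R ε : ℝ) : Prop :=
  Adm Ω lam x R ε ∧ ∀ ρ, 0 < ρ → ρ ≤ R / ε → Dr u K x ρ ≤ ε * ρ

/-- No large gap on the circle of radius `ρ`. -/
def Two (K : Set ℂ) (y : ℂ) (ρ : ℝ) : Prop :=
  ∀ v : ℂ, ‖v‖ = 1 → ∃ z ∈ K, ‖z - y‖ = ρ ∧ -(7 / 10) * ρ ≤ ⟪z - y, v⟫

/-- The direction sets at two radii in `[ρ / 2, ρ]` are `w` close. -/
def Rd (K : Set ℂ) (y : ℂ) (ρ w : ℝ) : Prop :=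
  ∀ a ∈ Icc (ρ / 2) ρ, ∀ b ∈ Icc (ρ / 2) ρ, ∀ z ∈ K, ‖z - y‖ = a →
    ∃ z' ∈ K, ‖z' - y‖ = b ∧ ‖(z - y) / a - (z' - y) / b‖ ≤ w

/-- `K` is tangent to `star n x e` at `x` with a power rate. -/
def SR (n : ℕ) (K : Set ℂ) (x : ℂ) (r : ℝ) (e : ℂ) (w γ : ℝ) : Prop :=
  ‖e‖ = 1 ∧ ∀ ρ, 0 < ρ → ρ ≤ r →
    (∀ z ∈ K, ‖z - x‖ = ρ → ∃ k < n, ‖z - x - ρ * dir n e k‖ ≤ w * (ρ / r) ^ γ * ρ) ∧
      ∀ k < n, ∃ z ∈ K, ‖z - x‖ = ρ ∧ ‖z - x - ρ * dir n e k‖ ≤ w * (ρ / r) ^ γ * ρ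

/-- Quantitative tangent line at `y` up to radius `r`. -/
def Tg (K : Set ℂ) (y : ℂ) (r : ℝ) : Prop := ∃ τ, SR 2 K y r τ (1 / 10) (1 / 6)

/-- Radial `C¹` parametrization of `K` in the annulus `a < |z - x| < b`. -/
def Rad (K : Set ℂ) (x : ℂ) (a b : ℝ) (p p' : ℝ → ℂ) : Prop :=
  ContinuousOn p' (Ioo a b) ∧
    ∀ s ∈ Ioo a b, K ∩ sphere x s = {p s} ∧ HasDerivAt p (p' s) s ∧ ‖p' s‖ ≤ 2

/-- The stress term of the inner variation on a circle. -/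
noncomputable def Zc (u : ℂ → ℝ) (K : Set ℂ) (x : ℂ) (s : ℝ) : ℂ :=
  (s : ℂ)⁻¹ * ∫ θ in (0 : ℝ)..2 * π,
    ((un u K x s θ : ℂ) - I * ut u K x s θ) ^ 2 * conj (ex θ)

/-- Defect in the inner variation identity. -/
noncomputable def Yv (u : ℂ → ℝ) (K : Set ℂ) (x : ℂ) (p' : ℝ → ℂ) (s : ℝ) : ℂ :=
  p' s / (‖p' s‖ : ℂ) - conj (Zc u K x s)

/-- The map used in the inner variation. -/
noncomputable def Phi (x e : ℂ) (φ : ℝ → ℝ) (t : ℝ) (z : ℂ) : ℂ := z + (t * φ ‖z - x‖ : ℝ) * e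

/-- Rescaled set. -/
def sc (x a : ℂ) (S : Set ℂ) : Set ℂ := (fun z => x + a * z) ⁻¹' S

/-- Rescaled function. -/
noncomputable def su (x a : ℂ) (u : ℂ → ℝ) : ℂ → ℝ := fun z => u (x + a * z) / √‖a‖

/-- A sequence of almost minimizers with domains exhausting the plane. -/
def Sq (Ω : ℕ → Set ℂ) (lam : ℕ → ℝ) (u : ℕ → ℂ → ℝ) (K : ℕ → Set ℂ)
    (π₀ : ℕ → ℂ → Set ℂ) : Prop :=
  (∀ j, MM (Ω j) (lam j) (u j) (K j) (π₀ j)) ∧ (∀ R, ∀ᶠ j in atTop, closedBall 0 R ⊆ Ω j) ∧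
    Tendsto lam atTop (𝓝 0)

/-- Local Hausdorff convergence. -/
def HC (K : ℕ → Set ℂ) (K₀ : Set ℂ) : Prop :=
  ∀ R ε, 0 < ε → ∀ᶠ j in atTop,
    (∀ z ∈ K₀ ∩ closedBall 0 R, ∃ w ∈ K j, ‖w - z‖ ≤ ε) ∧
      ∀ w ∈ K j ∩ closedBall 0 R, ∃ z ∈ K₀, ‖w - z‖ ≤ ε

/-- Component labels. -/
def cc (K : Set ℂ) (z : ℂ) : Set ℂ := connectedComponentIn Kᶜ z

/-- First stage of convergence: sets, gradients, normalized functions and labels. -/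
def Cv0 (Ω : ℕ → Set ℂ) (u : ℕ → ℂ → ℝ) (K : ℕ → Set ℂ) (π₀ : ℕ → ℂ → Set ℂ)
    (u₀ : ℂ → ℝ) (K₀ : Set ℂ) (β : Set ℂ → ℂ) : Prop :=
  IsClosed K₀ ∧ ContDiffOn ℝ 1 u₀ K₀ᶜ ∧ HC K K₀ ∧
    ∀ C ⊆ K₀ᶜ, IsCompact C → ∀ ε, 0 < ε → ∀ᶠ j in atTop, ∀ z ∈ C,
      z ∈ Ω j \ K j ∧ ‖∇ (u j) z - ∇ u₀ z‖ ≤ ε ∧
        |u j z - u j (β (cc K₀ z)) - u₀ z| ≤ ε ∧ π₀ j z = π₀ j (β (cc K₀ z))

/-- Full convergence. -/
def Cv (u : ℕ → ℂ → ℝ) (K : ℕ → Set ℂ) (u₀ : ℂ → ℝ) (K₀ : Set ℂ) : Prop :=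
  HC K K₀ ∧ (∀ x r, Tendsto (fun j => Dr (u j) (K j) x r) atTop (𝓝 (Dr u₀ K₀ x r))) ∧
    ∀ x r ε, 0 < ε → ∀ᶠ j in atTop,
      Lr K₀ x r - ε ≤ Lr (K j) x r ∧ Lr (K j) x r ≤ Lc K₀ x r + ε

/-- Radial projection on the circle. -/
noncomputable def rp (x : ℂ) (s : ℝ) (z : ℂ) : ℂ := x + (s / ‖z - x‖ : ℝ) * (z - x)

/-- Cone with apex `F` over `T`, apex included. -/
def cone (F : ℂ) (T : Set ℂ) : Set ℂ := insert F (⋃ p ∈ T, segment ℝ F p)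

/-- Blow-up data at a point: `n` is `1` (tip), `2` or `3`. -/
def Bl (u : ℂ → ℝ) (K : Set ℂ) (x : ℂ) (n : ℕ) : Prop :=
  (n = 1 ∨ n = 2 ∨ n = 3) ∧
    Tendsto (fun r => Dr u K x r / r) (𝓝[>] 0) (𝓝 (if n = 1 then 1 else 0)) ∧
    Tendsto (fun r => Lr K x r / r) (𝓝[>] 0) (𝓝 n) ∧
    (∀ η, 0 < η → ∀ᶠ r in 𝓝[>] (0 : ℝ), ∃ e, ‖e‖ = 1 ∧ Near η x r K (star n x e)) ∧
    ∀ κ, 0 < κ → κ ≤ 1 / 4 → ∀ᶠ r in 𝓝[>] (0 : ℝ), ∀ y ∈ K, ‖y - x‖ = r →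
      Dr u K y (κ * r) ≤ 2 * κ ^ 2 * r ∧ Lr K y (κ * r) ≤ 21 / 10 * (κ * r)

end Vale.Agent.P128
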