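import Vale.Agent.P128.Geo

/-!
# P128 Rate

Summing the deviations. Chaining `Rd` over dyadic scales: for `0 < a, b ≤ ρ ≤ r` every direction at
radius `a` is within `C₀ w (ρ/r)^γ` of a direction at radius `b`, `C₀ = 2/(1 - 2^(-γ))`. Take `ρ_i → 0` with
`Near (1/(i+1))` and directions `e_i → e` (compact circle). At radius `ρ_i` directions of `K` are close to the
star directions (`near_star_pt`), and each star direction is close to the direction of a point of `K` of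
radius in `[ρ_i/2, 2ρ_i]`. Use the slack `C = C₀ + 1`.
-/

namespace Vale.Agent.P128

open Set Metric MeasureTheory Filter Topology Complex
open scoped ENNReal ContDiff RealInnerProductSpace Gradient Real ComplexConjugate

variable {Ω K L A S T U O X Γ P M₀ K₀ K₁ : Set ℂ} {u v w g hh ψ η : ℂ → ℝ} {G : ℂ → ℂ}
  {π₀ π₁ : ℂ → Set ℂ} {x y z c p q e a₀ F : ℂ} {lam H r s R a b t M Θ ρ ε δ d : ℝ} {n : ℕ}

/-- Every direction of `K` at radius `a` is close to a direction at radius `b`. -/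
def rateD (K : Set ℂ) (y : ℂ) (a b om : ℝ) : Prop :=
  ∀ z ∈ K, ‖z - y‖ = a → ∃ z' ∈ K, ‖z' - y‖ = b ∧ ‖(z - y) / a - (z' - y) / b‖ ≤ om

theorem rateD.trans {om om' : ℝ} (h : rateD K y a b om) (h' : rateD K y b t om') :
    rateD K y a t (om + om') := by
  intro z hz ha
  obtain ⟨z', hz', hb, e⟩ := h z hz ha
  obtain ⟨z'', hz'', ht, e'⟩ := h' z' hz' hb
  exact ⟨z'', hz'', ht, (norm_sub_le_norm_sub_add_norm_sub _ _ _).trans (add_le_add e e')⟩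

theorem rateD.mono {om om' : ℝ} (h : rateD K y a b om) (h' : om ≤ om') : rateD K y a b om' := by
  intro z hz ha
  obtain ⟨z', hz', hb, e⟩ := h z hz ha
  exact ⟨z', hz', hb, e.trans h'⟩

theorem rate_chain {f : ℝ → ℝ} {κ C : ℝ} (hC : 1 + C * κ = C) (hC1 : 1 ≤ C)
    (hf0 : ∀ ρ, 0 < ρ → 0 ≤ f ρ) (hf : ∀ ρ, 0 < ρ → f (ρ / 2) = κ * f ρ)
    (h : ∀ ρ, 0 < ρ → ρ ≤ r → Rd K y ρ (f ρ)) (m : ℕ) :
    ∀ ρ, 0 < ρ → ρ ≤ r → ∀ b, ρ / 2 ^ (m + 1) ≤ b → b ≤ ρ →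
      rateD K y ρ b (C * f ρ) ∧ rateD K y b ρ (C * f ρ) := by
  have base : ∀ ρ, 0 < ρ → ρ ≤ r → ∀ b, ρ / 2 ≤ b → b ≤ ρ →
      rateD K y ρ b (f ρ) ∧ rateD K y b ρ (f ρ) := fun ρ h0 h1 b h2 h3 =>
    ⟨h ρ h0 h1 ρ ⟨by linarith, le_rfl⟩ b ⟨h2, h3⟩, h ρ h0 h1 b ⟨h2, h3⟩ ρ ⟨by linarith, le_rfl⟩⟩
  have base' : ∀ ρ, 0 < ρ → ρ ≤ r → ∀ b, ρ / 2 ≤ b → b ≤ ρ →
      rateD K y ρ b (C * f ρ) ∧ rateD K y b ρ (C * f ρ) := fun ρ h0 h1 b h2 h3 =>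
    ⟨(base ρ h0 h1 b h2 h3).1.mono (le_mul_of_one_le_left (hf0 ρ h0) hC1),
      (base ρ h0 h1 b h2 h3).2.mono (le_mul_of_one_le_left (hf0 ρ h0) hC1)⟩
  induction m with
  | zero => exact fun ρ h0 h1 b h2 h3 => base' ρ h0 h1 b (by simpa using h2) h3
  | succ m ih =>
    intro ρ h0 h1 b h2 h3
    rcases le_total (ρ / 2) b with h4 | h4
    · exact base' ρ h0 h1 b h4 h3
    obtain ⟨h5, h6⟩ := ih (ρ / 2) (by positivity) (by linarith) b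
      (by rwa [div_div, ← pow_succ']) h4
    obtain ⟨h7, h8⟩ := base ρ h0 h1 (ρ / 2) le_rfl (by linarith)
    rw [hf ρ h0] at h5 h6
    exact ⟨(h7.trans h5).mono (le_of_eq (by linear_combination f ρ * hC)),
      (h6.trans h8).mono (le_of_eq (by linear_combination f ρ * hC))⟩

theorem rate_lim
    (h : ∀ η, 0 < η → ∀ᶠ ρ in 𝓝[>] (0 : ℝ), ∃ e, ‖e‖ = 1 ∧ Near η y ρ K (star n y e)) :
    ∃ e : ℂ, ‖e‖ = 1 ∧ ∀ δ, 0 < δ → ∃ (ρ η : ℝ) (e' : ℂ), 0 < ρ ∧ ρ ≤ δ ∧ η ≤ δ ∧ ‖e'‖ = 1 ∧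
      ‖e' - e‖ ≤ δ ∧ Near η y ρ K (star n y e') := by
  have h1 : ∀ i : ℕ, ∃ (ρ : ℝ) (e' : ℂ), 0 < ρ ∧ ρ ≤ 1 / ((i : ℝ) + 1) ∧ ‖e'‖ = 1 ∧
      Near (1 / ((i : ℝ) + 1)) y ρ K (star n y e') := by
    intro i
    obtain ⟨ρ, ⟨e', h2, h3⟩, h4⟩ := ((h _ (Nat.one_div_pos_of_nat (n := i))).and
      (Ioc_mem_nhdsGT (Nat.one_div_pos_of_nat (n := i)))).exists
    exact ⟨ρ, e', h4.1, h4.2, h2, h3⟩
  choose ρ e h1 h2 h3 h4 using h1
  obtain ⟨e₀, he₀, φ, hφ, hl⟩ := (isCompact_sphere (0 : ℂ) 1).tendsto_subseq (x := e)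
    fun i => mem_sphere_zero_iff_norm.2 (h3 i)
  refine ⟨e₀, mem_sphere_zero_iff_norm.1 he₀, fun δ hδ => ?_⟩
  have h5 : Tendsto (fun i => 1 / ((φ i : ℝ) + 1)) atTop (𝓝 0) :=
    tendsto_one_div_add_atTop_nhds_zero_nat.comp hφ.tendsto_atTop
  obtain ⟨i, h6, h7⟩ := ((h5.eventually_le_const hδ).and
    ((tendsto_iff_norm_sub_tendsto_zero.1 hl).eventually_le_const hδ)).exists
  exact ⟨ρ (φ i), _, e (φ i), h1 _, (h2 _).trans h6, h6, h3 _, h7, h4 _⟩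

theorem rate_div {v d : ℂ} {om : ℝ} (ha : 0 < a) : ‖v / a - d‖ ≤ om ↔ ‖v - a * d‖ ≤ om * a := by
  have h0 : (a : ℂ) ≠ 0 := ofReal_ne_zero.2 ha.ne'
  rw [show v / a - d = (v - a * d) / a by field_simp, norm_div, norm_real, Real.norm_eq_abs,
    abs_of_pos ha, div_le_iff₀ ha]

theorem rate_dir (n k : ℕ) (e e' : ℂ) : ‖dir n e' k - dir n e k‖ = ‖e' - e‖ := by
  rw [dir, dir, ← sub_mul, norm_mul, ex_norm, mul_one]

theorem rate {γ : ℝ} (hγ : 0 < γ) : ∃ C : ℝ, 0 < C ∧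
    ∀ {n : ℕ} {K : Set ℂ} {y : ℂ} {r w : ℝ}, 0 < r → 0 < w →
      (∀ ρ, 0 < ρ → ρ ≤ r → Rd K y ρ (w * (ρ / r) ^ γ)) →
      (∀ η, 0 < η → ∀ᶠ ρ in 𝓝[>] (0 : ℝ), ∃ e, ‖e‖ = 1 ∧ Near η y ρ K (star n y e)) →
      ∃ e, SR n K y r e (C * w) γ := by
  have k0 : (0 : ℝ) ≤ (1 / 2) ^ γ := by positivity
  have k1 : ((1 : ℝ) / 2) ^ γ < 1 := Real.rpow_lt_one (by norm_num) (by norm_num) hγ
  obtain ⟨C, hC, hC1⟩ : ∃ C : ℝ, 1 + C * (1 / 2) ^ γ = C ∧ 1 ≤ C := by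
    have k2 : 0 < 1 - ((1 : ℝ) / 2) ^ γ := by linarith
    refine ⟨1 / (1 - (1 / 2) ^ γ), by field_simp; ring, ?_⟩
    rw [le_div_iff₀ k2]
    linarith
  refine ⟨C + 1, by linarith, fun {n K y r w} hr hw h1 h2 => ?_⟩
  have hch : ∀ ρ, 0 < ρ → ρ ≤ r → ∀ b, 0 < b → b ≤ ρ →
      rateD K y ρ b (C * (w * (ρ / r) ^ γ)) ∧ rateD K y b ρ (C * (w * (ρ / r) ^ γ)) := by
    intro ρ h3 h4 b h5 h6
    obtain ⟨m, hm⟩ := pow_unbounded_of_one_lt (ρ / b) (one_lt_two (α := ℝ))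
    refine rate_chain (f := fun ρ => w * (ρ / r) ^ γ) hC hC1 (fun ρ _ => by positivity)
      (fun ρ _ => ?_) h1 m ρ h3 h4 b ?_ h6
    · rw [show ρ / 2 / r = 1 / 2 * (ρ / r) by ring, Real.mul_rpow (by norm_num) (by positivity)]
      ring
    · rw [div_lt_iff₀ h5] at hm
      rw [div_le_iff₀ (by positivity), pow_succ]
      nlinarith
  obtain ⟨e, he, hl⟩ := rate_lim h2
  refine ⟨e, he, fun ρ h3 h4 => ?_⟩
  set f := w * (ρ / r) ^ γ with hf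
  have f0 : 0 < f := by positivity
  obtain ⟨t, η, e', t0, t1, η1, he', ee, hN⟩ := hl (min (min (ρ / 2) (1 / 2)) (f / 5))
    (by positivity)
  have t2 : t ≤ ρ / 2 := t1.trans ((min_le_left _ _).trans (min_le_left _ _))
  have η2 : η ≤ 1 / 2 := η1.trans ((min_le_left _ _).trans (min_le_right _ _))
  have η3 : η ≤ f / 5 := η1.trans (min_le_right _ _)
  have ee' : ‖e' - e‖ ≤ f / 5 := ee.trans (min_le_right _ _)
  have hCf : (C + 1) * w * (ρ / r) ^ γ = C * f + f := by rw [hf]; ring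
  rw [hCf]
  refine ⟨fun z hz hzρ => ?_, fun k hk => ?_⟩
  · obtain ⟨z', hz', h5, h6⟩ := (hch ρ h3 h4 t t0 (by linarith)).1 z hz hzρ
    obtain ⟨k, hk, h7⟩ := near_star_pt he' hN hz' (by linarith)
    rw [h5] at h7
    have h8 := (rate_div t0).2 h7
    refine ⟨k, hk, (rate_div h3).1 ?_⟩
    have h9 := norm_sub_le_norm_sub_add_norm_sub ((z - y) / ρ) ((z' - y) / t) (dir n e k)
    have h10 := norm_sub_le_norm_sub_add_norm_sub ((z' - y) / t) (dir n e' k) (dir n e k)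
    rw [rate_dir] at h10
    linarith
  · have hd := dir_norm he' n k
    have hn : ‖(t : ℂ) * dir n e' k‖ = t := by
      rw [norm_mul, hd, mul_one, norm_real, Real.norm_eq_abs, abs_of_pos t0]
    obtain ⟨z', hz', h5⟩ := hN.2 (y + t * dir n e' k) ⟨⟨k, hk, t, t0.le, rfl⟩, by
      rw [mem_closedBall, dist_eq_norm, add_sub_cancel_left, hn]
      linarith⟩
    rw [← sub_sub] at h5
    have h6 := (abs_norm_sub_norm_le (z' - y) (t * dir n e' k)).trans h5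
    rw [hn] at h6
    obtain ⟨h7, h8⟩ := abs_le.1 h6
    have η0 : 0 ≤ η := nonneg_of_mul_nonneg_left ((norm_nonneg _).trans h5) t0
    have b0 : t / 2 ≤ ‖z' - y‖ := by nlinarith
    have b1 : 0 < ‖z' - y‖ := by linarith
    obtain ⟨z, hz, h9, h10⟩ := (hch ρ h3 h4 _ b1 (by nlinarith)).2 z' hz' rfl
    refine ⟨z, hz, h9, (rate_div h3).1 ?_⟩
    have h11 : ‖(z' - y) / (‖z' - y‖ : ℝ) - dir n e' k‖ ≤ 4 * η := by
      refine (rate_div b1).2 ((norm_sub_le_norm_sub_add_norm_sub _ (t * dir n e' k) _).trans ?_)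
      rw [← sub_mul, norm_mul, hd, mul_one, ← ofReal_sub, norm_real, Real.norm_eq_abs, abs_sub_comm]
      nlinarith
    have h12 := norm_sub_le_norm_sub_add_norm_sub ((z - y) / ρ) ((z' - y) / (‖z' - y‖ : ℝ))
      (dir n e k)
    have h13 := norm_sub_le_norm_sub_add_norm_sub ((z' - y) / (‖z' - y‖ : ℝ)) (dir n e' k)
      (dir n e k)
    rw [rate_dir] at h13
    rw [norm_sub_rev] at h10
    linarith

end Vale.Agent.P128
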