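import Vale.Agent.P128.RateA
import Vale.Agent.P128.Rate
import Vale.Agent.P128.Blow

/-!
# P128 ER

Epsilon regularity. `er`: `w = 1/(10 C)` with `C` from `rate`; `η`, `ε₁` from `rateA`, `ε₂` from `star2`,
`ε₃ ≤ ε₁, ε₂, ε₀, 1/2` small; `quiet_of` gives `Quiet` at `R = κ₁ b`; `lmono` from `a ≤ R` to `b` with
`qdecay` on `[a, R]` and `Dr ≤ ε b` on `[R, b]` gives `Lr a ≤ (11/5) a`; `star2` at `ρ ≤ R/100`; `rateA` with
`R/100`; `blow` at `y` has `n = 2` (energy density `< 1`, length density `< 3`); `rate`.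
`sr23`: `quiet_small`, `rateA`, `rate`. `tg_near`: last item of `Bl` with `κ₀ ≤ ε/2` and `er`.
-/

namespace Vale.Agent.P128

open Set Metric MeasureTheory Filter Topology Complex
open scoped ENNReal ContDiff RealInnerProductSpace Gradient Real ComplexConjugate

variable {Ω K L A S T U O X Γ P M₀ K₀ K₁ : Set ℂ} {u v w g hh ψ η : ℂ → ℝ} {G : ℂ → ℂ}
  {π₀ π₁ : ℂ → Set ℂ} {x y z c p q e a₀ F : ℂ} {lam H r s R a b t M Θ ρ ε δ d : ℝ} {n : ℕ}

theorem er_int {f : ℝ → ℝ} (ha : 0 < a) (hR : a ≤ R) (hd : 0 ≤ d)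
    (hi : IntervalIntegrable (fun s => f s / s ^ 2) volume a R)
    (hf : ∀ s, 0 < s → s ≤ R → f s ≤ d * (s / R) ^ (1 / 3 : ℝ) * s) :
    ∫ s in a..R, f s / s ^ 2 ≤ 3 * d := by
  have hR0 : 0 < R := ha.trans_le hR
  have p : 0 < R ^ (1 / 3 : ℝ) := Real.rpow_pos_of_pos hR0 _
  have i2 : IntervalIntegrable (fun s : ℝ => d / R ^ (1 / 3 : ℝ) * s ^ (-(2 / 3) : ℝ))
      volume a R := (intervalIntegral.intervalIntegrable_rpow' (by norm_num)).const_mul _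
  refine (intervalIntegral.integral_mono_on hR hi i2 fun s hs => ?_).trans ?_
  · have hs0 : 0 < s := ha.trans_le hs.1
    have e1 : s ^ (1 / 3 : ℝ) = s ^ (-(2 / 3) : ℝ) * s := by
      rw [← Real.rpow_add_one hs0.ne']
      norm_num
    have h1 := hf s hs0 hs.2
    rw [Real.div_rpow hs0.le hR0.le, e1] at h1
    rw [div_le_iff₀ (by positivity)]
    refine h1.trans (le_of_eq ?_)
    ring
  · rw [intervalIntegral.integral_const_mul, integral_rpow (Or.inl (by norm_num))]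
    have e2 : (-(2 / 3) + 1 : ℝ) = 1 / 3 := by norm_num
    have q : 0 ≤ a ^ (1 / 3 : ℝ) := Real.rpow_nonneg ha.le _
    rw [e2, div_mul_eq_mul_div, div_le_iff₀ p]
    nlinarith [mul_nonneg hd q]

theorem er_len {C ε₃ κ : ℝ} (h : MM Ω lam u K π₀) (hb : 0 < b) (hΩ : closedBall y b ⊆ Ω)
    (hl : lam * b ≤ ε) (hD : Dr u K y b ≤ ε * b) (hL : Lr K y b ≤ 21 / 10 * b) (hκ : 0 < κ)
    (hκ1 : κ ≤ 1) (hε : ε ≤ κ ^ 2 / 100) (hC : 0 ≤ C * ε₃) (hC1 : C * ε₃ ≤ 1 / 100)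
    (hq : ∀ ρ, 0 < ρ → ρ ≤ κ * b → Dr u K y ρ ≤ C * ε₃ * (ρ / (κ * b)) ^ (1 / 3 : ℝ) * ρ)
    (ha : 0 < a) (haR : a ≤ κ * b) : Lr K y a ≤ 11 / 5 * a := by
  have hR : 0 < κ * b := mul_pos hκ hb
  have hRb : κ * b ≤ b := mul_le_of_le_one_left hb.le hκ1
  obtain ⟨-, h1⟩ := lmono h hΩ ha (haR.trans hRb)
  have i1 := (lmono h ((closedBall_subset_closedBall hRb).trans hΩ) ha haR).1
  have i2 := (lmono h hΩ hR hRb).1
  have h2 := er_int ha haR hC i1 hq
  have hD0 := Dr_nonneg u K y b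
  have h3 : ∫ s in (κ * b)..b, Dr u K y s / s ^ 2 ≤ 1 / 100 := by
    refine (intervalIntegral.integral_mono_on hRb i2
      (intervalIntegrable_const (c := 1 / 100 / b)) fun s hs => ?_).trans ?_
    · have a1 : Dr u K y s ≤ Dr u K y b :=
        h.pre.Dr_mono hΩ (ball_subset_closedBall.trans (closedBall_subset_closedBall hs.2))
      have a2 : (κ * b) ^ 2 ≤ s ^ 2 := pow_le_pow_left₀ hR.le hs.1 2
      have a3 : ε * b ≤ κ ^ 2 / 100 * b := mul_le_mul_of_nonneg_right hε hb.le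
      have hs0 : 0 < s := hR.trans_le hs.1
      rw [div_le_div_iff₀ (by positivity) hb]
      nlinarith [mul_le_mul_of_nonneg_right (a1.trans (hD.trans a3)) hb.le]
    · rw [intervalIntegral.integral_const, smul_eq_mul, ← mul_div_assoc, div_le_iff₀ hb]
      linarith
  rw [← intervalIntegral.integral_add_adjacent_intervals i1 i2] at h1
  have hε1 : ε ≤ 1 / 100 := by nlinarith
  have h4 : (Lr K y b + 2 * Dr u K y b) / b ≤ 21 / 10 + 2 * ε := by
    rw [div_le_iff₀ hb]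
    linarith
  have h5 : (Lr K y a + 2 * Dr u K y a) / a ≤ 11 / 5 := by linarith
  rw [div_le_iff₀ ha] at h5
  linarith [Dr_nonneg u K y a]

theorem er_le {f : ℝ → ℝ} (hf : Tendsto (fun r => f r / r) (𝓝[>] 0) (𝓝 t)) (hR : 0 < R)
    (h : ∀ r, 0 < r → r ≤ R → f r ≤ M * r) : t ≤ M := by
  refine le_of_tendsto hf ?_
  filter_upwards [Ioc_mem_nhdsGT hR] with r hr
  rw [div_le_iff₀ hr.1]
  exact h r hr.1 hr.2

theorem er : ∃ ε κ : ℝ, 0 < ε ∧ 0 < κ ∧ ∀ {Ω lam u K π₀ y b}, MM Ω lam u K π₀ → y ∈ K → 0 < b →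
    closedBall y b ⊆ Ω → lam * b ≤ ε → Dr u K y b ≤ ε * b → Lr K y b ≤ 21 / 10 * b →
      Tg K y (κ * b) := by
  obtain ⟨C, hC, hrate⟩ := rate (γ := 1 / 6) (by norm_num)
  obtain ⟨η, hη, hA⟩ := rateA
  obtain ⟨ε₁, hε₁, hA⟩ := hA (1 / (10 * C)) (by positivity)
  obtain ⟨ε₂, hε₂, hS⟩ := star2 hη
  obtain ⟨ε₀, Cq, hε₀, -, hCq, hQ⟩ := qdecay
  obtain ⟨ε₃, hε₃, q0, q1, q2, q3, q4⟩ : ∃ ε₃ : ℝ, 0 < ε₃ ∧ ε₃ ≤ ε₀ ∧ ε₃ ≤ ε₁ ∧ ε₃ ≤ ε₂ ∧
      ε₃ ≤ 1 / 2 ∧ ε₃ ≤ 1 / 100 / Cq :=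
    ⟨min ε₀ (min ε₁ (min ε₂ (min (1 / 2) (1 / 100 / Cq)))), by positivity, min_le_left _ _,
      (min_le_right _ _).trans (min_le_left _ _),
      (min_le_right _ _).trans ((min_le_right _ _).trans (min_le_left _ _)),
      (min_le_right _ _).trans ((min_le_right _ _).trans
        ((min_le_right _ _).trans (min_le_left _ _))),
      (min_le_right _ _).trans ((min_le_right _ _).trans
        ((min_le_right _ _).trans (min_le_right _ _)))⟩
  obtain ⟨δ, κ, hδ, hκ, hκ1, hq⟩ := quiet_of hε₃ (by linarith)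
  refine ⟨min δ (κ ^ 2 / 100), κ / 400, by positivity, by positivity, ?_⟩
  intro Ω lam u K π₀ y b h hy hb hΩ hl hD hL
  have hR : 0 < κ * b := mul_pos hκ hb
  have hlam : 0 ≤ lam := h.1.1
  have hQu := hq h hb hΩ (hl.trans (min_le_left _ _))
    (hD.trans (mul_le_mul_of_nonneg_right (min_le_left _ _) hb.le))
  have hLen : ∀ a, 0 < a → a ≤ κ * b → Lr K y a ≤ 11 / 5 * a := fun a ha haR =>
    er_len h hb hΩ hl hD hL hκ hκ1 (min_le_right _ _) (by positivity)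
      (by rw [le_div_iff₀ hCq] at q4; linarith) (hQ hε₃ q0 h hy hQu) ha haR
  have hRd := hA (R := κ * b / 100) (n := 2) (by norm_num) h hy
    (hQu.mono hlam hε₃ q1 (by positivity) (by linarith)) fun ρ hρ hρR =>
      ⟨hS h hy (hQu.mono hlam hε₃ q2 hρ (by linarith))
        (by linarith [hLen (100 * ρ) (by positivity) (by linarith)]), by
        have := hLen ρ hρ (by linarith)
        push_cast
        linarith⟩
  obtain ⟨n, hn, b1, b2, b3, -⟩ := blow h hy (hΩ (mem_closedBall_self hb.le))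
  have c1 := er_le b1 (div_pos hR hε₃) hQu.2
  have c2 := er_le b2 hR hLen
  obtain rfl : n = 2 := by
    rcases hn with k | k | k
    · rw [if_pos k] at c1
      linarith
    · exact k
    · rw [k] at c2
      norm_num at c2
  obtain ⟨e, he⟩ := hrate (r := κ * b / 100 / 4) (by positivity) (by positivity) hRd b3
  have e1 : C * (1 / (10 * C)) = 1 / 10 := by field_simp
  have e2 : κ / 400 * b = κ * b / 100 / 4 := by ring
  rw [e1] at he
  exact ⟨e, e2 ▸ he⟩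

end Vale.Agent.P128
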