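import Vale.Agent.P128.ER

/-!
# P128 ER2

Epsilon regularity. `er`: `w = 1/(10 C)` with `C` from `rate`; `η`, `ε₁` from `rateA`, `ε₂` from `star2`,
`ε₃ ≤ ε₁, ε₂, ε₀, 1/2` small; `quiet_of` gives `Quiet` at `R = κ₁ b`; `lmono` from `a ≤ R` to `b` with
`qdecay` on `[a, R]` and `Dr ≤ ε b` on `[R, b]` gives `Lr a ≤ (11/5) a`; `star2` at `ρ ≤ R/100`; `rateA` with
`R/100`; `blow` at `y` has `n = 2` (energy density `< 1`, length density `< 3`); `rate`.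
`sr23`: `quiet_small`, `rateA`, `rate`. `tg_near`: last item of `Bl` with `κ₀ ≤ ε/2` and `er`.
-/

namespace Vale.Agent.P128

open Set Metric MeasureTheory Filter Topology Complex
open scoped ENNReal ContDiff RealInnerProductSpace Gradient Real ComplexConjugate

variable {Ω K L A S T U O X Γ P M₀ K₀ K₁ : Set ℂ} {u v w g hh ψ η : ℂ → ℝ} {G : ℂ → ℂ}
  {π₀ π₁ : ℂ → Set ℂ} {x y z c p q e a₀ F : ℂ} {lam H r s R a b t M Θ ρ ε δ d : ℝ} {n : ℕ}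

theorem sr23 (h : MM Ω lam u K π₀) (hx : x ∈ K) (hΩ : x ∈ Ω) (hB : Bl u K x n) (hn : n ≠ 1) :
    ∃ r e w, 0 < r ∧ SR n K x r e w (1 / 6) := by
  obtain ⟨η, hη, hA⟩ := rateA
  obtain ⟨ε, hε, hA⟩ := hA 1 one_pos
  obtain ⟨C, -, hC⟩ := rate (γ := 1 / 6) (by norm_num)
  obtain ⟨hn3, hD, hL, hN, -⟩ := hB
  rw [if_neg hn] at hD
  have h1 := quiet_small h.pre.1 hΩ lam hε hD
  have h2 := hL.eventually (gt_mem_nhds (show (n : ℝ) < n + 1 / 5 by linarith))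
  obtain ⟨b, hb, hb'⟩ := (nhdsGT_basis (0 : ℝ)).eventually_iff.1 (h1.and (h2.and (hN η hη)))
  have h3 := hA (R := b / 2) (n := n) (by omega) h hx (hb' ⟨half_pos hb, half_lt_self hb⟩).1
    fun ρ hρ hρb => by
      have h4 := (hb' ⟨hρ, hρb.trans_lt (half_lt_self hb)⟩).2
      exact ⟨h4.2, ((div_lt_iff₀ hρ).1 h4.1).le⟩
  obtain ⟨e, he⟩ := hC (r := b / 2 / 4) (by positivity) one_pos h3 hN
  exact ⟨_, e, _, by positivity, he⟩

theorem tg_near (h : MM Ω lam u K π₀) (hΩ : x ∈ Ω) (hB : Bl u K x n) :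
    ∃ κ r, 0 < κ ∧ κ ≤ 1 / 10 ∧ 0 < r ∧
      ∀ y ∈ K, 0 < ‖y - x‖ → ‖y - x‖ < r → Tg K y (κ * ‖y - x‖) := by
  obtain ⟨ε, κ, hε, hκ, hE⟩ := er
  set k := min (ε / 2) (1 / 4) with hk
  have hk0 : 0 < k := lt_min (half_pos hε) (by norm_num)
  have hk1 : k ≤ ε / 2 := min_le_left _ _
  have hk2 : k ≤ 1 / 4 := min_le_right _ _
  have hl : 0 ≤ lam := h.1.1
  have h1 := hB.2.2.2.2 k hk0 hk2
  obtain ⟨d, hd, hd'⟩ := Metric.nhds_basis_closedBall.mem_iff.1 (h.pre.1.mem_nhds hΩ)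
  have h2 : ∀ᶠ r in 𝓝[>] (0 : ℝ), r < d / 2 :=
    mem_nhdsWithin_of_mem_nhds (gt_mem_nhds (half_pos hd))
  have h3 : ∀ᶠ r in 𝓝[>] (0 : ℝ), r < ε / (lam + 1) :=
    mem_nhdsWithin_of_mem_nhds (gt_mem_nhds (by positivity))
  obtain ⟨b, hb, hb'⟩ := (nhdsGT_basis (0 : ℝ)).eventually_iff.1 (h1.and (h2.and h3))
  refine ⟨min (κ * k) (1 / 10), b, lt_min (mul_pos hκ hk0) (by norm_num), min_le_right _ _, hb,
    fun y hy hy0 hyb => ?_⟩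
  obtain ⟨h4, h5, h6⟩ := hb' ⟨hy0, hyb⟩
  obtain ⟨h7, h8⟩ := h4 y hy rfl
  have h9 : k * ‖y - x‖ ≤ ‖y - x‖ := by nlinarith
  rw [lt_div_iff₀ (by positivity)] at h6
  have h10 := hE (b := k * ‖y - x‖) h hy (mul_pos hk0 hy0)
    (subset_trans (closedBall_subset_closedBall' (by rw [dist_eq_norm]; linarith)) hd')
    (by nlinarith [mul_le_mul_of_nonneg_left h9 hl])
    (h7.trans (by nlinarith [mul_pos hk0 hy0])) h8
  refine h10.mono (mul_pos (lt_min (mul_pos hκ hk0) (by norm_num)) hy0) ?_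
  rw [← mul_assoc]
  exact mul_le_mul_of_nonneg_right (min_le_left _ _) hy0.le

end Vale.Agent.P128
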