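import Vale.Agent.P128.Defs

/-!
# P128 Eil0

Eilenberg inequality. Inequality: for each `m` take a countable cover by sets of diameter
`≤ 1/m` with total diameter close to the Hausdorff premeasure (`Measure.hausdorffMeasure_apply`, or use
`Measure.le_hausdorffMeasure`-type lemmas); `g m t` = number of cover sets whose interval hull of the
image contains `t`; `encard ≤ liminf g m`; Fatou (`lintegral_liminf_le`). Measurability: the set
`{t | k ≤ encard}` is a countable union of compact sets (continuous images of the compact sets of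
`k`-tuples in a compact piece that are `1/m` separated with equal `f` values).
`dist_le_len`: image of `Γ` under `dist p` is an interval containing `[0, ‖p - q‖]`,
`LipschitzWith.hausdorffMeasure_image_le`, `hausdorffMeasure_real`.
-/

namespace Vale.Agent.P128

open Set Metric MeasureTheory Filter Topology Complex
open scoped ENNReal ContDiff RealInnerProductSpace Gradient Real ComplexConjugate

variable {Ω K L A S T U O X Γ P M₀ K₀ K₁ : Set ℂ} {u v w g hh ψ η : ℂ → ℝ} {G : ℂ → ℂ}
  {π₀ π₁ : ℂ → Set ℂ} {x y z c p q e a₀ F : ℂ} {lam H r s R a b t M Θ ρ ε δ d : ℝ} {n : ℕ}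

theorem eil0_le_of_nat {a : ℕ∞} {X : ℝ≥0∞} (h : ∀ k : ℕ, (k : ℕ∞) ≤ a → (k : ℝ≥0∞) ≤ X) :
    (a : ℝ≥0∞) ≤ X := by
  induction a using ENat.recTopCoe with
  | top =>
    have : (⊤ : ℝ≥0∞) ≤ X := by
      rw [← ENNReal.iSup_natCast]
      exact iSup_le fun k => h k le_top
    simpa using this
  | coe k => simpa using h k le_rfl

theorem eil0_meas_ge (hS : IsSigmaCompact S) {f : ℂ → ℝ} (hf : Continuous f) (k : ℕ) :
    MeasurableSet {t | ((k + 1 : ℕ) : ℕ∞) ≤ (S ∩ f ⁻¹' {t}).encard} := by
  classical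
  obtain ⟨C, hC, hCS⟩ := hS
  let T : ℕ → Set (Fin (k + 1) → ℂ) := fun m =>
    (Set.pi univ fun _ => accumulate C m) ∩
      ({x | ∀ i j, i ≠ j → 1 / ((m : ℝ) + 1) ≤ dist (x i) (x j)} ∩ {x | ∀ i, f (x i) = f (x 0)})
  have hT : ∀ m, IsCompact (T m) := by
    intro m
    refine (isCompact_univ_pi fun _ => isCompact_accumulate hC m).inter_right ?_
    refine IsClosed.inter ?_ ?_
    · simp only [ofPred_forall]
      refine isClosed_iInter fun i => isClosed_iInter fun j => isClosed_iInter fun _ => ?_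
      exact isClosed_le continuous_const (by fun_prop)
    · simp only [ofPred_forall]
      refine isClosed_iInter fun i => ?_
      exact isClosed_eq (by fun_prop) (by fun_prop)
  have heq : {t | ((k + 1 : ℕ) : ℕ∞) ≤ (S ∩ f ⁻¹' {t}).encard} =
      ⋃ m, (fun x : Fin (k + 1) → ℂ => f (x 0)) '' T m := by
    ext t
    simp only [mem_ofPred_eq, mem_iUnion, mem_image]
    constructor
    · intro h
      obtain ⟨F, hFs, hF⟩ := Set.exists_subset_encard_eq h
      have hfin : F.Finite := Set.finite_of_encard_eq_coe hF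
      have hcard : hfin.toFinset.card = k + 1 := by
        have := hfin.encard_eq_coe_toFinset_card
        rw [hF] at this
        exact_mod_cast this.symm
      let e := (hfin.toFinset.equivFinOfCardEq hcard).symm
      let x : Fin (k + 1) → ℂ := fun i => (e i : ℂ)
      have hxF : ∀ i, x i ∈ F := fun i => hfin.mem_toFinset.1 (e i).2
      have hinj : Function.Injective x := fun i j hij => e.injective (Subtype.ext hij)
      have h1 : ∀ᶠ m : ℕ in atTop, ∀ i, x i ∈ accumulate C m := by
        refine eventually_all.2 fun i => ?_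
        have : x i ∈ ⋃ n, C n := hCS ▸ (hFs (hxF i)).1
        obtain ⟨n, hn⟩ := mem_iUnion.1 this
        filter_upwards [eventually_ge_atTop n] with m hm
        exact mem_accumulate.2 ⟨n, hm, hn⟩
      have h2 : ∀ᶠ m : ℕ in atTop, ∀ i j, i ≠ j → 1 / ((m : ℝ) + 1) ≤ dist (x i) (x j) := by
        refine eventually_all.2 fun i => eventually_all.2 fun j => ?_
        by_cases hij : i = j
        · exact Eventually.of_forall fun m h => absurd hij h
        · have hpos : 0 < dist (x i) (x j) := dist_pos.2 fun h => hij (hinj h)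
          filter_upwards [(tendsto_one_div_add_atTop_nhds_zero_nat (𝕜 := ℝ)).eventually
            (ge_mem_nhds hpos)] with m hm _
          exact hm
      obtain ⟨m, hm1, hm2⟩ := (h1.and h2).exists
      have hft : ∀ i, f (x i) = t := fun i => (hFs (hxF i)).2
      exact ⟨m, x, ⟨fun i _ => hm1 i, hm2, fun i => by rw [hft, hft]⟩, hft 0⟩
    · rintro ⟨m, x, ⟨hx1, hx2, hx3⟩, rfl⟩
      have hinj : Function.Injective x := by
        intro i j hij
        by_contra hne
        have := hx2 i j hne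
        rw [hij, dist_self] at this
        have h0 : (0 : ℝ) < 1 / ((m : ℝ) + 1) := by positivity
        linarith
      have hsub : range x ⊆ S ∩ f ⁻¹' {f (x 0)} := by
        rintro _ ⟨i, rfl⟩
        refine ⟨?_, hx3 i⟩
        obtain ⟨n, _, hn⟩ := mem_accumulate.1 (hx1 i (mem_univ _))
        exact hCS ▸ mem_iUnion.2 ⟨n, hn⟩
      refine le_trans (le_of_eq ?_) (encard_le_encard hsub)
      rw [← image_univ, hinj.encard_image, encard_univ]
      simp
  rw [heq]
  refine MeasurableSet.iUnion fun m => ?_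
  exact ((hT m).image (by fun_prop)).isClosed.measurableSet

theorem eil_meas (hS : IsSigmaCompact S) {f : ℂ → ℝ} (hf : Continuous f) :
    Measurable (fun t => ((S ∩ f ⁻¹' {t}).encard : ℝ≥0∞)) := by
  refine measurable_of_Ioi fun a => ?_
  have heq : (fun t => ((S ∩ f ⁻¹' {t}).encard : ℝ≥0∞)) ⁻¹' Ioi a =
      ⋃ k : ℕ, ⋃ _ : a < ((k + 1 : ℕ) : ℝ≥0∞),
        {t | ((k + 1 : ℕ) : ℕ∞) ≤ (S ∩ f ⁻¹' {t}).encard} := by
    ext t
    simp only [mem_preimage, mem_Ioi, mem_iUnion, mem_ofPred_eq, exists_prop]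
    constructor
    · intro h
      by_contra hcon
      push Not at hcon
      refine absurd h (not_lt.2 (eil0_le_of_nat fun k hk => ?_))
      rcases k with _ | k
      · simp
      · by_contra h2
        exact absurd hk (not_le.2 (hcon k (not_le.1 h2)))
    · rintro ⟨k, h1, h2⟩
      refine h1.trans_le ?_
      have := ENat.toENNReal_mono h2
      simpa using this
  rw [heq]
  exact MeasurableSet.iUnion fun k => MeasurableSet.iUnion fun _ => eil0_meas_ge hS hf k

theorem eil0_cover (S : Set ℂ) (hS : μH[1] S ≠ ⊤) {ε r : ℝ≥0∞} (hε : ε ≠ 0) (hr : 0 < r) :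
    ∃ t : ℕ → Set ℂ, S ⊆ ⋃ n, t n ∧ (∀ n, ediam (t n) ≤ r) ∧
      ∑' n, ediam (t n) ≤ μH[1] S + ε := by
  have hlt : μH[1] S < μH[1] S + ε := ENNReal.lt_add_right hS hε
  have h1 : ⨅ (t : ℕ → Set ℂ) (_ : S ⊆ ⋃ n, t n) (_ : ∀ n, ediam (t n) ≤ r),
      ∑' n, ⨆ _ : (t n).Nonempty, ediam (t n) ^ (1 : ℝ) ≤ μH[1] S := by
    rw [Measure.hausdorffMeasure_apply]
    exact le_iSup₂_of_le r hr le_rfl
  have h2 := h1.trans_lt hlt
  simp only [iInf_lt_iff] at h2
  obtain ⟨t, ht1, ht2, ht3⟩ := h2
  refine ⟨t, ht1, ht2, le_trans (ENNReal.tsum_le_tsum fun n => ?_) ht3.le⟩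
  rcases (t n).eq_empty_or_nonempty with h | h
  · simp [h]
  · simp [h]

theorem eil (S : Set ℂ) {f : ℂ → ℝ} (hf : LipschitzWith 1 f) :
    ∫⁻ t, ((S ∩ f ⁻¹' {t}).encard : ℝ≥0∞) ≤ μH[1] S := by
  classical
  refine ENNReal.le_of_forall_pos_le_add fun ε hε hS => ?_
  have hε' : (ε : ℝ≥0∞) ≠ 0 := by exact_mod_cast hε.ne'
  have hr : ∀ m : ℕ, (0 : ℝ≥0∞) < (m : ℝ≥0∞)⁻¹ := fun m => ENNReal.inv_pos.2 (by simp)
  choose t ht1 ht2 ht3 using fun m : ℕ => eil0_cover S hS.ne hε' (hr m)
  let G : ℕ → ℝ → ℝ≥0∞ := fun m τ => ∑' n, (closure (f '' t m n)).indicator 1 τ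
  have hGm : ∀ m, Measurable (G m) := fun m =>
    Measurable.tsum fun n => measurable_one.indicator isClosed_closure.measurableSet
  have hGi : ∀ m, ∫⁻ τ, G m τ ≤ μH[1] S + ε := by
    intro m
    refine le_trans ?_ (ht3 m)
    rw [lintegral_tsum fun n =>
      (measurable_one.indicator isClosed_closure.measurableSet).aemeasurable]
    refine ENNReal.tsum_le_tsum fun n => ?_
    rw [lintegral_indicator_one isClosed_closure.measurableSet]
    refine (Real.volume_le_diam _).trans ?_
    rw [ediam_closure]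
    simpa using hf.ediam_image_le (t m n)
  have hle : ∀ τ, ((S ∩ f ⁻¹' {τ}).encard : ℝ≥0∞) ≤ liminf (fun m => G m τ) atTop := by
    intro τ
    refine eil0_le_of_nat fun k hk => ?_
    obtain ⟨F, hFs, hF⟩ := Set.exists_subset_encard_eq hk
    have hfin : F.Finite := Set.finite_of_encard_eq_coe hF
    have hcard : hfin.toFinset.card = k := by
      have := hfin.encard_eq_coe_toFinset_card
      rw [hF] at this
      exact_mod_cast this.symm
    have hev : ∀ᶠ m : ℕ in atTop, ∀ x ∈ F, ∀ y ∈ F, x ≠ y → (m : ℝ≥0∞)⁻¹ < edist x y := by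
      refine (eventually_all_finite hfin).2 fun x _ => (eventually_all_finite hfin).2 fun y _ => ?_
      by_cases hxy : x = y
      · exact Eventually.of_forall fun m h => absurd hxy h
      · filter_upwards [ENNReal.tendsto_inv_nat_nhds_zero.eventually
          (gt_mem_nhds (edist_pos.2 hxy))] with m hm _
        exact hm
    refine le_liminf_of_le (by isBoundedDefault) ?_
    filter_upwards [hev] with m hm
    have hex : ∀ x : ℂ, ∃ n, x ∈ S → x ∈ t m n := by
      intro x
      by_cases hx : x ∈ S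
      · obtain ⟨n, hn⟩ := mem_iUnion.1 (ht1 m hx)
        exact ⟨n, fun _ => hn⟩
      · exact ⟨0, fun h => absurd h hx⟩
    choose idx hidx using hex
    have hinj : Set.InjOn idx (hfin.toFinset : Set ℂ) := by
      intro x hx y hy hxy
      have hx' : x ∈ F := by simpa using hx
      have hy' : y ∈ F := by simpa using hy
      by_contra hne
      have h1 := hm x hx' y hy' hne
      have h2 : edist x y ≤ ediam (t m (idx x)) :=
        edist_le_ediam_of_mem (hidx x (hFs hx').1) (hxy ▸ hidx y (hFs hy').1)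
      exact absurd (h2.trans (ht2 m _)) (not_le.2 h1)
    calc (k : ℝ≥0∞) = ∑ n ∈ hfin.toFinset.image idx, (1 : ℝ≥0∞) := by
          rw [Finset.sum_const, Finset.card_image_of_injOn hinj, hcard]
          simp
      _ = ∑ n ∈ hfin.toFinset.image idx, (closure (f '' t m n)).indicator 1 τ := by
          refine Finset.sum_congr rfl fun n hn => ?_
          obtain ⟨x, hx, rfl⟩ := Finset.mem_image.1 hn
          have hx' : x ∈ F := by simpa using hx
          have : τ ∈ closure (f '' t m (idx x)) :=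
            subset_closure ⟨x, hidx x (hFs hx').1, (hFs hx').2⟩
          rw [indicator_of_mem this]
          rfl
      _ ≤ G m τ := ENNReal.sum_le_tsum _
  calc ∫⁻ t, ((S ∩ f ⁻¹' {t}).encard : ℝ≥0∞) ≤ ∫⁻ τ, liminf (fun m => G m τ) atTop :=
        lintegral_mono hle
    _ ≤ liminf (fun m => ∫⁻ τ, G m τ) atTop := lintegral_liminf_le hGm
    _ ≤ μH[1] S + ε := liminf_le_of_frequently_le' (Frequently.of_forall hGi)

theorem eil_low (S : Set ℂ) {f : ℂ → ℝ} (hf : LipschitzWith 1 f) {J : Set ℝ}
    (hJ : MeasurableSet J) (h : ∀ t ∈ J, (n : ℕ∞) ≤ (S ∩ f ⁻¹' {t}).encard) :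
    n * volume J ≤ μH[1] (S ∩ f ⁻¹' J) := by
  refine le_trans ?_ (eil (S ∩ f ⁻¹' J) hf)
  rw [← lintegral_indicator_const hJ]
  refine lintegral_mono fun t => ?_
  by_cases ht : t ∈ J
  · rw [indicator_of_mem ht]
    have hsub : S ∩ f ⁻¹' {t} ⊆ (S ∩ f ⁻¹' J) ∩ f ⁻¹' {t} := by
      rintro z ⟨hz1, hz2⟩
      refine ⟨⟨hz1, ?_⟩, hz2⟩
      have : f z = t := hz2
      rw [mem_preimage, this]
      exact ht
    have := ENat.toENNReal_mono ((h t ht).trans (encard_le_encard hsub))
    simpa using this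
  · rw [indicator_of_notMem ht]
    exact zero_le

theorem dist_le_len (hΓ : IsPreconnected Γ) (hp : p ∈ Γ) (hq : q ∈ Γ) :
    ENNReal.ofReal ‖p - q‖ ≤ μH[1] Γ := by
  have hL : LipschitzWith 1 (dist p) := LipschitzWith.dist_right p
  have h1 : Icc (dist p p) (dist p q) ⊆ dist p '' Γ :=
    hΓ.intermediate_value hp hq hL.continuous.continuousOn
  have h2 := hL.hausdorffMeasure_image_le zero_le_one Γ
  rw [hausdorffMeasure_real] at h2
  have h3 := measure_mono (μ := volume) h1
  rw [Real.volume_Icc, dist_self, sub_zero, dist_eq_norm] at h3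
  simpa using h3.trans h2

end Vale.Agent.P128
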