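import Vale.Agent.P128.Len

/-!
# P128 Interp

Hoelder continuity up to the vertex. From `p (s + h) - p s = ∫ p'` (or the mean value inequality) with
`h = s (s/r)^(6γ/7)/2` one gets `‖p' s - e‖ ≤ C' (s/r)^(γ/7)` on `(0, r/2]`. For `s < t`: if `t - s ≤ s²/r`
use the local bound, `(t - s)/s ≤ ((t - s)/r)^(1/2)`; otherwise `s, t ≤ 2 (r (t - s))^(1/2)`. So
`α = min (1/12) (γ/14)` works. `g t = p (r t/2)` for `t > 0`, `g 0 = x`.
`arc_join`: `g t = g₁ (1 - 2t)` for `t ≤ 1/2`, `g₂ (2t - 1)` for `t ≥ 1/2`.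
-/

namespace Vale.Agent.P128

open Set Metric MeasureTheory Filter Topology Complex
open scoped ENNReal ContDiff RealInnerProductSpace Gradient Real ComplexConjugate

variable {Ω K L A S T U O X Γ P M₀ K₀ K₁ : Set ℂ} {u v w g hh ψ η : ℂ → ℝ} {G : ℂ → ℂ}
  {π₀ π₁ : ℂ → Set ℂ} {x y z c p q e a₀ F : ℂ} {lam H r s R a b t M Θ ρ ε δ d : ℝ} {n : ℕ}

theorem interp_hold {f : ℝ → ℂ} {e : ℂ} {β C C₁ : ℝ} (hβ : 0 < β) (hC : 0 ≤ C) (hC₁ : 0 ≤ C₁)
    (hA : ∀ s ∈ Icc (0 : ℝ) 1, ‖f s - e‖ ≤ C₁ * s ^ β)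
    (hB : ∀ s ∈ Ioc (0 : ℝ) 1, ∀ t ∈ Ioc (0 : ℝ) 1, s ≤ t → t ≤ 2 * s →
      ‖f s - f t‖ ≤ C * ((t - s) / s) ^ (1 / 6 : ℝ)) :
    ∀ s ∈ Icc (0 : ℝ) 1, ∀ t ∈ Icc (0 : ℝ) 1,
      ‖f s - f t‖ ≤ (C + 2 * C₁ * 2 ^ β) * |s - t| ^ min (1 / 12) (β / 2) := by
  have hα : 0 ≤ min (1 / 12) (β / 2) := by positivity
  have key : ∀ s ∈ Icc (0 : ℝ) 1, ∀ t ∈ Icc (0 : ℝ) 1, s ≤ t →
      ‖f s - f t‖ ≤ (C + 2 * C₁ * 2 ^ β) * (t - s) ^ min (1 / 12) (β / 2) := by
    intro s hs t ht hst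
    have d0 : 0 ≤ t - s := sub_nonneg.2 hst
    have d1 : t - s ≤ 1 := by linarith [hs.1, ht.2]
    have hp : 0 ≤ (t - s) ^ min (1 / 12) (β / 2) := Real.rpow_nonneg d0 _
    have hq := Real.sq_sqrt d0
    have hq0 := Real.sqrt_nonneg (t - s)
    rcases lt_or_ge √(t - s) s with h | h
    · have s0 : 0 < s := hq0.trans_lt h
      have h1 : (t - s) / s ≤ √(t - s) := by
        rw [div_le_iff₀ s0]
        nlinarith
      have h2 : t ≤ 2 * s := by nlinarith [hs.2]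
      refine (hB s ⟨s0, hs.2⟩ t ⟨s0.trans_le hst, ht.2⟩ hst h2).trans
        (mul_le_mul (le_add_of_nonneg_right (by positivity)) ?_ (by positivity) (by positivity))
      refine (Real.rpow_le_rpow (by positivity) h1 (by norm_num)).trans ?_
      rw [Real.sqrt_eq_rpow, ← Real.rpow_mul d0]
      exact Real.rpow_le_rpow_of_exponent_ge' d0 d1 hα ((min_le_left _ _).trans (by norm_num))
    · have h1 : √(t - s) ≤ 1 := Real.sqrt_le_one.2 d1
      have h2 : t ≤ 2 * √(t - s) := by nlinarith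
      have h3 : t ^ β ≤ 2 ^ β * (t - s) ^ min (1 / 12) (β / 2) := by
        refine (Real.rpow_le_rpow ht.1 h2 hβ.le).trans ?_
        rw [Real.mul_rpow zero_le_two hq0, Real.sqrt_eq_rpow, ← Real.rpow_mul d0]
        exact mul_le_mul_of_nonneg_left (Real.rpow_le_rpow_of_exponent_ge' d0 d1 hα
          ((min_le_right _ _).trans_eq (by ring))) (by positivity)
      have h4 : s ^ β ≤ t ^ β := Real.rpow_le_rpow hs.1 hst hβ.le
      have h5 := norm_sub_le_norm_sub_add_norm_sub (f s) e (f t)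
      rw [norm_sub_rev e] at h5
      have h6 := mul_le_mul_of_nonneg_left h3 hC₁
      have h7 := mul_le_mul_of_nonneg_left h4 hC₁
      nlinarith [hA s hs, hA t ht, mul_nonneg hC hp]
  intro s hs t ht
  rcases le_total s t with h | h
  · rw [abs_sub_comm, abs_of_nonneg (sub_nonneg.2 h)]
    exact key s hs t ht h
  · rw [norm_sub_rev, abs_of_nonneg (sub_nonneg.2 h)]
    exact key t ht s hs h

theorem interp_near {γ r C w : ℝ} {x e : ℂ} {p p' : ℝ → ℂ} (hγ : 0 < γ) (hr : 0 < r) (hC : 0 ≤ C)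
    (hw : 0 ≤ w) (hd : ∀ s ∈ Ioo 0 r, HasDerivAt p (p' s) s)
    (hB : ∀ s ∈ Ioo 0 r, ∀ t ∈ Ioo 0 r, s ≤ t → t ≤ 2 * s →
      ‖p' s - p' t‖ ≤ C * ((t - s) / s) ^ (1 / 6 : ℝ))
    (hA : ∀ s ∈ Ioo 0 r, ‖p s - x - s * e‖ ≤ w * (s / r) ^ γ * s) {s : ℝ} (s0 : 0 < s)
    (s1 : s ≤ r / 2) : ‖p' s - e‖ ≤ (C + 2 * (w * (2 * 2 ^ γ + 1))) * (s / r) ^ (γ / 12) := by
  have t0 : 0 < s / r := by positivity
  have t1 : s / r ≤ 1 := (div_le_one hr).2 (by linarith)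
  obtain ⟨k, hk⟩ : ∃ k, k = (s / r) ^ (γ / 2) := ⟨_, rfl⟩
  have k0 : 0 < k := hk ▸ Real.rpow_pos_of_pos t0 _
  have k1 : k ≤ 1 := hk ▸ Real.rpow_le_one t0.le t1 (by positivity)
  have k2 : (s / r) ^ γ = k * k := by rw [hk, ← Real.rpow_add t0, add_halves]
  have k3 : k ^ (1 / 6 : ℝ) = (s / r) ^ (γ / 12) := by
    rw [hk, ← Real.rpow_mul t0.le]
    congr 1
    ring
  have k4 : k ≤ (s / r) ^ (γ / 12) :=
    hk ▸ Real.rpow_le_rpow_of_exponent_ge t0 t1 (by linarith)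
  obtain ⟨h, hh⟩ : ∃ h, h = s * k / 2 := ⟨_, rfl⟩
  have h0 : 0 < h := by rw [hh]; positivity
  have h1 : h ≤ s / 2 := by rw [hh]; nlinarith
  have hm : ∀ t ∈ Icc s (s + h), t ∈ Ioo 0 r := fun t ht => ⟨s0.trans_le ht.1, by linarith [ht.2]⟩
  have hs : s ∈ Icc s (s + h) := left_mem_Icc.2 (by linarith)
  have ht : s + h ∈ Icc s (s + h) := right_mem_Icc.2 (by linarith)
  have a1 := (convex_Icc s (s + h)).norm_image_sub_le_of_norm_hasDerivWithin_le
    (f := fun t => p t - (t : ℂ) * p' s) (f' := fun t => p' t - p' s)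
    (C := C * (s / r) ^ (γ / 12)) (fun t ht => by
      simpa using ((hd t (hm t ht)).fun_sub
        ((Complex.ofRealCLM.hasDerivAt (x := t)).mul_const (p' s))).hasDerivWithinAt)
    (fun t ht => by
      rw [norm_sub_rev, ← k3]
      refine (hB s (hm s hs) t (hm t ht) ht.1 (by linarith [ht.2])).trans
        (mul_le_mul_of_nonneg_left (Real.rpow_le_rpow
          (div_nonneg (sub_nonneg.2 ht.1) s0.le) ?_ (by norm_num)) hC)
      rw [div_le_iff₀ s0]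
      nlinarith [ht.2]) hs ht
  rw [add_sub_cancel_left, Real.norm_of_nonneg h0.le] at a1
  have a2 := hA s (hm s hs)
  have a3 : ‖p (s + h) - x - ((s + h : ℝ) : ℂ) * e‖ ≤ w * (2 ^ γ * (k * k)) * (2 * s) := by
    refine (hA _ (hm _ ht)).trans (mul_le_mul (mul_le_mul_of_nonneg_left ?_ hw) (by linarith)
      (by positivity) (by positivity))
    rw [← k2, ← Real.mul_rpow zero_le_two t0.le, ← mul_div_assoc]
    exact Real.rpow_le_rpow (by positivity) (by gcongr; linarith) hγ.le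
  have a4 : (h : ℂ) * (p' s - e) = (p (s + h) - x - ((s + h : ℝ) : ℂ) * e) - (p s - x - s * e) -
      (p (s + h) - ((s + h : ℝ) : ℂ) * p' s - (p s - s * p' s)) := by
    push_cast
    ring
  have a5 : h * ‖p' s - e‖ ≤ w * (2 ^ γ * (k * k)) * (2 * s) + w * (k * k) * s +
      C * (s / r) ^ (γ / 12) * h := by
    rw [← Real.norm_of_nonneg h0.le, ← Complex.norm_real, ← norm_mul, a4, Complex.norm_real,
      Real.norm_of_nonneg h0.le, ← k2]
    rw [← k2] at a3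
    exact (norm_sub_le _ _).trans (add_le_add ((norm_sub_le _ _).trans (add_le_add a3 a2)) a1)
  refine le_of_mul_le_mul_left (a5.trans ?_) h0
  have a6 : h * (2 * (w * (2 * 2 ^ γ + 1)) * k) ≤
      h * (2 * (w * (2 * 2 ^ γ + 1)) * (s / r) ^ (γ / 12)) := by gcongr
  have a7 : w * (2 ^ γ * (k * k)) * (2 * s) + w * (k * k) * s =
      h * (2 * (w * (2 * 2 ^ γ + 1)) * k) := by
    rw [hh]
    ring
  linarith

theorem interp {γ : ℝ} (hγ : 0 < γ) : ∃ α : ℝ, 0 < α ∧ α ≤ 1 ∧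
    ∀ {P : Set ℂ} {x e : ℂ} {r C w : ℝ} {p p' : ℝ → ℂ}, 0 < r → ‖e‖ = 1 → x ∈ P →
      Rad P x 0 r p p' →
      (∀ s ∈ Ioo 0 r, ∀ t ∈ Ioo 0 r, s ≤ t → t ≤ 2 * s →
        ‖p' s - p' t‖ ≤ C * ((t - s) / s) ^ (1 / 6 : ℝ)) →
      (∀ s ∈ Ioo 0 r, ‖p s - x - s * e‖ ≤ w * (s / r) ^ γ * s) →
      ∃ g g' : ℝ → ℂ, IsArc α g g' ∧ g 0 = x ∧ g' 0 = (r / 2 : ℝ) * e ∧
        P ∩ closedBall x (r / 2) = g '' Icc 0 1 := by
  refine ⟨min (1 / 12) (γ / 12 / 2), by positivity, (min_le_left _ _).trans (by norm_num), ?_⟩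
  intro P x e r C w p p' hr he hx hR hB hA
  have hB' : ∀ s ∈ Ioo 0 r, ∀ t ∈ Ioo 0 r, s ≤ t → t ≤ 2 * s →
      ‖p' s - p' t‖ ≤ |C| * ((t - s) / s) ^ (1 / 6 : ℝ) := fun s hs t ht h1 h2 =>
    (hB s hs t ht h1 h2).trans (mul_le_mul_of_nonneg_right (le_abs_self C)
      (Real.rpow_nonneg (div_nonneg (sub_nonneg.2 h1) hs.1.le) _))
  have hA' : ∀ s ∈ Ioo 0 r, ‖p s - x - s * e‖ ≤ |w| * (s / r) ^ γ * s := fun s hs =>
    (hA s hs).trans (mul_le_mul_of_nonneg_right (mul_le_mul_of_nonneg_right (le_abs_self w)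
      (Real.rpow_nonneg (div_nonneg hs.1.le hr.le) _)) hs.1.le)
  have hm : ∀ t ∈ Ioc (0 : ℝ) 1, r / 2 * t ∈ Ioo 0 r := fun t ht =>
    ⟨by have := ht.1; positivity, by nlinarith [ht.2]⟩
  obtain ⟨g, g0, g1⟩ : ∃ g : ℝ → ℂ, g 0 = x ∧ ∀ t > 0, g t = p (r / 2 * t) :=
    ⟨fun t => if 0 < t then p (r / 2 * t) else x, if_neg (lt_irrefl _), fun t ht => if_pos ht⟩
  obtain ⟨f, f0, f1⟩ : ∃ f : ℝ → ℂ, f 0 = e ∧ ∀ t > 0, f t = p' (r / 2 * t) :=
    ⟨fun t => if 0 < t then p' (r / 2 * t) else e, if_neg (lt_irrefl _), fun t ht => if_pos ht⟩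
  have hg : ∀ t ∈ Icc (0 : ℝ) 1, g t ∈ P ∧ ‖g t - x‖ = r / 2 * t := fun t ht => by
    rcases ht.1.eq_or_lt with rfl | h
    · simp [g0, hx]
    · rw [g1 t h]
      exact ⟨(hR.pt le_rfl (hm t ⟨h, ht.2⟩)).1, (hR.pt le_rfl (hm t ⟨h, ht.2⟩)).2.1⟩
  have hH := interp_hold (f := f) (e := e) (β := γ / 12) (C := |C|)
    (C₁ := |C| + 2 * (|w| * (2 * 2 ^ γ + 1))) (by positivity) (abs_nonneg C) (by positivity)
    (fun s hs => by
      rcases hs.1.eq_or_lt with rfl | h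
      · rw [f0, sub_self, norm_zero]
        positivity
      · rw [f1 s h]
        refine (interp_near hγ hr (abs_nonneg C) (abs_nonneg w) (fun s hs => (hR.2 s hs).2.1)
          hB' hA' (hm s ⟨h, hs.2⟩).1 (by nlinarith [hs.2])).trans (mul_le_mul_of_nonneg_left
            (Real.rpow_le_rpow (by positivity) ?_ (by positivity)) (by positivity))
        rw [div_le_iff₀ hr]
        nlinarith)
    (fun s hs t ht h1 h2 => by
      rw [f1 s hs.1, f1 t ht.1]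
      refine (hB' _ (hm s hs) _ (hm t ht) (by nlinarith) (by nlinarith)).trans_eq ?_
      rw [← mul_sub, mul_div_mul_left _ _ (by positivity)])
  refine ⟨g, fun t => (r / 2 : ℝ) * f t, ⟨fun s hs t ht h => ?_, fun t ht => ⟨?_, ?_⟩,
    r / 2 * (|C| + 2 * (|C| + 2 * (|w| * (2 * 2 ^ γ + 1))) * 2 ^ (γ / 12)),
    fun s hs t ht => ?_⟩, g0, congrArg _ f0, ?_⟩
  · have h1 := (hg s hs).2
    rw [h, (hg t ht).2] at h1
    exact (mul_left_cancel₀ (by positivity) h1).symm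
  · rcases ht.1.eq_or_lt with rfl | h
    · rw [hasDerivWithinAt_iff_isLittleO, Asymptotics.isLittleO_iff]
      intro c hc
      have h1 : ContinuousAt (fun t : ℝ => |w| * (r / 2 * t / r) ^ γ * (r / 2)) 0 :=
        (continuousAt_const.mul (ContinuousAt.rpow_const (by fun_prop)
          (Or.inr hγ.le))).mul continuousAt_const
      have h2 := h1.eventually_lt (g := fun _ => c) continuousAt_const
        (by simpa [Real.zero_rpow hγ.ne'] using hc)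
      filter_upwards [self_mem_nhdsWithin, mem_nhdsWithin_of_mem_nhds h2] with t ht h3
      rcases ht.1.eq_or_lt with rfl | h
      · simp
      · rw [g1 t h, g0, f0, sub_zero, Real.norm_of_nonneg h.le, Complex.real_smul, ← mul_assoc,
          ← Complex.ofReal_mul, mul_comm t]
        refine (hA' _ (hm t ⟨h, ht.2⟩)).trans ?_
        rw [← mul_assoc]
        exact mul_le_mul_of_nonneg_right h3.le h.le
    · have h1 := (hR.2 _ (hm t ⟨h, ht.2⟩)).2.1.scomp t ((hasDerivAt_id t).const_mul (r / 2))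
      rw [mul_one, Complex.real_smul, ← f1 t h] at h1
      refine (h1.congr_of_eventuallyEq ?_).hasDerivWithinAt
      filter_upwards [lt_mem_nhds h] with s hs using g1 s hs
  · refine mul_ne_zero (Complex.ofReal_ne_zero.2 (by positivity)) (norm_pos_iff.1 ?_)
    rcases ht.1.eq_or_lt with rfl | h
    · rw [f0, he]
      exact one_pos
    · rw [f1 t h]
      exact one_pos.trans_le (hR.pt le_rfl (hm t ⟨h, ht.2⟩)).2.2.2
  · rw [← mul_sub, norm_mul, Complex.norm_real, Real.norm_of_nonneg (by positivity), mul_assoc]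
    exact mul_le_mul_of_nonneg_left (hH s hs t ht) (by positivity)
  · refine Subset.antisymm (fun z hz => ?_) ?_
    · have h1 : ‖z - x‖ ≤ r / 2 := mem_closedBall_iff_norm.1 hz.2
      rcases (norm_nonneg (z - x)).eq_or_lt with h | h
      · exact ⟨0, left_mem_Icc.2 zero_le_one, g0.trans (sub_eq_zero.1 (norm_eq_zero.1 h.symm)).symm⟩
      · refine ⟨‖z - x‖ / (r / 2), ⟨by positivity, (div_le_one (by positivity)).2 h1⟩, ?_⟩
        rw [g1 _ (by positivity), mul_div_cancel₀ _ (by positivity)]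
        have h2 : z ∈ P ∩ sphere x ‖z - x‖ := ⟨hz.1, mem_sphere_iff_norm.2 rfl⟩
        rw [(hR.2 _ ⟨h, by linarith⟩).1] at h2
        exact h2.symm
    · rintro _ ⟨t, ht, rfl⟩
      refine ⟨(hg t ht).1, mem_closedBall_iff_norm.2 ?_⟩
      rw [(hg t ht).2]
      nlinarith [ht.2]

end Vale.Agent.P128
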