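import Vale.Agent.P128.Basic0

/-!
# P128 TubeB

Derivative and local Hoelder bound. Put `p' s = (s / ⟪τ s, p s - x⟫) τ s`. Write
`p t - p s = (A + i B) τ s` with `|B| = o(|t - s|)`; `t² - s² = 2 ⟪p t - p s, p s - x⟫ + ‖p t - p s‖²`
determines `A` to first order. For the Hoelder bound: the chord has length `≥ |t - s|` and is almost parallel
to both `τ s` and `τ t`, so `|im (τ s conj (τ t))| ≤ C ((t - s)/s)^(1/6)`, and `⟪τ s, τ t⟫ > 0`; the unit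
radial vectors differ by `≤ C (t - s)/s`. For `t - s ≥ κ s/8` use `‖p'‖ ≤ 2`.
-/

namespace Vale.Agent.P128

open Set Metric MeasureTheory Filter Topology Complex
open scoped ENNReal ContDiff RealInnerProductSpace Gradient Real ComplexConjugate

variable {Ω K L A S T U O X Γ P M₀ K₀ K₁ : Set ℂ} {u v w g hh ψ η : ℂ → ℝ} {G : ℂ → ℂ}
  {π₀ π₁ : ℂ → Set ℂ} {x y z c p q e a₀ F : ℂ} {lam H r s R a b t M Θ ρ ε δ d : ℝ} {n : ℕ}

theorem tubeb_real {a b A B s h β : ℝ} (hs : 0 < s) (h1 : a ^ 2 + b ^ 2 = s ^ 2)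
    (h2 : (a + A) ^ 2 + (b + B) ^ 2 = (s + h) ^ 2) (ha : 9 / 10 * s ≤ a)
    (h3 : A ^ 2 + B ^ 2 ≤ 9 * h ^ 2) (hB : |B| ≤ β) :
    |A - h * (s / a)| ≤ 6 * (|h| / s) * |h| + 2 * β := by
  have ha0 : 0 < a := by linarith
  have hb : |b| ≤ s := abs_le_of_sq_le_sq' (by nlinarith) hs.le |> abs_le.2
  have hβ : 0 ≤ β := (abs_nonneg B).trans hB
  have e1 : A - h * (s / a) = ((h ^ 2 - (A ^ 2 + B ^ 2)) / 2 - b * B) / a := by
    field_simp
    nlinarith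
  have e2 : |b * B| ≤ s * β := by
    rw [abs_mul]
    exact mul_le_mul hb hB (abs_nonneg _) hs.le
  have e3 : |(h ^ 2 - (A ^ 2 + B ^ 2)) / 2 - b * B| ≤ 5 * h ^ 2 + s * β := by
    have := abs_le.1 e2
    have h4 : 0 ≤ A ^ 2 + B ^ 2 := by positivity
    have h5 : 0 ≤ h ^ 2 := by positivity
    rw [abs_le]
    constructor <;> linarith [this.1, this.2]
  rw [e1, abs_div, abs_of_pos ha0, div_le_iff₀ ha0]
  refine e3.trans ?_
  have e4 : 6 * (|h| / s) * |h| = 6 * h ^ 2 / s := by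
    rw [← sq_abs h]; ring
  rw [e4]
  have e5 : (6 * h ^ 2 / s + 2 * β) * (9 / 10 * s) ≤ (6 * h ^ 2 / s + 2 * β) * a := by
    gcongr
  refine le_trans ?_ e5
  have e6 : (6 * h ^ 2 / s + 2 * β) * (9 / 10 * s) = 27 / 5 * h ^ 2 + 9 / 5 * (s * β) := by
    field_simp
    ring
  rw [e6]
  have : 0 ≤ s * β := by positivity
  nlinarith [sq_nonneg h]

theorem tubeb_cx {q Δ τ : ℂ} {s h β : ℝ} (hs : 0 < s) (hτ : ‖τ‖ = 1) (hq : ‖q‖ = s)
    (hq' : ‖q + Δ‖ = s + h) (ha : 9 / 10 * s ≤ ⟪τ, q⟫) (hΔ : ‖Δ‖ ≤ 3 * |h|)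
    (hB : |(Δ * conj τ).im| ≤ β) :
    ‖Δ - h • (((s / ⟪τ, q⟫ : ℝ) : ℂ) * τ)‖ ≤ 6 * (|h| / s) * |h| + 3 * β := by
  have hc : ∀ z : ℂ, ‖z * conj τ‖ = ‖z‖ := fun z => by
    rw [norm_mul, Complex.norm_conj, hτ, mul_one]
  have hsq : ∀ z : ℂ, (z * conj τ).re ^ 2 + (z * conj τ).im ^ 2 = ‖z‖ ^ 2 := fun z => by
    rw [← hc z, Complex.sq_norm, Complex.normSq_apply]; ring
  have hi : ⟪τ, q⟫ = (q * conj τ).re := by
    rw [Complex.inner]
  have hτ1 : τ * conj τ = 1 := by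
    rw [Complex.mul_conj, Complex.normSq_eq_norm_sq, hτ]; simp
  rw [hi] at ha ⊢
  have h1 := hsq q
  have h2 := hsq (q + Δ)
  have h3 := hsq Δ
  rw [hq] at h1
  rw [hq', add_mul, add_re, add_im] at h2
  have h4 : ‖Δ‖ ^ 2 ≤ 9 * h ^ 2 := by
    calc ‖Δ‖ ^ 2 ≤ (3 * |h|) ^ 2 := by gcongr
      _ = 9 * h ^ 2 := by rw [mul_pow, sq_abs]; norm_num
  have h5 := tubeb_real hs h1 h2 ha (h3.trans_le h4) hB
  rw [← hc]
  have e : (Δ - h • (((s / (q * conj τ).re : ℝ) : ℂ) * τ)) * conj τ =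
      Δ * conj τ - ((h * (s / (q * conj τ).re) : ℝ) : ℂ) := by
    rw [sub_mul, Complex.real_smul, mul_assoc, mul_assoc, hτ1]
    push_cast
    ring
  rw [e]
  refine (Complex.norm_le_abs_re_add_abs_im _).trans ?_
  rw [sub_re, sub_im, ofReal_re, ofReal_im, sub_zero]
  linarith

theorem tubeb_le {κ s h : ℝ} (hκ : 0 < κ) (hκ1 : κ ≤ 1 / 4) (hs : 0 < s) (hh : |h| ≤ κ * s / 8) :
    |h| / s ≤ (|h| / (κ * s)) ^ (1 / 6 : ℝ) := by
  have h0 : 0 ≤ |h| / (κ * s) := by positivity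
  have h1 : |h| / (κ * s) ≤ 1 := by
    rw [div_le_one (by positivity)]
    have : 0 < κ * s := by positivity
    linarith
  have h2 : |h| / s ≤ |h| / (κ * s) := by
    gcongr
    nlinarith
  refine h2.trans ?_
  calc |h| / (κ * s) = (|h| / (κ * s)) ^ (1 : ℝ) := (Real.rpow_one _).symm
    _ ≤ (|h| / (κ * s)) ^ (1 / 6 : ℝ) :=
      Real.rpow_le_rpow_of_exponent_ge' h0 h1 (by norm_num) (by norm_num)

theorem tubeb_tend {κ s : ℝ} {k : ℝ → ℝ} (hk : ContinuousAt k s) (h0 : κ * k s ≠ 0) :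
    Tendsto (fun t => (|t - s| / (κ * k t)) ^ (1 / 6 : ℝ)) (𝓝 s) (𝓝 0) := by
  have h1 : ContinuousAt (fun t => (|t - s| / (κ * k t)) ^ (1 / 6 : ℝ)) s := by
    refine ContinuousAt.rpow_const ?_ (Or.inr (by norm_num))
    exact ContinuousAt.div (by fun_prop) (continuousAt_const.mul hk) h0
  have h2 := h1.tendsto
  simpa using h2

theorem tubeB {κ : ℝ} (hκ : 0 < κ) (hκ1 : κ ≤ 1 / 4) : ∃ C : ℝ,
    ∀ {P : Set ℂ} {x : ℂ} {r : ℝ} {p τ : ℝ → ℂ},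
      (∀ s ∈ Ioo 0 r, P ∩ sphere x s = {p s} ∧ ‖τ s‖ = 1 ∧
        9 / 10 * s ≤ ⟪τ s, p s - x⟫ ∧ ∀ t ∈ Ioo 0 r, |t - s| ≤ κ * s / 8 →
          ‖p t - p s‖ ≤ 3 * |t - s| ∧
            |((p t - p s) * conj (τ s)).im| ≤ (|t - s| / (κ * s)) ^ (1 / 6 : ℝ) * |t - s|) →
      ∃ p' : ℝ → ℂ, Rad P x 0 r p p' ∧ ∀ s ∈ Ioo 0 r, ∀ t ∈ Ioo 0 r, s ≤ t → t ≤ 2 * s →
        ‖p' s - p' t‖ ≤ C * ((t - s) / s) ^ (1 / 6 : ℝ) := by
  refine ⟨32 * (1 / κ) ^ (1 / 6 : ℝ), fun {P x r p τ} H => ?_⟩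
  obtain ⟨p', hp'⟩ : ∃ p' : ℝ → ℂ, ∀ s, p' s = ((s / ⟪τ s, p s - x⟫ : ℝ) : ℂ) * τ s :=
    ⟨_, fun _ => rfl⟩
  have hn : ∀ s ∈ Ioo 0 r, ‖p s - x‖ = s := by
    intro s hs
    have : p s ∈ P ∩ sphere x s := by rw [(H s hs).1]; rfl
    exact mem_sphere_iff_norm.1 this.2
  have hb : ∀ s ∈ Ioo 0 r, ‖p' s‖ ≤ 2 := by
    intro s hs
    obtain ⟨-, h1, h2, -⟩ := H s hs
    have h3 : 0 < ⟪τ s, p s - x⟫ := by linarith [hs.1]
    rw [hp', norm_mul, h1, mul_one, Complex.norm_real, Real.norm_eq_abs,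
      abs_of_pos (div_pos hs.1 h3), div_le_iff₀ h3]
    linarith [hs.1]
  have K1 : ∀ s ∈ Ioo 0 r, ∀ t ∈ Ioo 0 r, |t - s| ≤ κ * s / 8 →
      ‖p t - p s - (t - s) • p' s‖ ≤ 9 * (|t - s| / (κ * s)) ^ (1 / 6 : ℝ) * |t - s| := by
    intro s hs t ht hts
    obtain ⟨-, h1, h2, h3⟩ := H s hs
    obtain ⟨h4, h5⟩ := h3 t ht hts
    have h6 := tubeb_cx (q := p s - x) (Δ := p t - p s) (h := t - s) hs.1 h1 (hn s hs)
      (by rw [show p s - x + (p t - p s) = p t - x by ring, hn t ht]; ring) h2 h4 h5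
    have h7 := tubeb_le hκ hκ1 hs.1 hts
    have h8 : |t - s| / s * |t - s| ≤ (|t - s| / (κ * s)) ^ (1 / 6 : ℝ) * |t - s| := by gcongr
    rw [hp']
    linarith
  have K2 : ∀ s ∈ Ioo 0 r, ∀ t ∈ Ioo 0 r, |t - s| ≤ κ * s / 8 → |t - s| ≤ κ * t / 8 →
      ‖p' s - p' t‖ ≤ 9 * (|t - s| / (κ * s)) ^ (1 / 6 : ℝ) +
        9 * (|t - s| / (κ * t)) ^ (1 / 6 : ℝ) := by
    intro s hs t ht h1 h2
    rcases eq_or_ne t s with rfl | hne
    · simp
    have h0 : 0 < |t - s| := abs_pos.2 (sub_ne_zero.2 hne)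
    have a1 := K1 s hs t ht h1
    have a2 := K1 t ht s hs (by rwa [abs_sub_comm])
    rw [abs_sub_comm s t] at a2
    have e : (t - s) • (p' s - p' t) =
        -(p t - p s - (t - s) • p' s) - (p s - p t - (s - t) • p' t) := by
      simp only [Complex.real_smul]
      push_cast
      ring
    have a3 : ‖(t - s) • (p' s - p' t)‖ ≤
        ‖p t - p s - (t - s) • p' s‖ + ‖p s - p t - (s - t) • p' t‖ := by
      rw [e]
      refine (norm_sub_le _ _).trans ?_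
      rw [norm_neg]
    rw [norm_smul, Real.norm_eq_abs] at a3
    refine le_of_mul_le_mul_left ?_ h0
    linarith
  have hev : ∀ s ∈ Ioo 0 r, ∀ᶠ t in 𝓝 s, t ∈ Ioo 0 r ∧ |t - s| ≤ κ * s / 8 ∧
      |t - s| ≤ κ * t / 8 := by
    intro s hs
    have h0 : 0 < κ * s / 8 := by have := hs.1; positivity
    have h9 : ∀ᶠ t in 𝓝 s, t ∈ Ioo 0 r := isOpen_Ioo.mem_nhds hs
    refine h9.and (Eventually.and ?_ ?_)
    · have h1 : ContinuousAt (fun t : ℝ => |t - s|) s := by fun_prop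
      exact (h1.eventually_lt continuousAt_const (by simpa using h0)).mono fun t ht => ht.le
    · have h1 : ContinuousAt (fun t : ℝ => |t - s|) s := by fun_prop
      have h2 : ContinuousAt (fun t : ℝ => κ * t / 8) s := by fun_prop
      exact (h1.eventually_lt h2 (by simpa using h0)).mono fun t ht => ht.le
  refine ⟨p', ⟨fun s hs => ?_, fun s hs => ⟨(H s hs).1, ?_, hb s hs⟩⟩, fun s hs t ht hst _ => ?_⟩
  · refine ContinuousAt.continuousWithinAt ?_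
    have h0 : κ * s ≠ 0 := by have := hs.1; positivity
    have t1 := tubeb_tend (κ := κ) (s := s) (k := fun _ => s) continuousAt_const h0
    have t2 := tubeb_tend (κ := κ) (s := s) (k := fun t => t) continuousAt_id h0
    have t3 := (t1.const_mul 9).add (t2.const_mul 9)
    simp only [mul_zero, add_zero] at t3
    rw [ContinuousAt, tendsto_iff_norm_sub_tendsto_zero]
    refine squeeze_zero' (Eventually.of_forall fun _ => norm_nonneg _) ?_ t3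
    filter_upwards [hev s hs] with t ht
    rw [norm_sub_rev]
    exact K2 s hs t ht.1 ht.2.1 ht.2.2
  · rw [hasDerivAt_iff_isLittleO, Asymptotics.isLittleO_iff]
    intro c hc
    have h0 : κ * s ≠ 0 := by have := hs.1; positivity
    have t1 := (tubeb_tend (κ := κ) (s := s) (k := fun _ => s) continuousAt_const h0).const_mul 9
    rw [mul_zero] at t1
    filter_upwards [hev s hs, t1.eventually_lt_const hc] with t ht ht'
    refine (K1 s hs t ht.1 ht.2.1).trans ?_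
    rw [Real.norm_eq_abs]
    gcongr
  · have hs0 := hs.1
    have h0 : 0 ≤ t - s := sub_nonneg.2 hst
    have e : (1 / κ) ^ (1 / 6 : ℝ) * ((t - s) / s) ^ (1 / 6 : ℝ) =
        (|t - s| / (κ * s)) ^ (1 / 6 : ℝ) := by
      rw [← Real.mul_rpow (by positivity) (by positivity), abs_of_nonneg h0]
      congr 1
      field_simp
    rw [mul_assoc, e]
    have hp : 0 ≤ (|t - s| / (κ * s)) ^ (1 / 6 : ℝ) := by positivity
    by_cases hc : |t - s| ≤ κ * s / 8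
    · have h1 := K2 s hs t ht hc (hc.trans (by gcongr))
      have h2 : (|t - s| / (κ * t)) ^ (1 / 6 : ℝ) ≤ (|t - s| / (κ * s)) ^ (1 / 6 : ℝ) := by
        have := ht.1
        gcongr
      linarith
    · rw [not_le] at hc
      have h1 : (1 / 8 : ℝ) ≤ |t - s| / (κ * s) := by
        rw [le_div_iff₀ (by positivity)]
        linarith
      have h2 : (1 / 8 : ℝ) ≤ (1 / 8 : ℝ) ^ (1 / 6 : ℝ) := by
        calc (1 / 8 : ℝ) = (1 / 8 : ℝ) ^ (1 : ℝ) := (Real.rpow_one _).symm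
          _ ≤ (1 / 8 : ℝ) ^ (1 / 6 : ℝ) :=
            Real.rpow_le_rpow_of_exponent_ge (by norm_num) (by norm_num) (by norm_num)
      have h3 : (1 / 8 : ℝ) ^ (1 / 6 : ℝ) ≤ (|t - s| / (κ * s)) ^ (1 / 6 : ℝ) := by gcongr
      have h4 := norm_sub_le (p' s) (p' t)
      linarith [hb s hs, hb t ht]

end Vale.Agent.P128
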