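import Vale.Agent.P128.TubeA
import Vale.Agent.P128.TubeB
import Vale.Agent.P128.Interp
import Vale.Agent.P128.ArcJ

/-!
# P128 Fin

Assembly of the local picture. Shrink `r` (`SR.mono`) so that `w ≤ min (η/4) (1/100)`. Let
`P k = {z ∈ K | ‖z - x - ‖z - x‖ dir n e k‖ ≤ ‖z - x‖/2}`; they cover `K` near `x`, meet only at `x`
(`dir_sep`), and satisfy the hypotheses of `tubeA` with radius `r/2` (`κ ≤ 1/10`); `tubeB`, `interp`.
`N = closedBall x (r/4)`. For `n = 2` use `arc_join` and `dir_two`; for `n = 3` the angle is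
`arccos (-1/2) = 2π/3`.
-/

namespace Vale.Agent.P128

open Set Metric MeasureTheory Filter Topology Complex
open scoped ENNReal ContDiff RealInnerProductSpace Gradient Real ComplexConjugate

variable {Ω K L A S T U O X Γ P M₀ K₀ K₁ : Set ℂ} {u v w g hh ψ η : ℂ → ℝ} {G : ℂ → ℂ}
  {π₀ π₁ : ℂ → Set ℂ} {x y z c p q e a₀ F : ℂ} {lam H r s R a b t M Θ ρ ε δ d : ℝ} {n : ℕ}

theorem fin_sep {j k : ℕ} {a : ℂ} (he : ‖e‖ = 1) (hn : n ≤ 3) (hj : j < n) (hk : k < n)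
    (hρ : 0 < ρ) (h1 : ‖a - ρ * dir n e j‖ ≤ ρ / 2) (h2 : ‖a - ρ * dir n e k‖ ≤ ρ / 2) :
    j = k := by
  by_contra hjk
  have h3 := (dir_sep he hn hj hk hjk).1
  have h4 : ‖dir n e j - dir n e k‖ ^ 2 = 2 - 2 * ⟪dir n e j, dir n e k⟫ := by
    rw [norm_sub_sq_real, dir_norm he, dir_norm he]
    ring
  have h5 : ρ * ‖dir n e j - dir n e k‖ ≤ ρ * 1 := by
    have e1 : (ρ : ℂ) * (dir n e j - dir n e k) =
        (a - ρ * dir n e k) - (a - ρ * dir n e j) := by ring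
    have e2 : ‖(ρ : ℂ) * (dir n e j - dir n e k)‖ = ρ * ‖dir n e j - dir n e k‖ := by
      rw [norm_mul, Complex.norm_real, Real.norm_of_nonneg hρ.le]
    rw [← e2, e1]
    exact (norm_sub_le _ _).trans (by linarith)
  have h6 := le_of_mul_le_mul_left h5 hρ
  have h7 := norm_nonneg (dir n e j - dir n e k)
  nlinarith

theorem fin_pow {w γ : ℝ} (hγ : 0 < γ) (hw : 0 ≤ w) (hρ : 0 < ρ) (hr : ρ ≤ r) :
    w * (ρ / r) ^ γ * ρ ≤ w * ρ := by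
  have hr0 : 0 < r := hρ.trans_le hr
  have h1 : (ρ / r) ^ γ ≤ 1 :=
    Real.rpow_le_one (by positivity) ((div_le_one hr0).2 hr) hγ.le
  calc w * (ρ / r) ^ γ * ρ ≤ w * 1 * ρ := by gcongr
    _ = w * ρ := by ring

theorem fin_ref {w γ : ℝ} {k : ℕ} (hγ : 0 < γ) (hw : 0 ≤ w) (hw1 : w ≤ 1 / 100) (hn : n ≤ 3)
    (hS : SR n K x r e w γ) (hk : k < n) (hz : z ∈ K) (h0 : 0 < ‖z - x‖) (h1 : ‖z - x‖ ≤ r)
    (h2 : ‖z - x - ‖z - x‖ * dir n e k‖ ≤ ‖z - x‖ / 2) :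
    ‖z - x - ‖z - x‖ * dir n e k‖ ≤ w * (‖z - x‖ / r) ^ γ * ‖z - x‖ := by
  obtain ⟨j, hj, hb⟩ := (hS.2 _ h0 h1).1 z hz rfl
  have h3 := fin_pow hγ hw h0 h1
  have h4 : w * ‖z - x‖ ≤ ‖z - x‖ / 2 := by nlinarith
  have := fin_sep hS.1 hn hj hk h0 (hb.trans (h3.trans h4)) h2
  rwa [this] at hb

theorem fin_arc {γ κ : ℝ} (hγ : 0 < γ) (hκ : 0 < κ) (hκ1 : κ ≤ 1 / 10) :
    ∃ α w : ℝ, 0 < α ∧ α ≤ 1 ∧ 0 < w ∧ w ≤ 1 / 100 ∧
      ∀ {n : ℕ} {K : Set ℂ} {x e : ℂ} {r : ℝ}, n ≤ 3 → x ∈ K → 0 < r → SR n K x r e w γ →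
        (∀ y ∈ K, 0 < ‖y - x‖ → ‖y - x‖ < r → Tg K y (κ * ‖y - x‖)) → ∀ k < n,
        ∃ g g' : ℝ → ℂ, IsArc α g g' ∧ g 0 = x ∧ g' 0 = (r / 2 / 2 : ℝ) * dir n e k ∧
          {z ∈ K | ‖z - x - ‖z - x‖ * dir n e k‖ ≤ ‖z - x‖ / 2} ∩ closedBall x (r / 2 / 2) =
            g '' Icc 0 1 := by
  obtain ⟨η, hη, hA⟩ := tubeA hκ (by linarith)
  obtain ⟨C, hB⟩ := tubeB hκ (by linarith)
  obtain ⟨α, hα, hα1, hI⟩ := interp hγ
  obtain ⟨w, hw, hw1, hw2⟩ : ∃ w : ℝ, 0 < w ∧ w ≤ 1 / 100 ∧ w ≤ η / 4 :=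
    ⟨min (1 / 100) (η / 4), by positivity, min_le_left _ _, min_le_right _ _⟩
  refine ⟨α, w, hα, hα1, hw, hw1, fun {n K x e r} hn hx hr hS hT k hk => ?_⟩
  obtain ⟨P, hP⟩ : ∃ P : Set ℂ,
      P = {z ∈ K | ‖z - x - ‖z - x‖ * dir n e k‖ ≤ ‖z - x‖ / 2} := ⟨_, rfl⟩
  have hm : ∀ z, z ∈ P ↔ z ∈ K ∧ ‖z - x - ‖z - x‖ * dir n e k‖ ≤ ‖z - x‖ / 2 := fun z => by
    rw [hP]; rfl
  rw [← hP]
  have hd : ‖dir n e k‖ = 1 := dir_norm hS.1 n k
  have href : ∀ z ∈ P, 0 < ‖z - x‖ → ‖z - x‖ ≤ r →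
      ‖z - x - ‖z - x‖ * dir n e k‖ ≤ w * (‖z - x‖ / r) ^ γ * ‖z - x‖ := fun z hz h0 h1 =>
    fin_ref hγ hw.le hw1 hn hS hk ((hm z).1 hz).1 h0 h1 ((hm z).1 hz).2
  obtain ⟨p, τ, hp⟩ := hA (K := K) (P := P) (x := x) (r := r / 2) (fun z hz => ((hm z).1 hz).1)
    (fun s hs => by
      have hsr : s ≤ r := by linarith [hs.2]
      obtain ⟨z, hz, hzs, hb⟩ := (hS.2 s hs.1 hsr).2 k hk
      refine ⟨z, (hm z).2 ⟨hz, ?_⟩, mem_sphere_iff_norm.2 hzs⟩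
      rw [hzs]
      have h3 := fin_pow hγ hw.le hs.1 hsr
      nlinarith [hs.1])
    (fun s hs => by
      refine ⟨dir n e k, hd, fun z hz h1 h2 => ?_⟩
      have h0 : 0 < ‖z - x‖ := by linarith [hs.1]
      have h3 : ‖z - x‖ ≤ r := by linarith [hs.2]
      have h4 := (href z hz h0 h3).trans (fin_pow hγ hw.le h0 h3)
      have h5 : w * ‖z - x‖ ≤ η / 4 * (2 * s) := by gcongr
      nlinarith [hs.1])
    (fun y hy h0 h1 => by
      refine ⟨fun z hz => (hm z).2 ⟨hz.1, ?_⟩, hT y ((hm y).1 hy).1 h0 (by linarith)⟩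
      have h2 : ‖z - y‖ ≤ κ * ‖y - x‖ := mem_closedBall_iff_norm.1 hz.2
      have h3 : ‖y - x‖ ≤ r := by linarith
      have h4 := (href y hy h0 h3).trans (fin_pow hγ hw.le h0 h3)
      have h5 : |‖y - x‖ - ‖z - x‖| ≤ ‖z - y‖ := by
        have := abs_norm_sub_norm_le (y - x) (z - x)
        rwa [show y - x - (z - x) = -(z - y) by ring, norm_neg] at this
      have e1 : z - x - ‖z - x‖ * dir n e k = (z - y) + (y - x - ‖y - x‖ * dir n e k) +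
          ((‖y - x‖ - ‖z - x‖ : ℝ) : ℂ) * dir n e k := by
        push_cast; ring
      have h6 : ‖((‖y - x‖ - ‖z - x‖ : ℝ) : ℂ) * dir n e k‖ = |‖y - x‖ - ‖z - x‖| := by
        rw [norm_mul, Complex.norm_real, hd, mul_one, Real.norm_eq_abs]
      have h7 := norm_add₃_le (a := z - y) (b := y - x - ‖y - x‖ * dir n e k)
        (c := ((‖y - x‖ - ‖z - x‖ : ℝ) : ℂ) * dir n e k)
      rw [← e1, h6] at h7
      have h8 := abs_le.1 h5
      have h9 : κ * ‖y - x‖ ≤ 1 / 10 * ‖y - x‖ := by gcongr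
      have h10 : w * ‖y - x‖ ≤ 1 / 100 * ‖y - x‖ := by gcongr
      linarith [h8.1, h8.2])
  obtain ⟨p', hR, hC⟩ := hB hp
  refine hI (w := w) (by linarith) hd ((hm x).2 ⟨hx, by simp⟩) hR hC fun s hs => ?_
  have h1 : p s ∈ P ∩ sphere x s := by rw [(hp s hs).1]; rfl
  have h2 : ‖p s - x‖ = s := mem_sphere_iff_norm.1 h1.2
  have h3 := href (p s) h1.1 (by rw [h2]; exact hs.1) (by rw [h2]; linarith [hs.2])
  rw [h2] at h3
  refine h3.trans ?_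
  have := hs.1
  gcongr
  linarith

theorem fin {w γ κ : ℝ} (hn : n = 1 ∨ n = 2 ∨ n = 3) (hx : x ∈ K) (hΩ : Ω ∈ 𝓝 x) (hr : 0 < r)
    (hγ : 0 < γ) (hS : SR n K x r e w γ) (hκ : 0 < κ) (hκ1 : κ ≤ 1 / 10) (hρ : 0 < ρ)
    (hT : ∀ y ∈ K, 0 < ‖y - x‖ → ‖y - x‖ < ρ → Tg K y (κ * ‖y - x‖)) : Loc Ω K x := by
  obtain ⟨α, w₀, hα, hα1, hw, hw1, hA⟩ := fin_arc hγ hκ hκ1
  have hn3 : n ≤ 3 := by omega
  have hn0 : 0 < n := by omega
  obtain ⟨r₁, h1, h2, h3, h4, h5⟩ : ∃ r₁ : ℝ, 0 < r₁ ∧ r₁ ≤ r ∧ r₁ ≤ ρ ∧ closedBall x r₁ ⊆ Ω ∧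
      w * (r₁ / r) ^ γ ≤ w₀ := by
    have c1 : ContinuousAt (fun t : ℝ => w * (t / r) ^ γ) 0 :=
      continuousAt_const.mul (ContinuousAt.rpow_const (by fun_prop) (Or.inr hγ.le))
    have c2 : ∀ᶠ t in 𝓝 (0 : ℝ), w * (t / r) ^ γ ≤ w₀ := by
      refine c1.tendsto.eventually (ge_mem_nhds ?_)
      simpa [Real.zero_rpow hγ.ne'] using hw
    have c3 : ∀ᶠ t in 𝓝 (0 : ℝ), closedBall x t ⊆ Ω := eventually_closedBall_subset hΩ
    have c4 : ∀ᶠ t in 𝓝[>] (0 : ℝ), 0 < t ∧ t ≤ r ∧ t ≤ ρ ∧ closedBall x t ⊆ Ω ∧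
        w * (t / r) ^ γ ≤ w₀ := by
      filter_upwards [self_mem_nhdsWithin, nhdsWithin_le_nhds (ge_mem_nhds hr),
        nhdsWithin_le_nhds (ge_mem_nhds hρ), nhdsWithin_le_nhds c3, nhdsWithin_le_nhds c2]
        with t a1 a2 a3 a4 a5 using ⟨a1, a2, a3, a4, a5⟩
    exact c4.exists
  have hS1 : SR n K x r₁ e w₀ γ := (hS.mono h1 h2).mono_w h5
  have he := hS1.1
  have hB := hA hn3 hx h1 hS1 fun y hy a1 a2 => hT y hy a1 (a2.trans_le h3)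
  choose! g g' hg hg0 hg' hP using hB
  have hcov : ∀ z, z ∈ K ∩ closedBall x (r₁ / 2 / 2) ↔ ∃ k < n, z ∈ g k '' Icc 0 1 := by
    intro z
    constructor
    · rintro ⟨hz, hzr⟩
      have hzr' : ‖z - x‖ ≤ r₁ / 2 / 2 := mem_closedBall_iff_norm.1 hzr
      rcases (norm_nonneg (z - x)).eq_or_lt with h0 | h0
      · refine ⟨0, hn0, ?_⟩
        rw [← hP 0 hn0]
        refine ⟨⟨hz, ?_⟩, hzr⟩
        have : z - x = 0 := norm_eq_zero.1 h0.symm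
        simp [this]
      · have hle : ‖z - x‖ ≤ r₁ := by linarith
        obtain ⟨k, hk, hb⟩ := (hS1.2 _ h0 hle).1 z hz rfl
        refine ⟨k, hk, ?_⟩
        rw [← hP k hk]
        refine ⟨⟨hz, ?_⟩, hzr⟩
        have h6 := fin_pow hγ hw.le h0 hle
        nlinarith
    · rintro ⟨k, hk, hz⟩
      rw [← hP k hk] at hz
      exact ⟨hz.1.1, hz.2⟩
  have hint : ∀ j < n, ∀ k < n, j ≠ k → g j '' Icc 0 1 ∩ g k '' Icc 0 1 = {x} := by
    intro j hj k hk hjk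
    refine Subset.antisymm ?_ ?_
    · rintro z ⟨a1, a2⟩
      rw [← hP j hj] at a1
      rw [← hP k hk] at a2
      rcases (norm_nonneg (z - x)).eq_or_lt with h0 | h0
      · exact sub_eq_zero.1 (norm_eq_zero.1 h0.symm)
      · exact absurd (fin_sep he hn3 hj hk h0 a1.1.2 a2.1.2) hjk
    · rintro z rfl
      exact ⟨⟨0, by simp, hg0 j hj⟩, ⟨0, by simp, hg0 k hk⟩⟩
  refine ⟨closedBall x (r₁ / 2 / 2), closedBall_mem_nhds x (by positivity),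
    (closedBall_subset_closedBall (by linarith)).trans h4, α, hα, hα1, ?_⟩
  rcases hn with rfl | rfl | rfl
  · refine Or.inr (Or.inl ⟨g 0, g' 0, hg 0 hn0, ?_, hg0 0 hn0⟩)
    ext z
    rw [hcov]
    constructor
    · rintro ⟨k, hk, hz⟩
      obtain rfl : k = 0 := by omega
      exact hz
    · exact fun hz => ⟨0, hn0, hz⟩
  · have hd : g' 0 0 = -g' 1 0 := by
      rw [hg' 0 hn0, hg' 1 (by norm_num), dir_zero, dir_two]
      ring
    obtain ⟨f, f', a1, a2, a3⟩ := arc_join hα hα1 (hg 0 hn0) (hg 1 (by norm_num)) (hg0 0 hn0)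
      (hg0 1 (by norm_num)) hd (hint 0 hn0 1 (by norm_num) (by norm_num))
    refine Or.inl ⟨f, f', a1, ?_, a3⟩
    rw [a2]
    ext z
    rw [hcov]
    constructor
    · rintro ⟨k, hk, hz⟩
      obtain rfl | rfl : k = 0 ∨ k = 1 := by omega
      · exact Or.inl hz
      · exact Or.inr hz
    · rintro (hz | hz)
      · exact ⟨0, hn0, hz⟩
      · exact ⟨1, by norm_num, hz⟩
  · refine Or.inr (Or.inr ⟨fun i => g i, fun i => g' i, fun i => ⟨hg i i.2, hg0 i i.2⟩, ?_,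
      fun i j hij => ⟨hint i i.2 j j.2 (fun h => hij (Fin.ext h)), ?_⟩⟩)
    · ext z
      rw [hcov, mem_iUnion]
      constructor
      · rintro ⟨k, hk, hz⟩
        exact ⟨⟨k, hk⟩, hz⟩
      · rintro ⟨i, hz⟩
        exact ⟨i, i.2, hz⟩
    · have hpos : 0 < r₁ / 2 / 2 := by positivity
      have a1 := (dir_sep he le_rfl i.2 j.2 (fun h => hij (Fin.ext h))).2 rfl
      show InnerProductGeometry.angle (g' i 0) (g' j 0) = _
      rw [hg' i i.2, hg' j j.2, ← Complex.real_smul, ← Complex.real_smul,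
        InnerProductGeometry.angle_smul_left_of_pos _ _ hpos,
        InnerProductGeometry.angle_smul_right_of_pos _ _ hpos, InnerProductGeometry.angle, a1,
        dir_norm he, dir_norm he]
      have a2 : Real.cos (2 * π / 3) = -1 / 2 / (1 * 1) := by
        rw [show 2 * π / 3 = π - π / 3 by ring, Real.cos_pi_sub, Real.cos_pi_div_three]
        norm_num
      rw [← a2, Real.arccos_cos (by positivity) (by linarith [Real.pi_pos])]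

end Vale.Agent.P128
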