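import Vale.Agent.P128.Scale0

/-!
# P128 Scale

Invariance under the similarity `z ↦ x + a z`. `μH[1]` scales by `‖a‖`
(`Measure.hausdorffMeasure_smul₀`, isometries), volume by `‖a‖ ^ 2`
(`Complex.det_...` or `Measure.addHaar_preimage_linearMap`, or `lintegral` change of variables for
`z ↦ x + a z`). New right side: `h' z = ‖a‖ ^ (3/2) * h (x + a z)`, `H' = ‖a‖ ^ (3/2) * H`. Pull test
functions and competitors back by the inverse similarity.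
-/

namespace Vale.Agent.P128

open Set Metric MeasureTheory Filter Topology Complex
open scoped ENNReal ContDiff RealInnerProductSpace Gradient Real ComplexConjugate

variable {Ω K L A S T U O X Γ P M₀ K₀ K₁ : Set ℂ} {u v w g hh ψ η : ℂ → ℝ} {G : ℂ → ℂ}
  {π₀ π₁ : ℂ → Set ℂ} {x y z c p q e a₀ F : ℂ} {lam H r s R a b t M Θ ρ ε δ d : ℝ} {n : ℕ}

theorem scale_inv (ha : a₀ ≠ 0) (x z : ℂ) : -x / a₀ + a₀⁻¹ * (x + a₀ * z) = z := by
  field_simp
  ring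

theorem scale_inv' (ha : a₀ ≠ 0) (x z : ℂ) : x + a₀ * (-x / a₀ + a₀⁻¹ * z) = z := by
  field_simp
  ring

theorem scale_sc_inv (ha : a₀ ≠ 0) (x : ℂ) (S : Set ℂ) : sc x a₀ (sc (-x / a₀) a₀⁻¹ S) = S := by
  ext z
  simp only [sc, mem_preimage, scale_inv ha]

theorem scale_sc_inv' (ha : a₀ ≠ 0) (x : ℂ) (S : Set ℂ) : sc (-x / a₀) a₀⁻¹ (sc x a₀ S) = S := by
  ext z
  simp only [sc, mem_preimage, scale_inv' ha]

theorem scale_sqrt (ha : a₀ ≠ 0) : √‖a₀⁻¹‖ * √‖a₀‖ = 1 := by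
  rw [← Real.sqrt_mul (norm_nonneg _), ← norm_mul, inv_mul_cancel₀ ha, norm_one, Real.sqrt_one]

theorem scale_su_inv (ha : a₀ ≠ 0) (x : ℂ) (u : ℂ → ℝ) : su x a₀ (su (-x / a₀) a₀⁻¹ u) = u := by
  funext z
  simp only [su, scale_inv ha]
  rw [div_div, scale_sqrt ha, div_one]

theorem scale_su_inv' (ha : a₀ ≠ 0) (x : ℂ) (u : ℂ → ℝ) : su (-x / a₀) a₀⁻¹ (su x a₀ u) = u := by
  funext z
  simp only [su, scale_inv' ha]
  rw [div_div, mul_comm, scale_sqrt ha, div_one]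

theorem scale_cont (x a₀ : ℂ) : Continuous fun z : ℂ => x + a₀ * z := by fun_prop

theorem scale_sub (ha : a₀ ≠ 0) (x : ℂ) (h : sc x a₀ S ⊆ sc x a₀ T) : S ⊆ T := by
  intro z hz
  have h1 : -x / a₀ + a₀⁻¹ * z ∈ sc x a₀ S := by
    simpa only [sc, mem_preimage, scale_inv' ha] using hz
  simpa only [sc, mem_preimage, scale_inv' ha] using h h1

theorem scale_ball_sub (ha : a₀ ≠ 0) (x : ℂ) (h : closedBall y r ⊆ sc x a₀ Ω) :
    closedBall (x + a₀ * y) (‖a₀‖ * r) ⊆ Ω :=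
  scale_sub ha x (by rwa [sc_closedBall ha])

theorem scale_lip (hw : LocallyLipschitzOn S w) (x a₀ : ℂ) :
    LocallyLipschitzOn (sc x a₀ S) (su x a₀ w) := by
  have h1 : LipschitzWith ‖a₀‖₊ fun z : ℂ => x + a₀ * z := by
    refine LipschitzWith.of_dist_le_mul fun z z' => ?_
    rw [dist_add_left, dist_eq_norm, dist_eq_norm, ← mul_sub, norm_mul]
    rfl
  have h2 : LocallyLipschitzOn (sc x a₀ S) fun z => w (x + a₀ * z) := by
    intro z hz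
    obtain ⟨C, t, ht, hC⟩ := hw hz
    refine ⟨C * ‖a₀‖₊, (fun z => x + a₀ * z) ⁻¹' t, ?_, hC.comp h1.lipschitzOnWith fun _ h => h⟩
    exact (scale_cont x a₀).continuousWithinAt.preimage_mem_nhdsWithin' (by
      refine nhdsWithin_mono _ ?_ ht
      rintro _ ⟨z', hz', rfl⟩
      exact hz')
  have h3 : LocallyLipschitzOn (sc x a₀ S) fun _ => (√‖a₀‖)⁻¹ :=
    (LipschitzWith.const _).locallyLipschitz.locallyLipschitzOn
  exact lip_congr (lip_mul h2 h3) fun z _ => by simp only [su, div_eq_mul_inv]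

theorem scale_ne (ha : a₀ ≠ 0) : ENNReal.ofReal ‖a₀‖ ≠ 0 :=
  (ENNReal.ofReal_pos.2 (norm_pos_iff.2 ha)).ne'

theorem scale_fin (ha : a₀ ≠ 0) {m : ℝ≥0∞} (h : ENNReal.ofReal ‖a₀‖ * m ≠ ⊤) : m ≠ ⊤ := by
  rintro rfl
  exact h (ENNReal.mul_top (scale_ne ha))

theorem scale_pre (h : Pre Ω u K) (x : ℂ) (ha : a₀ ≠ 0) :
    Pre (sc x a₀ Ω) (su x a₀ u) (sc x a₀ K) := by
  obtain ⟨h1, h2, h3, h4⟩ := h
  refine ⟨h1.preimage (scale_cont x a₀), h2.preimage (scale_cont x a₀), ?_, fun y r hb => ?_⟩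
  · have h5 : ContDiff ℝ 1 fun z : ℂ => x + a₀ * z := by fun_prop
    exact (h3.comp h5.contDiffOn fun z hz => hz).div_const _
  · obtain ⟨h5, h6⟩ := h4 _ _ (scale_ball_sub ha x hb)
    rw [Dn_sc ha x, sc_closedBall ha] at h5
    rw [len_sc ha x] at h6
    refine ⟨scale_fin ha h5, ?_⟩
    have h7 := scale_fin ha h6
    rwa [← sc_closedBall ha x y r]

theorem scale_test (h : Test Ω K ψ) (x : ℂ) (ha : a₀ ≠ 0) :
    Test (sc x a₀ Ω) (sc x a₀ K) (su x a₀ ψ) := by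
  obtain ⟨h1, ⟨M, h2⟩, ⟨y, r, h3, h4⟩, h5⟩ := h
  have hn : ‖a₀‖ ≠ 0 := norm_ne_zero_iff.2 ha
  refine ⟨scale_lip h1 x a₀, ⟨M / √‖a₀‖, fun z => ?_⟩,
    ⟨-x / a₀ + a₀⁻¹ * y, r / ‖a₀‖, ?_, ?_⟩, ?_⟩
  · simp only [su]
    rw [abs_div, abs_of_nonneg (Real.sqrt_nonneg _)]
    exact div_le_div_of_nonneg_right (h2 _) (Real.sqrt_nonneg _)
  · rw [← sc_closedBall ha x, scale_inv' ha, mul_div_cancel₀ _ hn]
    exact fun z hz => h3 hz
  · rw [← sc_closedBall ha x, scale_inv' ha, mul_div_cancel₀ _ hn]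
    intro z hz
    simp only [su]
    rw [h4 _ hz, zero_div]
  · rw [Dn_sc ha x] at h5
    exact scale_fin ha h5

theorem scale_integral (ha : a₀ ≠ 0) (x : ℂ) (f : ℂ → ℝ) :
    ∫ z, f (x + a₀ * z) = (‖a₀‖ ^ 2)⁻¹ * ∫ z, f z := by
  have hd : LinearMap.det (LinearMap.mul ℝ ℂ a₀) = ‖a₀‖ ^ 2 := by
    rw [← Complex.normSq_eq_norm_sq, ← Algebra.norm_complex_apply, Algebra.norm_apply]
    rfl
  have hn : ‖a₀‖ ^ 2 ≠ 0 := pow_ne_zero _ (norm_ne_zero_iff.2 ha)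
  have h1 := Measure.map_linearMap_addHaar_eq_smul_addHaar (volume : Measure ℂ)
    (f := LinearMap.mul ℝ ℂ a₀) (by rw [hd]; exact hn)
  have h2 := (Homeomorph.mulLeft₀ a₀ ha).measurableEmbedding.integral_map
    (μ := (volume : Measure ℂ)) (fun z => f (x + z))
  have h3 : Measure.map (Homeomorph.mulLeft₀ a₀ ha) (volume : Measure ℂ) =
      Measure.map (LinearMap.mul ℝ ℂ a₀) volume := rfl
  rw [h3, h1, integral_smul_measure, integral_add_left_eq_self, hd,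
    ENNReal.toReal_ofReal (abs_nonneg _), abs_of_nonneg (by positivity), smul_eq_mul] at h2
  exact h2.symm

theorem scale_inner (c p q : ℂ) : ⟪c * p, c * q⟫ = ‖c‖ ^ 2 * ⟪p, q⟫ := by
  simp only [Complex.inner, ← Complex.normSq_eq_norm_sq, Complex.normSq_apply, map_mul,
    mul_re, mul_im, conj_re, conj_im]
  ring

theorem scale_el (hK : IsClosed K) (h : EL Ω u K hh) (x : ℂ) (ha : a₀ ≠ 0) :
    EL (sc x a₀ Ω) (su x a₀ u) (sc x a₀ K) (fun z => ‖a₀‖ * √‖a₀‖ * hh (x + a₀ * z)) := by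
  intro ψ hψ
  have h1 := scale_test hψ (-x / a₀) (inv_ne_zero ha)
  rw [scale_sc_inv' ha, scale_sc_inv' ha] at h1
  have h2 := h _ h1
  generalize hψ' : su (-x / a₀) a₀⁻¹ ψ = ψ' at h2
  have h3 : ψ = su x a₀ ψ' := by rw [← hψ', scale_su_inv ha]
  have hn : 0 < ‖a₀‖ := norm_pos_iff.2 ha
  have hs : 0 < √‖a₀‖ := Real.sqrt_pos.2 hn
  have h4 : ‖conj a₀ / ((√‖a₀‖ : ℝ) : ℂ)‖ ^ 2 = ‖a₀‖ := by
    rw [norm_div, Complex.norm_conj, Complex.norm_real, Real.norm_eq_abs, abs_of_pos hs, div_pow,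
      Real.sq_sqrt hn.le]
    field_simp
  have h5 : ∫ z, ⟪gK (sc x a₀ K) (su x a₀ u) z, gK (sc x a₀ K) ψ z⟫ =
      ‖a₀‖ * ((‖a₀‖ ^ 2)⁻¹ * ∫ z, ⟪gK K u z, gK K ψ' z⟫) := by
    rw [h3, ← scale_integral ha x, ← integral_const_mul]
    simp only [gK_scale ha, scale_inner, h4]
  have h6 : ∫ z in (sc x a₀ K)ᶜ, ‖a₀‖ * √‖a₀‖ * hh (x + a₀ * z) * ψ z =
      ‖a₀‖ * ((‖a₀‖ ^ 2)⁻¹ * ∫ z in Kᶜ, hh z * ψ' z) := by
    have hK' : IsClosed (sc x a₀ K) := hK.preimage (scale_cont x a₀)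
    rw [← integral_indicator hK.measurableSet.compl, ← integral_indicator hK'.measurableSet.compl,
      ← scale_integral ha x, ← integral_const_mul, h3]
    refine integral_congr_ae (Eventually.of_forall fun z => ?_)
    by_cases hz : x + a₀ * z ∈ K
    · have hz' : z ∈ sc x a₀ K := hz
      simp only [indicator_of_notMem (notMem_compl_iff.2 hz),
        indicator_of_notMem (notMem_compl_iff.2 hz'), mul_zero]
    · have hz' : z ∉ sc x a₀ K := hz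
      simp only [indicator_of_mem (mem_compl hz), indicator_of_mem (mem_compl hz'), su]
      field_simp
  rw [h5, h6, h2]
  ring

theorem scale_np (h : NP Ω lam u K) (x : ℂ) (ha : a₀ ≠ 0) :
    NP (sc x a₀ Ω) (‖a₀‖ * lam) (su x a₀ u) (sc x a₀ K) := by
  obtain ⟨h0, hh, H, ⟨h1, h2, h3, h4⟩, h5, h6⟩ := h
  have hn : 0 < ‖a₀‖ := norm_pos_iff.2 ha
  have hs : 0 < √‖a₀‖ := Real.sqrt_pos.2 hn
  refine ⟨by positivity, fun z => ‖a₀‖ * √‖a₀‖ * hh (x + a₀ * z), ‖a₀‖ * √‖a₀‖ * H,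
    ⟨scale_pre h1 x ha, ?_, fun z => ?_, scale_el h1.2.1 h4 x ha⟩, ?_, fun z hz => ?_⟩
  · exact (h2.comp (scale_cont x a₀).measurable).const_mul _
  · rw [abs_mul, abs_of_pos (mul_pos hn hs)]
    exact mul_le_mul_of_nonneg_left (h3 _) (mul_pos hn hs).le
  · rw [mul_pow, mul_pow, mul_pow, Real.sq_sqrt hn.le, ← pow_succ]
    exact mul_le_mul_of_nonneg_left h5 (by positivity)
  · have h7 := mul_le_mul_of_nonneg_left (h6 _ hz) hn.le
    refine le_trans (le_of_eq ?_) h7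
    simp only [su]
    rw [abs_div, abs_of_pos hs]
    field_simp

theorem scale_comp (x : ℂ) (ha : a₀ ≠ 0)
    (h : Comp Ω u K π₀ (x + a₀ * y) (‖a₀‖ * r) w L π₁) :
    Comp (sc x a₀ Ω) (su x a₀ u) (sc x a₀ K) (fun z => π₀ (x + a₀ * z)) y r (su x a₀ w)
      (sc x a₀ L) (fun z => π₁ (x + a₀ * z)) := by
  obtain ⟨h1, h2, h3, h4, h5⟩ := h
  refine ⟨h1.preimage (scale_cont x a₀), scale_lip h2 x a₀,
    h3.precomp (scale_cont x a₀).continuousOn fun z hz => hz, fun z hz => ?_, fun z hz hz' => ?_⟩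
  · rw [← sc_closedBall ha x] at hz
    exact h4 _ hz
  · rw [← sc_closedBall ha x] at hz'
    obtain ⟨h6, h7⟩ := h5 _ hz hz'
    exact ⟨by simp only [su, h6], h7⟩

theorem scale_En (ha : a₀ ≠ 0) (x : ℂ) (u : ℂ → ℝ) (K S : Set ℂ) :
    En u K S = ENNReal.ofReal ‖a₀‖ * En (su x a₀ u) (sc x a₀ K) (sc x a₀ S) := by
  rw [En, En, Dn_sc ha x, len_sc ha x, mul_add]
  rfl

theorem MM.scale (h : MM Ω lam u K π₀) (x : ℂ) (ha : a₀ ≠ 0) :
    MM (sc x a₀ Ω) (‖a₀‖ * lam) (su x a₀ u) (sc x a₀ K) (fun z => π₀ (x + a₀ * z)) := by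
  obtain ⟨h1, h2, h3, h4⟩ := h
  have hn : 0 < ‖a₀‖ := norm_pos_iff.2 ha
  refine ⟨scale_np h1 x ha, h2.precomp (scale_cont x a₀).continuousOn fun z hz => hz,
    fun y hy hy' r hr => ?_, fun c r w L π₁ hr hb hc => ?_⟩
  · have h5 := h3 _ hy hy' _ (mul_pos hn hr)
    rw [len_sc ha x] at h5
    have h6 := (ENNReal.mul_pos_iff.1 h5).2
    rwa [← sc_ball ha x y r]
  · have e1 : c = -x / a₀ + a₀⁻¹ * (x + a₀ * c) := (scale_inv ha x c).symm
    have e2 : r = ‖a₀⁻¹‖ * (‖a₀‖ * r) := by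
      rw [norm_inv]
      field_simp
    rw [e1, e2] at hc
    have h5 := scale_comp (-x / a₀) (inv_ne_zero ha) hc
    simp only [scale_sc_inv' ha, scale_su_inv' ha, scale_inv' ha] at h5
    have h6 := h4 _ _ _ _ _ (mul_pos hn hr) (scale_ball_sub ha x hb) h5
    rw [scale_En ha x, scale_En ha x (su (-x / a₀) a₀⁻¹ w), sc_closedBall ha, scale_su_inv ha,
      scale_sc_inv ha, show lam * (‖a₀‖ * r) ^ 2 = ‖a₀‖ * (‖a₀‖ * lam * r ^ 2) by ring,
      ENNReal.ofReal_mul hn.le, ← mul_add] at h6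
    exact (ENNReal.mul_le_mul_iff_right (scale_ne ha) ENNReal.ofReal_ne_top).1 h6

/-- Blow-up or blow-down sequences are admissible for compactness. -/
theorem sq_scale {Ω : ℕ → Set ℂ} {lam : ℕ → ℝ} {u : ℕ → ℂ → ℝ} {K : ℕ → Set ℂ}
    {π₀ : ℕ → ℂ → Set ℂ} (h : ∀ j, MM (Ω j) (lam j) (u j) (K j) (π₀ j)) {x : ℕ → ℂ}
    {r T : ℕ → ℝ} (hr : ∀ j, 0 < r j) (hT : Tendsto T atTop atTop)
    (hb : ∀ᶠ j in atTop, closedBall (x j) (T j * r j) ⊆ Ω j)
    (hl : Tendsto (fun j => lam j * r j) atTop (𝓝 0)) :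
    Sq (fun j => sc (x j) (r j) (Ω j)) (fun j => ‖(r j : ℂ)‖ * lam j)
      (fun j => su (x j) (r j) (u j)) (fun j => sc (x j) (r j) (K j))
      (fun j z => π₀ j (x j + r j * z)) := by
  refine ⟨fun j => (h j).scale (x j) (by exact_mod_cast (hr j).ne'), fun R => ?_, ?_⟩
  · filter_upwards [hb, hT.eventually_ge_atTop R] with j hj hR z hz
    refine hj ?_
    rw [mem_closedBall_zero_iff] at hz
    rw [mem_closedBall, dist_eq_norm, add_sub_cancel_left, norm_mul, Complex.norm_real,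
      Real.norm_eq_abs, abs_of_pos (hr j), mul_comm]
    exact mul_le_mul_of_nonneg_right (hz.trans hR) (hr j).le
  · refine hl.congr fun j => ?_
    rw [Complex.norm_real, Real.norm_eq_abs, abs_of_pos (hr j), mul_comm]

end Vale.Agent.P128
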