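import Vale.Agent.P128.G2h
import Vale.Agent.P128.Cpt
import Vale.Agent.P128.Scale

/-!
# P128 G2c

Blow-down. `Lr K y s / s` is nondecreasing (`FM.mono`, `flat_FM`) and bounded (`ub8`), with limit `l`
at infinity. Blow down by `r_j = j + 1` around `y` (`sq_scale`, `cpt`); the limit is flat (`gK_zero`),
contains `0` (`HC.mem`) and has `Lr K₀ 0 s = l s` (use both bounds in `Cv` and `Lc_le_Lr`); `FM.hom`.
-/

namespace Vale.Agent.P128

open Set Metric MeasureTheory Filter Topology Complex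
open scoped ENNReal ContDiff RealInnerProductSpace Gradient Real ComplexConjugate

variable {Ω K L A S T U O X Γ P M₀ K₀ K₁ : Set ℂ} {u v w g hh ψ η : ℂ → ℝ} {G : ℂ → ℂ}
  {π₀ π₁ : ℂ → Set ℂ} {x y z c p q e a₀ F : ℂ} {lam H r s R a b t M Θ ρ ε δ d : ℝ} {n : ℕ}

theorem cv_len {u : ℕ → ℂ → ℝ} {K : ℕ → Set ℂ} {u₀ : ℂ → ℝ} {l : ℝ} (h : Cv u K u₀ K₀)
    (hf : ∀ r, μH[1] (K₀ ∩ closedBall 0 r) ≠ ⊤)
    (hl : ∀ s, 0 < s → Tendsto (fun j => Lr (K j) 0 s) atTop (𝓝 (l * s))) (hs : 0 < s) :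
    Lr K₀ 0 s = l * s := by
  refine le_antisymm (le_of_forall_pos_le_add fun ε hε => ?_) ?_
  · linarith [ge_of_tendsto (hl s hs) ((h.2.2 0 s ε hε).mono fun j hj => hj.1)]
  · have h1 : Tendsto (fun r => l * r) (𝓝[<] s) (𝓝 (l * s)) :=
      ((continuous_const.mul continuous_id).tendsto s).mono_left nhdsWithin_le_nhds
    refine le_of_tendsto h1 ?_
    filter_upwards [Ioo_mem_nhdsLT hs] with r hr
    refine le_trans (le_of_forall_pos_le_add fun ε hε => ?_)
      (Lc_le_Lr (hf s) (closedBall_subset_ball hr.2))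
    exact le_of_tendsto (hl r hr.1) ((h.2.2 0 r ε hε).mono fun j hj => hj.2)

theorem flat_le3 (h : MM univ 0 u K π₀) (h0 : ∀ z, gK K u z = 0) (hy : y ∈ K) (hs : 0 < s) :
    Lr K y s ≤ 3 * s := by
  have hF := flat_FM h h0
  have hp : ∀ t, 0 < max t s := fun t => lt_max_of_lt_right hs
  have hm : Monotone fun t => Lr K y (max t s) / max t s := fun a b hab =>
    hF.mono y (hp a) (max_le_max_right s hab)
  have hb : BddAbove (range fun t => Lr K y (max t s) / max t s) := ⟨8, by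
    rintro _ ⟨t, rfl⟩
    have h1 := ub8 (x := y) h (hp t) (subset_univ _) (by simp)
    exact (div_le_iff₀ (hp t)).2 (by linarith [Dr_nonneg u K y (max t s)])⟩
  have hl := tendsto_atTop_ciSup hm hb
  have h1 := le_ciSup hb s
  generalize (⨆ t, Lr K y (max t s) / max t s) = l at hl h1
  simp only [max_self] at h1
  have hr : ∀ j : ℕ, (0 : ℝ) < j + 1 := fun j => Nat.cast_add_one_pos j
  have hr' : ∀ j : ℕ, (((j : ℝ) + 1 : ℝ) : ℂ) ≠ 0 := fun j => ofReal_ne_zero.2 (hr j).ne'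
  obtain ⟨φ, hφ, u₀, K₀, h2, h3⟩ := cpt (sq_scale (fun _ => h) (x := fun _ => y)
    (r := fun j => j + 1) hr tendsto_natCast_atTop_atTop
    (Eventually.of_forall fun _ => subset_univ _) (by simp))
  have h4 : ∀ z, gK K₀ u₀ z = 0 := gK_zero (x := 0) h2.pre fun r _ => by
    refine tendsto_nhds_unique (h3.2.1 0 r) (tendsto_const_nhds.congr fun j => ?_)
    rw [Dr_scale (hr' _)]
    simp [Dr, Dn, h0]
  have h5 : (0 : ℂ) ∈ K₀ := h3.1.mem h2.pre.2.1 (y := fun _ => 0)
    (Eventually.of_forall fun j => by simpa [sc] using hy) tendsto_const_nhds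
  have h6 := (flat_FM h2 h4).hom (l := l) h5 fun t ht => by
    refine cv_len h3 (fun r => (h2.pre.2.2.2 0 r (subset_univ _)).2) (fun t ht => ?_) ht
    have h7 : Tendsto (fun j => ((φ j : ℝ) + 1) * t) atTop atTop :=
      (tendsto_atTop_add_const_right _ _
        (tendsto_natCast_atTop_atTop.comp hφ.tendsto_atTop)).atTop_mul_const ht
    refine ((hl.comp h7).mul_const t).congr' ?_
    filter_upwards [h7.eventually_ge_atTop s] with j hj
    rw [Lr_scale (hr' _), Function.comp_apply, max_eq_left hj, mul_zero, add_zero, norm_real,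
      Real.norm_of_nonneg (hr _).le]
    have := hr (φ j)
    field_simp
  rw [div_le_iff₀ hs] at h1
  rcases h6.1 with rfl | rfl <;> linarith

end Vale.Agent.P128
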