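import Vale.Agent.P128.G2l
import Vale.Agent.P128.Eil

/-!
# P128 G2r

Rigidity. `FM.lens`: if `K ∩ ball y s` misses `sphere p t`, then `K` misses the closed arc
`sphere p t ∩ closedBall y s` (its ends are not in `K`). With `e = (p - y)/s` use polar coordinates at `p`:
`p - ρ e ex ψ` is in the closed ball iff `cos ψ ≥ ρ/(2s)`; the two curves `ρ ↦ p - ρ e ex (± arccos (ρ/(2s)))`,
`0 < ρ ≤ t`, and the arc `ρ = t` form a connected set off `K`, so `σ` is constant on the circle near `p`.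
Then `FM.apex` with `T` minus `p` gives `Lr ≤ (Nn - 1) s`.
`FM.rigid`: for `0 < t ≤ τ` the sets `ball y (s - t)` and `ball p t ∩ ball y s`, `p ∈ T`, are disjoint and carry
length `≥ n (s - t) + n t` (`eil_low`), which is everything; by reducedness every `z ∈ K ∩ ball y s` lies in
the union of the closed balls. Let `s - t ↑ ‖z - y‖`: `‖z - y‖ + ‖z - p‖ ≤ s` for some `p`
(`dist_add_dist_eq_iff` in a strictly convex space).
-/

namespace Vale.Agent.P128

open Set Metric MeasureTheory Filter Topology Complex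
open scoped ENNReal ContDiff RealInnerProductSpace Gradient Real ComplexConjugate

variable {Ω K L A S T U O X Γ P M₀ K₀ K₁ : Set ℂ} {u v w g hh ψ η : ℂ → ℝ} {G : ℂ → ℂ}
  {π₀ π₁ : ℂ → Set ℂ} {x y z c p q e a₀ F : ℂ} {lam H r s R a b t M Θ ρ ε δ d : ℝ} {n : ℕ}

theorem g2r_len {β : Type} {σ : ℂ → β} {τ : ℝ} (h : FM K σ) (hf : (K ∩ sphere y s).Finite)
    (hτs : τ ≤ s) (hsep : ∀ p ∈ K ∩ sphere y s, ∀ q ∈ K ∩ sphere y s, p ≠ q → 2 * τ ≤ ‖p - q‖)
    (hL : (Nn K y s - 1) * s < Lr K y s) (hp : p ∈ K ∩ sphere y s) (ht : t ≤ τ) :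
    ENNReal.ofReal t ≤ μH[1] ((ball p t ∩ ball y s) ∩ K) := by
  have h1 := eil_low (n := 1) (K ∩ ball y s) (LipschitzWith.dist_left p) (J := Ioo 0 t)
    measurableSet_Ioo fun ρ hρ => by
      obtain ⟨z, hz, e⟩ := h.lens hf hp hρ.1 (by linarith [hρ.2])
        (fun q hq hqp => by linarith [hsep q hq p hp hqp, hρ.1, hρ.2]) hL
      exact one_le_encard_iff_nonempty.2 ⟨z, hz, (dist_eq_norm z p).trans e⟩
  rw [Real.volume_Ioo, sub_zero, Nat.cast_one, one_mul] at h1
  exact h1.trans (measure_mono fun z hz => ⟨⟨hz.2.2, hz.1.2⟩, hz.1.1⟩)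

theorem g2r_cover {β : Type} {σ : ℂ → β} {τ : ℝ} (h : FM K σ) (hf : (K ∩ sphere y s).Finite)
    (hn : Nn K y s = n) (hτs : τ ≤ s)
    (hsep : ∀ p ∈ K ∩ sphere y s, ∀ q ∈ K ∩ sphere y s, p ≠ q → 2 * τ ≤ ‖p - q‖)
    (hU : Lr K y s ≤ n * s) (hL : ∀ t, 0 < t → t ≤ s → n * t ≤ Lr K y t) (ht0 : 0 < t)
    (ht : t ≤ τ) (hz : z ∈ K) (h1 : s - t < ‖z - y‖) (h2 : ‖z - y‖ < s) :
    ∃ p ∈ K ∩ sphere y s, ‖z - p‖ ≤ t := by
  by_contra hc
  have hs : 0 < s := by linarith
  have hL' : (Nn K y s - 1) * s < Lr K y s := by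
    have := hL s hs le_rfl
    rw [hn]
    linarith
  have hcl : IsClosed (closedBall y (s - t) ∪ ⋃ p ∈ hf.toFinset, closedBall p t) :=
    isClosed_closedBall.union (isClosed_biUnion_finset fun _ _ => isClosed_closedBall)
  have hz' : z ∈ ball y s ∩ (closedBall y (s - t) ∪ ⋃ p ∈ hf.toFinset, closedBall p t)ᶜ := by
    refine ⟨mem_ball_iff_norm.2 h2, ?_⟩
    rintro (h3 | h3)
    · exact h1.not_ge (mem_closedBall_iff_norm.1 h3)
    · obtain ⟨p, hp, h4⟩ := mem_iUnion₂.1 h3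
      exact hc ⟨p, hf.mem_toFinset.1 hp, mem_closedBall_iff_norm.1 h4⟩
  obtain ⟨δ, hδ, hb⟩ := Metric.isOpen_iff.1 (isOpen_ball.inter hcl.isOpen_compl) z hz'
  obtain ⟨ν, hν⟩ : ∃ ν : Measure ℂ, ∀ B, ν B = μH[1] (B ∩ K) :=
    ⟨(μH[1] : Measure ℂ).restrict K, fun B => Measure.restrict_apply' h.1.measurableSet⟩
  have hfin : ∀ r, ν (ball y r) ≠ ⊤ := fun r => by
    rw [hν, inter_comm]
    exact ne_top_of_le_ne_top (h.2.1 y r)
      (measure_mono (inter_subset_inter_right _ ball_subset_closedBall))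
  have hLr : ∀ r, ν (ball y r) = ENNReal.ofReal (Lr K y r) := fun r => by
    rw [Lr, inter_comm, ← hν, ENNReal.ofReal_toReal (hfin r)]
  have hm : ∀ p ∈ hf.toFinset, MeasurableSet (ball p t ∩ ball y s) := fun _ _ =>
    measurableSet_ball.inter measurableSet_ball
  have d1 : (hf.toFinset : Set ℂ).PairwiseDisjoint fun p => ball p t ∩ ball y s := by
    intro p hp q hq hpq
    have h3 := hsep p (hf.mem_toFinset.1 hp) q (hf.mem_toFinset.1 hq) hpq
    exact (ball_disjoint_ball (by rw [dist_eq_norm]; linarith)).mono inter_subset_left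
      inter_subset_left
  have d2 : Disjoint (ball y (s - t)) (⋃ p ∈ hf.toFinset, ball p t ∩ ball y s) := by
    refine disjoint_iUnion₂_right.2 fun p hp => ?_
    have h3 : dist p y = s := (hf.mem_toFinset.1 hp).2
    exact (ball_disjoint_ball (by rw [dist_comm]; linarith)).mono_right inter_subset_left
  have d3 : Disjoint (ball y (s - t) ∪ ⋃ p ∈ hf.toFinset, ball p t ∩ ball y s) (ball z δ) := by
    refine disjoint_right.2 fun w hw h3 => (hb hw).2 (h3.imp (fun h4 => ball_subset_closedBall h4)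
      fun h4 => ?_)
    obtain ⟨p, hp, h5⟩ := mem_iUnion₂.1 h4
    exact mem_iUnion₂.2 ⟨p, hp, ball_subset_closedBall h5.1⟩
  have hsub : (ball y (s - t) ∪ ⋃ p ∈ hf.toFinset, ball p t ∩ ball y s) ∪ ball z δ ⊆ ball y s :=
    union_subset (union_subset (ball_subset_ball (by linarith))
      (iUnion₂_subset fun _ _ => inter_subset_right)) fun w hw => (hb hw).1
  have h3 := measure_mono (μ := ν) hsub
  rw [measure_union d3 measurableSet_ball, measure_union d2 (Finset.measurableSet_biUnion _ hm),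
    measure_biUnion_finset d1 hm, hLr, hLr] at h3
  have h4 : ENNReal.ofReal (n * t) ≤ ∑ p ∈ hf.toFinset, ν (ball p t ∩ ball y s) := by
    rw [ENNReal.ofReal_mul (Nat.cast_nonneg n), ENNReal.ofReal_natCast, ← hn, Nn,
      ncard_eq_toFinset_card _ hf, ← nsmul_eq_mul]
    refine Finset.card_nsmul_le_sum _ _ _ fun p hp => ?_
    rw [hν]
    exact g2r_len h hf hτs hsep hL' (hf.mem_toFinset.1 hp) ht
  have h5 : n * (s - t) ≤ Lr K y (s - t) := by
    rcases (show 0 ≤ s - t by linarith).eq_or_lt with h6 | h6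
    · rw [← h6, mul_zero]
      exact Lr_nonneg _ _ _
    · exact hL _ h6 (by linarith)
  have h6 : 0 < ν (ball z δ) := by
    rw [hν, inter_comm]
    exact h.2.2.2.1 z hz δ hδ
  have h7 : ENNReal.ofReal (n * s) + ν (ball z δ) ≤ ENNReal.ofReal (n * s) := by
    refine le_trans (add_le_add_left ?_ _) (h3.trans (ENNReal.ofReal_le_ofReal hU))
    rw [show (n : ℝ) * s = n * (s - t) + n * t by ring,
      ENNReal.ofReal_add (mul_nonneg (Nat.cast_nonneg n) (by linarith)) (by positivity)]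
    exact add_le_add (ENNReal.ofReal_le_ofReal h5) h4
  exact (ENNReal.lt_add_right ENNReal.ofReal_ne_top h6.ne').not_ge h7

theorem FM.rigid {β : Type} {σ : ℂ → β} {τ : ℝ} (h : FM K σ) (hf : (K ∩ sphere y s).Finite)
    (hn : Nn K y s = n) (hn0 : 0 < n) (hτ : 0 < τ) (hτs : τ ≤ s)
    (hsep : ∀ p ∈ K ∩ sphere y s, ∀ q ∈ K ∩ sphere y s, p ≠ q → 2 * τ ≤ ‖p - q‖)
    (hU : Lr K y s ≤ n * s) (hL : ∀ t, 0 < t → t ≤ s → n * t ≤ Lr K y t) :
    ∀ z ∈ K, s - τ < ‖z - y‖ → ‖z - y‖ < s → ∃ p ∈ K ∩ sphere y s, z ∈ segment ℝ y p := by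
  intro z hz h1 h2
  have hne : (K ∩ sphere y s).Nonempty := nonempty_of_ncard_ne_zero (by
    have h3 : (K ∩ sphere y s).ncard = n := hn
    omega)
  obtain ⟨p, hp, hmin⟩ := exists_min_image _ (fun p => ‖z - p‖) hf hne
  refine ⟨p, hp, mem_segment_iff_wbtw.2 (dist_add_dist_eq_iff.1 (le_antisymm ?_
    (dist_triangle _ _ _)))⟩
  have h3 : dist p y = s := hp.2
  have h4 : ‖z - p‖ ≤ s - ‖z - y‖ := le_of_forall_gt_imp_ge_of_dense fun t ht => by
    obtain ⟨q, hq, h5⟩ := g2r_cover (t := min t τ) h hf hn hτs hsep hU hL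
      (lt_min (by linarith) hτ) (min_le_right _ _) hz
      (by rcases min_choice t τ with e | e <;> rw [e] <;> linarith) h2
    exact (hmin q hq).trans (h5.trans (min_le_left _ _))
  rw [dist_comm y z, dist_comm y p, h3, dist_eq_norm, dist_eq_norm]
  linarith

end Vale.Agent.P128
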