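import Vale.Agent.P128.G2b
import Vale.Agent.P128.G2r
import Vale.Agent.P128.Star

/-!
# P128 G2q

Classification. `prop_case`: for a.e. `s` there are three points with pairwise inner products
`≤ -s²/2` (`FM.hom`, `FM.step`), so they are `y + s dir 3 e k` (`three_dir`); `FM.rigid` with
`τ = √3 s/2` puts `K` in the annulus `((1 - √3/2) s, s)` inside `star 3 y e`; overlapping annuli share a good
radius, so the star does not depend on `s` (`star_three_rot`); conversely the star is in `K` by density.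
`seg_case`: if `Lr K y s < 3 s` some radius `s' ≤ s` has exactly two points (`FM.two`, `eil_low`); `FM.apex`
at the midpoint and `Lr ≥ 2 s'` show they are antipodal; `FM.rigid` with `τ = s'`; each smaller circle has two
points, so `K` is a diameter. `FM.cls`: if every point is of the second kind, the set of `t` with
`y + t e ∈ K` is open and closed, so `K` contains the line through each of its points; two different lines
have length `> 3 s` in a large ball.
-/

namespace Vale.Agent.P128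

open Set Metric MeasureTheory Filter Topology Complex
open scoped ENNReal ContDiff RealInnerProductSpace Gradient Real ComplexConjugate

variable {Ω K L A S T U O X Γ P M₀ K₀ K₁ : Set ℂ} {u v w g hh ψ η : ℂ → ℝ} {G : ℂ → ℂ}
  {π₀ π₁ : ℂ → Set ℂ} {x y z c p q e a₀ F : ℂ} {lam H r s R a b t M Θ ρ ε δ d : ℝ} {n : ℕ}

theorem g2q_low {β : Type} {σ : ℂ → β} (h : FM K σ) (hy : y ∈ K) (ht : 0 < t) :
    ((2 : ℕ) : ℝ) * t ≤ Lr K y t := by
  have h1 := Lr_low (n := 2) (h.2.1 y t) h.1 le_rfl ht.le le_rfl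
    (fun s hs => by simpa using h.two hy hs.1)
  have h2 := Lr_nonneg K y 0
  rw [sub_zero] at h1
  linarith

theorem g2q_radius {β : Type} {σ : ℂ → β} (h : FM K σ) (hy : y ∈ K) (hs : 0 < s)
    (hL : Lr K y s < 3 * s) : ∃ r, 0 < r ∧ ∃ p q, p ≠ q ∧ K ∩ sphere y r = {p, q} := by
  by_contra hc
  have h3 : ∀ r ∈ Ioo 0 s, ((3 : ℕ) : ℕ∞) ≤ (K ∩ sphere y r).encard := by
    intro r hr
    have h2 := h.two hy hr.1
    rcases h2.eq_or_lt with h4 | h4
    · exact absurd ⟨r, hr.1, encard_eq_two.1 h4.symm⟩ hc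
    · exact Order.add_one_le_of_lt h4
  have h1 := Lr_low (n := 3) (h.2.1 y s) h.1 le_rfl hs.le le_rfl h3
  have h2 := Lr_nonneg K y 0
  rw [sub_zero] at h1
  push_cast at h1
  linarith

theorem g2q_par (hp : ‖p - y‖ = r) (hq : ‖q - y‖ = r) :
    ‖(p - y) + (q - y)‖ ^ 2 + ‖p - q‖ ^ 2 = 4 * r ^ 2 := by
  have h := parallelogram_law_with_norm ℝ (p - y) (q - y)
  rw [hp, hq, sub_sub_sub_cancel_right] at h
  nlinarith

theorem g2q_far {β : Type} {σ : ℂ → β} (h : FM K σ) (hy : y ∈ K) (hr : 0 < r) (hpq : p ≠ q)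
    (hK : K ∩ sphere y r = {p, q}) : 2 * r ≤ ‖p - q‖ := by
  classical
  have hf : (K ∩ sphere y r).Finite := by rw [hK]; exact toFinite _
  have hp : p ∈ K ∩ sphere y r := by rw [hK]; simp
  have hq : q ∈ K ∩ sphere y r := by rw [hK]; simp
  have hp' := mem_sphere_iff_norm.1 hp.2
  have hq' := mem_sphere_iff_norm.1 hq.2
  have hpar := g2q_par hp' hq'
  have hpos : 0 < ‖p - q‖ := norm_pos_iff.2 (sub_ne_zero.2 hpq)
  have hF : (p + q) / 2 ∈ ball y r := by
    rw [mem_ball_iff_norm]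
    have e1 : (p + q) / 2 - y = ((p - y) + (q - y)) / 2 := by ring
    rw [e1, norm_div, Complex.norm_two, div_lt_iff₀ two_pos]
    refine lt_of_pow_lt_pow_left₀ 2 (by positivity) ?_
    nlinarith
  have h1 := h.apex hF inter_subset_right hf
    (h.2.2.1.mono fun z hz h' => hz.2 ⟨h', hz.1⟩) (fun _ _ _ => rfl) hf
  have e2 : hf.toFinset = {p, q} := by
    ext z
    rw [hf.mem_toFinset, hK]
    simp
  rw [e2, Finset.sum_pair hpq] at h1
  have e3 : p - (p + q) / 2 = (p - q) / 2 := by ring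
  have e4 : q - (p + q) / 2 = -((p - q) / 2) := by ring
  rw [e3, e4, norm_neg, norm_div, Complex.norm_two] at h1
  have h2 := g2q_low h hy hr
  push_cast at h2
  linarith

theorem g2q_seg (hz : z ∈ segment ℝ y p) (he : ‖e‖ = 1) (hr : 0 ≤ r) (hp : p = y + r * e) :
    z = y + (‖z - y‖ : ℝ) * e := by
  obtain ⟨a, b, ha, hb, hab, rfl⟩ := hz
  have e1 : a • y + b • p - y = ((b * r : ℝ) : ℂ) * e := by
    have ha' : a = 1 - b := by linarith
    rw [hp, ha']
    simp only [Complex.real_smul]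
    push_cast
    ring
  have e2 : ‖a • y + b • p - y‖ = b * r := by
    rw [e1, norm_mul, he, mul_one, Complex.norm_real, Real.norm_of_nonneg (mul_nonneg hb hr)]
  rw [e2, ← e1]
  ring

theorem seg_case {β : Type} {σ : ℂ → β} (h : FM K σ) (hy : y ∈ K) (hs : 0 < s)
    (hL : Lr K y s < 3 * s) :
    ∃ e r, ‖e‖ = 1 ∧ 0 < r ∧ K ∩ ball y r = star 2 y e ∩ ball y r := by
  obtain ⟨r, hr, p, q, hpq, hK⟩ := g2q_radius h hy hs hL
  have hfar := g2q_far h hy hr hpq hK
  have hf : (K ∩ sphere y r).Finite := by rw [hK]; exact toFinite _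
  have hp : p ∈ K ∩ sphere y r := by rw [hK]; simp
  have hq : q ∈ K ∩ sphere y r := by rw [hK]; simp
  have hp' := mem_sphere_iff_norm.1 hp.2
  have hq' := mem_sphere_iff_norm.1 hq.2
  have hpar := g2q_par hp' hq'
  have h0 : (p - y) + (q - y) = 0 := by
    have h1 : ‖(p - y) + (q - y)‖ ^ 2 ≤ 0 := by nlinarith
    exact norm_eq_zero.1 (pow_eq_zero_iff two_ne_zero |>.1 (le_antisymm h1 (sq_nonneg _)))
  have hN : Nn K y r = 2 := by rw [Nn, hK, ncard_pair hpq]
  have hU : Lr K y r ≤ ((2 : ℕ) : ℝ) * r := by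
    have h1 := h.cone (x := y) hr hf
    rwa [hN] at h1
  have hsep : ∀ a ∈ K ∩ sphere y r, ∀ b ∈ K ∩ sphere y r, a ≠ b → 2 * r ≤ ‖a - b‖ := by
    intro a ha b hb hab
    rw [hK] at ha hb
    rcases ha with rfl | rfl <;> rcases hb with rfl | rfl
    · exact absurd rfl hab
    · exact hfar
    · rwa [norm_sub_rev]
    · exact absurd rfl hab
  have hrig := h.rigid hf hN two_pos hr le_rfl hsep hU fun t ht _ => g2q_low h hy ht
  have hr' : (r : ℂ) ≠ 0 := Complex.ofReal_ne_zero.2 hr.ne'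
  obtain ⟨e, hpe⟩ : ∃ e : ℂ, p = y + r * e := ⟨(p - y) / r, by field_simp; ring⟩
  have he : ‖e‖ = 1 := by
    rw [hpe, add_sub_cancel_left, norm_mul, Complex.norm_real, Real.norm_of_nonneg hr.le] at hp'
    exact mul_left_cancel₀ hr.ne' (by rw [hp', mul_one])
  have hqe : q = y + r * (-e) := by
    rw [hpe] at h0
    linear_combination h0
  have key : ∀ z ∈ K, 0 < ‖z - y‖ → ‖z - y‖ < r →
      z = y + (‖z - y‖ : ℝ) * e ∨ z = y + (‖z - y‖ : ℝ) * (-e) := by
    intro z hz h1 h2
    obtain ⟨a, ha, hza⟩ := hrig z hz (by rwa [sub_self]) h2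
    rw [hK] at ha
    rcases ha with rfl | rfl
    · exact Or.inl (g2q_seg hza he hr.le hpe)
    · exact Or.inr (g2q_seg hza (by rw [norm_neg, he]) hr.le hqe)
  refine ⟨e, r, he, hr, ?_⟩
  rw [star_two]
  ext z
  constructor
  · rintro ⟨hz, hzb⟩
    refine ⟨?_, hzb⟩
    rcases (norm_nonneg (z - y)).eq_or_lt with h1 | h1
    · exact ⟨0, by rw [sub_eq_zero.1 (norm_eq_zero.1 h1.symm)]; simp⟩
    · rcases key z hz h1 (mem_ball_iff_norm.1 hzb) with h2 | h2
      · exact ⟨_, h2⟩
      · exact ⟨-‖z - y‖, by rw [Complex.ofReal_neg, neg_mul, ← mul_neg]; exact h2⟩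
  · rintro ⟨⟨t, hzt⟩, hzb⟩
    refine ⟨?_, hzb⟩
    have hn : ‖z - y‖ = |t| := by
      rw [hzt, add_sub_cancel_left, norm_mul, he, mul_one, Complex.norm_real, Real.norm_eq_abs]
    rcases (norm_nonneg (z - y)).eq_or_lt with h1 | h1
    · rwa [sub_eq_zero.1 (norm_eq_zero.1 h1.symm)]
    · by_contra hzK
      have h2 := h.two hy h1
      have hsub : K ∩ sphere y ‖z - y‖ ⊆ {y - t * e} := by
        rintro w ⟨hw, hws⟩
        have hw' := mem_sphere_iff_norm.1 hws
        have hne : w ≠ y + t * e := fun h' => hzK (by rw [hzt, ← h']; exact hw)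
        have h3 := key w hw (by rwa [hw']) (by rw [hw']; exact mem_ball_iff_norm.1 hzb)
        rw [hw', hn] at h3
        rw [mem_singleton_iff]
        rcases abs_choice t with h4 | h4 <;> rw [h4] at h3 <;> rcases h3 with h3 | h3
        · exact absurd h3 hne
        · rw [h3]; ring
        · rw [h3]; push_cast; ring
        · exact absurd (by rw [h3]; push_cast; ring) hne
      have h5 := h2.trans (encard_le_encard hsub)
      rw [encard_singleton] at h5
      exact absurd h5 (by decide)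

end Vale.Agent.P128
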