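import Vale.Agent.P128.G2p
import Vale.Agent.P128.G2q

/-!
# P128 G2d

Classification. `prop_case`: for a.e. `s` there are three points with pairwise inner products
`≤ -s²/2` (`FM.hom`, `FM.step`), so they are `y + s dir 3 e k` (`three_dir`); `FM.rigid` with
`τ = √3 s/2` puts `K` in the annulus `((1 - √3/2) s, s)` inside `star 3 y e`; overlapping annuli share a good
radius, so the star does not depend on `s` (`star_three_rot`); conversely the star is in `K` by density.
`seg_case`: if `Lr K y s < 3 s` some radius `s' ≤ s` has exactly two points (`FM.two`, `eil_low`); `FM.apex`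
at the midpoint and `Lr ≥ 2 s'` show they are antipodal; `FM.rigid` with `τ = s'`; each smaller circle has two
points, so `K` is a diameter. `FM.cls`: if every point is of the second kind, the set of `t` with
`y + t e ∈ K` is open and closed, so `K` contains the line through each of its points; two different lines
have length `> 3 s` in a large ball.
-/

namespace Vale.Agent.P128

open Set Metric MeasureTheory Filter Topology Complex
open scoped ENNReal ContDiff RealInnerProductSpace Gradient Real ComplexConjugate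

variable {Ω K L A S T U O X Γ P M₀ K₀ K₁ : Set ℂ} {u v w g hh ψ η : ℂ → ℝ} {G : ℂ → ℂ}
  {π₀ π₁ : ℂ → Set ℂ} {x y z c p q e a₀ F : ℂ} {lam H r s R a b t M Θ ρ ε δ d : ℝ} {n : ℕ}

theorem g2d_line (hK : IsClosed K)
    (h : ∀ y ∈ K, ∃ e r, ‖e‖ = 1 ∧ 0 < r ∧ K ∩ ball y r = star 2 y e ∩ ball y r)
    (he : ‖e‖ = 1) (hr : 0 < r) (hy : K ∩ ball y r = star 2 y e ∩ ball y r) :
    star 2 y e ⊆ K := by
  have hc : Continuous fun t : ℝ => y + t * e := by fun_prop
  have key : ∀ (z e' : ℂ) (r' t k : ℝ), 0 < r' → K ∩ ball z r' = star 2 z e' ∩ ball z r' →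
      z = y + t * e → e = k * e' → t ∈ interior {t : ℝ | y + t * e ∈ K} := by
    intro z e' r' t k hr' hz hzt hk
    rw [mem_interior_iff_mem_nhds]
    filter_upwards [ball_mem_nhds t hr'] with t' ht'
    have h1 : y + t' * e ∈ star 2 z e' ∩ ball z r' := by
      constructor
      · rw [star_two]
        refine ⟨(t' - t) * k, ?_⟩
        rw [hzt]
        push_cast
        rw [mul_assoc, ← hk]
        ring
      · rw [mem_ball, dist_eq_norm, hzt,
          show y + t' * e - (y + t * e) = ((t' - t : ℝ) : ℂ) * e by push_cast; ring,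
          norm_mul, he, mul_one, Complex.norm_real]
        exact ht'
    rw [← hz] at h1
    exact h1.1
  have hcl : IsClosed (interior {t : ℝ | y + t * e ∈ K}) := by
    rw [← closure_subset_iff_isClosed]
    intro t ht
    have hz : y + t * e ∈ K :=
      (hK.preimage hc).closure_subset (closure_mono interior_subset ht)
    obtain ⟨e', r', he', hr', hz'⟩ := h _ hz
    obtain ⟨t₁, ht₁, ht₂⟩ := mem_closure_iff.1 ht (ball t r') isOpen_ball (mem_ball_self hr')
    by_cases htt : t₁ = t
    · rwa [htt] at ht₂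
    have h1 : y + t₁ * e ∈ K ∩ ball (y + t * e) r' := by
      refine ⟨interior_subset (s := {t : ℝ | y + t * e ∈ K}) ht₂, ?_⟩
      rw [mem_ball, dist_eq_norm,
        show y + t₁ * e - (y + t * e) = ((t₁ - t : ℝ) : ℂ) * e by push_cast; ring,
        norm_mul, he, mul_one, Complex.norm_real]
      exact ht₁
    rw [hz', star_two] at h1
    obtain ⟨⟨a, ha⟩, -⟩ := h1
    refine key _ e' r' t (a / (t₁ - t)) hr' hz' rfl ?_
    have h2 : ((t₁ : ℂ) - t) ≠ 0 := by
      rw [sub_ne_zero]
      exact_mod_cast htt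
    push_cast
    field_simp
    linear_combination ha
  have hu := IsClopen.eq_univ ⟨hcl, isOpen_interior⟩
    ⟨0, key y e r 0 1 hr hy (by simp) (by simp)⟩
  rw [star_two]
  rintro z ⟨t, rfl⟩
  exact interior_subset (s := {t : ℝ | y + t * e ∈ K}) (hu ▸ mem_univ t)

theorem g2d_sub {e' : ℂ} (hz : z ∉ star 2 y e) : (star 2 y e ∩ star 2 z e').Subsingleton := by
  intro p hp q hq
  by_contra hpq
  apply hz
  have h1 := star_two_move hp.1
  have h2 := star_two_move hp.2
  have hq1 := hq.1
  have hq2 := hq.2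
  have hz' : z ∈ star 2 z e' := star_mem two_pos z e'
  rw [← h2, star_two] at hq2 hz'
  rw [← h1, star_two] at hq1 ⊢
  obtain ⟨a, ha⟩ := hq1
  obtain ⟨b, hb⟩ := hq2
  obtain ⟨k, hk⟩ := hz'
  have hb0 : (b : ℂ) ≠ 0 := by
    intro h0
    rw [h0, zero_mul, add_zero] at hb
    exact hpq hb.symm
  refine ⟨k * a / b, ?_⟩
  rw [hk]
  push_cast
  field_simp
  linear_combination k * (ha - hb)

theorem FM.cls {β : Type} {σ : ℂ → β} (h : FM K σ) (h3 : ∀ y ∈ K, ∀ s, 0 < s → Lr K y s ≤ 3 * s)
    (hne : K.Nonempty) : Mdl K := by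
  by_cases hc : ∃ y ∈ K, ∀ s, 0 < s → Lr K y s = 3 * s
  · obtain ⟨y, hy, hL⟩ := hc
    obtain ⟨e, he, hK⟩ := prop_case h hy hL
    exact ⟨y, e, he, Or.inr hK⟩
  have hl : ∀ y ∈ K, ∃ e r, ‖e‖ = 1 ∧ 0 < r ∧ K ∩ ball y r = star 2 y e ∩ ball y r := by
    intro y hy
    by_contra hn
    refine hc ⟨y, hy, fun s hs => le_antisymm (h3 y hy s hs) (not_lt.1 fun hlt => hn ?_)⟩
    exact seg_case h hy hs hlt
  obtain ⟨y, hy⟩ := hne
  obtain ⟨e, r, he, hr, hye⟩ := hl y hy
  have h1 := g2d_line h.1 hl he hr hye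
  refine ⟨y, e, he, Or.inl (Subset.antisymm (fun z hz => ?_) h1)⟩
  by_contra hzn
  obtain ⟨e', r', he', hr', hze⟩ := hl z hz
  have h2 := g2d_line h.1 hl he' hr' hze
  set s := 2 * ‖y - z‖ + 1 with hs
  have hn := norm_nonneg (y - z)
  have hs0 : 0 < s := by positivity
  have a1 := (star_len he (by norm_num : 2 ≤ 3) y hs0.le).1
  have a2 := (star_len_far he' (by norm_num : 2 ≤ 3) z y (s := s) (by linarith)).1
  have a3 := h3 y hy s hs0
  have f : ∀ S ⊆ K, μH[1] (S ∩ ball y s) ≠ ⊤ := fun S hS =>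
    ne_top_of_le_ne_top (h.2.1 y s) (measure_mono (inter_subset_inter hS ball_subset_closedBall))
  have a4 : μH[1] (star 2 y e ∩ ball y s) + μH[1] (star 2 z e' ∩ ball y s) ≤
      μH[1] (K ∩ ball y s) := by
    rw [← measure_union₀ ((star_closed 2 z e').measurableSet.inter
      measurableSet_ball).nullMeasurableSet]
    · exact measure_mono (union_subset (inter_subset_inter_left _ h1)
        (inter_subset_inter_left _ h2))
    · exact len_finite ((g2d_sub (e' := e') hzn).finite.subset fun p hp => ⟨hp.1.1, hp.2.1⟩)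
  have a5 := ENNReal.toReal_mono (f K le_rfl) a4
  rw [ENNReal.toReal_add (f _ h1) (f _ h2)] at a5
  unfold Lr at a1 a2 a3
  push_cast at a1 a2
  linarith

end Vale.Agent.P128
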