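import Vale.Agent.P128.Bon
import Vale.Agent.P128.Cone2
import Vale.Agent.P128.Gr

/-!
# P128 TwoF

Two ends force finite energy. Let `K' = K ∪ S`, `D' = Dr v K' 0`, and enlarge `R₀ > 0`. By `bonC`
(`Θ = 2π`) `D' ≤ E2'` for a.e. `s ≥ R₀`, so `D'/s` is nondecreasing (`gr`), and bounded (`ub`). If
`D' ≡ 0` on `[R₀, ∞)` then `Dn u K univ ≤` the given integral. Otherwise `D' ≥ d s` for large `s`. Let
`e s = ∫ s² ‖gK K u - gK K' v‖² dθ`. `∫ ((E2' - D')/s + e s)/s ds < ∞` (`gr` with `h = D' - E2'` bounds the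
first part by the increment of `D'/s`), while `∫ ds/s = ∞`; so there are large good `s` (for both pairs) with `E2' - D' ≤ ε s`,
`e s ≤ ε`. There `MaxGap K' 0 s (2π - 2η)` fails (`bonC`), so there is a free arc of size `≥ 2π - 2η`;
`(√A2' - √B2')² ≤ ε s` gives `2 A2' ≤ D' + C √ε s`; `cone_thin` for `(u, K)` gives
`Lr K 0 s ≤ (1 + 2η + o(1)) s`, against `Lr ≥ 2 (s - R₀)` (`Lr_low`).
-/

namespace Vale.Agent.P128

open Set Metric MeasureTheory Filter Topology Complex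
open scoped ENNReal ContDiff RealInnerProductSpace Gradient Real ComplexConjugate

variable {Ω K L A S T U O X Γ P M₀ K₀ K₁ : Set ℂ} {u v w g hh ψ η : ℂ → ℝ} {G : ℂ → ℂ}
  {π₀ π₁ : ℂ → Set ℂ} {x y z c p q e a₀ F : ℂ} {lam H r s R a b t M Θ ρ ε δ d : ℝ} {n : ℕ}

theorem twof_r {p q w τ : ℝ} (hτ : 0 < τ) (h : (p - q) ^ 2 ≤ w) :
    p ^ 2 ≤ (1 + τ) * q ^ 2 + (1 + 1 / τ) * w := by
  have h1 : 0 ≤ (τ * q - (p - q)) ^ 2 / τ := by positivity
  have h2 : (τ * q - (p - q)) ^ 2 / τ = τ * q ^ 2 - 2 * q * (p - q) + 1 / τ * (p - q) ^ 2 := by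
    field_simp
    ring
  have h3 := mul_le_mul_of_nonneg_left h (show 0 ≤ 1 + 1 / τ by positivity)
  nlinarith

theorem twof_alg {A B D C τ : ℝ} (hA : 0 ≤ A) (hB : 0 ≤ B) (h1 : D ≤ 2 * √(A * B))
    (h2 : A + B - D ≤ ε * s) (h3 : D ≤ C * s) (hτ : 0 < τ) (hC : 0 ≤ C) (h4 : τ * (C + 1) = 1 / 40)
    (h5 : ε ≤ τ / 40) (hs : 0 < s) : 2 * A ≤ D + s / 20 := by
  rw [Real.sqrt_mul hA] at h1
  have e1 := Real.sq_sqrt hA
  have e2 := Real.sq_sqrt hB
  generalize √A = p at *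
  generalize √B = q at *
  subst e1 e2
  have t1 : τ ≤ 1 / 40 := by nlinarith
  have t2 : ε * s ≤ τ / 40 * s := mul_le_mul_of_nonneg_right h5 hs.le
  have t3 : τ / 40 * s ≤ s / 1600 := by nlinarith
  have k1 : (p - q) ^ 2 ≤ τ / 40 * s := by nlinarith
  have k2 : (p + q) ^ 2 ≤ 2 * ((C + 1) * s) := by nlinarith [sq_nonneg (p - q)]
  have k3 : τ ^ 2 * (p + q) ^ 2 ≤ τ * (s / 20) := by
    have := mul_le_mul_of_nonneg_left k2 (sq_nonneg τ)
    have e : τ ^ 2 * (2 * ((C + 1) * s)) = τ * (2 * (τ * (C + 1)) * s) := by ring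
    rw [e, h4] at this
    linarith
  have k4 : τ * (p ^ 2 - q ^ 2) ≤ τ * (3 * s / 80) := by
    nlinarith [sq_nonneg (p - q - τ * (p + q))]
  have k5 := le_of_mul_le_mul_left k4 hτ
  linarith

theorem twof_pick {f : ℝ → ℝ} {Q : ℝ → Prop} {B : ℝ} (ha : 0 < a) (hε : 0 < ε)
    (hf : ∀ b, a ≤ b → IntervalIntegrable f volume a b ∧ ∫ s in a..b, f s ≤ B)
    (hQ : ∀ b, ∀ᵐ s : ℝ, s ∈ Ioo 0 b → Q s) : ∃ s, a < s ∧ Q s ∧ f s ≤ ε / s := by
  by_contra hn
  have hB : 0 ≤ B := by simpa using (hf a le_rfl).2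
  have h1 : 1 ≤ Real.exp (B / ε + 1) := Real.one_le_exp (by positivity)
  have hab : a ≤ a * Real.exp (B / ε + 1) := le_mul_of_one_le_right ha.le h1
  obtain ⟨i1, i2⟩ := hf _ hab
  have h0 : (0 : ℝ) ∉ uIcc a (a * Real.exp (B / ε + 1)) := by
    rw [uIcc_of_le hab]
    exact fun h => absurd h.1 (not_le.2 ha)
  have i3 : IntervalIntegrable (fun s : ℝ => ε * (1 / s)) volume a (a * Real.exp (B / ε + 1)) :=
    (intervalIntegral.intervalIntegrable_one_div (fun x hx e => h0 (e ▸ hx))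
      continuousOn_id).const_mul ε
  have i4 := intervalIntegral.integral_mono_ae_restrict hab i3 i1 (by
    rw [← Measure.restrict_congr_set Ioo_ae_eq_Icc, EventuallyLE, ae_restrict_iff' measurableSet_Ioo]
    filter_upwards [hQ (a * Real.exp (B / ε + 1))] with s hs hm
    rw [mul_one_div]
    by_contra hc
    exact hn ⟨s, hm.1, hs ⟨ha.trans hm.1, hm.2⟩, (not_le.1 hc).le⟩)
  rw [intervalIntegral.integral_const_mul, integral_one_div h0, mul_div_cancel_left₀ _ ha.ne',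
    Real.log_exp, mul_add, mul_div_cancel₀ _ hε.ne'] at i4
  linarith

theorem twof_bon (hv : NP univ 0 v L) (hc : CC L) (hg : Good v L 0 s)
    (hn : (L ∩ sphere 0 s).Nonempty) : Dr v L 0 s ≤ 2 * √(A2 v L 0 s * B2 v L 0 s) := by
  have := bonC hv hc hg hn (maxGap_triv L 0 s)
  rwa [mul_div_cancel_right₀ _ Real.pi_ne_zero] at this

theorem twof_am {A B : ℝ} (hA : 0 ≤ A) (hB : 0 ≤ B) : 2 * √(A * B) ≤ A + B := by
  rw [Real.sqrt_mul hA]
  nlinarith [Real.sq_sqrt hA, Real.sq_sqrt hB, sq_nonneg (√A - √B)]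

theorem twof_mono (hv : NP univ 0 v L) (hc : CC L) (ha : 0 < a) (hab : a ≤ b)
    (hn : ∀ s, a ≤ s → (L ∩ sphere 0 s).Nonempty) : Dr v L 0 a / a ≤ Dr v L 0 b / b := by
  have hP := hv.pre
  have k := gr (F := Dr v L 0) (f := fun s => E2 v L 0 s / s) (h := fun _ => 0) (β := 1) ha hab
    one_pos (hP.Dr_sub (subset_univ _) ha.le hab le_rfl).1 intervalIntegrable_const
    (fun t ht => (hP.Dr_sub (subset_univ _) ha.le ht.1 le_rfl).2.le) (by
      filter_upwards [hP.ae_good (x := 0) (R := b) (subset_univ _)] with s hs hm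
      have h0 := ha.trans hm.1
      have h1 := twof_bon hv hc (hs ⟨h0, hm.2⟩) (hn s hm.1.le)
      have h2 := twof_am (A2_nonneg v L 0 s).1 (A2_nonneg v L 0 s).2
      rw [mul_div_cancel₀ _ h0.ne', one_mul, add_zero, E2]
      linarith)
  simpa using k

theorem twof_def (hP : Pre univ v L) (ha : 0 < a) (hab : a ≤ b) :
    IntervalIntegrable (fun s => (E2 v L 0 s - Dr v L 0 s) / s ^ 2) volume a b ∧
      ∫ s in a..b, (E2 v L 0 s - Dr v L 0 s) / s ^ 2 ≤ Dr v L 0 b / b := by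
  have i1 := (hP.Dr_sub (x := 0) (subset_univ _) ha.le hab le_rfl).1
  have c1 : ContinuousOn (Dr v L 0) (uIcc a b) := by
    rw [uIcc_of_le hab]
    exact (hP.Dr_cont (subset_univ _)).mono (Icc_subset_Icc_left ha.le)
  have hpos : ∀ s ∈ uIcc a b, 0 < s := fun s hs => by
    rw [uIcc_of_le hab] at hs
    exact ha.trans_le hs.1
  have i2 : IntervalIntegrable (fun s => Dr v L 0 s - E2 v L 0 s) volume a b := by
    refine c1.intervalIntegrable.sub ((i1.mul_continuousOn continuousOn_id).congr ?_)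
    intro s hs
    exact div_mul_cancel₀ _ (hpos s (uIoc_subset_uIcc hs)).ne'
  have i3 : IntervalIntegrable (fun s => (E2 v L 0 s - Dr v L 0 s) / s ^ 2) volume a b := by
    have c2 : ContinuousOn (fun s : ℝ => -(s ^ 2)⁻¹) (uIcc a b) :=
      ((continuousOn_id.pow 2).inv₀ fun s hs => pow_ne_zero 2 (hpos s hs).ne').neg
    refine (i2.mul_continuousOn c2).congr fun s _ => ?_
    ring
  refine ⟨i3, ?_⟩
  have k := gr (F := Dr v L 0) (f := fun s => E2 v L 0 s / s)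
    (h := fun s => Dr v L 0 s - E2 v L 0 s) (β := 1) ha hab one_pos i1 i2
    (fun t ht => (hP.Dr_sub (subset_univ _) ha.le ht.1 le_rfl).2.le) (ae_of_all _ fun s hm => by
      rw [mul_div_cancel₀ _ (ha.trans hm.1).ne']
      linarith)
  simp only [Real.rpow_one, one_add_one_eq_two, Real.rpow_two] at k
  have e : ∫ s in a..b, (E2 v L 0 s - Dr v L 0 s) / s ^ 2 =
      -∫ s in a..b, (Dr v L 0 s - E2 v L 0 s) / s ^ 2 := by
    rw [← intervalIntegral.integral_neg]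
    refine intervalIntegral.integral_congr fun s _ => ?_
    ring
  have h0 := div_nonneg (Dr_nonneg v L 0 a) ha.le
  linarith

theorem twof_A2 {τ : ℝ} (hK : IsClosed K) (hL : IsClosed L) (hg : Good u K 0 s) (hg' : Good v L 0 s)
    (hi : IntervalIntegrable
      (fun θ => ‖gK K u (circleMap 0 s θ) - gK L v (circleMap 0 s θ)‖ ^ 2) volume 0 (2 * π))
    (hτ : 0 < τ) : A2 u K 0 s ≤ (1 + τ) * A2 v L 0 s + (1 + 1 / τ) * (s ^ 2 *
      ∫ θ in (0 : ℝ)..2 * π, ‖gK K u (circleMap 0 s θ) - gK L v (circleMap 0 s θ)‖ ^ 2) := by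
  have i1 := (hg.int hK 0 (2 * π)).2.2.1
  have i2 := ((hg'.int hL 0 (2 * π)).2.2.1).const_mul (1 + τ)
  have i3 := (hi.const_mul (s ^ 2)).const_mul (1 + 1 / τ)
  unfold A2
  rw [← intervalIntegral.integral_const_mul, ← intervalIntegral.integral_const_mul,
    ← intervalIntegral.integral_const_mul, ← intervalIntegral.integral_add i2 i3]
  refine intervalIntegral.integral_mono_on (by positivity) i1 (i2.add i3) fun θ _ => ?_
  refine twof_r hτ ?_
  unfold ut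
  rw [← mul_sub, ← inner_sub_left, mul_pow]
  refine mul_le_mul_of_nonneg_left ?_ (sq_nonneg s)
  have h1 := abs_real_inner_le_norm (gK K u (circleMap 0 s θ) - gK L v (circleMap 0 s θ))
    (I * ex θ)
  rw [norm_mul, ex_norm, norm_I, mul_one, mul_one] at h1
  rw [← sq_abs]
  exact pow_le_pow_left₀ (abs_nonneg _) h1 2

theorem twof_D {τ : ℝ} (hP : Pre univ u K) (hP' : Pre univ v L)
    (hf : Integrable fun z => ‖gK K u z - gK L v z‖ ^ 2) (hτ : 0 < τ) (s : ℝ) :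
    Dr v L 0 s ≤ (1 + τ) * Dr u K 0 s + (1 + 1 / τ) * ∫ z, ‖gK K u z - gK L v z‖ ^ 2 := by
  have i1 := (intOn_of_Dn hP'.2.1 (Dn_closedBall v L 0 s ▸ (hP'.2.2.2 0 s (subset_univ _)).1)).1
  have i2 := (intOn_of_Dn hP.2.1 (Dn_closedBall u K 0 s ▸ (hP.2.2.2 0 s (subset_univ _)).1)).1
  have i3 : IntegrableOn (fun z => ‖gK K u z - gK L v z‖ ^ 2) (ball 0 s) := hf.integrableOn
  have h1 : ∫ z in ball 0 s, ‖gK K u z - gK L v z‖ ^ 2 ≤ ∫ z, ‖gK K u z - gK L v z‖ ^ 2 :=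
    setIntegral_le_integral hf (ae_of_all _ fun z => by positivity)
  have h2 : ∫ z in ball 0 s, ‖gK L v z‖ ^ 2 ≤ ∫ z in ball 0 s,
      ((1 + τ) * ‖gK K u z‖ ^ 2 + (1 + 1 / τ) * ‖gK K u z - gK L v z‖ ^ 2) := by
    refine integral_mono i1 ((i2.const_mul _).add (i3.const_mul _)) fun z => twof_r hτ ?_
    rw [← sq_abs, abs_sub_comm]
    exact pow_le_pow_left₀ (abs_nonneg _) (abs_norm_sub_norm_le _ _) 2
  rw [integral_add (i2.const_mul _) (i3.const_mul _), integral_const_mul, integral_const_mul] at h2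
  rw [Dr_eq hP.2.1, Dr_eq hP'.2.1]
  have h3 := mul_le_mul_of_nonneg_left h1 (show 0 ≤ 1 + 1 / τ by positivity)
  linarith

theorem twof_zero (hP : Pre univ v L) (h : ∀ s, R ≤ s → Dr v L 0 s = 0) :
    ∀ᵐ z : ℂ, gK L v z = 0 := by
  have h1 : ∀ n : ℕ, ∀ᵐ z : ℂ, z ∈ ball 0 (R + n) → gK L v z = 0 := by
    intro n
    have h2 := h (R + n) (le_add_of_nonneg_right (Nat.cast_nonneg n))
    have h3 : Dn v L (ball 0 (R + n)) ≠ ⊤ :=
      Dn_closedBall v L 0 _ ▸ (hP.2.2.2 0 (R + n) (subset_univ _)).1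
    have h4 : Dn v L (ball 0 (R + n)) = 0 :=
      ((ENNReal.toReal_eq_zero_iff _).1 h2).resolve_right h3
    unfold Dn at h4
    rw [lintegral_eq_zero_iff ((meas_gK hP.2.1 v).enorm.pow_const 2), EventuallyEq,
      ae_restrict_iff' measurableSet_ball] at h4
    filter_upwards [h4] with z hz hm
    simpa using hz hm
  filter_upwards [ae_all_iff.2 h1] with z hz
  obtain ⟨n, hn⟩ := exists_nat_gt (‖z‖ - R)
  exact hz n (mem_ball_zero_iff.2 (by linarith))

theorem twof_num {Du Au D A Lu W J τ : ℝ} (h1 : Du + Lu ≤ (1 + 2 * (1 / 10)) * s + 2 * Au)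
    (h2 : Au ≤ (1 + τ) * A + W * ε) (h3 : 2 * A ≤ D + s / 20) (h4 : D ≤ (1 + τ) * Du + W * J)
    (h5 : Du ≤ 8 * s) (h5' : 0 ≤ Du) (h6 : 2 * (s - R) ≤ Lu) (hτ : 0 < τ) (hτ1 : τ ≤ 1 / 680)
    (hW : 0 ≤ W) (hJ : 0 ≤ J) (hε : ε ≤ 1) (hR : 0 < R)
    (hs : 2 * (2 * R + 2 * (W * J) + 2 * W) < s) : False := by
  have a0 : 0 ≤ W * J := by positivity
  have a1 : W * ε ≤ W := mul_le_of_le_one_right hW hε
  have a2 := mul_le_mul_of_nonneg_left h3 (show 0 ≤ 1 + τ by positivity)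
  have a3 := mul_le_mul_of_nonneg_left h4 (show 0 ≤ 1 + τ by positivity)
  have a4 : τ * Du ≤ 1 / 680 * Du := mul_le_mul_of_nonneg_right hτ1 h5'
  have a5 : τ * (τ * Du) ≤ 1 / 680 * (τ * Du) := mul_le_mul_of_nonneg_right hτ1 (by positivity)
  have a6 : τ * (W * J) ≤ 1 / 680 * (W * J) := mul_le_mul_of_nonneg_right hτ1 a0
  have a7 : τ * s ≤ 1 / 680 * s := mul_le_mul_of_nonneg_right hτ1 (by linarith)
  nlinarith

theorem two_flat {R₀ : ℝ} (h : MM univ 0 u K π₀) (hc : CC (K ∪ S)) (hv : NP univ 0 v (K ∪ S))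
    (hd : ∫⁻ z, ‖gK K u z - gK (K ∪ S) v z‖ₑ ^ 2 ≠ ⊤)
    (hN : ∀ s, R₀ ≤ s → 2 ≤ (K ∩ sphere 0 s).encard) : Dn u K univ ≠ ⊤ := by
  have hP := h.pre
  have hP' := hv.pre
  have hKL : K ⊆ K ∪ S := subset_union_left
  generalize K ∪ S = L at *
  have hK := hP.2.1
  have hL := hP'.2.1
  by_cases hA : ∀ s, max R₀ 1 ≤ s → Dr v L 0 s = 0
  · unfold Dn
    rw [Measure.restrict_univ]
    refine ne_of_eq_of_ne (lintegral_congr_ae ?_) hd
    filter_upwards [twof_zero hP' hA] with z hz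
    rw [hz, sub_zero]
  exfalso
  simp only [not_forall] at hA
  obtain ⟨s₁, hs₁, hD₁⟩ := hA
  have hf : Integrable fun z => ‖gK K u z - gK L v z‖ ^ 2 := by
    refine ⟨(((meas_gK hK u).sub (meas_gK hL v)).norm.pow_const 2).aestronglyMeasurable, ?_⟩
    rw [hasFiniteIntegral_iff_enorm]
    simpa only [enorm_pow, enorm_norm] using hd.lt_top
  obtain ⟨J, hJ⟩ : ∃ J, J = ∫ z, ‖gK K u z - gK L v z‖ ^ 2 := ⟨_, rfl⟩
  have hJ0 : 0 ≤ J := hJ ▸ integral_nonneg fun z => by positivity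
  have hR0 := le_max_left R₀ 1
  have hR1 := le_max_right R₀ 1
  generalize max R₀ 1 = R at *
  have hne : ∀ s, R ≤ s → (L ∩ sphere 0 s).Nonempty := fun s hs =>
    (encard_pos.1 (lt_of_lt_of_le (by norm_num) (hN s (hR0.trans hs)))).mono
      (inter_subset_inter_left _ hKL)
  have hub : ∀ s, 0 < s → Dr u K 0 s ≤ 8 * s := fun s hs => by
    have := ub8 h hs (subset_univ (closedBall 0 s)) (by simp)
    linarith [Lr_nonneg K 0 s]
  have hC : ∀ s, 1 ≤ s → Dr v L 0 s ≤ (16 + 2 * J) * s := fun s hs => by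
    have h1 := twof_D hP hP' hf one_pos s
    have h2 := hub s (by linarith)
    have h3 := mul_le_mul_of_nonneg_left hs hJ0
    rw [← hJ] at h1
    linarith
  have hs0 : 0 < s₁ := by linarith
  have hd0 : 0 < Dr v L 0 s₁ / s₁ :=
    div_pos (lt_of_le_of_ne (Dr_nonneg v L 0 s₁) (Ne.symm hD₁)) hs0
  have hlow : ∀ s, s₁ ≤ s → Dr v L 0 s₁ / s₁ ≤ Dr v L 0 s / s := fun s hs =>
    twof_mono hv hc hs0 hs fun t ht => hne t (hs₁.trans ht)
  generalize Dr v L 0 s₁ / s₁ = d at hd0 hlow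
  obtain ⟨τ, hτ, hτC⟩ : ∃ τ : ℝ, 0 < τ ∧ τ * (16 + 2 * J + 1) = 1 / 40 :=
    ⟨1 / (40 * (16 + 2 * J + 1)), by positivity, by field_simp⟩
  have hτ1 : τ ≤ 1 / 680 := by nlinarith
  have hε : 0 < min (τ / 40) (d / 40) := by positivity
  have hε1 := min_le_left (τ / 40) (d / 40)
  have hε2 := min_le_right (τ / 40) (d / 40)
  generalize min (τ / 40) (d / 40) = ε at *
  have ha1 := le_max_left s₁ (2 * (2 * R + 2 * ((1 + 1 / τ) * J) + 2 * (1 + 1 / τ)))
  have ha2 := le_max_right s₁ (2 * (2 * R + 2 * ((1 + 1 / τ) * J) + 2 * (1 + 1 / τ)))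
  generalize max s₁ (2 * (2 * R + 2 * ((1 + 1 / τ) * J) + 2 * (1 + 1 / τ))) = a at *
  have ha : 0 < a := by linarith
  obtain ⟨s, hs, ⟨g1, g2, g3⟩, hF⟩ := twof_pick (B := 16 + 2 * J + J)
    (f := fun s => (E2 v L 0 s - Dr v L 0 s) / s ^ 2 + s • ∫ θ in (0 : ℝ)..2 * π,
      ‖gK K u (circleMap 0 s θ) - gK L v (circleMap 0 s θ)‖ ^ 2)
    (Q := fun s => Good u K 0 s ∧ Good v L 0 s ∧ IntervalIntegrable
      (fun θ => ‖gK K u (circleMap 0 s θ) - gK L v (circleMap 0 s θ)‖ ^ 2) volume 0 (2 * π))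
    ha hε (fun b hab => by
      obtain ⟨i1, i2⟩ := twof_def hP' ha hab
      obtain ⟨-, j1, j2⟩ := polar_ann (x := 0) (b := b) hf.integrableOn ha.le hab
      have j3 := j1.mono_set (c := a) (d := b) (by
        rw [uIcc_of_le hab, uIcc_of_le (ha.le.trans hab)]
        exact Icc_subset_Icc_left ha.le)
      refine ⟨i1.add j3, ?_⟩
      rw [intervalIntegral.integral_add i1 j3, ← j2]
      have k1 : Dr v L 0 b / b ≤ 16 + 2 * J :=
        (div_le_iff₀ (by linarith)).2 (hC b (by linarith))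
      have k2 : ∫ z in ball 0 b \ ball 0 a, ‖gK K u z - gK L v z‖ ^ 2 ≤ J :=
        hJ ▸ setIntegral_le_integral hf (ae_of_all _ fun z => by positivity)
      linarith)
    (fun b => by
      rcases le_or_gt 0 b with hb | hb
      · filter_upwards [hP.ae_good (x := 0) (R := b) (subset_univ _),
          hP'.ae_good (x := 0) (R := b) (subset_univ _),
          (polar_ann (x := 0) (b := b) hf.integrableOn le_rfl hb).1] with s p1 p2 p3 hm
        exact ⟨p1 hm, p2 hm, p3 hm⟩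
      · exact ae_of_all _ fun s hm => absurd (hm.1.trans hm.2) (not_lt.2 hb.le))
  have hs0 : 0 < s := ha.trans hs
  have hsR : R ≤ s := by linarith
  obtain ⟨nA, nB⟩ := A2_nonneg v L 0 s
  have b1 := twof_bon hv hc g2 (hne s hsR)
  have b2 := twof_am nA nB
  have b3 := twof_A2 hK hL g1 g2 g3 hτ
  have b4 : 0 ≤ ∫ θ in (0 : ℝ)..2 * π,
      ‖gK K u (circleMap 0 s θ) - gK L v (circleMap 0 s θ)‖ ^ 2 :=
    intervalIntegral.integral_nonneg (by positivity) fun θ _ => by positivity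
  generalize (∫ θ in (0 : ℝ)..2 * π,
      ‖gK K u (circleMap 0 s θ) - gK L v (circleMap 0 s θ)‖ ^ 2) = φ at hF b3 b4
  rw [smul_eq_mul, E2] at hF
  have b5 : A2 v L 0 s + B2 v L 0 s - Dr v L 0 s + s * (s ^ 2 * φ) ≤ ε * s := by
    have h1 := mul_le_mul_of_nonneg_right hF (sq_nonneg s)
    have e1 : ((A2 v L 0 s + B2 v L 0 s - Dr v L 0 s) / s ^ 2 + s * φ) * s ^ 2 =
        A2 v L 0 s + B2 v L 0 s - Dr v L 0 s + s * (s ^ 2 * φ) := by field_simp
    have e2 : ε / s * s ^ 2 = ε * s := by field_simp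
    rwa [e1, e2] at h1
  have b6 : 0 ≤ s * (s ^ 2 * φ) := by positivity
  have b7 : s ^ 2 * φ ≤ ε := le_of_mul_le_mul_left (by linarith) hs0
  have b8 : A2 v L 0 s + B2 v L 0 s - Dr v L 0 s ≤ ε * s := by linarith
  have b9 := twof_alg nA nB b1 b8 (hC s (by linarith)) hτ (by positivity) hτC hε1 hs0
  have c1 : ¬ MaxGap L 0 s (2 * π - 2 * (1 / 10)) := by
    intro hm
    have h1 := bonC hv hc g2 (hne s hsR) hm
    have h2 := (le_div_iff₀ hs0).1 (hlow s (by linarith))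
    have h3 : (2 * π - 2 * (1 / 10)) / π ≤ 2 - 1 / 20 := by
      rw [div_le_iff₀ Real.pi_pos]
      linarith [Real.pi_lt_four]
    have h4 := mul_le_mul_of_nonneg_right h3 (Real.sqrt_nonneg (A2 v L 0 s * B2 v L 0 s))
    have h5 := mul_le_mul_of_nonneg_right hε2 hs0.le
    have h6 : 0 < d * s := by positivity
    linarith
  simp only [MaxGap, not_forall, not_le] at c1
  obtain ⟨a', b', c2, c3⟩ := c1
  have c4 := cone_thin (η := 1 / 10) h (subset_univ _) g1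
    (show FreeArc K 0 s a' b' from ⟨c2.1, c2.2.1, fun t ht hm => c2.2.2 t ht (hKL hm)⟩) c3.le
  have c5 := Lr_low (n := 2) (hP.2.2.2 0 s (subset_univ _)).2 hK (by linarith : 0 ≤ R) hsR le_rfl
    fun t ht => hN t (hR0.trans ht.1.le)
  have c6 := twof_D hP hP' hf hτ s
  rw [← hJ] at c6
  have c7 := mul_le_mul_of_nonneg_left b7 (show 0 ≤ 1 + 1 / τ by positivity)
  refine twof_num (s := s) (ε := ε) (R := R) (Lu := Lr K 0 s) (Au := A2 u K 0 s) (by linarith)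
    (by linarith) b9 c6 (hub s hs0) (Dr_nonneg u K 0 s) ?_ hτ hτ1 (by positivity) hJ0
    (by linarith) (by linarith) (by linarith)
  push_cast at c5
  linarith [Lr_nonneg K 0 R]

end Vale.Agent.P128
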