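import Vale.Agent.P128.NoIso
import Vale.Agent.P128.Close
import Vale.Agent.P128.TwoF
import Vale.Agent.P128.G2c
import Vale.Agent.P128.G2d
import Vale.Agent.P128.Cls

/-!
# P128 G1

Global minimizers are connected.
-/

namespace Vale.Agent.P128

open Set Metric MeasureTheory Filter Topology Complex
open scoped ENNReal ContDiff RealInnerProductSpace Gradient Real ComplexConjugate

variable {Ω K L A S T U O X Γ P M₀ K₀ K₁ : Set ℂ} {u v w g hh ψ η : ℂ → ℝ} {G : ℂ → ℂ}
  {π₀ π₁ : ℂ → Set ℂ} {x y z c p q e a₀ F : ℂ} {lam H r s R a b t M Θ ρ ε δ d : ℝ} {n : ℕ}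

theorem g2 (h : MM univ 0 u K π₀) (h0 : ∀ z, gK K u z = 0) (hne : K.Nonempty) : Mdl K :=
  (flat_FM h h0).cls (fun _ hy _ hs => flat_le3 h h0 hy hs) hne

theorem g1 (h : MM univ 0 u K π₀) : CC K := by
  by_contra hc
  have hL : ∀ R, 0 < R → μH[1] (K ∩ closedBall 0 R) ≤ ENNReal.ofReal (7 * R) := by
    intro R hR
    have h1 := ub h hR (subset_univ (closedBall 0 R))
    have h2 := (h.pre.2.2.2 0 R (subset_univ _)).2
    have h3 := Dr_nonneg u K 0 R
    rw [← ENNReal.ofReal_toReal h2]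
    apply ENNReal.ofReal_le_ofReal
    have h4 : 2 * π * R ≤ 7 * R := by nlinarith [Real.pi_lt_d2]
    unfold Lc at h1
    linarith
  obtain ⟨S, R₀, hS, hl, hcc, hN⟩ := classes h.pre.2.1 (noiso h) hL hc
  obtain ⟨v, hv, hd⟩ := close h hS hl
  have h0 := parab h.1 (two_flat h hcc hv (ne_top_of_le_ne_top hl hd) hN)
  rcases K.eq_empty_or_nonempty with rfl | hne
  · exact hc fun p hp => hp.elim
  · exact hc (g2 h h0 hne).cc

end Vale.Agent.P128
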