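import Vale.Agent.P128.Apex
import Vale.Agent.P128.Arcs0
import Vale.Agent.P128.Gr
import Vale.Agent.P128.Eil

/-!
# P128 G2b

Flat sets. `FM.two`: otherwise labels are constant on the circle minus at most one point
(`sphere_diff_preconn`), `FM.apex` with `T = ∅` gives `Lr ≤ 0`. `FM.mono`: `gr` with `f = Nn`, `h = 0`
(`FM.cone`, `Nn_int`, `eil_fin`). `card_le3`: `0 ≤ ‖∑ (p - y)‖²`.
-/

namespace Vale.Agent.P128

open Set Metric MeasureTheory Filter Topology Complex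
open scoped ENNReal ContDiff RealInnerProductSpace Gradient Real ComplexConjugate

variable {Ω K L A S T U O X Γ P M₀ K₀ K₁ : Set ℂ} {u v w g hh ψ η : ℂ → ℝ} {G : ℂ → ℂ}
  {π₀ π₁ : ℂ → Set ℂ} {x y z c p q e a₀ F : ℂ} {lam H r s R a b t M Θ ρ ε δ d : ℝ} {n : ℕ}

theorem FM.two {β : Type} {σ : ℂ → β} (h : FM K σ) (hy : y ∈ K) (hs : 0 < s) :
    2 ≤ (K ∩ sphere y s).encard := by
  by_contra hc
  have h1 : (K ∩ sphere y s).Subsingleton :=
    encard_le_one_iff_subsingleton.1 (Order.le_of_lt_succ (not_le.1 hc))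
  have h2 : sphere y s \ (K ∩ sphere y s) ⊆ Kᶜ := fun z hz h' => hz.2 ⟨h', hz.1⟩
  obtain ⟨c, hc⟩ : ∃ c, ∀ z ∈ sphere y s \ K, c = σ z := by
    rcases (sphere y s \ K).eq_empty_or_nonempty with e | ⟨w, hw⟩
    · exact ⟨σ y, fun z hz => absurd (e ▸ hz) (notMem_empty z)⟩
    · exact ⟨σ w, fun z hz => h.2.2.1.eq h2 (sphere_diff_preconn h1 y s)
        ⟨hw.1, fun h => hw.2 h.1⟩ ⟨hz.1, fun h => hz.2 h.1⟩⟩
  have h3 := h.apex (σ₀ := fun _ => c) (mem_ball_self hs) (empty_subset _) finite_empty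
    (fun _ _ => Eventually.of_forall fun _ => rfl) (fun z hz _ => hc z hz) h1.finite
  rw [Finite.toFinset_empty, Finset.sum_empty] at h3
  exact absurd (ENNReal.toReal_pos (h.2.2.2.1 y hy s hs).ne' (ne_top_of_le_ne_top (h.2.1 y s)
    (measure_mono (inter_subset_inter_right _ ball_subset_closedBall)))) (not_lt.2 h3)

theorem FM.mono {β : Type} {σ : ℂ → β} (h : FM K σ) (y : ℂ) (ha : 0 < a) (hab : a ≤ b) :
    Lr K y a / a ≤ Lr K y b / b := by
  have h1 := gr (F := Lr K y) (f := fun s => (Nn K y s : ℝ)) (h := fun _ => 0) ha hab one_pos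
    (Nn_int (h.2.1 y b) h.1 ha.le hab le_rfl).1 intervalIntegrable_const
    (fun t ht => (Nn_int (h.2.1 y b) h.1 ha.le ht.1 ht.2).2) (by
      filter_upwards [eil_fin (h.2.1 y b) h.1] with s h1 h2
      have h3 := ha.trans h2.1
      linarith [h.cone h3 (h1 ⟨h3, h2.2⟩)])
  simpa using h1

theorem card_le3 (hT : T ⊆ sphere y s) (hs : 0 < s) (hf : T.Finite)
    (h : ∀ p ∈ T, ∀ q ∈ T, p ≠ q → ⟪p - y, q - y⟫ ≤ -s ^ 2 / 2) : T.ncard ≤ 3 := by
  classical
  rw [ncard_eq_toFinset_card _ hf]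
  have h1 : ∀ p ∈ hf.toFinset, ∑ q ∈ hf.toFinset, ⟪p - y, q - y⟫ ≤
      hf.toFinset.card * (-s ^ 2 / 2) + 3 / 2 * s ^ 2 := fun p hp => by
    have h2 : ∀ q ∈ hf.toFinset, ⟪p - y, q - y⟫ ≤
        -s ^ 2 / 2 + if p = q then 3 / 2 * s ^ 2 else 0 := fun q hq => by
      split_ifs with e
      · rw [← e, real_inner_self_eq_norm_sq, mem_sphere_iff_norm.1 (hT (hf.mem_toFinset.1 hp))]
        linarith
      · linarith [h p (hf.mem_toFinset.1 hp) q (hf.mem_toFinset.1 hq) e]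
    refine (Finset.sum_le_sum h2).trans_eq ?_
    rw [Finset.sum_add_distrib, Finset.sum_const, Finset.sum_ite_eq, if_pos hp, nsmul_eq_mul]
  have h2 := real_inner_self_nonneg (x := ∑ p ∈ hf.toFinset, (p - y))
  rw [sum_inner] at h2
  simp only [inner_sum] at h2
  have h3 := h2.trans (Finset.sum_le_sum h1)
  rw [Finset.sum_const, nsmul_eq_mul] at h3
  by_contra hc
  have h4 : (3 : ℝ) < hf.toFinset.card := by exact_mod_cast not_le.1 hc
  have h5 : (hf.toFinset.card : ℝ) * (-s ^ 2 / 2) + 3 / 2 * s ^ 2 < 0 := by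
    nlinarith [pow_pos hs 2]
  nlinarith

end Vale.Agent.P128
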