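import Vale.Agent.P128.Apex

/-!
# P128 G2s

Two step cone. Suppose `⟪p - y, q - y⟫ > -s²/2`; let `ν` be the unit bisector of `p - y`, `q - y`, so
`⟪ν, (p - y)/s⟫ = ⟪ν, (q - y)/s⟫ > 1/2`. First replace `K` in the ball by the cone over `T = K ∩ sphere`
with apex `y` (`apex`, new set `K₁`); then in the ball `B' = ball (y + ρ ν) ρ`, `ρ = s/4`, apply `apex` to
`K₁` with apex `y + τ ν`, `τ` small, and `T'` the finite set `K₁ ∩ sphere (y + ρ ν) ρ`, which consists of `y`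
and the points `y + 2ρ ⟪ν, e⟫ e` for the directions `e = (p' - y)/s`, `p' ∈ T`, with `⟪ν, e⟫ > 0`. Outside
`B'` the segment of direction `e` keeps only the part from `y + 2ρ max ⟪ν, e⟫ 0 • e` to `p'`. Bound the
length of the final set by the sum of the lengths of these segments (`hausdorffMeasure_segment`);
`‖2ρ c e - τ ν‖ ≤ 2ρ c - τ c + τ²/(4ρ c)` for `c = ⟪ν, e⟫ > 0`, so the total is
`≤ Nn s + τ (1 - ∑ c) + O(τ²) < Nn s`.
-/

namespace Vale.Agent.P128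

open Set Metric MeasureTheory Filter Topology Complex
open scoped ENNReal ContDiff RealInnerProductSpace Gradient Real ComplexConjugate

variable {Ω K L A S T U O X Γ P M₀ K₀ K₁ : Set ℂ} {u v w g hh ψ η : ℂ → ℝ} {G : ℂ → ℂ}
  {π₀ π₁ : ℂ → Set ℂ} {x y z c p q e a₀ F : ℂ} {lam H r s R a b t M Θ ρ ε δ d : ℝ} {n : ℕ}

theorem g2s_dir {v w : ℂ} (hs : 0 < s) (hv : ‖v‖ = s) (hw : ‖w‖ = s) (h : -s ^ 2 / 2 < ⟪v, w⟫) :
    ∃ ν : ℂ, ‖ν‖ = 1 ∧ s / 2 < ⟪v, ν⟫ ∧ s / 2 < ⟪w, ν⟫ := by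
  have e : ‖v + w‖ ^ 2 = 2 * s ^ 2 + 2 * ⟪v, w⟫ := by
    rw [norm_add_sq_real, hv, hw]
    ring
  have h1 : s < ‖v + w‖ := lt_of_pow_lt_pow_left₀ 2 (norm_nonneg _) (by linarith)
  have h0 : 0 < ‖v + w‖ := hs.trans h1
  refine ⟨‖v + w‖⁻¹ • (v + w), norm_smul_inv_norm (𝕜 := ℝ) (norm_pos_iff.1 h0), ?_, ?_⟩
  · rw [inner_smul_right, inner_add_right, real_inner_self_eq_norm_sq, hv, inv_mul_eq_div,
      lt_div_iff₀ h0]
    nlinarith
  · rw [inner_smul_right, inner_add_right, real_inner_self_eq_norm_sq, hw, real_inner_comm,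
      inv_mul_eq_div, lt_div_iff₀ h0]
    nlinarith

theorem g2s_sq {v ν : ℂ} (hv : ‖v‖ = s) (hν : ‖ν‖ = 1) (t ρ : ℝ) :
    ‖t • v - ρ • ν‖ ^ 2 = t ^ 2 * s ^ 2 - 2 * t * ρ * ⟪v, ν⟫ + ρ ^ 2 := by
  rw [norm_sub_sq_real, inner_smul_left, inner_smul_right, norm_smul, norm_smul, hv, hν, mul_pow,
    mul_one, Real.norm_eq_abs, Real.norm_eq_abs, sq_abs, sq_abs]
  simp only [conj_trivial]
  ring

theorem g2s_ev {v ν : ℂ} (hs : 0 < s) (hv : ‖v‖ = s) (hν : ‖ν‖ = 1) (hb : 0 < ⟪v, ν⟫)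
    (ha : a * s < ⟪v, ν⟫) :
    ∀ᶠ τ in 𝓝[>] (0 : ℝ), ‖(⟪v, ν⟫ / (2 * s)) • v - τ • ν‖ ≤ ⟪v, ν⟫ / 2 - τ * a := by
  have h0 : 0 < ⟪v, ν⟫ * (⟪v, ν⟫ - a * s) / s := div_pos (mul_pos hb (by linarith)) hs
  filter_upwards [Ioo_mem_nhdsGT h0, Ioo_mem_nhdsGT (half_pos hs)] with τ h1 h2
  have h3 : τ * a ≤ ⟪v, ν⟫ / 2 := by
    refine le_of_mul_le_mul_right ?_ hs
    nlinarith [mul_le_mul_of_nonneg_left ha.le h1.1.le, mul_le_mul_of_nonneg_left h2.2.le hb.le]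
  refine le_of_sq_le_sq ?_ (by linarith)
  rw [g2s_sq hv hν]
  generalize ⟪v, ν⟫ = b at *
  have e : (b / (2 * s)) ^ 2 * s ^ 2 - 2 * (b / (2 * s)) * τ * b + τ ^ 2 =
      (b / 2 - τ * a) ^ 2 - τ * (b * (b - a * s) / s - τ) - (τ * a) ^ 2 := by
    field_simp
    ring
  rw [e]
  nlinarith [mul_pos h1.1 (sub_pos.2 h1.2), sq_nonneg (τ * a)]

/-- the point where the segment leaves the small ball -/
noncomputable def g2sP (y ν : ℂ) (s : ℝ) (p : ℂ) : ℂ :=
  y + (max ⟪p - y, ν⟫ 0 / (2 * s)) • (p - y)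

theorem g2s_sph {ν : ℂ} (hs : 0 < s) (hν : ‖ν‖ = 1) (hp : p ∈ sphere y s) :
    g2sP y ν s p ∈ sphere (y + (s / 4) • ν) (s / 4) := by
  rw [mem_sphere_iff_norm, g2sP, add_sub_add_left_eq_sub, ← sq_eq_sq₀ (norm_nonneg _)
    (by positivity), g2s_sq (mem_sphere_iff_norm.1 hp) hν]
  rcases le_total ⟪p - y, ν⟫ 0 with h | h
  · rw [max_eq_right h]
    ring
  · rw [max_eq_left h]
    field_simp
    ring

theorem g2s_half {ν : ℂ} (hs : 0 < s) (hν : ‖ν‖ = 1) (hp : p ∈ sphere y s) :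
    0 ≤ max ⟪p - y, ν⟫ 0 / (2 * s) ∧ max ⟪p - y, ν⟫ 0 / (2 * s) ≤ 1 / 2 := by
  have h := real_inner_le_norm (p - y) ν
  rw [mem_sphere_iff_norm.1 hp, hν, mul_one] at h
  refine ⟨by positivity, ?_⟩
  rw [div_le_iff₀ (by positivity)]
  linarith [max_le h hs.le]

/-- position of a point of the segment relative to the small ball -/
theorem g2s_seg {ν : ℂ} (hs : 0 < s) (hν : ‖ν‖ = 1) (hp : p ∈ sphere y s)
    (hz : z ∈ segment ℝ y p) (h : z ∉ ball (y + (s / 4) • ν) (s / 4)) :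
    z = y ∨ (z ∈ segment ℝ (g2sP y ν s p) p ∧
      (z ∈ sphere (y + (s / 4) • ν) (s / 4) → z = g2sP y ν s p)) := by
  rw [segment_eq_image'] at hz
  obtain ⟨t, ⟨t0, t1⟩, rfl⟩ := hz
  rcases t0.eq_or_lt with rfl | t0
  · exact Or.inl (by simp)
  have e := g2s_sq (mem_sphere_iff_norm.1 hp) hν t (s / 4)
  obtain ⟨c0, c1⟩ := g2s_half hs hν hp
  rw [mem_ball_iff_norm, add_sub_add_left_eq_sub, not_lt] at h
  have h1 := pow_le_pow_left₀ (by positivity) h 2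
  have h2 : ⟪p - y, ν⟫ ≤ t * (2 * s) := by
    refine le_of_mul_le_mul_left ?_ (mul_pos t0 hs)
    nlinarith
  have h3 : max ⟪p - y, ν⟫ 0 / (2 * s) ≤ t := by
    rw [div_le_iff₀ (by positivity)]
    exact max_le h2 (by positivity)
  refine Or.inr ⟨?_, fun h4 => ?_⟩
  · rw [segment_eq_image', g2sP]
    generalize max ⟪p - y, ν⟫ 0 / (2 * s) = c at *
    have c2 : 0 < 1 - c := by linarith
    refine ⟨(t - c) / (1 - c), ⟨div_nonneg (by linarith) c2.le, (div_le_one c2).2 (by linarith)⟩, ?_⟩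
    have e2 : p - (y + c • (p - y)) = (1 - c) • (p - y) := by
      rw [sub_smul, one_smul, sub_add_eq_sub_sub]
    simp only [e2, smul_smul, div_mul_cancel₀ _ c2.ne', add_assoc, ← add_smul, add_sub_cancel]
  · rw [mem_sphere_iff_norm, add_sub_add_left_eq_sub] at h4
    rw [h4] at e
    have h5 : ⟪p - y, ν⟫ = t * (2 * s) := by
      refine mul_left_cancel₀ (mul_pos t0 hs).ne' ?_
      nlinarith
    rw [g2sP, h5, max_eq_left (by positivity), mul_div_cancel_right₀ _ (by positivity)]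

theorem g2s_len {ν : ℂ} (hs : 0 < s) (hν : ‖ν‖ = 1) (hp : p ∈ sphere y s)
    (ha : a = 0 ∨ (0 < ⟪p - y, ν⟫ ∧ a * s < ⟪p - y, ν⟫)) :
    ∀ᶠ τ in 𝓝[>] (0 : ℝ), ‖p - g2sP y ν s p‖ +
      ‖g2sP y ν s p - (if 0 < ⟪p - y, ν⟫ then y + τ • ν else y)‖ ≤ s - τ * a := by
  have hv := mem_sphere_iff_norm.1 hp
  by_cases hb : 0 < ⟪p - y, ν⟫
  · have ha' : a * s < ⟪p - y, ν⟫ := ha.elim (fun h => by rwa [h, zero_mul]) fun h => h.2
    filter_upwards [g2s_ev hs hv hν hb ha'] with τ h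
    obtain ⟨-, c1⟩ := g2s_half hs hν hp
    rw [if_pos hb, g2sP, add_sub_add_left_eq_sub]
    rw [max_eq_left hb.le] at c1 ⊢
    have e2 : p - (y + (⟪p - y, ν⟫ / (2 * s)) • (p - y)) = (1 - ⟪p - y, ν⟫ / (2 * s)) • (p - y) := by
      rw [sub_smul, one_smul, sub_add_eq_sub_sub]
    rw [e2, norm_smul, hv, Real.norm_of_nonneg (by linarith)]
    have e3 : (1 - ⟪p - y, ν⟫ / (2 * s)) * s = s - ⟪p - y, ν⟫ / 2 := by field_simp
    linarith
  · refine Eventually.of_forall fun τ => ?_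
    rw [if_neg hb, g2sP, max_eq_right (not_lt.1 hb), ha.resolve_right fun h => hb h.1]
    simp [hv]

theorem g2s_main {β : Type} {σ : ℂ → β} {ν : ℂ} {τ : ℝ} (h : FM K σ) (hs : 0 < s)
    (hf : (K ∩ sphere y s).Finite) (hν : ‖ν‖ = 1) (τ0 : 0 < τ) (τ1 : τ < s / 4) :
    Lr K y s ≤ τ + ∑ p ∈ hf.toFinset, (‖p - g2sP y ν s p‖ +
      ‖g2sP y ν s p - (if 0 < ⟪p - y, ν⟫ then y + τ • ν else y)‖) := by
  obtain ⟨k1, σ₁, l1, m1⟩ := apex h.1 h.2.2.1 (mem_ball_self hs) inter_subset_right hf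
    (h.2.2.1.mono fun z hz h' => hz.2 ⟨h', hz.1⟩) fun _ _ _ => rfl
  have hB : closedBall (y + (s / 4) • ν) (s / 4) ⊆ ball y s := by
    refine closedBall_subset_ball' ?_
    rw [dist_self_add_left, norm_smul, hν, Real.norm_of_nonneg (by positivity)]
    linarith
  have hF : y + τ • ν ∈ ball (y + (s / 4) • ν) (s / 4) := by
    rw [mem_ball_iff_norm, add_sub_add_left_eq_sub, ← sub_smul, norm_smul, hν, mul_one,
      Real.norm_eq_abs, abs_lt]
    constructor <;> linarith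
  have hT : insert y (g2sP y ν s '' (K ∩ sphere y s)) ⊆ sphere (y + (s / 4) • ν) (s / 4) := by
    rintro z (rfl | ⟨p, hp, rfl⟩)
    · rw [mem_sphere, dist_self_add_right, norm_smul, hν, mul_one,
        Real.norm_of_nonneg (by positivity)]
    · exact g2s_sph hs hν hp.2
  obtain ⟨k2, σ₂, l2, m2⟩ := apex k1 l1 hF hT ((hf.image _).insert y)
    (l1.mono fun z hz h' => by
      rcases h' with h' | rfl | h'
      · exact h'.2 (hB (sphere_subset_closedBall hz.1))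
      · exact hz.2 (Or.inl rfl)
      · obtain ⟨p, hp, h'⟩ := mem_iUnion₂.1 h'
        rcases g2s_seg hs hν hp.2 h' fun h => (mem_ball.1 h).ne hz.1 with h | h
        · exact hz.2 (Or.inl h)
        · exact hz.2 (Or.inr ⟨p, hp, (h.2 hz.1).symm⟩)) fun _ _ _ => rfl
  have hc1 := (cone_sub (mem_ball_self hs) (inter_subset_right (s := K) (t := sphere y s))).1
  have hc2 := (cone_sub hF hT).1
  have hB' := hB.trans ball_subset_closedBall
  have h3 := h.2.2.2.2 y s _ σ₂ hs k2 l2 (fun z hz =>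
    ⟨fun h => h.elim (fun h => h.1.elim (fun h => h.1) fun h => absurd (hc1 h) hz)
      fun h => absurd (hB' (hc2 h)) hz, fun h => Or.inl ⟨Or.inl ⟨h,
        fun h' => hz (ball_subset_closedBall h')⟩, fun h' => hz (hB' (ball_subset_closedBall h'))⟩⟩)
    fun z hz hz' => (m2 z (fun h => h.elim (fun h => hz h.1) fun h => hz' (hc1 h))
      fun h => hz' (hB' h)).trans (m1 z hz hz')
  have h4 : ((((K \ ball y s) ∪ cone y (K ∩ sphere y s)) \ ball (y + (s / 4) • ν) (s / 4)) ∪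
      cone (y + τ • ν) (insert y (g2sP y ν s '' (K ∩ sphere y s)))) ∩ closedBall y s ⊆
      (K ∩ sphere y s) ∪ (segment ℝ (y + τ • ν) y ∪ ⋃ p ∈ hf.toFinset,
        (segment ℝ (g2sP y ν s p) p ∪
          segment ℝ (if 0 < ⟪p - y, ν⟫ then y + τ • ν else y) (g2sP y ν s p))) := by
    rintro z ⟨⟨h1 | rfl | h1, h2⟩ | rfl | h1, hz⟩
    · exact Or.inl ⟨h1.1, le_antisymm hz (not_lt.1 h1.2)⟩
    · exact Or.inr (Or.inl (right_mem_segment _ _ _))
    · obtain ⟨p, hp, h1⟩ := mem_iUnion₂.1 h1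
      rcases g2s_seg hs hν hp.2 h1 h2 with rfl | h
      · exact Or.inr (Or.inl (right_mem_segment _ _ _))
      · exact Or.inr (Or.inr (mem_iUnion₂.2 ⟨p, hf.mem_toFinset.2 hp, Or.inl h.1⟩))
    · exact Or.inr (Or.inl (left_mem_segment _ _ _))
    · obtain ⟨w, rfl | ⟨p, hp, rfl⟩, h1⟩ := mem_iUnion₂.1 h1
      · exact Or.inr (Or.inl h1)
      · by_cases hb : 0 < ⟪p - y, ν⟫
        · exact Or.inr (Or.inr (mem_iUnion₂.2 ⟨p, hf.mem_toFinset.2 hp,
            Or.inr (by rwa [if_pos hb])⟩))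
        · rw [g2sP, max_eq_right (not_lt.1 hb), zero_div, zero_smul, add_zero] at h1
          exact Or.inr (Or.inl h1)
  refine ENNReal.toReal_le_of_le_ofReal (add_nonneg τ0.le (Finset.sum_nonneg fun _ _ =>
    add_nonneg (norm_nonneg _) (norm_nonneg _))) ?_
  refine (measure_mono (inter_subset_inter_right _ ball_subset_closedBall)).trans
    (h3.trans ((measure_mono h4).trans ((measure_union_le _ _).trans ?_)))
  rw [len_finite hf, zero_add, ENNReal.ofReal_add τ0.le (Finset.sum_nonneg fun _ _ =>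
    add_nonneg (norm_nonneg _) (norm_nonneg _)), ENNReal.ofReal_sum_of_nonneg fun _ _ =>
    add_nonneg (norm_nonneg _) (norm_nonneg _)]
  refine (measure_union_le _ _).trans (add_le_add ?_ ((measure_biUnion_finset_le _ _).trans
    (Finset.sum_le_sum fun p _ => (measure_union_le _ _).trans_eq ?_)))
  · rw [hausdorffMeasure_segment, edist_dist, dist_self_add_left, norm_smul, hν, mul_one,
      Real.norm_of_nonneg τ0.le]
  · rw [hausdorffMeasure_segment, hausdorffMeasure_segment, edist_dist, edist_dist,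
      ENNReal.ofReal_add (norm_nonneg _) (norm_nonneg _), dist_eq_norm', dist_eq_norm']

theorem FM.step {β : Type} {σ : ℂ → β} (h : FM K σ) (hs : 0 < s) (hf : (K ∩ sphere y s).Finite)
    (hL : Nn K y s * s ≤ Lr K y s) (hp : p ∈ K ∩ sphere y s) (hq : q ∈ K ∩ sphere y s)
    (hpq : p ≠ q) : ⟪p - y, q - y⟫ ≤ -s ^ 2 / 2 := by
  classical
  by_contra hc
  obtain ⟨ν, hν, h1, h2⟩ := g2s_dir hs (mem_sphere_iff_norm.1 hp.2) (mem_sphere_iff_norm.1 hq.2)
    (not_le.1 hc)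
  obtain ⟨b, b0, b1⟩ := exists_between (lt_min h1 h2)
  rw [lt_min_iff] at b1
  have e : b / s * s = b := div_mul_cancel₀ _ hs.ne'
  have h3 : ∀ᶠ τ in 𝓝[>] (0 : ℝ), ∀ z ∈ K ∩ sphere y s, ‖z - g2sP y ν s z‖ +
      ‖g2sP y ν s z - (if 0 < ⟪z - y, ν⟫ then y + τ • ν else y)‖ ≤
        s - τ * (if z ∈ ({p, q} : Finset ℂ) then b / s else 0) := by
    refine (eventually_all_finite hf).2 fun z hz => g2s_len hs hν hz.2 ?_
    split_ifs with h4
    · rw [Finset.mem_insert, Finset.mem_singleton] at h4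
      rcases h4 with rfl | rfl
      · exact Or.inr ⟨by linarith, by linarith [b1.1]⟩
      · exact Or.inr ⟨by linarith, by linarith [b1.2]⟩
    · exact Or.inl rfl
  obtain ⟨τ, h4, τ0, τ1⟩ := (h3.and (Ioo_mem_nhdsGT (by positivity : 0 < s / 4))).exists
  have h5 := (g2s_main h hs hf hν τ0 τ1).trans (add_le_add le_rfl
    (Finset.sum_le_sum fun z hz => h4 z (hf.mem_toFinset.1 hz)))
  have h6 : hf.toFinset ∩ {p, q} = {p, q} := Finset.inter_eq_right.2 fun z hz => by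
    rw [Finset.mem_insert, Finset.mem_singleton] at hz
    rcases hz with rfl | rfl
    · exact hf.mem_toFinset.2 hp
    · exact hf.mem_toFinset.2 hq
  rw [Finset.sum_sub_distrib, ← Finset.mul_sum, Finset.sum_ite_mem, h6, Finset.sum_pair hpq,
    Finset.sum_const, nsmul_eq_mul, ← ncard_eq_toFinset_card _ hf] at h5
  have h7 : 1 / 2 < b / s := by
    rw [lt_div_iff₀ hs]
    linarith
  unfold Nn at hL
  nlinarith

end Vale.Agent.P128
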