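import Vale.Agent.P128.G2b
import Vale.Agent.P128.G2s

/-!
# P128 G2h

`FM.hom`: `Lr ≤ Nn s` (`FM.cone`) and `∫ Nn ≤ Lr` (`Nn_int`) give `Nn = l` a.e.; `FM.step`, `card_le3`
and `FM.two` give `l ∈ {2, 3}`.
-/

namespace Vale.Agent.P128

open Set Metric MeasureTheory Filter Topology Complex
open scoped ENNReal ContDiff RealInnerProductSpace Gradient Real ComplexConjugate

variable {Ω K L A S T U O X Γ P M₀ K₀ K₁ : Set ℂ} {u v w g hh ψ η : ℂ → ℝ} {G : ℂ → ℂ}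
  {π₀ π₁ : ℂ → Set ℂ} {x y z c p q e a₀ F : ℂ} {lam H r s R a b t M Θ ρ ε δ d : ℝ} {n : ℕ}

theorem g2h_ae {β : Type} {σ : ℂ → β} {l : ℝ} (h : FM K σ)
    (hL : ∀ s, 0 < s → Lr K y s = l * s) (hb : 0 < b) :
    ∀ᵐ s : ℝ, s ∈ Ioo 0 b → (K ∩ sphere y s).Finite ∧ (Nn K y s : ℝ) = l := by
  obtain ⟨h1, h2⟩ := Nn_int (h.2.1 y b) h.1 le_rfl hb.le le_rfl
  have h3 : IntervalIntegrable (fun s => (Nn K y s : ℝ) - l) volume 0 b :=
    h1.sub intervalIntegrable_const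
  have h4 : ∀ᵐ s : ℝ, s ∈ Ioo 0 b → 0 ≤ (Nn K y s : ℝ) - l := by
    filter_upwards [eil_fin (h.2.1 y b) h.1] with s h4 h5
    have h6 := h.cone h5.1 (h4 h5)
    rw [hL s h5.1] at h6
    linarith [le_of_mul_le_mul_right h6 h5.1]
  have h5 : 0 ≤ᵐ[volume.restrict (Ioo 0 b)] fun s => (Nn K y s : ℝ) - l :=
    (ae_restrict_iff' measurableSet_Ioo).2 h4
  have h6 : ∫ s in Ioo 0 b, ((Nn K y s : ℝ) - l) = 0 := by
    refine le_antisymm ?_ (integral_nonneg_of_ae h5)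
    rw [← integral_Ioc_eq_integral_Ioo, ← intervalIntegral.integral_of_le hb.le,
      intervalIntegral.integral_sub h1 intervalIntegrable_const, intervalIntegral.integral_const,
      smul_eq_mul]
    linarith [hL b hb, Lr_nonneg K y 0]
  have h7 := (ae_restrict_iff' measurableSet_Ioo).1 ((integral_eq_zero_iff_of_nonneg_ae h5
    ((intervalIntegrable_iff_integrableOn_Ioo_of_le hb.le).1 h3)).1 h6)
  filter_upwards [eil_fin (h.2.1 y b) h.1, h7] with s h8 h9 hs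
  exact ⟨h8 hs, sub_eq_zero.1 (h9 hs)⟩

theorem FM.hom {β : Type} {σ : ℂ → β} {l : ℝ} (h : FM K σ) (hy : y ∈ K)
    (hL : ∀ s, 0 < s → Lr K y s = l * s) :
    (l = 2 ∨ l = 3) ∧ ∀ᵐ s : ℝ, 0 < s → (K ∩ sphere y s).Finite ∧ (Nn K y s : ℝ) = l := by
  constructor
  · have h1 := (ae_restrict_iff' measurableSet_Ioo).2 (g2h_ae h hL one_pos)
    have h2 : (ae (volume.restrict (Ioo (0 : ℝ) 1))).NeBot := by
      rw [ae_neBot, Ne, Measure.restrict_eq_zero]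
      simp
    obtain ⟨s, ⟨hf, e⟩, hs, -⟩ := (h1.and (ae_restrict_mem measurableSet_Ioo)).exists
    have h3 : Nn K y s ≤ 3 := card_le3 inter_subset_right hs hf fun p hp q hq hpq =>
      h.step hs hf (by rw [hL s hs, e]) hp hq hpq
    have h4 := h.two hy hs
    rw [← hf.cast_ncard_eq] at h4
    have h5 : 2 ≤ Nn K y s := by exact_mod_cast h4
    rw [← e]
    rcases (by omega : Nn K y s = 2 ∨ Nn K y s = 3) with h6 | h6 <;> simp [h6]
  · filter_upwards [ae_all_iff.2 fun n : ℕ => g2h_ae h hL (Nat.cast_add_one_pos n)] with s h1 hs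
    obtain ⟨n, hn⟩ := exists_nat_gt s
    exact h1 n ⟨hs, by linarith⟩

end Vale.Agent.P128
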