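import Vale.Agent.P128.Apex

/-!
# P128 G2l

Rigidity. `FM.lens`: if `K ∩ ball y s` misses `sphere p t`, then `K` misses the closed arc
`sphere p t ∩ closedBall y s` (its ends are not in `K`). With `e = (p - y)/s` use polar coordinates at `p`:
`p - ρ e ex ψ` is in the closed ball iff `cos ψ ≥ ρ/(2s)`; the two curves `ρ ↦ p - ρ e ex (± arccos (ρ/(2s)))`,
`0 < ρ ≤ t`, and the arc `ρ = t` form a connected set off `K`, so `σ` is constant on the circle near `p`.
Then `FM.apex` with `T` minus `p` gives `Lr ≤ (Nn - 1) s`.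
`FM.rigid`: for `0 < t ≤ τ` the sets `ball y (s - t)` and `ball p t ∩ ball y s`, `p ∈ T`, are disjoint and carry
length `≥ n (s - t) + n t` (`eil_low`), which is everything; by reducedness every `z ∈ K ∩ ball y s` lies in
the union of the closed balls. Let `s - t ↑ ‖z - y‖`: `‖z - y‖ + ‖z - p‖ ≤ s` for some `p`
(`dist_add_dist_eq_iff` in a strictly convex space).
-/

namespace Vale.Agent.P128

open Set Metric MeasureTheory Filter Topology Complex
open scoped ENNReal ContDiff RealInnerProductSpace Gradient Real ComplexConjugate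

variable {Ω K L A S T U O X Γ P M₀ K₀ K₁ : Set ℂ} {u v w g hh ψ η : ℂ → ℝ} {G : ℂ → ℂ}
  {π₀ π₁ : ℂ → Set ℂ} {x y z c p q e a₀ F : ℂ} {lam H r s R a b t M Θ ρ ε δ d : ℝ} {n : ℕ}

theorem g2l_ne (τ : ℝ) : (1 / 2 + τ * I : ℂ) ≠ 0 := fun h => by
  have := congrArg Complex.re h
  simp at this

theorem g2l_norm (d : ℂ) (τ : ℝ) : ‖d / (1 / 2 + τ * I) - d‖ = ‖d‖ := by
  have h := g2l_ne τ
  have e : d / (1 / 2 + τ * I) - d = d * conj (1 / 2 + τ * I : ℂ) / (1 / 2 + τ * I) := by
    rw [eq_div_iff h, sub_mul, div_mul_cancel₀ _ h]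
    simp only [map_add, map_mul, conj_ofReal, conj_I, map_div₀, map_one, map_ofNat]
    ring
  rw [e, norm_div, norm_mul, Complex.norm_conj, mul_div_assoc, div_self (norm_ne_zero_iff.2 h),
    mul_one]

theorem g2l_surj {d a : ℂ} (hd : d ≠ 0) (ha : a ≠ 0) (h : ‖a - d‖ = ‖d‖) :
    ∃ τ : ℝ, d / (1 / 2 + τ * I) = a := by
  have h1 : (d / a).re = 1 / 2 := by
    have h2 : normSq (a - d) = normSq d := by
      rw [normSq_eq_norm_sq, normSq_eq_norm_sq, h]
    have h3 : normSq a ≠ 0 := by simpa using ha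
    rw [div_re, ← add_div, div_eq_iff h3]
    simp only [normSq_apply, sub_re, sub_im] at h2 ⊢
    linarith
  refine ⟨(d / a).im, ?_⟩
  have h4 : (1 / 2 + ((d / a).im : ℝ) * I : ℂ) = d / a := by
    conv_rhs => rw [← re_add_im (d / a), h1]
    push_cast
    ring
  rw [h4]
  field_simp

theorem FM.lens {β : Type} {σ : ℂ → β} (h : FM K σ) (hf : (K ∩ sphere y s).Finite)
    (hp : p ∈ K ∩ sphere y s) (ht : 0 < t) (hts : t ≤ s)
    (hsep : ∀ q ∈ K ∩ sphere y s, q ≠ p → t < ‖q - p‖) (hL : (Nn K y s - 1) * s < Lr K y s) :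
    ∃ z ∈ K ∩ ball y s, ‖z - p‖ = t := by
  classical
  by_contra hc
  have hs : 0 < s := ht.trans_le hts
  have hd : ‖y - p‖ = s := by rw [norm_sub_rev]; exact mem_sphere_iff_norm.1 hp.2
  have hd0 : y - p ≠ 0 := norm_pos_iff.1 (by rw [hd]; exact hs)
  set W : ℝ → ℂ := fun τ => (y - p) / (1 / 2 + τ * I) with hW
  have hW0 : ∀ τ, W τ ≠ 0 := fun τ => div_ne_zero hd0 (g2l_ne τ)
  have hWc : Continuous W := continuous_const.div (by fun_prop) g2l_ne
  have hWs : ∀ τ, p + W τ ∈ sphere y s := fun τ => by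
    rw [mem_sphere_iff_norm, ← hd, ← g2l_norm (y - p) τ]
    congr 1
    simp only [hW]
    ring
  set g : ℝ → ℂ := fun τ => p + (min 1 (t / ‖W τ‖)) • W τ with hg
  have hgc : Continuous g := by
    have h1 : Continuous fun τ => min 1 (t / ‖W τ‖) := continuous_const.min
      (continuous_const.div hWc.norm fun τ => norm_ne_zero_iff.2 (hW0 τ))
    exact continuous_const.add (h1.smul hWc)
  have hg1 : ∀ τ, ‖W τ‖ ≤ t → g τ = p + W τ := fun τ hτ => by
    simp only [hg]
    rw [min_eq_left ((one_le_div (norm_pos_iff.2 (hW0 τ))).2 hτ), one_smul]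
  have hgK : range g ⊆ Kᶜ := by
    rintro _ ⟨τ, rfl⟩ hK
    have hn := norm_pos_iff.2 (hW0 τ)
    rcases le_total ‖W τ‖ t with h1 | h1
    · rw [hg1 τ h1] at hK
      have := hsep _ ⟨hK, hWs τ⟩ (by simpa using hW0 τ)
      rw [add_sub_cancel_left] at this
      linarith
    · have h2 : t / ‖W τ‖ ≤ 1 := (div_le_one hn).2 h1
      have h3 : ‖g τ - p‖ = t := by
        simp only [hg]
        rw [min_eq_right h2, add_sub_cancel_left, norm_smul, Real.norm_of_nonneg (by positivity),
          div_mul_cancel₀ _ hn.ne']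
      have h4 : g τ ∈ closedBall y s := by
        simp only [hg]
        rw [min_eq_right h2]
        exact (convex_closedBall y s).add_smul_mem (sphere_subset_closedBall hp.2)
          (sphere_subset_closedBall (hWs τ)) ⟨by positivity, h2⟩
      rcases (mem_closedBall.1 h4).lt_or_eq with h5 | h5
      · exact hc ⟨_, ⟨hK, h5⟩, h3⟩
      · have := hsep _ ⟨hK, h5⟩ fun e => by
          rw [e, sub_self, norm_zero] at h3
          exact ht.ne h3
        linarith
  have hcst : ∀ w ∈ sphere y s, w ≠ p → ‖w - p‖ ≤ t → σ w = σ (g 0) := by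
    intro w hw hwp hwt
    obtain ⟨τ, hτ⟩ := g2l_surj hd0 (sub_ne_zero.2 hwp) (by
      rw [sub_sub_sub_cancel_right, hd]; exact mem_sphere_iff_norm.1 hw)
    have h1 : W τ = w - p := hτ
    have h2 : g τ = w := by rw [hg1 τ (by rwa [h1]), h1, add_sub_cancel]
    exact h.2.2.1.eq hgK (isPreconnected_range hgc) ⟨τ, h2⟩ ⟨0, rfl⟩
  have hf' : ((K ∩ sphere y s) \ {p}).Finite := hf.subset sdiff_subset
  have h0 : LC (sphere y s \ ((K ∩ sphere y s) \ {p})) (fun z => if z = p then σ (g 0) else σ z) := by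
    intro z hz
    by_cases hzp : z = p
    · subst hzp
      filter_upwards [self_mem_nhdsWithin,
        mem_nhdsWithin_of_mem_nhds (closedBall_mem_nhds z ht)] with w hw hwt
      rw [if_pos rfl]
      split_ifs with h1
      · rfl
      · exact hcst w hw.1 h1 (mem_closedBall_iff_norm.1 hwt)
    · have hzK : z ∈ Kᶜ := fun hK => hz.2 ⟨⟨hK, hz.1⟩, hzp⟩
      have h1 := h.2.2.1 z hzK
      rw [h.1.isOpen_compl.nhdsWithin_eq hzK] at h1
      filter_upwards [mem_nhdsWithin_of_mem_nhds h1,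
        mem_nhdsWithin_of_mem_nhds (isOpen_ne.mem_nhds hzp)] with w hw hwp
      rw [if_neg hwp, if_neg hzp]
      exact hw
  have h1 := h.apex (mem_ball_self hs) (fun z hz => hz.1.2) hf' h0
    (fun z hz _ => if_neg fun e : z = p => hz.2 (by rw [e]; exact hp.1)) hf
  rw [Finset.sum_congr rfl fun q hq => mem_sphere_iff_norm.1 (hf'.mem_toFinset.1 hq).1.2,
    Finset.sum_const, nsmul_eq_mul, ← ncard_eq_toFinset_card _ hf'] at h1
  have h2 := ncard_sdiff_singleton_add_one hp hf
  have h3 : ((K ∩ sphere y s) \ {p}).ncard = (Nn K y s : ℝ) - 1 := by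
    rw [Nn, ← h2]
    push_cast
    ring
  rw [h3] at h1
  linarith

end Vale.Agent.P128
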