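import Vale.Agent.P128.G2h
import Vale.Agent.P128.G2r
import Vale.Agent.P128.Star

/-!
# P128 G2p

Classification. `prop_case`: for a.e. `s` there are three points with pairwise inner products
`≤ -s²/2` (`FM.hom`, `FM.step`), so they are `y + s dir 3 e k` (`three_dir`); `FM.rigid` with
`τ = √3 s/2` puts `K` in the annulus `((1 - √3/2) s, s)` inside `star 3 y e`; overlapping annuli share a good
radius, so the star does not depend on `s` (`star_three_rot`); conversely the star is in `K` by density.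
`seg_case`: if `Lr K y s < 3 s` some radius `s' ≤ s` has exactly two points (`FM.two`, `eil_low`); `FM.apex`
at the midpoint and `Lr ≥ 2 s'` show they are antipodal; `FM.rigid` with `τ = s'`; each smaller circle has two
points, so `K` is a diameter. `FM.cls`: if every point is of the second kind, the set of `t` with
`y + t e ∈ K` is open and closed, so `K` contains the line through each of its points; two different lines
have length `> 3 s` in a large ball.
-/

namespace Vale.Agent.P128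

open Set Metric MeasureTheory Filter Topology Complex
open scoped ENNReal ContDiff RealInnerProductSpace Gradient Real ComplexConjugate

variable {Ω K L A S T U O X Γ P M₀ K₀ K₁ : Set ℂ} {u v w g hh ψ η : ℂ → ℝ} {G : ℂ → ℂ}
  {π₀ π₁ : ℂ → Set ℂ} {x y z c p q e a₀ F : ℂ} {lam H r s R a b t M Θ ρ ε δ d : ℝ} {n : ℕ}

theorem g2p_unit (hs : 0 < s) (hp : p ∈ sphere y s) : ‖(p - y) / s‖ = 1 ∧
    p = y + s * ((p - y) / s) := by
  have h1 : ‖p - y‖ = s := by simpa [dist_eq_norm] using hp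
  have hs' : (s : ℂ) ≠ 0 := by exact_mod_cast hs.ne'
  refine ⟨?_, ?_⟩
  · rw [norm_div, h1, Complex.norm_real, Real.norm_eq_abs, abs_of_pos hs, div_self hs.ne']
  · field_simp
    ring

theorem g2p_inner (hs : 0 < s) (h : ⟪p - y, q - y⟫ ≤ -s ^ 2 / 2) :
    ⟪(p - y) / s, (q - y) / s⟫ ≤ -1 / 2 := by
  have e1 : ∀ z : ℂ, z / s = s⁻¹ • z := fun z => by
    rw [Complex.real_smul, Complex.ofReal_inv, div_eq_inv_mul]
  rw [e1, e1, real_inner_smul_left, real_inner_smul_right]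
  have h2 : s⁻¹ * (s⁻¹ * ⟪p - y, q - y⟫) ≤ s⁻¹ * (s⁻¹ * (-s ^ 2 / 2)) := by gcongr
  have h3 : s⁻¹ * (s⁻¹ * (-s ^ 2 / 2)) = -1 / 2 := by field_simp
  linarith

theorem g2p_norm (he : ‖e‖ = 1) (ht : 0 ≤ t) (k : ℕ) : ‖y + t * dir 3 e k - y‖ = t := by
  rw [add_sub_cancel_left, norm_mul, dir_norm he, Complex.norm_real, Real.norm_eq_abs,
    abs_of_nonneg ht, mul_one]

/-- The structure of `K` near a good circle. -/
theorem g2p_good {β : Type} {σ : ℂ → β} (h : FM K σ)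
    (hL : ∀ s, 0 < s → Lr K y s = 3 * s) (hs : 0 < s) (hf : (K ∩ sphere y s).Finite)
    (hn : Nn K y s = 3) : ∃ e, ‖e‖ = 1 ∧ (∀ k < 3, y + s * dir 3 e k ∈ K) ∧
      ∀ z ∈ K, s / 2 < ‖z - y‖ → ‖z - y‖ ≤ s → z ∈ star 3 y e := by
  have hstep : ∀ p ∈ K ∩ sphere y s, ∀ q ∈ K ∩ sphere y s, p ≠ q →
      ⟪p - y, q - y⟫ ≤ -s ^ 2 / 2 := fun p hp q hq hpq =>
    h.step hs hf (by rw [hn, hL s hs]; norm_num) hp hq hpq
  obtain ⟨p₀, p₁, p₂, h01, h02, h12, hT⟩ := Set.ncard_eq_three.1 hn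
  have m0 : p₀ ∈ K ∩ sphere y s := by rw [hT]; simp
  have m1 : p₁ ∈ K ∩ sphere y s := by rw [hT]; simp
  have m2 : p₂ ∈ K ∩ sphere y s := by rw [hT]; simp
  obtain ⟨n0, q0⟩ := g2p_unit hs m0.2
  obtain ⟨n1, q1⟩ := g2p_unit hs m1.2
  obtain ⟨n2, q2⟩ := g2p_unit hs m2.2
  have hd := three_dir n0 n1 n2 (g2p_inner hs (hstep _ m0 _ m1 h01))
    (g2p_inner hs (hstep _ m0 _ m2 h02)) (g2p_inner hs (hstep _ m1 _ m2 h12))
  set e := (p₀ - y) / s with he
  have hin : ∀ k < 3, y + s * dir 3 e k ∈ K := by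
    intro k hk
    have hc : ∀ w ∈ ({(p₁ - y) / s, (p₂ - y) / s} : Set ℂ), y + s * w ∈ K := by
      rintro w (rfl | rfl)
      · rw [← q1]; exact m1.1
      · rw [← q2]; exact m2.1
    rw [hd] at hc
    interval_cases k
    · rw [dir_zero, ← q0]; exact m0.1
    · exact hc _ (by simp)
    · exact hc _ (by simp)
  have hout : ∀ p ∈ K ∩ sphere y s, ∃ k < 3, p = y + s * dir 3 e k := by
    have hc : ∀ w ∈ ({dir 3 e 1, dir 3 e 2} : Set ℂ), ∃ k < 3, w = dir 3 e k := by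
      rintro w (rfl | rfl)
      · exact ⟨1, by norm_num, rfl⟩
      · exact ⟨2, by norm_num, rfl⟩
    rw [← hd] at hc
    intro p hp
    rw [hT] at hp
    rcases hp with rfl | rfl | rfl
    · exact ⟨0, by norm_num, by rw [dir_zero]; exact q0⟩
    · obtain ⟨k, hk, hw⟩ := hc ((p - y) / s) (by simp)
      exact ⟨k, hk, by rw [← hw]; exact q1⟩
    · obtain ⟨k, hk, hw⟩ := hc ((p - y) / s) (by simp)
      exact ⟨k, hk, by rw [← hw]; exact q2⟩
  refine ⟨e, n0, hin, fun z hz h1 h2 => ?_⟩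
  rcases h2.lt_or_eq with h2 | h2
  · have hsep : ∀ p ∈ K ∩ sphere y s, ∀ q ∈ K ∩ sphere y s, p ≠ q → 2 * (s / 2) ≤ ‖p - q‖ := by
      intro p hp q hq hpq
      have a1 : ‖p - y‖ = s := by simpa [dist_eq_norm] using hp.2
      have a2 : ‖q - y‖ = s := by simpa [dist_eq_norm] using hq.2
      have a3 := norm_sub_sq_real (p - y) (q - y)
      rw [a1, a2, show p - y - (q - y) = p - q by ring] at a3
      have a4 := hstep p hp q hq hpq
      have a5 : (2 * (s / 2)) ^ 2 ≤ ‖p - q‖ ^ 2 := by nlinarith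
      exact (pow_le_pow_iff_left₀ (by positivity) (norm_nonneg _) two_ne_zero).1 a5
    obtain ⟨p, hp, hzp⟩ := h.rigid (τ := s / 2) hf hn (by norm_num) (by positivity) (by linarith)
      hsep (by rw [hL s hs]; norm_num) (fun t ht _ => by rw [hL t ht]; norm_num) z hz
      (by linarith) h2
    obtain ⟨k, hk, rfl⟩ := hout p hp
    obtain ⟨a, b, ha, hb, hab, rfl⟩ := hzp
    refine ⟨k, hk, b * s, by positivity, ?_⟩
    have : a = 1 - b := by linarith
    rw [this, Complex.real_smul, Complex.real_smul]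
    push_cast
    ring
  · obtain ⟨k, hk, hw⟩ := hout z ⟨hz, by simpa [dist_eq_norm] using h2⟩
    exact ⟨k, hk, s, hs.le, hw⟩

theorem g2p_star {e' : ℂ} (he : ‖e‖ = 1) (he' : ‖e'‖ = 1) (hs : 0 < s)
    (hz : y + s * e' ∈ star 3 y e) : ∃ k < 3, e' = dir 3 e k := by
  obtain ⟨k, hk, t, ht, hw⟩ := hz
  have h1 := g2p_norm (y := y) he ht k
  rw [← hw, add_sub_cancel_left, norm_mul, he', Complex.norm_real, Real.norm_eq_abs,
    abs_of_pos hs, mul_one] at h1
  subst h1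
  have hs' : (s : ℂ) ≠ 0 := by exact_mod_cast hs.ne'
  exact ⟨k, hk, mul_left_cancel₀ hs' (add_left_cancel hw)⟩

theorem prop_case {β : Type} {σ : ℂ → β} (h : FM K σ) (hy : y ∈ K)
    (hL : ∀ s, 0 < s → Lr K y s = 3 * s) : ∃ e, ‖e‖ = 1 ∧ K = star 3 y e := by
  have hae := (h.hom (l := 3) hy hL).2
  have hdense := Measure.dense_of_ae hae
  have hex : ∀ a b : ℝ, 0 ≤ a → a < b → ∃ s, a < s ∧ s < b ∧ ∃ e, ‖e‖ = 1 ∧
      (∀ k < 3, y + s * dir 3 e k ∈ K) ∧
      ∀ z ∈ K, s / 2 < ‖z - y‖ → ‖z - y‖ ≤ s → z ∈ star 3 y e := by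
    intro a b ha hab
    obtain ⟨s, hs, hs1, hs2⟩ := hdense.exists_between hab
    have hs0 : 0 < s := ha.trans_lt hs1
    obtain ⟨hf, hn⟩ := hs hs0
    exact ⟨s, hs1, hs2, g2p_good h hL hs0 hf (by exact_mod_cast hn)⟩
  set Q : ℝ → ℂ → Prop := fun s e => ‖e‖ = 1 ∧ (∀ k < 3, y + s * dir 3 e k ∈ K) ∧
      ∀ z ∈ K, s / 2 < ‖z - y‖ → ‖z - y‖ ≤ s → z ∈ star 3 y e with hQ
  have hov : ∀ s s' e e', 0 < s → s ≤ s' → s' < 2 * s → Q s e → Q s' e' →
      star 3 y e = star 3 y e' := by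
    intro s s' e e' hs h1 h2 q q'
    have m := q.2.1 0 (by norm_num)
    have nm := g2p_norm (y := y) q.1 hs.le 0
    have m' := q'.2.2 _ m (by rw [nm]; linarith) (by rw [nm]; exact h1)
    rw [dir_zero] at m'
    obtain ⟨k, -, hk⟩ := g2p_star q'.1 q.1 hs m'
    rw [hk, star_three_rot]
  have hind : ∀ n : ℕ, ∀ s s' e e', 0 < s → s ≤ s' → s' ≤ (3 / 2) ^ n * s → Q s e → Q s' e' →
      star 3 y e = star 3 y e' := by
    intro n
    induction n with
    | zero =>
      intro s s' e e' hs h1 h2 q q'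
      exact hov s s' e e' hs h1 (by rw [pow_zero] at h2; linarith) q q'
    | succ n ih =>
      intro s s' e e' hs h1 h2 q q'
      rcases lt_or_ge s' (2 * s) with h3 | h3
      · exact hov s s' e e' hs h1 h3 q q'
      · obtain ⟨s'', a1, a2, e'', q''⟩ := hex (s' / 2) (2 / 3 * s') (by linarith) (by linarith)
        rw [pow_succ] at h2
        exact (ih s s'' e e'' hs (by linarith) (by linarith) q q'').trans
          (hov s'' s' e'' e' (by linarith) (by linarith) (by linarith) q'' q')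
  have hall : ∀ s s' e e', 0 < s → 0 < s' → Q s e → Q s' e' → star 3 y e = star 3 y e' := by
    have key : ∀ s s' e e', 0 < s → s ≤ s' → Q s e → Q s' e' → star 3 y e = star 3 y e' := by
      intro s s' e e' hs h1 q q'
      obtain ⟨n, hn⟩ := pow_unbounded_of_one_lt (s' / s) (by norm_num : (1 : ℝ) < 3 / 2)
      exact hind n s s' e e' hs h1 ((div_lt_iff₀ hs).1 hn).le q q'
    intro s s' e e' hs hs' q q'
    rcases le_total s s' with h1 | h1
    · exact key s s' e e' hs h1 q q'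
    · exact (key s' s e' e hs' h1 q' q).symm
  obtain ⟨s₀, hs₀, -, e₀, q₀⟩ := hex 0 1 le_rfl one_pos
  refine ⟨e₀, q₀.1, Subset.antisymm (fun z hz => ?_) ?_⟩
  · rcases (norm_nonneg (z - y)).lt_or_eq with h1 | h1
    · obtain ⟨s, a1, a2, e, q⟩ := hex ‖z - y‖ (2 * ‖z - y‖) h1.le (by linarith)
      rw [hall s₀ s e₀ e hs₀ (h1.trans a1) q₀ q]
      exact q.2.2 z hz (by linarith) a1.le
    · have : z = y := sub_eq_zero.1 (norm_eq_zero.1 h1.symm)
      rw [this]
      exact star_mem (by norm_num) y e₀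
  · rintro z ⟨k, hk, t, ht, rfl⟩
    refine h.1.closure_subset (Metric.mem_closure_iff.2 fun ε hε => ?_)
    obtain ⟨s, a1, a2, e, q⟩ := hex t (t + ε) ht (by linarith)
    have hs : 0 < s := ht.trans_lt a1
    have m : y + s * dir 3 e₀ k ∈ star 3 y e := by
      rw [← hall s₀ s e₀ e hs₀ hs q₀ q]
      exact ⟨k, hk, s, hs.le, rfl⟩
    obtain ⟨j, hj, hw⟩ := g2p_star q.1 (dir_norm q₀.1 3 k) hs m
    refine ⟨y + s * dir 3 e₀ k, by rw [hw]; exact q.2.1 j hj, ?_⟩
    rw [dist_eq_norm, show y + t * dir 3 e₀ k - (y + s * dir 3 e₀ k) =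
      ((t - s : ℝ) : ℂ) * dir 3 e₀ k by push_cast; ring, norm_mul, dir_norm q₀.1,
      Complex.norm_real, Real.norm_eq_abs, abs_of_neg (by linarith)]
    linarith

end Vale.Agent.P128
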