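import Vale.Agent.P128.Circ1
import Vale.Agent.P128.Cone

/-!
# P128 G3a

Circles of a homogeneous connected global minimizer. `E2 = d s` for a.e. `s` (`Pre.Dr_sub`). On a good
circle: no point contradicts `bon0`, two points contradict `gap_lt` and `bonC`; so there is one point,
`circ1` holds with `δ = 0`; `un - i ut = (t/2) ex ((θ - α)/2)` a.e., hence on `(α, α + 2π)` by continuity;
`π t²/2 = d s`; `un_ut_eq` gives the formula. `bonC` with `Θ = 2π` forces `A2 = B2`, and `cone_gap` gives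
`Lr ≤ s`.
-/

namespace Vale.Agent.P128

open Set Metric MeasureTheory Filter Topology Complex
open scoped ENNReal ContDiff RealInnerProductSpace Gradient Real ComplexConjugate

variable {Ω K L A S T U O X Γ P M₀ K₀ K₁ : Set ℂ} {u v w g hh ψ η : ℂ → ℝ} {G : ℂ → ℂ}
  {π₀ π₁ : ℂ → Set ℂ} {x y z c p q e a₀ F : ℂ} {lam H r s R a b t M Θ ρ ε δ d : ℝ} {n : ℕ}

theorem g3a_E2 (h : Pre univ u K) (hD : ∀ s, 0 < s → Dr u K 0 s = d * s) :
    ∀ᵐ s : ℝ, 0 < s → Good u K 0 s ∧ E2 u K 0 s = d * s := by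
  have h0 : Dr u K 0 0 = 0 := by simp [Dr, Dn]
  have h1 : ∀ k : ℕ, ∀ᵐ s : ℝ, s ∈ Ioo (0 : ℝ) k → Good u K 0 s ∧ E2 u K 0 s = d * s := by
    intro k
    have hk : (0 : ℝ) ≤ k := Nat.cast_nonneg k
    have h2 := (h.Dr_sub (x := 0) (R := k) (subset_univ _) le_rfl hk le_rfl).1
    filter_upwards [h.ae_good (x := 0) (R := k) (subset_univ _), h2.ae_hasDerivAt_integral]
      with s hg hs hs'
    refine ⟨hg hs', ?_⟩
    have h3 := hs (by rw [uIcc_of_le hk]; exact Ioo_subset_Icc_self hs') 0 left_mem_uIcc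
    have h4 : HasDerivAt (fun x => ∫ t in (0 : ℝ)..x, E2 u K 0 t / t) d s := by
      have h5 : HasDerivAt (fun x => d * x) d s := by simpa using (hasDerivAt_id s).const_mul d
      refine h5.congr_of_eventuallyEq ?_
      filter_upwards [lt_mem_nhds hs'.1] with x hx
      have h6 := (h.Dr_sub (x := 0) (R := x) (subset_univ _) le_rfl hx.le le_rfl).2
      rw [h0, zero_add, hD x hx] at h6
      exact h6
    rw [← h3.unique h4, div_mul_cancel₀ _ hs'.1.ne']
  filter_upwards [ae_all_iff.2 h1] with s hs hs0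
  obtain ⟨k, hk⟩ := exists_nat_gt s
  exact hs k ⟨hs0, hk⟩

theorem g3a_am (ha : 0 ≤ a) (hb : 0 ≤ b) : √(a * b) ≤ (a + b) / 2 :=
  Real.sqrt_le_iff.2 ⟨by positivity, by nlinarith [sq_nonneg (a - b)]⟩

theorem g3a_one (h : NP univ 0 u K) (hc : CC K) (hg : Good u K x s) (hp : 0 < Dr u K x s)
    (hE : E2 u K x s = Dr u K x s) :
    (∃ α : ℝ, K ∩ sphere x s = {circleMap x s α}) ∧ 2 * A2 u K x s = Dr u K x s := by
  obtain ⟨hA, hB⟩ := A2_nonneg u K x s
  have ham := g3a_am hA hB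
  rw [E2] at hE
  have hn : (K ∩ sphere x s).Nonempty := by
    rw [nonempty_iff_ne_empty]
    intro h0
    have := bon0 h (subset_univ _) hg h0
    linarith
  refine ⟨?_, ?_⟩
  · obtain ⟨p, hp'⟩ := hn
    have h1 : K ∩ sphere x s = {p} := by
      refine eq_singleton_iff_unique_mem.2 ⟨hp', fun q hq => ?_⟩
      by_contra hqp
      obtain ⟨Θ, hΘ, hM⟩ := gap_lt hg.1 hq hp' hqp
      have h2 := bonC h hc hg ⟨p, hp'⟩ hM
      have h3 := hM.pos hg.1 hg.2.1
      have h4 : Θ / π < 2 := by rwa [div_lt_iff₀ Real.pi_pos]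
      have h5 : 0 < Θ / π := div_pos h3 Real.pi_pos
      have h6 := mul_le_mul_of_nonneg_left ham h5.le
      nlinarith
    have h2 : p ∈ range (circleMap x s) := by
      rw [range_circleMap, abs_of_pos hg.1]
      exact hp'.2
    obtain ⟨α, rfl⟩ := h2
    exact ⟨α, h1⟩
  · have h1 := bonC h hc hg hn (maxGap_triv K x s)
    rw [mul_div_assoc, div_self Real.pi_ne_zero, mul_one] at h1
    have h2 : (Dr u K x s / 2) ^ 2 ≤ A2 u K x s * B2 u K x s :=
      (Real.le_sqrt (by positivity) (by positivity)).1 (by linarith)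
    have h3 : (A2 u K x s - B2 u K x s) ^ 2 ≤ 0 := by
      rw [← hE] at h2
      nlinarith
    have h4 := pow_eq_zero_iff (two_ne_zero) |>.1 (le_antisymm h3 (sq_nonneg _))
    linarith

theorem g3a_form {α : ℝ} (h : Pre univ u K) (hg : Good u K x s)
    (hn : K ∩ sphere x s = {circleMap x s α})
    (ht : ∫ θ in α..α + 2 * π,
      ‖(un u K x s θ : ℂ) - I * ut u K x s θ - t / 2 * ex ((θ - α) / 2)‖ ^ 2 ≤ 0) :
    (∀ θ ∈ Ioo α (α + 2 * π),
      s * conj (∇ u (circleMap x s θ)) * ex θ = t / 2 * ex ((θ - α) / 2)) ∧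
      E2 u K x s = π * t ^ 2 / 2 := by
  have hK : IsClosed K := h.2.1
  have hle : α ≤ α + 2 * π := by linarith [Real.pi_pos]
  have hfa := freeArc_one hg.1 hn.subset
  obtain ⟨i1, i2, i3, i4⟩ := hg.int hK α (α + 2 * π)
  have hi : IntervalIntegrable (fun θ =>
      ‖(un u K x s θ : ℂ) - I * ut u K x s θ - t / 2 * ex ((θ - α) / 2)‖ ^ 2) volume α
      (α + 2 * π) := by
    simp only [wirb_norm, sub_eq_add_neg (un u K x s _)]
    exact (wirb_sq (φ := fun θ => -(t / 2 * Real.cos ((θ - α) / 2))) i2 i4 (by fun_prop)).add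
      (wirb_sq (φ := fun θ => t / 2 * Real.sin ((θ - α) / 2)) i1 i3 (by fun_prop))
  have h1 := le_antisymm ht (intervalIntegral.integral_nonneg hle fun _ _ => by positivity)
  rw [intervalIntegral.integral_eq_zero_iff_of_le_of_nonneg_ae hle
    (Eventually.of_forall fun _ => by positivity) hi] at h1
  have hex : Continuous ex := by
    unfold ex
    fun_prop
  have he : ∀ θ ∈ Ioo α (α + 2 * π), (un u K x s θ : ℂ) - I * ut u K x s θ =
      s * conj (∇ u (circleMap x s θ)) * ex θ := fun θ hθ => by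
    rw [un_ut_eq, gK_of_notMem u (hfa.2.2 θ hθ)]
  have h2 : EqOn (fun θ => s * conj (∇ u (circleMap x s θ)) * ex θ)
      (fun θ => t / 2 * ex ((θ - α) / 2)) (Ioo α (α + 2 * π)) := by
    refine Measure.eqOn_open_of_ae_eq (μ := volume) ?_ isOpen_Ioo ?_ ?_
    · filter_upwards [ae_restrict_of_ae_restrict_of_subset Ioo_subset_Ioc_self h1,
        ae_restrict_mem measurableSet_Ioo] with θ hθ hθ'
      rw [← he θ hθ', ← sub_eq_zero]
      simpa using hθ
    · refine (continuousOn_const.mul (continuous_conj.comp_continuousOn ?_)).mul hex.continuousOn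
      exact h.contGrad.comp (continuous_circleMap x s).continuousOn
        fun θ hθ => ⟨mem_univ _, hfa.2.2 θ hθ⟩
    · exact Continuous.continuousOn (continuous_const.mul (hex.comp (by fun_prop)))
  refine ⟨h2, ?_⟩
  obtain ⟨e1, e2⟩ := A2_shift u K x s α
  rw [E2, ← e1, ← e2, ← intervalIntegral.integral_add i3 i4,
    intervalIntegral.integral_congr_Ioo_of_le (g := fun _ => t ^ 2 / 4) hle]
  · simp only [intervalIntegral.integral_const, smul_eq_mul]
    ring
  · intro θ hθ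
    have h3 := wirb_norm (un u K x s θ) (ut u K x s θ) 0 0
    have h4 : (un u K x s θ : ℂ) - I * ut u K x s θ = t / 2 * ex ((θ - α) / 2) :=
      (he θ hθ).trans (h2 hθ)
    rw [h4] at h3
    simp only [ofReal_zero, zero_div, zero_mul, sub_zero, add_zero, norm_mul, ex_norm, mul_one,
      norm_div, norm_real, Complex.norm_ofNat, div_pow, Real.norm_eq_abs, sq_abs] at h3
    simp only
    linarith

theorem g3a_ex (θ α : ℝ) : ex ((θ - α) / 2) ^ 2 = ex θ * conj (ex α) := by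
  unfold ex
  rw [← exp_conj, ← Complex.exp_add, ← Complex.exp_nat_mul]
  congr 1
  simp only [map_mul, conj_ofReal, conj_I]
  push_cast
  ring

theorem g3a (h : MM univ 0 u K π₀) (hc : CC K) (hd : 0 < d)
    (hD : ∀ s, 0 < s → Dr u K 0 s = d * s) :
    ∀ᵐ s : ℝ, 0 < s → Lr K 0 s ≤ s ∧ ∃ α : ℝ, K ∩ sphere 0 s = {circleMap 0 s α} ∧
      (Zc u K 0 s * ex α).re = d ∧
      ∀ z ∈ sphere (0 : ℂ) s \ K, z * conj (∇ u z) ^ 2 = (d / (2 * π) : ℝ) * conj (ex α) := by
  filter_upwards [g3a_E2 h.pre hD] with s hs hs0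
  obtain ⟨hg, hE⟩ := hs hs0
  have hDs := hD s hs0
  obtain ⟨⟨α, hα⟩, hA⟩ := g3a_one h.1 hc hg (by rw [hDs]; positivity) (by rw [hE, hDs])
  obtain ⟨-, h1, -, t, ht⟩ := circ1 (δ := 0) h.1 (subset_univ _) hg hα (by rw [hE, hDs]; ring)
  rw [mul_zero] at h1 ht
  obtain ⟨h2, h3⟩ := g3a_form h.pre hg hα ht
  refine ⟨?_, α, hα, ?_, fun z hz => ?_⟩
  · have h4 := cone_gap h (subset_univ _) hg (by rw [hα]; exact singleton_nonempty _)
      (maxGap_triv K 0 s)
    rw [Nn, hα, ncard_singleton, mul_div_assoc, div_self Real.pi_ne_zero] at h4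
    push_cast at h4
    linarith
  · have h4 := abs_nonpos_iff.1 h1
    rw [hDs, sub_eq_zero, mul_comm d] at h4
    exact (mul_left_cancel₀ hs0.ne' h4).symm
  · have h4 : z ∈ circleMap 0 s '' Ioc α (α + 2 * π) := by
      rw [(periodic_circleMap 0 s).image_Ioc Real.two_pi_pos, range_circleMap, abs_of_pos hs0]
      exact hz.1
    obtain ⟨θ, hθ, rfl⟩ := h4
    have h5 : θ ≠ α + 2 * π := fun e => hz.2 (by
      rw [e, periodic_circleMap 0 s α]
      exact (hα.symm.subset (mem_singleton _)).1)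
    have h6 := congrArg (· ^ 2) (h2 θ ⟨hθ.1, lt_of_le_of_ne hθ.2 h5⟩)
    simp only [mul_pow, g3a_ex] at h6
    have h7 : ex θ ≠ 0 := norm_ne_zero_iff.1 (by rw [ex_norm]; exact one_ne_zero)
    have h8 : (s : ℂ) ≠ 0 := ofReal_ne_zero.2 hs0.ne'
    have h9 : (d / (2 * π) : ℝ) * (s : ℂ) = (t / 2) ^ 2 := by
      have : d / (2 * π) * s = (t / 2) ^ 2 := by
        rw [hE] at h3
        field_simp
        linarith
      exact_mod_cast this
    refine mul_left_cancel₀ (mul_ne_zero h8 h7) ?_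
    rw [← h9] at h6
    rw [circleMap_ex, zero_add] at h6 ⊢
    linear_combination h6

end Vale.Agent.P128
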