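import Vale.Agent.P128.Star3

/-!
# P128 Geo

Crossing lemmas. `cross`: take the points `y + (t ± 2η r) dir` of the star, nearby points of `K`, a
continuum joining them (`LCn`) and `cross_sph`. `two_of_near`: same with `mdl_two` (`t = 2η r`).
-/

namespace Vale.Agent.P128

open Set Metric MeasureTheory Filter Topology Complex
open scoped ENNReal ContDiff RealInnerProductSpace Gradient Real ComplexConjugate

variable {Ω K L A S T U O X Γ P M₀ K₀ K₁ : Set ℂ} {u v w g hh ψ η : ℂ → ℝ} {G : ℂ → ℂ}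
  {π₀ π₁ : ℂ → Set ℂ} {x y z c p q e a₀ F : ℂ} {lam H r s R a b t M Θ ρ ε δ d : ℝ} {n : ℕ}

theorem geo_cross {η : ℝ} {w₁ w₂ : ℂ} (hM : 0 ≤ M) (hr : 0 < r) (hη : η * r ≤ r)
    (hη0 : 0 ≤ η * r) (hN : Near η y r K M₀) (hL : LCn K (closedBall y (3 * r)) M)
    (h₁ : w₁ ∈ M₀) (h₂ : w₂ ∈ M₀) (a1 : ‖w₁ - y‖ + η * r ≤ t) (a2 : t + η * r ≤ ‖w₂ - y‖)
    (a3 : ‖w₂ - y‖ ≤ 2 * r) :
    ∃ z ∈ K, ‖z - y‖ = t ∧ ‖z - w₁‖ ≤ M * (‖w₁ - w₂‖ + 2 * (η * r)) + η * r := by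
  obtain ⟨z₁, hz₁, b1⟩ := hN.2 w₁ ⟨h₁, mem_closedBall_iff_norm.2 (by linarith)⟩
  obtain ⟨z₂, hz₂, b2⟩ := hN.2 w₂ ⟨h₂, mem_closedBall_iff_norm.2 a3⟩
  have c1 : ‖z₁ - y‖ ≤ ‖z₁ - w₁‖ + ‖w₁ - y‖ := norm_sub_le_norm_sub_add_norm_sub _ _ _
  have c2 : ‖z₂ - y‖ ≤ ‖z₂ - w₂‖ + ‖w₂ - y‖ := norm_sub_le_norm_sub_add_norm_sub _ _ _
  have c3 : ‖w₂ - y‖ ≤ ‖w₂ - z₂‖ + ‖z₂ - y‖ := norm_sub_le_norm_sub_add_norm_sub _ _ _
  rw [norm_sub_rev w₂ z₂] at c3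
  have c4 : ‖z₁ - z₂‖ ≤ ‖z₁ - w₁‖ + ‖w₁ - z₂‖ := norm_sub_le_norm_sub_add_norm_sub _ _ _
  have c5 : ‖w₁ - z₂‖ ≤ ‖w₁ - w₂‖ + ‖w₂ - z₂‖ := norm_sub_le_norm_sub_add_norm_sub _ _ _
  rw [norm_sub_rev w₂ z₂] at c5
  obtain ⟨Γ, -, hΓ, hsub, m1, m2⟩ := hL z₁ ⟨hz₁, mem_closedBall_iff_norm.2 (by linarith)⟩ z₂
    ⟨hz₂, mem_closedBall_iff_norm.2 (by linarith)⟩
  obtain ⟨z, hz, hzt⟩ := cross_sph (x := y) (s := t) hΓ m1 m2 (by linarith) (by linarith)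
  refine ⟨z, (hsub hz).1, hzt, ?_⟩
  have d1 : ‖z - z₁‖ ≤ M * ‖z₁ - z₂‖ := mem_closedBall_iff_norm.1 (hsub hz).2
  have d2 : M * ‖z₁ - z₂‖ ≤ M * (‖w₁ - w₂‖ + 2 * (η * r)) := by gcongr; linarith
  have d3 : ‖z - w₁‖ ≤ ‖z - z₁‖ + ‖z₁ - w₁‖ := norm_sub_le_norm_sub_add_norm_sub _ _ _
  linarith

theorem geo_sep {j k : ℕ} {a : ℂ} (he : ‖e‖ = 1) (hn : n ≤ 3) (hj : j < n) (hk : k < n)
    (hρ : 0 < ρ) (h1 : ‖a - ρ * dir n e j‖ ≤ ρ / 2) (h2 : ‖a - ρ * dir n e k‖ ≤ ρ / 2) :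
    j = k := by
  by_contra hjk
  have h3 := (dir_sep he hn hj hk hjk).1
  have h4 : ‖dir n e j - dir n e k‖ ^ 2 = 2 - 2 * ⟪dir n e j, dir n e k⟫ := by
    rw [norm_sub_sq_real, dir_norm he, dir_norm he]
    ring
  have h5 : ρ * ‖dir n e j - dir n e k‖ ≤ ρ * 1 := by
    have e1 : (ρ : ℂ) * (dir n e j - dir n e k) =
        (a - ρ * dir n e k) - (a - ρ * dir n e j) := by ring
    have e2 : ‖(ρ : ℂ) * (dir n e j - dir n e k)‖ = ρ * ‖dir n e j - dir n e k‖ := by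
      rw [norm_mul, Complex.norm_real, Real.norm_of_nonneg hρ.le]
    rw [← e2, e1]
    exact (norm_sub_le _ _).trans (by linarith)
  have h6 := le_of_mul_le_mul_left h5 hρ
  have h7 := norm_nonneg (dir n e j - dir n e k)
  nlinarith

theorem cross {η : ℝ} {k : ℕ} (hM : 0 ≤ M) (hη : 0 < η) (hη1 : η ≤ 1 / 100) (he : ‖e‖ = 1)
    (hr : 0 < r) (hN : Near η y r K (star n y e)) (hL : LCn K (closedBall y (3 * r)) M)
    (hk : k < n) (ht : t ∈ Icc (r / 8) (3 * r / 2)) :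
    ∃ z ∈ K, ‖z - y‖ = t ∧ ‖z - y - t * dir n e k‖ ≤ 10 * (M + 1) * η * r := by
  have hd : ‖dir n e k‖ = 1 := dir_norm he n k
  have hηr : 0 < η * r := mul_pos hη hr
  have hηr1 : η * r ≤ 1 / 100 * r := by gcongr
  have ht1 := ht.1
  have ht2 := ht.2
  have hn : ∀ a : ℝ, 0 ≤ a → ‖y + a * dir n e k - y‖ = a := fun a ha => by
    rw [add_sub_cancel_left, norm_mul, Complex.norm_real, hd, mul_one, Real.norm_of_nonneg ha]
  have a1 : 0 ≤ t - 2 * (η * r) := by linarith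
  have a2 : 0 ≤ t + 2 * (η * r) := by linarith
  obtain ⟨z, hz, hzt, hb⟩ := geo_cross (t := t) hM hr (by linarith) hηr.le hN hL
    (w₁ := y + (t - 2 * (η * r) : ℝ) * dir n e k) (w₂ := y + (t + 2 * (η * r) : ℝ) * dir n e k)
    ⟨k, hk, _, a1, rfl⟩ ⟨k, hk, _, a2, rfl⟩ (by rw [hn _ a1]; linarith)
    (by rw [hn _ a2]; linarith) (by rw [hn _ a2]; linarith)
  refine ⟨z, hz, hzt, ?_⟩
  have e1 : y + (t - 2 * (η * r) : ℝ) * dir n e k - (y + (t + 2 * (η * r) : ℝ) * dir n e k) =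
      -(((4 * (η * r) : ℝ) : ℂ) * dir n e k) := by push_cast; ring
  have e2 : z - y - t * dir n e k = (z - (y + (t - 2 * (η * r) : ℝ) * dir n e k)) -
      ((2 * (η * r) : ℝ) : ℂ) * dir n e k := by push_cast; ring
  rw [e1, norm_neg, norm_mul, Complex.norm_real, hd, mul_one,
    Real.norm_of_nonneg (by linarith)] at hb
  have h3 : ‖((2 * (η * r) : ℝ) : ℂ) * dir n e k‖ = 2 * (η * r) := by
    rw [norm_mul, Complex.norm_real, hd, mul_one, Real.norm_of_nonneg (by linarith)]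
  rw [e2]
  refine (norm_sub_le _ _).trans ?_
  rw [h3]
  have := mul_nonneg hM hηr.le
  nlinarith

theorem cross_card {η : ℝ} (hM : 0 ≤ M) (hη : 0 < η) (hη1 : (M + 1) * η ≤ 1 / 1000) (he : ‖e‖ = 1)
    (hr : 0 < r) (hn : n ≤ 3) (hN : Near η y r K (star n y e))
    (hL : LCn K (closedBall y (3 * r)) M) (ht : t ∈ Icc (r / 8) (3 * r / 2)) :
    (n : ℕ∞) ≤ (K ∩ sphere y t).encard := by
  have hη2 : η ≤ 1 / 100 := by nlinarith
  have H := fun k (hk : k < n) => cross hM hη hη2 he hr hN hL hk ht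
  choose! f hf hft hb using H
  have ht1 := ht.1
  have ht0 : 0 < t := by linarith
  have hb' : ∀ k < n, ‖f k - y - t * dir n e k‖ ≤ t / 2 := fun k hk => by
    have h1 : (M + 1) * η * r ≤ 1 / 1000 * r := by gcongr
    have := hb k hk
    linarith
  have hinj : InjOn f (Finset.range n : Set ℕ) := by
    intro j hj k hk hjk
    have hj' : j < n := by simpa using hj
    have hk' : k < n := by simpa using hk
    have h1 := hb' j hj'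
    rw [hjk] at h1
    exact geo_sep he hn hj' hk' ht0 h1 (hb' k hk')
  have h2 : f '' (Finset.range n : Set ℕ) ⊆ K ∩ sphere y t := by
    rintro _ ⟨k, hk, rfl⟩
    have hk' : k < n := by simpa using hk
    exact ⟨hf k hk', mem_sphere_iff_norm.2 (hft k hk')⟩
  have h3 := encard_le_encard h2
  rwa [hinj.encard_image, encard_coe_eq_coe_finsetCard, Finset.card_range] at h3

theorem two_of_near {η : ℝ} (hM : 0 ≤ M) (hη : 0 < η) (hη1 : (M + 1) * η ≤ 1 / 1000) (hr : 0 < r)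
    (hm : Mdl M₀) (hy : y ∈ M₀) (hN : Near η y r K M₀) (hL : LCn K (closedBall y (3 * r)) M) :
    Two K y r := by
  intro v hv
  have hη2 : η ≤ 1 / 1000 := by nlinarith
  have hηr : 0 < η * r := mul_pos hη hr
  have hηr1 : η * r ≤ 1 / 1000 * r := by gcongr
  obtain ⟨w₁, h₁, w₂, h₂, a1, a2, a3, a4, a5⟩ :=
    mdl_two (t := 2 * (η * r)) (r := r) hm hy hv (by linarith) (by linarith)
  obtain ⟨z, hz, hzt, hb⟩ := geo_cross (t := r) hM hr (by linarith) hηr.le hN hL h₁ h₂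
    (by linarith) (by linarith) (by linarith)
  refine ⟨z, hz, hzt, ?_⟩
  have e1 : ⟪z - y, v⟫ = ⟪w₁ - y, v⟫ + ⟪z - w₁, v⟫ := by
    rw [← inner_add_left]
    congr 1
    ring
  have h3 := abs_real_inner_le_norm (z - w₁) v
  rw [hv, mul_one] at h3
  have h4 := (abs_le.1 h3).1
  have h5 : M * (‖w₁ - w₂‖ + 2 * (η * r)) ≤ M * (10 * (η * r)) := by gcongr; linarith
  have h6 : (M + 1) * η * r ≤ 1 / 1000 * r := by gcongr
  rw [e1]
  nlinarith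

theorem LCn.mono (h : LCn K S M) (hT : T ⊆ S) : LCn K T M := fun p hp q hq =>
  h p ⟨hp.1, hT hp.2⟩ q ⟨hq.1, hT hq.2⟩

theorem Near.mono {η η' : ℝ} (h : Near η x r K M₀) (hr : 0 ≤ r) (hη : η ≤ η') :
    Near η' x r K M₀ := by
  have h1 : η * r ≤ η' * r := mul_le_mul_of_nonneg_right hη hr
  refine ⟨fun z hz => ?_, fun z hz => ?_⟩
  · obtain ⟨a, ha, hb⟩ := h.1 z hz
    exact ⟨a, ha, hb.trans h1⟩
  · obtain ⟨a, ha, hb⟩ := h.2 z hz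
    exact ⟨a, ha, hb.trans h1⟩

theorem SR.mono {w γ r' : ℝ} (h : SR n K x r e w γ) (hr : 0 < r') (hrr : r' ≤ r) :
    SR n K x r' e (w * (r' / r) ^ γ) γ := by
  refine ⟨h.1, fun ρ h0 h1 => ?_⟩
  have hr0 : 0 < r := hr.trans_le hrr
  have e1 : w * (r' / r) ^ γ * (ρ / r') ^ γ * ρ = w * (ρ / r) ^ γ * ρ := by
    rw [mul_assoc w, ← Real.mul_rpow (by positivity) (by positivity)]
    congr 3
    field_simp
  rw [e1]
  exact h.2 ρ h0 (h1.trans hrr)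

theorem SR.mono_w {w w' γ : ℝ} (h : SR n K x r e w γ) (hw : w ≤ w') : SR n K x r e w' γ := by
  refine ⟨h.1, fun ρ h0 h1 => ?_⟩
  have hr0 : 0 < r := h0.trans_le h1
  have e1 : w * (ρ / r) ^ γ * ρ ≤ w' * (ρ / r) ^ γ * ρ := by gcongr
  obtain ⟨a1, a2⟩ := h.2 ρ h0 h1
  refine ⟨fun z hz hzρ => ?_, fun k hk => ?_⟩
  · obtain ⟨k, hk, hb⟩ := a1 z hz hzρ
    exact ⟨k, hk, hb.trans e1⟩
  · obtain ⟨z, hz, hzρ, hb⟩ := a2 k hk
    exact ⟨z, hz, hzρ, hb.trans e1⟩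

theorem Tg.mono {r' : ℝ} (h : Tg K y r) (hr : 0 < r') (hrr : r' ≤ r) : Tg K y r' := by
  obtain ⟨τ, hτ⟩ := h
  have hr0 : 0 < r := hr.trans_le hrr
  refine ⟨τ, (hτ.mono hr hrr).mono_w ?_⟩
  have h1 : (r' / r) ^ (1 / 6 : ℝ) ≤ 1 :=
    Real.rpow_le_one (by positivity) ((div_le_one hr0).2 hrr) (by norm_num)
  linarith

end Vale.Agent.P128
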