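import Vale.Agent.P128.Defs

/-!
# P128 Gr0

One variable lemmas. `gr`: put `G t = F a + ∫ a..t f ≤ F t`; then `β G ≤ s f + h` a.e.; integrate
by parts (Fubini, or `AbsolutelyContinuousOnInterval` integration by parts):
`G b / b^β - G a / a^β = ∫ (s f - β G) / s^(β+1) ≥ -∫ h / s^(β+1)`.
`dual`: approximate `Y` in `L¹` by a continuous `Y₁`, take `ψ = cutoff * Y₁ / (|Y₁| + τ)`.
`dyad`: sum over the intervals `[b / 2^(k+1), b / 2^k]`.
-/

namespace Vale.Agent.P128

open Set Metric MeasureTheory Filter Topology Complex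
open scoped ENNReal ContDiff RealInnerProductSpace Gradient Real ComplexConjugate

variable {Ω K L A S T U O X Γ P M₀ K₀ K₁ : Set ℂ} {u v w g hh ψ η : ℂ → ℝ} {G : ℂ → ℂ}
  {π₀ π₁ : ℂ → Set ℂ} {x y z c p q e a₀ F : ℂ} {lam H r s R a b t M Θ ρ ε δ d : ℝ} {n : ℕ}

theorem dual {Y : ℝ → ℝ} {B : ℝ} (hab : a < b) (hY : IntervalIntegrable Y volume a b)
    (hB : ∀ k : ℝ → ℝ, Continuous k → (∀ s, |k s| ≤ 1) → (∀ s ∉ Ioo a b, k s = 0) →
      |∫ s in a..b, k s * Y s| ≤ B) : ∫ s in a..b, |Y s| ≤ B := by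
  refine le_of_forall_pos_le_add fun ε hε => ?_
  have hY0 : Integrable ((Ioc a b).indicator Y) :=
    (integrable_indicator_iff measurableSet_Ioc).2 hY.1
  obtain ⟨g, -, hg, gc, gI⟩ := hY0.exists_hasCompactSupport_integral_sub_le (half_pos hε)
  have gi : IntervalIntegrable g volume a b := gc.intervalIntegrable a b
  have hd : ∫ s in a..b, |Y s - g s| ≤ ε / 2 := by
    refine le_trans ?_ hg
    rw [intervalIntegral.integral_of_le hab.le, ← integral_indicator measurableSet_Ioc]
    refine integral_mono_of_nonneg (Eventually.of_forall fun s => ?_) ?_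
      (Eventually.of_forall fun s => ?_)
    · exact indicator_nonneg (fun _ _ => abs_nonneg _) s
    · exact (hY0.sub gI).norm
    · by_cases hs : s ∈ Ioc a b
      · simp [indicator_of_mem hs]
      · simp [indicator_of_notMem hs]
  set k : ℕ → ℝ → ℝ := fun n s =>
    max 0 (min 1 (n * min (s - a) (b - s))) * max (-1) (min 1 (n * g s)) with hk
  have kc : ∀ n, Continuous (k n) := fun n => by simp only [hk]; fun_prop
  have kb : ∀ n s, |k n s| ≤ 1 := fun n s => by
    simp only [hk, abs_mul]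
    refine mul_le_one₀ (abs_le.2 ⟨by simp, by simp⟩) (abs_nonneg _) (abs_le.2 ⟨by simp, by simp⟩)
  have k0 : ∀ n, ∀ s ∉ Ioo a b, k n s = 0 := fun n s hs => by
    have : min (s - a) (b - s) ≤ 0 := by
      by_contra hh
      rw [not_le, lt_min_iff] at hh
      exact hs ⟨by linarith [hh.1], by linarith [hh.2]⟩
    have h2 : (n : ℝ) * min (s - a) (b - s) ≤ 0 :=
      mul_nonpos_of_nonneg_of_nonpos (Nat.cast_nonneg n) this
    simp only [hk]
    rw [max_eq_left (min_le_of_right_le h2), zero_mul]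
  have lim : Tendsto (fun n => ∫ s in a..b, k n s * g s) atTop (𝓝 (∫ s in a..b, |g s|)) := by
    refine intervalIntegral.tendsto_integral_filter_of_dominated_convergence (fun s => |g s|)
      (Eventually.of_forall fun n => ((kc n).mul gc).aestronglyMeasurable)
      (Eventually.of_forall fun n => Eventually.of_forall fun s _ => ?_) gi.abs ?_
    · rw [Real.norm_eq_abs, abs_mul]
      exact mul_le_of_le_one_left (abs_nonneg _) (kb n s)
    · filter_upwards [(countable_singleton b).ae_notMem volume] with s hs hs'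
      rw [uIoc_of_le hab.le] at hs'
      have hm : 0 < min (s - a) (b - s) :=
        lt_min (sub_pos.2 hs'.1) (sub_pos.2 (lt_of_le_of_ne hs'.2 hs))
      have e1 : ∀ {c : ℝ}, 0 < c → ∀ᶠ n : ℕ in atTop, 1 ≤ n * c := fun hc =>
        (tendsto_natCast_atTop_atTop.atTop_mul_const hc).eventually_ge_atTop 1
      refine tendsto_const_nhds.congr' ?_
      rcases lt_trichotomy (g s) 0 with h0 | h0 | h0
      · filter_upwards [e1 hm, e1 (neg_pos.2 h0)] with n h1 h2
        simp only [hk]
        rw [min_eq_left h1, max_eq_left (min_le_of_right_le (by linarith)), abs_of_neg h0]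
        simp
      · simp [h0]
      · filter_upwards [e1 hm, e1 h0] with n h1 h2
        simp only [hk]
        rw [min_eq_left h1, min_eq_left h2, abs_of_pos h0]
        simp
  have h1 : ∫ s in a..b, |g s| ≤ B + ε / 2 := by
    refine le_of_tendsto' lim fun n => ?_
    have i1 : IntervalIntegrable (fun s => k n s * Y s) volume a b :=
      hY.continuousOn_mul (kc n).continuousOn
    have i2 : IntervalIntegrable (fun s => |Y s - g s|) volume a b := (hY.sub gi).abs
    have := (le_abs_self _).trans (hB (k n) (kc n) (kb n) (k0 n))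
    have h2 : ∫ s in a..b, k n s * g s ≤ ∫ s in a..b, (k n s * Y s + |Y s - g s|) := by
      refine intervalIntegral.integral_mono_on hab.le (((kc n).mul gc).intervalIntegrable a b)
        (i1.add i2) fun s _ => ?_
      have t1 : |k n s * (Y s - g s)| ≤ |Y s - g s| := by
        rw [abs_mul]
        exact mul_le_of_le_one_left (abs_nonneg _) (kb n s)
      have t2 := neg_abs_le (k n s * (Y s - g s))
      nlinarith
    rw [intervalIntegral.integral_add i1 i2] at h2
    linarith
  have h2 : ∫ s in a..b, |Y s| ≤ ∫ s in a..b, (|g s| + |Y s - g s|) :=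
    intervalIntegral.integral_mono_on hab.le hY.abs (gi.abs.add (hY.sub gi).abs) fun s _ => by
      have := abs_add_le (g s) (Y s - g s)
      rwa [add_sub_cancel] at this
  rw [intervalIntegral.integral_add gi.abs (hY.sub gi).abs] at h2
  linarith

theorem dyad {f : ℝ → ℝ} {C α β : ℝ} (hf : ∀ s, 0 ≤ f s) (hb : 0 < b)
    (hi : ∀ a, 0 < a → a ≤ b → IntervalIntegrable f volume a b) (hC : 0 ≤ C) (hβ : 0 ≤ β)
    (hαβ : β < α) (h : ∀ r, 0 < r → 2 * r ≤ b → ∫ s in r..2 * r, f s ≤ C * r ^ α)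
    (ha : 0 < a) (hab : a ≤ b) :
    ∫ s in a..b, f s / s ^ β ≤ C * b ^ (α - β) / (1 - (2 : ℝ) ^ (-(α - β))) := by
  set q := (2 : ℝ) ^ (-(α - β)) with hq
  have q0 : 0 < q := Real.rpow_pos_of_pos two_pos _
  have q1 : q < 1 := Real.rpow_lt_one_of_one_lt_of_neg one_lt_two (by linarith)
  have q2 : 0 < 1 - q := sub_pos.2 q1
  have hi' : ∀ c e, 0 < c → c ≤ e → e ≤ b →
      IntervalIntegrable (fun s => f s / s ^ β) volume c e := by
    intro c e hc hce he
    have h1 : IntervalIntegrable f volume c e :=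
      (hi c hc (hce.trans he)).mono_set (by
        rw [uIcc_of_le hce, uIcc_of_le (hce.trans he)]; exact Icc_subset_Icc_right he)
    simp only [div_eq_mul_inv]
    refine h1.mul_continuousOn (ContinuousOn.inv₀ (continuousOn_id.rpow_const fun s hs => Or.inr hβ)
      fun s hs => (Real.rpow_pos_of_pos ?_ _).ne')
    rw [uIcc_of_le hce] at hs
    exact hc.trans_le hs.1
  have hB : 0 ≤ C * b ^ (α - β) := mul_nonneg hC (Real.rpow_nonneg hb.le _)
  have key : ∀ k : ℕ,
      ∫ s in b / 2 ^ k..b, f s / s ^ β ≤ C * b ^ (α - β) * ((1 - q ^ k) / (1 - q)) := by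
    intro k
    induction k with
    | zero => simp
    | succ k ih =>
      have r0 : 0 < b / 2 ^ (k + 1) := by positivity
      have r1 : 2 * (b / 2 ^ (k + 1)) = b / 2 ^ k := by rw [pow_succ]; field_simp
      have r2 : b / 2 ^ k ≤ b := div_le_self hb.le (one_le_pow₀ one_le_two)
      have r3 : b / 2 ^ (k + 1) ≤ b / 2 ^ k := by linarith
      have r4 : 0 < b / 2 ^ k := by positivity
      rw [← intervalIntegral.integral_add_adjacent_intervals (hi' _ _ r0 r3 r2)
        (hi' _ _ r4 r2 le_rfl)]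
      have t1 := h _ r0 (r1 ▸ r2)
      rw [r1] at t1
      have p0 : 0 < (b / 2 ^ (k + 1)) ^ β := Real.rpow_pos_of_pos r0 _
      have fi : IntervalIntegrable f volume (b / 2 ^ (k + 1)) (b / 2 ^ k) :=
        (hi _ r0 (r3.trans r2)).mono_set (by
          rw [uIcc_of_le r3, uIcc_of_le (r3.trans r2)]; exact Icc_subset_Icc_right r2)
      have t2 : ∫ s in b / 2 ^ (k + 1)..b / 2 ^ k, f s / s ^ β ≤
          ∫ s in b / 2 ^ (k + 1)..b / 2 ^ k, f s / (b / 2 ^ (k + 1)) ^ β :=
        intervalIntegral.integral_mono_on r3 (hi' _ _ r0 r3 r2) (fi.div_const _) fun s hs =>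
          div_le_div_of_nonneg_left (hf s) p0 (Real.rpow_le_rpow r0.le hs.1 hβ)
      rw [intervalIntegral.integral_div] at t2
      have t3 : (∫ s in b / 2 ^ (k + 1)..b / 2 ^ k, f s) / (b / 2 ^ (k + 1)) ^ β ≤
          C * b ^ (α - β) * q ^ (k + 1) := by
        refine (div_le_div_of_nonneg_right t1 p0.le).trans (le_of_eq ?_)
        rw [mul_div_assoc, ← Real.rpow_sub r0, Real.div_rpow hb.le (by positivity), hq,
          ← Real.rpow_natCast 2, ← Real.rpow_natCast, ← Real.rpow_mul two_pos.le,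
          ← Real.rpow_mul two_pos.le, neg_mul, Real.rpow_neg two_pos.le, mul_comm (α - β),
          mul_assoc, div_eq_mul_inv]
      have t4 : q ^ (k + 1) ≤ q ^ k := pow_le_pow_of_le_one q0.le q1.le (Nat.le_succ k)
      have t5 : (1 - q ^ (k + 1)) / (1 - q) = q ^ k + (1 - q ^ k) / (1 - q) := by
        field_simp
        ring
      rw [t5, mul_add]
      linarith [mul_le_mul_of_nonneg_left t4 hB]
  obtain ⟨k, hk⟩ := pow_unbounded_of_one_lt (b / a) (one_lt_two (α := ℝ))
  have r4 : 0 < b / 2 ^ k := by positivity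
  have r5 : b / 2 ^ k ≤ a := by
    rw [div_lt_iff₀ ha] at hk
    rw [div_le_iff₀ (by positivity)]
    linarith
  have t1 : ∫ s in a..b, f s / s ^ β ≤ ∫ s in b / 2 ^ k..b, f s / s ^ β := by
    refine intervalIntegral.integral_mono_interval r5 hab le_rfl ?_
      (hi' _ _ r4 (r5.trans hab) le_rfl)
    refine (ae_restrict_iff' measurableSet_Ioc).2 (Eventually.of_forall fun s hs => ?_)
    exact div_nonneg (hf s) (Real.rpow_nonneg (r4.trans hs.1).le _)
  refine t1.trans ((key k).trans ?_)
  rw [div_eq_mul_one_div (C * b ^ (α - β))]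
  refine mul_le_mul_of_nonneg_left (div_le_div_of_nonneg_right ?_ q2.le) hB
  linarith [pow_pos q0 k]

/-- A set of positive measure contains a point where `f` is at most its average. -/
theorem pick_avg {f : ℝ → ℝ} {J : Set ℝ} {B m : ℝ} {Q : ℝ → Prop} (hJ : MeasurableSet J)
    (hf : IntegrableOn f J) (hB : ∫ s in J, f s ≤ B) (hm : 0 < m) (hB0 : 0 ≤ B)
    (hv : ENNReal.ofReal m ≤ volume J) (hQ : ∀ᵐ s : ℝ, s ∈ J → Q s) :
    ∃ s ∈ J, Q s ∧ f s ≤ B / m := by
  by_contra hc
  push Not at hc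
  have h1 : ∀ᵐ s : ℝ, s ∈ J → B / m < f s := by
    filter_upwards [hQ] with s hs hJ using hc s hJ (hs hJ)
  have hBm : 0 ≤ B / m := div_nonneg hB0 hm.le
  obtain ⟨J', m1, m2, m3, m4⟩ : ∃ J', MeasurableSet J' ∧ J' ⊆ J ∧
      ENNReal.ofReal m ≤ volume J' ∧ volume J' < ⊤ := by
    rcases eq_or_ne (volume J) ⊤ with ht | ht
    · obtain ⟨t, a1, a2, a3, a4⟩ := Measure.exists_subset_measure_lt_top (μ := volume) hJ
        (r := ENNReal.ofReal m) (ht ▸ ENNReal.ofReal_lt_top)
      exact ⟨t, a1, a2, a3.le, a4⟩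
    · exact ⟨J, hJ, subset_rfl, hv, ht.lt_top⟩
  have h2 : ∫ s in J', f s ≤ B := by
    refine le_trans (setIntegral_mono_set hf ?_ m2.eventuallyLE) hB
    refine (ae_restrict_iff' hJ).2 ?_
    filter_upwards [h1] with s hs hJ using hBm.trans (hs hJ).le
  have ic : IntegrableOn (fun _ : ℝ => B / m) J' := integrableOn_const m4.ne
  have h3 : 0 < ∫ s in J', (f s - B / m) := by
    have id : IntegrableOn (fun s => f s - B / m) J' := (hf.mono_set m2).sub ic
    rw [setIntegral_pos_iff_support_of_nonneg_ae _ id]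
    · refine lt_of_lt_of_le ((ENNReal.ofReal_pos.2 hm).trans_le m3) (measure_mono_ae ?_)
      filter_upwards [h1] with s hs hJ'
      exact ⟨(sub_pos.2 (hs (m2 hJ'))).ne', hJ'⟩
    · refine (ae_restrict_iff' m1).2 ?_
      filter_upwards [h1] with s hs hJ' using (sub_pos.2 (hs (m2 hJ'))).le
  rw [integral_sub (hf.mono_set m2) ic, setIntegral_const, smul_eq_mul] at h3
  have h4 : m ≤ volume.real J' := (ENNReal.ofReal_le_iff_le_toReal m4.ne).1 m3
  have h5 := mul_le_mul_of_nonneg_right h4 hBm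
  rw [mul_div_cancel₀ _ hm.ne'] at h5
  linarith

end Vale.Agent.P128
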