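import Vale.Agent.P128.Pol

/-!
# P128 GreenA

Cutoffs near a finite set and a product rule, for `Green`.
-/

namespace Vale.Agent.P128

open Set Metric MeasureTheory Filter Topology Complex
open scoped ENNReal ContDiff RealInnerProductSpace Gradient Real ComplexConjugate

variable {Ω K P : Set ℂ} {u ψ η : ℂ → ℝ} {x z p : ℂ} {s R M ε : ℝ}

/-- the cutoff -/
noncomputable def greena_chi (P : Set ℂ) (ε : ℝ) (z : ℂ) : ℝ := max 0 (min 1 (infDist z P / ε - 1))

theorem greena_chi_lip (hε : 0 < ε) : LipschitzWith ε⁻¹.toNNReal (greena_chi P ε) := by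
  refine ((LipschitzWith.of_dist_le' fun y z => ?_).const_min 1).const_max 0
  rw [dist_sub_right, Real.dist_eq, ← sub_div, abs_div, abs_of_pos hε, inv_mul_eq_div]
  have := (lipschitz_infDist_pt P).dist_le_mul y z
  rw [NNReal.coe_one, one_mul, Real.dist_eq] at this
  exact div_le_div_of_nonneg_right this hε.le

theorem greena_chi_abs : |greena_chi P ε z| ≤ 1 :=
  abs_le.2 ⟨(by norm_num : (-1 : ℝ) ≤ 0).trans (le_max_left _ _),
    max_le zero_le_one (min_le_left _ _)⟩

theorem greena_chi_zero (hε : 0 < ε) (hp : p ∈ P) : ∀ᶠ z in 𝓝 p, greena_chi P ε z = 0 := by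
  filter_upwards [ball_mem_nhds p hε] with z hz
  refine max_eq_left ((min_le_right _ _).trans (sub_nonpos.2 ((div_le_one hε).2 ?_)))
  exact (infDist_le_dist_of_mem hp).trans (mem_ball.1 hz).le

theorem greena_chi_one (hε : 0 < ε) (hz : 2 * ε < infDist z P) : greena_chi P ε z = 1 := by
  rw [greena_chi, min_eq_left, max_eq_right zero_le_one]
  rw [le_sub_iff_add_le, le_div_iff₀ hε]
  linarith

theorem greena_chi_grad (hε : 0 < ε) (hz : 2 * ε < infDist z P) : ∇ (greena_chi P ε) z = 0 := by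
  have : greena_chi P ε =ᶠ[𝓝 z] fun _ => 1 := by
    filter_upwards [(isOpen_lt continuous_const (continuous_infDist_pt P)).mem_nhds hz] with y hy
    exact greena_chi_one hε hy
  rw [this.gradient_eq, gradient_fun_const]

theorem greena_ev (hP : P.Finite) (hn : P.Nonempty) (hz : z ∉ P) :
    ∀ᶠ ε in 𝓝[>] (0 : ℝ), 2 * ε < infDist z P := by
  have := (hP.isClosed.notMem_iff_infDist_pos hn).1 hz
  filter_upwards [Ioo_mem_nhdsGT (half_pos this)] with ε hε
  linarith [hε.2]

theorem greena_vol (hP : P.Finite) (hn : P.Nonempty) (hε : 0 < ε) :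
    volume {z | infDist z P ≤ 2 * ε} ≠ ⊤ ∧
      volume.real {z | infDist z P ≤ 2 * ε} ≤ hP.toFinset.card * (4 * π) * ε ^ 2 := by
  have h1 : {z | infDist z P ≤ 2 * ε} ⊆ ⋃ p ∈ hP.toFinset, closedBall p (2 * ε) := fun z hz => by
    obtain ⟨p, hp, e⟩ := hP.isCompact.exists_infDist_eq_dist hn z
    exact mem_iUnion₂.2 ⟨p, hP.mem_toFinset.2 hp, e.symm.trans_le hz⟩
  have h2 : volume (⋃ p ∈ hP.toFinset, closedBall p (2 * ε)) ≠ ⊤ :=
    (hP.toFinset.isCompact_biUnion fun p _ => isCompact_closedBall p _).measure_ne_top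
  refine ⟨ne_top_of_le_ne_top h2 (measure_mono h1), (measureReal_mono h1 h2).trans
    ((measureReal_biUnion_finset_le _ _).trans (le_of_eq ?_))⟩
  simp only [Measure.real, Complex.volume_closedBall, Finset.sum_const, nsmul_eq_mul,
    ENNReal.toReal_mul, ENNReal.toReal_pow, ENNReal.toReal_ofReal (by positivity : 0 ≤ 2 * ε),
    ENNReal.coe_toReal, NNReal.coe_real_pi]
  ring

theorem greena_small (h : Pre Ω u K) (hb : closedBall x R ⊆ Ω) (hM : ∀ z, |ψ z| ≤ M)
    (h0 : ∀ z ∉ closedBall x R, ψ z = 0) (hP : P.Finite) (hn : P.Nonempty) (S : Set ℂ) :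
    Tendsto (fun ε => ∫ z in S, ψ z * ⟪gK K u z, ∇ (greena_chi P ε) z⟫) (𝓝[>] 0) (𝓝 0) := by
  have hM0 : 0 ≤ M := (abs_nonneg _).trans (hM 0)
  have hN : ∀ ε : ℝ, MeasurableSet {z | infDist z P ≤ 2 * ε} := fun ε =>
    (isClosed_le (continuous_infDist_pt P) continuous_const).measurableSet
  have hi : Integrable ((closedBall x R).indicator fun z => ‖gK K u z‖ ^ 2) :=
    (integrable_indicator_iff measurableSet_closedBall).2 (intOn_of_Dn h.2.1 (h.2.2.2 x R hb).1).1
  set f := (closedBall x R).indicator fun z => ‖gK K u z‖ ^ 2 with hf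
  have hf0 : ∀ z, 0 ≤ f z := fun z => indicator_nonneg (fun _ _ => sq_nonneg _) z
  have ha : Tendsto (fun ε => ∫ z, {z | infDist z P ≤ 2 * ε}.indicator f z) (𝓝[>] 0) (𝓝 0) := by
    have := tendsto_integral_filter_of_dominated_convergence (l := 𝓝[>] (0 : ℝ))
      (F := fun ε => {z | infDist z P ≤ 2 * ε}.indicator f) (f := fun _ => 0) (fun z => ‖f z‖)
      (Eventually.of_forall fun ε => hi.1.indicator (hN ε))
      (Eventually.of_forall fun ε => ae_of_all _ fun z => norm_indicator_le_norm_self _ _) hi.norm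
      (by
        filter_upwards [measure_eq_zero_iff_ae_notMem.1 (hP.measure_zero volume)] with z hz
        refine tendsto_const_nhds.congr' ?_
        filter_upwards [greena_ev hP hn hz] with ε hε
        exact (indicator_of_notMem (s := {z | infDist z P ≤ 2 * ε}) (not_le.2 hε) f).symm)
    rwa [integral_zero] at this
  set C : ℝ := hP.toFinset.card * (4 * π) with hC'
  have hC : 0 ≤ C := by positivity
  have key : ∀ l : ℝ, 0 < l → ∀ ε : ℝ, 0 < ε →
      ‖∫ z in S, ψ z * ⟪gK K u z, ∇ (greena_chi P ε) z⟫‖ ≤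
        M * (l⁻¹ * ∫ z, {z | infDist z P ≤ 2 * ε}.indicator f z) + M * (l * C) := by
    intro l hl ε hε
    obtain ⟨v1, v2⟩ := greena_vol hP hn hε
    have i1 : Integrable ({z | infDist z P ≤ 2 * ε}.indicator f) := hi.indicator (hN ε)
    have i2 : Integrable ({z | infDist z P ≤ 2 * ε}.indicator fun _ : ℂ => l * ε⁻¹ ^ 2) :=
      (integrable_indicator_iff (hN ε)).2 (integrableOn_const v1)
    have i3 := ((i1.const_mul l⁻¹).add i2).const_mul M
    have hb0 : ∀ z, 0 ≤ M * (l⁻¹ * {z | infDist z P ≤ 2 * ε}.indicator f z +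
        {z | infDist z P ≤ 2 * ε}.indicator (fun _ : ℂ => l * ε⁻¹ ^ 2) z) := fun z =>
      mul_nonneg hM0 (add_nonneg (mul_nonneg (by positivity) (indicator_nonneg (fun _ _ => hf0 _) z))
        (indicator_nonneg (fun _ _ => by positivity) z))
    refine (norm_integral_le_of_norm_le i3.integrableOn (ae_of_all _ fun z => ?_)).trans
      ((setIntegral_le_integral i3 (ae_of_all _ hb0)).trans ?_)
    · by_cases hz : infDist z P ≤ 2 * ε
      · by_cases hR : z ∈ closedBall x R
        · have h3 : ‖∇ (greena_chi P ε) z‖ ≤ ε⁻¹ := by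
            rw [norm_grad]
            exact (norm_fderiv_le_of_lipschitz ℝ (greena_chi_lip hε)).trans_eq
              (Real.coe_toNNReal _ (by positivity))
          have h4 := (norm_inner_le_norm (𝕜 := ℝ) (gK K u z) _).trans
            (mul_le_mul_of_nonneg_left h3 (norm_nonneg _))
          rw [norm_mul]
          refine mul_le_mul (hM z) (h4.trans ?_) (norm_nonneg _) hM0
          have hz' : z ∈ {z | infDist z P ≤ 2 * ε} := hz
          simp only [Pi.add_apply, indicator_of_mem hz', hf, indicator_of_mem hR]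
          have h5 : ‖gK K u z‖ * ε⁻¹ = l⁻¹ * (‖gK K u z‖ * (l * ε⁻¹)) := by field_simp
          have h6 : l * ε⁻¹ ^ 2 = l⁻¹ * (l * ε⁻¹) ^ 2 := by field_simp
          rw [h5, h6, ← mul_add]
          refine mul_le_mul_of_nonneg_left ?_ (by positivity)
          nlinarith [sq_nonneg (‖gK K u z‖ - l * ε⁻¹), sq_nonneg ‖gK K u z‖, sq_nonneg (l * ε⁻¹)]
        · rw [h0 z hR, zero_mul, norm_zero]
          exact hb0 z
      · rw [greena_chi_grad hε (not_le.1 hz), inner_zero_right, mul_zero, norm_zero]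
        exact hb0 z
    · simp only [Pi.add_apply]
      rw [integral_const_mul, integral_add (i1.const_mul _) i2, integral_const_mul,
        integral_indicator_const _ (hN ε), mul_add, smul_eq_mul]
      refine add_le_add le_rfl (mul_le_mul_of_nonneg_left ?_ hM0)
      refine (mul_le_mul_of_nonneg_right v2 (by positivity)).trans_eq ?_
      rw [← hC']
      field_simp
  refine Metric.tendsto_nhds.2 fun δ hδ => ?_
  have hl : 0 < δ / (2 * (M * C + 1)) := by positivity
  have h7 := (ha.const_mul (δ / (2 * (M * C + 1)))⁻¹).const_mul M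
  rw [mul_zero, mul_zero] at h7
  filter_upwards [h7.eventually (gt_mem_nhds (half_pos hδ)), self_mem_nhdsWithin] with ε h8 hε
  have h9 : M * (δ / (2 * (M * C + 1)) * C) ≤ δ / 2 := by
    rw [show M * (δ / (2 * (M * C + 1)) * C) = δ / 2 * (M * C / (M * C + 1)) by field_simp]
    exact mul_le_of_le_one_right (by positivity) ((div_le_one (by positivity)).2 (by linarith))
  rw [dist_zero_right]
  linarith [key _ hl ε hε]

theorem greena_dct {α : Type} [MeasurableSpace α] {μ : Measure α} {F : α → ℝ} (hF : Integrable F μ)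
    {k : ℝ → α → ℝ} (hm : ∀ ε, 0 < ε → AEStronglyMeasurable (k ε) μ) (h1 : ∀ ε a, |k ε a| ≤ 1)
    (h2 : ∀ᵐ a ∂μ, ∀ᶠ ε in 𝓝[>] (0 : ℝ), k ε a = 1) :
    Tendsto (fun ε => ∫ a, k ε a * F a ∂μ) (𝓝[>] 0) (𝓝 (∫ a, F a ∂μ)) := by
  refine tendsto_integral_filter_of_dominated_convergence (fun a => ‖F a‖) ?_
    (Eventually.of_forall fun ε => ae_of_all _ fun a => ?_) hF.norm ?_
  · filter_upwards [self_mem_nhdsWithin] with ε hε
    exact (hm ε hε).mul hF.1
  · rw [norm_mul]
    exact mul_le_of_le_one_left (norm_nonneg _) (h1 ε a)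
  · filter_upwards [h2] with a ha
    refine tendsto_const_nhds.congr' ?_
    filter_upwards [ha] with ε hε
    rw [hε, one_mul]

theorem greena_ii {μ : Measure ℂ} {X Y : ℂ → ℂ} (hX : MemLp X 2 μ) (hY : MemLp Y 2 μ) :
    Integrable (fun z => ⟪X z, Y z⟫) μ := by
  refine (L2.integrable_inner (𝕜 := ℝ) (hX.toLp X) (hY.toLp Y)).congr ?_
  filter_upwards [hX.coeFn_toLp, hY.coeFn_toLp] with z h1 h2
  rw [h1, h2]

theorem greena_prod (hK : IsClosed K) (hψ : LocallyLipschitzOn (closedBall x s \ K) ψ)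
    {C : NNReal} (hη : LipschitzWith C η) :
    ∀ᵐ z ∂(volume.restrict (ball x s)),
      gK K (fun z => ψ z * η z) z = η z * gK K ψ z + ψ z * gK K η z := by
  rw [ae_restrict_iff' measurableSet_ball]
  filter_upwards [ae_diff (isOpen_ball.sdiff hK)
    (hψ.mono (sdiff_subset_sdiff_left ball_subset_closedBall)), hη.ae_differentiableAt]
    with z h1 h2 hz
  by_cases hzK : z ∈ K
  · simp only [gK_of_mem _ hzK, mul_zero, add_zero]
  · simp only [gK_of_notMem _ hzK]
    rw [grad_mul (h1 ⟨hz, hzK⟩) h2, add_comm]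

theorem greena_memLp (hK : IsClosed K) (hψ : LocallyLipschitzOn (closedBall x s \ K) ψ)
    (hM : ∀ z, |ψ z| ≤ M) (hD : MemLp (gK K ψ) 2 (volume.restrict (ball x s)))
    {C : NNReal} (hη : LipschitzWith C η) (h1 : ∀ z, |η z| ≤ 1) :
    MemLp (gK K fun z => ψ z * η z) 2 (volume.restrict (ball x s)) := by
  have : IsFiniteMeasure (volume.restrict (ball x s)) :=
    isFiniteMeasure_restrict.2 measure_ball_lt_top.ne
  refine (hD.norm.add (memLp_const (M * C))).mono' (meas_gK hK _).aestronglyMeasurable ?_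
  filter_upwards [greena_prod hK hψ hη] with z hz
  rw [hz]
  refine (norm_add_le _ _).trans (add_le_add ?_ ?_)
  · rw [norm_mul, Complex.norm_real]
    exact mul_le_of_le_one_left (norm_nonneg _) (h1 z)
  · rw [norm_mul, Complex.norm_real]
    refine mul_le_mul (hM z) ?_ (norm_nonneg _) ((abs_nonneg _).trans (hM z))
    by_cases hzK : z ∈ K
    · rw [gK_of_mem _ hzK, norm_zero]
      exact C.2
    · rw [gK_of_notMem _ hzK, norm_grad]
      exact norm_fderiv_le_of_lipschitz ℝ hη

theorem greena_split (hK : IsClosed K) (hu : MemLp (gK K u) 2 (volume.restrict (ball x s)))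
    (hψ : LocallyLipschitzOn (closedBall x s \ K) ψ)
    (hM : ∀ z, |ψ z| ≤ M) (hD : MemLp (gK K ψ) 2 (volume.restrict (ball x s)))
    {C : NNReal} (hη : LipschitzWith C η) (h1 : ∀ z, |η z| ≤ 1) :
    ∫ z in ball x s, ⟪gK K u z, gK K (fun z => ψ z * η z) z⟫ =
      (∫ z in ball x s, η z * ⟪gK K u z, gK K ψ z⟫) +
        ∫ z in ball x s, ψ z * ⟪gK K u z, ∇ η z⟫ := by
  have h2 := greena_ii hu (greena_memLp hK hψ hM hD hη h1)
  have h3 : Integrable (fun z => η z * ⟪gK K u z, gK K ψ z⟫) (volume.restrict (ball x s)) :=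
    (greena_ii hu hD).bdd_mul hη.continuous.aestronglyMeasurable (ae_of_all _ h1)
  rw [← sub_eq_iff_eq_add', ← integral_sub h2 h3]
  refine integral_congr_ae ?_
  filter_upwards [greena_prod hK hψ hη] with z hz
  rw [hz, inner_add_right, ← Complex.real_smul, ← Complex.real_smul, real_inner_smul_right,
    real_inner_smul_right, add_sub_cancel_left]
  by_cases hzK : z ∈ K
  · rw [gK_of_mem u hzK, inner_zero_left, inner_zero_left]
  · rw [gK_of_notMem η hzK]

theorem greena_meas (h : Pre Ω u K) (hb : closedBall x s ⊆ Ω)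
    (hψ : LocallyLipschitzOn (closedBall x s \ K) ψ) :
    AEStronglyMeasurable ψ (volume.restrict (ball x s)) := by
  have h1 : (ball x s \ K : Set ℂ) =ᵐ[volume] ball x s :=
    sdiff_ae_eq_self.2 (measure_mono_null (t := K ∩ Ω)
      (fun z hz => ⟨hz.2, hb (ball_subset_closedBall hz.1)⟩) h.null)
  rw [← Measure.restrict_congr_set h1]
  exact (hψ.continuousOn.mono (sdiff_subset_sdiff_left ball_subset_closedBall)).aestronglyMeasurable
    (measurableSet_ball.diff h.2.1.measurableSet)

end Vale.Agent.P128
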