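import Vale.Agent.P128.Rp
import Vale.Agent.P128.Pol
import Vale.Agent.P128.Glue

/-!
# P128 Hext

Homogeneous extension `w z = m (rp z) + (‖z - x‖/s)^β (φ (rp z) - m (rp z))`. It is locally
Lipschitz on `(cone ∪ rays beyond)ᶜ`; at a point `circleMap x ρ θ` of differentiability (a.e., `ae_diff`)
the radial and tangential derivatives are computed along the ray and the circle, which gives
`ρ² ‖∇w‖² = (ρ/s)^(2β) (β² (φ - m)² + φ'²)`; integrate with `lpolar` (`∫_0^s (ρ/s)^(2β)/ρ = 1/(2β)`).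
-/

namespace Vale.Agent.P128

open Set Metric MeasureTheory Filter Topology Complex
open scoped ENNReal ContDiff RealInnerProductSpace Gradient Real ComplexConjugate

variable {Ω K L A S T U O X Γ P M₀ K₀ K₁ : Set ℂ} {u v w g hh ψ η : ℂ → ℝ} {G : ℂ → ℂ}
  {π₀ π₁ : ℂ → Set ℂ} {x y z c p q e a₀ F : ℂ} {lam H r s R a b t M Θ ρ ε δ d : ℝ} {n : ℕ}

theorem hext_comp {k : ℂ → ℂ} (hu : LocallyLipschitzOn T u) (hk : LocallyLipschitzOn S k)
    (hm : MapsTo k S T) : LocallyLipschitzOn S (fun z => u (k z)) := by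
  intro z hz
  obtain ⟨C, A, hA, h1⟩ := hu (hm hz)
  obtain ⟨D, B, hB, h2⟩ := hk hz
  have h3 : k ⁻¹' A ∈ 𝓝[S] z := (hk.continuousOn z hz).tendsto_nhdsWithin hm hA
  exact ⟨C * D, B ∩ k ⁻¹' A, inter_mem hB h3,
    h1.comp (h2.mono inter_subset_left) fun y hy => hy.2⟩

theorem hext_shift {f : ℝ → ℝ≥0∞} (hf : Function.Periodic f (2 * π)) (a : ℝ) :
    ∫⁻ θ in Ioo 0 (2 * π), f θ = ∫⁻ θ in Ioo a (a + 2 * π), f θ := by
  have hT : 0 < 2 * π := by positivity
  have : VAddInvariantMeasure (AddSubgroup.zmultiples (2 * π)) ℝ volume :=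
    ⟨fun c s _ => measure_preimage_add _ _ _⟩
  have h := (isAddFundamentalDomain_Ioc hT 0).setLIntegral_eq (isAddFundamentalDomain_Ioc hT a) f
    hf.map_vadd_zmultiples
  rw [zero_add] at h
  rw [setLIntegral_congr Ioo_ae_eq_Ioc, setLIntegral_congr Ioo_ae_eq_Ioc, h]

theorem hext_norm (hρ : 0 < ρ) (θ : ℝ) : ‖circleMap x ρ θ - x‖ = ρ := by
  rw [circleMap_ex, add_sub_cancel_left, norm_mul, ex_norm, mul_one, Complex.norm_real,
    Real.norm_of_nonneg hρ.le]

theorem hext_rp (hρ : 0 < ρ) (θ : ℝ) : rp x s (circleMap x ρ θ) = circleMap x s θ := by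
  unfold rp
  rw [hext_norm hρ, circleMap_ex, circleMap_ex, add_sub_cancel_left]
  have : (ρ : ℂ) ≠ 0 := by exact_mod_cast hρ.ne'
  push_cast
  field_simp

theorem hext_pt {β θ : ℝ} {φ m : ℂ → ℝ} (hs : 0 < s) (hT : T ⊆ sphere x s) (hTf : T.Finite)
    (hm : LC (sphere x s \ T) m)
    (hw : ∀ z, w z = m (rp x s z) + (‖z - x‖ / s) ^ β * (φ (rp x s z) - m (rp x s z)))
    (hd : HasDerivAt (fun θ => φ (circleMap x s θ)) d θ) (hρ : 0 < ρ) (hρs : ρ < s) :
    ‖gK (cone x T) w (circleMap x ρ θ)‖ ^ 2 ≤ ((ρ / s) ^ β) ^ 2 / ρ ^ 2 *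
      (β ^ 2 * (φ (circleMap x s θ) - m (circleMap x s θ)) ^ 2 + d ^ 2) := by
  by_cases hz : circleMap x ρ θ ∈ cone x T
  · rw [gK_of_mem _ hz, norm_zero, zero_pow two_ne_zero]
    positivity
  by_cases hD : DifferentiableAt ℝ w (circleMap x ρ θ)
  swap
  · rw [gK_of_notMem _ hz, gradient_eq_zero_of_not_differentiableAt hD, norm_zero,
      zero_pow two_ne_zero]
    positivity
  have hp : circleMap x s θ ∈ sphere x s \ T := by
    rw [← hext_rp hρ]
    exact (rp_facts hs hT).2.2.1 ⟨mem_closedBall_iff_norm.2 ((hext_norm hρ θ).le.trans hρs.le), hz⟩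
  have hw' : ∀ t, 0 < t → ∀ τ, w (circleMap x t τ) = m (circleMap x s τ) +
      (t / s) ^ β * (φ (circleMap x s τ) - m (circleMap x s τ)) := fun t ht τ => by
    rw [hw, hext_rp ht, hext_norm ht]
  have hun : un w (cone x T) x ρ θ =
      β * (ρ / s) ^ β * (φ (circleMap x s θ) - m (circleMap x s θ)) := by
    have c1 : HasDerivAt (fun t : ℝ => circleMap x t θ) (ex θ) ρ := by
      have := ((Complex.ofRealCLM.hasDerivAt (x := ρ)).mul_const (ex θ)).const_add x
      simpa [circleMap_ex] using this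
    have c2 := hD.hasFDerivAt.comp_hasDerivAt ρ c1
    have c3 : HasDerivAt (fun t : ℝ => m (circleMap x s θ) +
        (t / s) ^ β * (φ (circleMap x s θ) - m (circleMap x s θ)))
        (1 / s * β * (ρ / s) ^ (β - 1) * (φ (circleMap x s θ) - m (circleMap x s θ))) ρ :=
      ((((hasDerivAt_id' ρ).div_const s).rpow_const
        (Or.inl (div_pos hρ hs).ne')).mul_const _).const_add _
    have c4 := c3.congr_of_eventuallyEq (f₁ := w ∘ fun t : ℝ => circleMap x t θ) (by
      filter_upwards [lt_mem_nhds hρ] with t ht using hw' t ht θ)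
    unfold un
    rw [gK_of_notMem _ hz, inner_grad, c2.unique c4, Real.rpow_sub_one (div_pos hρ hs).ne']
    field_simp
  have hut : ut w (cone x T) x ρ θ = (ρ / s) ^ β * d := by
    have c1 : HasDerivAt (fun τ : ℝ => circleMap x ρ τ) (ρ • (I * ex θ)) θ := by
      have := hasDerivAt_circleMap x ρ θ
      rw [circleMap_ex 0, zero_add] at this
      rw [Complex.real_smul, show (ρ : ℂ) * (I * ex θ) = ρ * ex θ * I by ring]
      exact this
    have c2 := hD.hasFDerivAt.comp_hasDerivAt θ c1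
    have c3 : HasDerivAt (fun τ : ℝ => m (circleMap x s θ) +
        (ρ / s) ^ β * (φ (circleMap x s τ) - m (circleMap x s θ))) ((ρ / s) ^ β * d) θ :=
      ((hd.sub_const _).const_mul _).const_add _
    have c5 : Tendsto (circleMap x s) (𝓝 θ) (𝓝[sphere x s \ T] (circleMap x s θ)) := by
      have hc := (continuous_circleMap x s).tendsto θ
      refine tendsto_nhdsWithin_iff.2 ⟨hc, ?_⟩
      filter_upwards [hc (hTf.isClosed.isOpen_compl.mem_nhds hp.2)] with τ hτ
      exact ⟨circleMap_mem_sphere x hs.le τ, hτ⟩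
    have c4 := c3.congr_of_eventuallyEq (f₁ := w ∘ fun τ : ℝ => circleMap x ρ τ) (by
      filter_upwards [c5.eventually (hm _ hp)] with τ hτ
      rw [Function.comp_apply, hw' ρ hρ τ, hτ])
    unfold ut
    rw [gK_of_notMem _ hz, inner_grad, ← c2.unique c4, map_smul, smul_eq_mul]
  have h := ut_un_sq w (cone x T) x ρ θ
  rw [hun, hut] at h
  refine le_of_eq ?_
  field_simp
  linarith

theorem hext_rad {β J : ℝ} (hs : 0 < s) (hβ : 0 < β) (hJ : 0 ≤ J) :
    ∫⁻ ρ in Ioo 0 s, ENNReal.ofReal ρ * ENNReal.ofReal (((ρ / s) ^ β) ^ 2 / ρ ^ 2 * J) =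
      ENNReal.ofReal (J / (2 * β)) := by
  have h1 : ∫⁻ ρ in Ioo 0 s, ENNReal.ofReal ρ * ENNReal.ofReal (((ρ / s) ^ β) ^ 2 / ρ ^ 2 * J) =
      ∫⁻ ρ in Ioo 0 s, ENNReal.ofReal (J / s ^ (2 * β) * ρ ^ (2 * β - 1)) := by
    refine setLIntegral_congr_fun measurableSet_Ioo fun ρ hρ => ?_
    have h0 := hρ.1
    show ENNReal.ofReal ρ * _ = ENNReal.ofReal _
    rw [← ENNReal.ofReal_mul h0.le, Real.rpow_sub_one h0.ne', mul_comm 2 β,
      Real.rpow_mul h0.le, Real.rpow_mul hs.le, Real.div_rpow h0.le hs.le, Real.rpow_two,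
      Real.rpow_two]
    congr 1
    have : 0 < s ^ β := by positivity
    field_simp
  have h2 : IntervalIntegrable (fun ρ : ℝ => J / s ^ (2 * β) * ρ ^ (2 * β - 1)) volume 0 s :=
    (intervalIntegral.intervalIntegrable_rpow' (by linarith)).const_mul _
  rw [h1, ← ofReal_integral_eq_lintegral_ofReal
    ((intervalIntegrable_iff_integrableOn_Ioo_of_le hs.le).1 h2)
    ((ae_restrict_iff' measurableSet_Ioo).2 (Eventually.of_forall fun ρ hρ => by
      have h0 := hρ.1
      positivity)),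
    ← integral_Ioc_eq_integral_Ioo, ← intervalIntegral.integral_of_le hs.le,
    intervalIntegral.integral_const_mul, integral_rpow (Or.inl (by linarith)), sub_add_cancel,
    Real.zero_rpow (by positivity)]
  congr 1
  have : 0 < s ^ (2 * β) := by positivity
  field_simp
  ring

theorem hext {β : ℝ} {φ m : ℂ → ℝ} {φ' : ℝ → ℝ} (hs : 0 < s) (hβ : 0 < β) (hT : T ⊆ sphere x s)
    (hTf : T.Finite) (hφ : LocallyLipschitzOn (sphere x s \ T) φ) (hm : LC (sphere x s \ T) m)
    (hd : ∀ᵐ θ : ℝ, θ ∈ Ioo a (a + 2 * π) → HasDerivAt (fun θ => φ (circleMap x s θ)) (φ' θ) θ)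
    (h1 : IntervalIntegrable (fun θ => φ' θ ^ 2) volume a (a + 2 * π))
    (h2 : IntervalIntegrable (fun θ => (φ (circleMap x s θ) - m (circleMap x s θ)) ^ 2) volume a
      (a + 2 * π)) :
    ∃ w : ℂ → ℝ, LocallyLipschitzOn (closedBall x s \ cone x T) w ∧
      (∀ z ∈ sphere x s \ T, w z = φ z) ∧
      Dn w (cone x T) (ball x s) ≤ ENNReal.ofReal
        (β / 2 * (∫ θ in a..a + 2 * π, (φ (circleMap x s θ) - m (circleMap x s θ)) ^ 2) +
          1 / (2 * β) * ∫ θ in a..a + 2 * π, φ' θ ^ 2) := by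
  obtain ⟨w, hw⟩ : ∃ w : ℂ → ℝ, ∀ z,
      w z = m (rp x s z) + (‖z - x‖ / s) ^ β * (φ (rp x s z) - m (rp x s z)) := ⟨_, fun _ => rfl⟩
  obtain ⟨-, f2, f3, f4⟩ := rp_facts hs hT
  have hsub : closedBall x s \ cone x T ⊆ {x}ᶜ := by
    rintro z hz rfl
    exact hz.2 (mem_insert _ _)
  refine ⟨w, ?_, fun z hz => ?_, ?_⟩
  · have l1 := (lc_rp hs hT hm).lip
    have l2 := hext_comp hφ (f2.mono hsub) f3
    have l3 : LocallyLipschitzOn {x}ᶜ fun z : ℂ => (‖z - x‖ / s) ^ β := by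
      refine lip_of_contDiffOn isOpen_compl_singleton fun z hz => ?_
      have hz' : z - x ≠ 0 := sub_ne_zero.2 hz
      refine (ContDiffAt.rpow_const_of_ne (ContDiffAt.div_const ?_ s) ?_).contDiffWithinAt
      · exact (contDiffAt_id.sub contDiffAt_const).norm ℝ hz'
      · exact (div_pos (norm_pos_iff.2 hz') hs).ne'
    exact lip_congr (lip_add l1 (lip_mul (l3.mono hsub) (l2.sub l1))) fun z _ => hw z
  · rw [hw, f4 z hz.1, mem_sphere_iff_norm.1 hz.1, div_self hs.ne', Real.one_rpow]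
    ring
  · have hle : a ≤ a + 2 * π := by linarith [Real.pi_pos]
    have hI := (h2.const_mul (β ^ 2)).add h1
    obtain ⟨J, hJ⟩ : ∃ J, J = ∫ θ in a..a + 2 * π,
        (β ^ 2 * (φ (circleMap x s θ) - m (circleMap x s θ)) ^ 2 + φ' θ ^ 2) := ⟨_, rfl⟩
    have hJ0 : 0 ≤ J := by
      rw [hJ]
      exact intervalIntegral.integral_nonneg hle fun θ _ => by positivity
    have hJ1 : β / 2 * (∫ θ in a..a + 2 * π, (φ (circleMap x s θ) - m (circleMap x s θ)) ^ 2) +
        1 / (2 * β) * ∫ θ in a..a + 2 * π, φ' θ ^ 2 = J / (2 * β) := by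
      rw [hJ, intervalIntegral.integral_add (h2.const_mul _) h1,
        intervalIntegral.integral_const_mul]
      field_simp
    have hmeas : Measurable fun z => ‖gK (cone x T) w z‖ₑ ^ 2 :=
      (meas_gK (cone_closed hTf x).isClosed w).enorm.pow_const 2
    rw [hJ1, Dn, lpolar hmeas, ← hext_rad hs hβ hJ0]
    refine setLIntegral_mono' measurableSet_Ioo fun ρ hρ => mul_le_mul_right ?_ _
    rw [hext_shift (f := fun θ => ‖gK (cone x T) w (circleMap x ρ θ)‖ₑ ^ 2)
      (fun θ => by simp only [periodic_circleMap x ρ θ]) a, hJ,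
      ← intervalIntegral.integral_const_mul, intervalIntegral.integral_of_le hle,
      integral_Ioc_eq_integral_Ioo, ofReal_integral_eq_lintegral_ofReal
        ((intervalIntegrable_iff_integrableOn_Ioo_of_le hle).1 (hI.const_mul _))
        (Eventually.of_forall fun θ => by positivity)]
    refine lintegral_mono_ae ((ae_restrict_iff' measurableSet_Ioo).2 ?_)
    filter_upwards [hd] with θ h1 h2
    rw [← ofReal_norm, ← ENNReal.ofReal_pow (norm_nonneg _)]
    exact ENNReal.ofReal_le_ofReal (hext_pt hs hT hTf hm hw (h1 h2) hρ.1 hρ.2)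

end Vale.Agent.P128
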