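import Vale.Agent.P128.Basic

/-!
# P128 IVa

Inner variation, energy part. `Φ = Phi x e φ t` is `C¹`, `‖Φ z - Φ w - (z - w)‖ ≤ ‖z - w‖/2`, so it is a
bi-Lipschitz homeomorphism (`ApproximatesLinearOn.toHomeomorph`) equal to the identity off
`ball x (2r)` and preserving the closed ball. Competitor `u ∘ Φ⁻¹`, `Φ '' K`, `π₀ ∘ Φ⁻¹`. With
`α = t φ'(‖z - x‖)`, `ν = (z - x)/‖z - x‖`, `DΦ v = v + α ⟪ν, v⟫ e`, `det = 1 + α ⟪e, ν⟫ ∈ [1/2, 3/2]`,
`∇(u ∘ Φ⁻¹)(Φ z) = G - (α ⟪e, G⟫/det) ν` for `G = ∇ u z`, and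
`‖·‖² det = ‖G‖² det - 2α ⟪ν, G⟫ ⟪e, G⟫ + α² ⟪e, G⟫²/det`. Change variables with
`lintegral_image_eq_lintegral_abs_det_fderiv_mul`.
-/

namespace Vale.Agent.P128

open Set Metric MeasureTheory Filter Topology Complex
open scoped ENNReal ContDiff RealInnerProductSpace Gradient Real ComplexConjugate

variable {Ω K L A S T U O X Γ P M₀ K₀ K₁ : Set ℂ} {u v w g hh ψ η : ℂ → ℝ} {G : ℂ → ℂ}
  {π₀ π₁ : ℂ → Set ℂ} {x y z c p q e a₀ F : ℂ} {lam H r s R a b t M Θ ρ ε δ d : ℝ} {n : ℕ}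

/-- the derivative of `Phi` -/
noncomputable def ivaD (e ν : ℂ) (α : ℝ) : ℂ →L[ℝ] ℂ :=
  ContinuousLinearMap.id ℝ ℂ + (α • innerSL ℝ ν).smulRight e

theorem iva_apply (e ν : ℂ) (α : ℝ) (y : ℂ) : ivaD e ν α y = y + (α * ⟪ν, y⟫) • e := by
  simp [ivaD]

theorem iva_det (e ν : ℂ) (α : ℝ) : (ivaD e ν α).det = 1 + α * ⟪e, ν⟫ := by
  unfold ContinuousLinearMap.det
  rw [← LinearMap.det_toMatrix Complex.basisOneI, Matrix.det_fin_two]
  simp [LinearMap.toMatrix_apply, iva_apply, Complex.inner]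
  ring

theorem iva_nu (x z : ℂ) : ‖(z - x) / (‖z - x‖ : ℂ)‖ ≤ 1 := by
  rw [norm_div, Complex.norm_real, norm_norm]
  exact div_self_le_one _

theorem iva_half {α : ℝ} {ν : ℂ} (hα : |α| ≤ 1 / 2) (he : ‖e‖ = 1) (hν : ‖ν‖ ≤ 1) :
    1 / 2 ≤ 1 + α * ⟪e, ν⟫ := by
  have h1 : |⟪e, ν⟫| ≤ 1 := by
    have := abs_real_inner_le_norm e ν
    rw [he, one_mul] at this
    linarith
  have h2 : |α * ⟪e, ν⟫| ≤ 1 / 2 := by
    rw [abs_mul]
    nlinarith [abs_nonneg α, abs_nonneg ⟪e, ν⟫]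
  linarith [neg_abs_le (α * ⟪e, ν⟫)]

theorem iva_alg {α : ℝ} {W g ν : ℂ} (hα : |α| ≤ |t|) (ht : |t| ≤ 1 / 2) (he : ‖e‖ = 1)
    (hν : ‖ν‖ ≤ 1) (h : ∀ y, ⟪W, ivaD e ν α y⟫ = ⟪g, y⟫) :
    (1 + α * ⟪e, ν⟫) * ‖W‖ ^ 2 ≤
      ‖g‖ ^ 2 + α * (‖g‖ ^ 2 * ⟪e, ν⟫ - 2 * ⟪ν, g⟫ * ⟪e, g⟫) + 2 * t ^ 2 * ‖g‖ ^ 2 := by
  have hd := iva_half (hα.trans ht) he hν
  set m := ⟪W, e⟫ with hm
  have hW : W = g - (α * m) • ν := by
    refine ext_inner_right ℝ fun y => ?_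
    have := h y
    rw [iva_apply, inner_add_right, inner_smul_right] at this
    rw [inner_sub_left, real_inner_smul_left]
    linarith
  have h1 : ⟪e, g⟫ = m * (1 + α * ⟪e, ν⟫) := by
    have := h e
    rw [iva_apply, inner_add_right, inner_smul_right, real_inner_comm e g,
      real_inner_comm e ν, ← hm] at this
    linarith
  have h2 : ‖W‖ ^ 2 = ‖g‖ ^ 2 - 2 * (α * m) * ⟪ν, g⟫ + (α * m) ^ 2 * ‖ν‖ ^ 2 := by
    conv_lhs => rw [hW]
    rw [norm_sub_sq_real, inner_smul_right, norm_smul, mul_pow, Real.norm_eq_abs, sq_abs,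
      real_inner_comm]
    ring
  have h3 : ⟪e, g⟫ ^ 2 ≤ ‖g‖ ^ 2 := by
    have := abs_real_inner_le_norm e g
    rw [he, one_mul] at this
    exact sq_le_sq.2 (by rwa [abs_of_nonneg (norm_nonneg g)])
  have h4 : α ^ 2 ≤ t ^ 2 := sq_le_sq.2 hα
  have h5 : ‖ν‖ ^ 2 ≤ 1 := by nlinarith [norm_nonneg ν]
  set D := 1 + α * ⟪e, ν⟫ with hD
  have h6 : m ^ 2 * D ≤ 2 * ‖g‖ ^ 2 := by
    rw [h1] at h3
    nlinarith [mul_nonneg (mul_nonneg (sq_nonneg m) (by linarith : 0 ≤ D)) (by linarith : 0 ≤ 2 * D - 1)]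
  have h7 : 0 ≤ m ^ 2 * D := mul_nonneg (sq_nonneg m) (by linarith)
  have h8 : α ^ 2 * ‖ν‖ ^ 2 ≤ t ^ 2 := by nlinarith [sq_nonneg α]
  have h9 : (α ^ 2 * ‖ν‖ ^ 2) * (m ^ 2 * D) ≤ t ^ 2 * (2 * ‖g‖ ^ 2) :=
    mul_le_mul h8 h6 h7 (sq_nonneg t)
  have h10 : D * ‖W‖ ^ 2 = ‖g‖ ^ 2 + α * (‖g‖ ^ 2 * ⟪e, ν⟫ - 2 * ⟪ν, g⟫ * ⟪e, g⟫) +
      (α ^ 2 * ‖ν‖ ^ 2) * (m ^ 2 * D) := by
    rw [h2, h1, hD]
    ring
  linarith

theorem iva_deriv {φ : ℝ → ℝ} (hr : 0 < r) (hφ : ContDiff ℝ 1 φ) (h2 : ∀ s ≤ r, deriv φ s = 0)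
    (x e : ℂ) (t : ℝ) (z : ℂ) :
    HasFDerivAt (Phi x e φ t) (ivaD e ((z - x) / ‖z - x‖) (t * deriv φ ‖z - x‖)) z := by
  have hd : Differentiable ℝ φ := hφ.differentiable one_ne_zero
  have key : HasFDerivAt (fun y => φ ‖y - x‖)
      (deriv φ ‖z - x‖ • innerSL ℝ ((z - x) / ‖z - x‖)) z := by
    by_cases hz : z = x
    · subst hz
      have h0 : (fun y => φ ‖y - z‖) =ᶠ[𝓝 z] fun _ => φ 0 := by
        filter_upwards [ball_mem_nhds z hr] with y hy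
        have := Convex.norm_image_sub_le_of_norm_deriv_le (f := φ) (s := Iic r) (C := 0)
          (fun a _ => hd a) (fun a ha => by rw [h2 a ha, norm_zero]) (convex_Iic r)
          (x := 0) (y := ‖y - z‖) hr.le (le_of_lt (mem_ball_iff_norm.1 hy))
        rw [zero_mul, norm_le_zero_iff, sub_eq_zero] at this
        exact this
      have := (hasFDerivAt_const (𝕜 := ℝ) (φ 0) z).congr_of_eventuallyEq h0
      simpa using this
    · have hn : 0 < ‖z - x‖ := norm_pos_iff.2 (sub_ne_zero.2 hz)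
      have h1 := (((hasFDerivAt_id (𝕜 := ℝ) z).sub_const x).norm_sq).sqrt
        (by simpa using hn.ne')
      simp only [id, Real.sqrt_sq (norm_nonneg _)] at h1
      have h3 := (hd ‖z - x‖).hasDerivAt.comp_hasFDerivAt z h1
      refine HasFDerivAt.congr_fderiv h3 ?_
      have e1 : (z - x) / (‖z - x‖ : ℂ) = (‖z - x‖⁻¹ : ℝ) • (z - x) := by
        rw [Complex.real_smul, Complex.ofReal_inv, div_eq_inv_mul]
      rw [e1, map_smul, ContinuousLinearMap.comp_id, ← Nat.cast_smul_eq_nsmul ℝ, smul_smul,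
        smul_smul, smul_smul]
      congr 1
      field_simp
      norm_num
  have h4 := (hasFDerivAt_id (𝕜 := ℝ) z).add ((key.const_mul t).smul_const e)
  have e2 : Phi x e φ t = id + fun y => (t * φ ‖y - x‖) • e := by
    ext y
    simp [Phi]
  rw [e2]
  refine HasFDerivAt.congr_fderiv h4 ?_
  unfold ivaD
  rw [smul_smul]

theorem iva_lip {φ : ℝ → ℝ} (hφ : ContDiff ℝ 1 φ) (h1 : ∀ s, |deriv φ s| ≤ 1) (he : ‖e‖ = 1)
    (ht : |t| ≤ 1 / 2) (z y : ℂ) :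
    ‖Phi x e φ t z - Phi x e φ t y - (z - y)‖ ≤ 1 / 2 * ‖z - y‖ := by
  have hd : Differentiable ℝ φ := hφ.differentiable one_ne_zero
  have h2 := Convex.norm_image_sub_le_of_norm_deriv_le (f := φ) (s := univ) (C := 1)
    (fun a _ => hd a) (fun a _ => h1 a) convex_univ (x := ‖y - x‖) (y := ‖z - x‖)
    (mem_univ _) (mem_univ _)
  have h3 : |‖z - x‖ - ‖y - x‖| ≤ ‖z - y‖ := by
    have := abs_norm_sub_norm_le (z - x) (y - x)
    rwa [sub_sub_sub_cancel_right] at this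
  have h4 : Phi x e φ t z - Phi x e φ t y - (z - y) =
      ((t * (φ ‖z - x‖ - φ ‖y - x‖) : ℝ) : ℂ) * e := by
    unfold Phi
    push_cast
    ring
  rw [h4, norm_mul, he, mul_one, Complex.norm_real, norm_mul]
  rw [one_mul, Real.norm_eq_abs, Real.norm_eq_abs] at h2
  rw [Real.norm_eq_abs, Real.norm_eq_abs]
  exact mul_le_mul ht (h2.trans h3) (abs_nonneg _) (by norm_num)

theorem iva_homeo {f : ℂ → ℂ} (h : ∀ z y, ‖f z - f y - (z - y)‖ ≤ 1 / 2 * ‖z - y‖) :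
    ∃ Φ : ℂ ≃ₜ ℂ, (Φ : ℂ → ℂ) = f ∧ LipschitzWith 2 Φ ∧ LipschitzWith 2 Φ.symm := by
  have hA : ApproximatesLinearOn f ((ContinuousLinearEquiv.refl ℝ ℂ : ℂ ≃L[ℝ] ℂ) : ℂ →L[ℝ] ℂ)
      univ (1 / 2) := fun z _ y _ => by simpa using h z y
  have hc : Subsingleton ℂ ∨ (1 / 2 : NNReal) <
      ‖((ContinuousLinearEquiv.refl ℝ ℂ : ℂ ≃L[ℝ] ℂ).symm : ℂ →L[ℝ] ℂ)‖₊⁻¹ := by
    right
    simp
    norm_num
  have hf : (hA.toHomeomorph f hc : ℂ → ℂ) = f := rfl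
  refine ⟨hA.toHomeomorph f hc, hf, LipschitzWith.of_dist_le_mul fun z y => ?_,
    LipschitzWith.of_dist_le_mul fun z y => ?_⟩
  · rw [hf, dist_eq_norm, dist_eq_norm]
    have h1 := norm_le_norm_sub_add (f z - f y) (z - y)
    have h2 := h z y
    push_cast
    linarith [norm_nonneg (z - y)]
  · have h2 := h ((hA.toHomeomorph f hc).symm z) ((hA.toHomeomorph f hc).symm y)
    have e1 : ∀ a, f ((hA.toHomeomorph f hc).symm a) = a := fun a =>
      (hA.toHomeomorph f hc).apply_symm_apply a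
    rw [e1, e1] at h2
    rw [dist_eq_norm, dist_eq_norm]
    have h1 := norm_le_norm_sub_add ((hA.toHomeomorph f hc).symm z - (hA.toHomeomorph f hc).symm y)
      (z - y)
    rw [norm_sub_rev] at h2
    push_cast
    linarith

theorem iva_lipcomp {k : ℂ → ℂ} (hu : LocallyLipschitzOn S u) (hk : LipschitzWith 2 k)
    (hm : MapsTo k T S) : LocallyLipschitzOn T (fun z => u (k z)) := by
  intro z hz
  obtain ⟨C, V, hV, hl⟩ := hu (hm hz)
  refine ⟨C * 2, k ⁻¹' V, (hk.continuous.continuousWithinAt.tendsto_nhdsWithin hm) hV, ?_⟩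
  exact hl.comp hk.lipschitzOnWith (mapsTo_preimage _ _)

theorem iva_mem {Φ : ℂ ≃ₜ ℂ} (h : ∀ z ∉ ball x r, Φ z = z) (hS : ball x r ⊆ S) (z : ℂ) :
    Φ z ∈ S ↔ z ∈ S := by
  constructor
  · intro hz
    by_contra hc
    rw [h z fun hb => hc (hS hb)] at hz
    exact hc hz
  · intro hz
    by_contra hc
    have := Φ.injective (h (Φ z) fun hb => hc (hS hb))
    rw [this] at hc
    exact hc hz

theorem iva_image {Φ : ℂ ≃ₜ ℂ} (h : ∀ z, Φ z ∈ S ↔ z ∈ S) (K : Set ℂ) :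
    Φ '' K ∩ S = Φ '' (K ∩ S) := by
  ext z
  constructor
  · rintro ⟨⟨y, hy, rfl⟩, hz⟩
    exact ⟨y, ⟨hy, (h y).1 hz⟩, rfl⟩
  · rintro ⟨y, hy, rfl⟩
    exact ⟨⟨y, hy.1, rfl⟩, (h y).2 hy.2⟩

theorem iva_point {Φ : ℂ ≃ₜ ℂ} {α : ℝ} {ν : ℂ} (hp : Pre Ω u K) (hz : z ∈ Ω)
    (hD : HasFDerivAt Φ (ivaD e ν α) z) (hα : |α| ≤ |t|) (ht : |t| ≤ 1 / 2) (he : ‖e‖ = 1)
    (hν : ‖ν‖ ≤ 1) :
    |(ivaD e ν α).det| * ‖gK (Φ '' K) (fun y => u (Φ.symm y)) (Φ z)‖ ^ 2 ≤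
      ‖gK K u z‖ ^ 2 + α * (‖gK K u z‖ ^ 2 * ⟪e, ν⟫ - 2 * ⟪ν, gK K u z⟫ * ⟪e, gK K u z⟫) +
        2 * t ^ 2 * ‖gK K u z‖ ^ 2 := by
  have hd := iva_half (hα.trans ht) he hν
  by_cases hK : z ∈ K
  · rw [gK_of_mem _ hK, gK_of_mem _ (mem_image_of_mem Φ hK)]
    simp
  · have hK' : Φ z ∉ Φ '' K := fun ⟨y, hy, hyz⟩ => hK (Φ.injective hyz ▸ hy)
    rw [gK_of_notMem _ hK, gK_of_notMem _ hK', iva_det, abs_of_nonneg (by linarith)]
    refine iva_alg hα ht he hν fun y => ?_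
    have h0 : (ivaD e ν α).det ≠ 0 := by
      rw [iva_det]
      linarith
    have h1 : HasFDerivAt Φ
        ((ivaD e ν α).toContinuousLinearEquivOfDetNeZero h0 : ℂ →L[ℝ] ℂ) (Φ.symm (Φ z)) := by
      rw [Φ.symm_apply_apply, ContinuousLinearMap.coe_toContinuousLinearEquivOfDetNeZero]
      exact hD
    have h2 := HasFDerivAt.of_local_left_inverse (g := Φ.symm) (a := Φ z)
      Φ.symm.continuous.continuousAt h1 (Eventually.of_forall Φ.apply_symm_apply)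
    have h3 : DifferentiableAt ℝ u (Φ.symm (Φ z)) := by
      rw [Φ.symm_apply_apply]
      exact hp.diff ⟨hz, hK⟩
    have h4 : DifferentiableAt ℝ (fun y => u (Φ.symm y)) (Φ z) := h3.comp _ h2.differentiableAt
    have h5 := (h4.hasFDerivAt.comp z hD).fderiv
    have h6 : ((fun y => u (Φ.symm y)) ∘ Φ) = u := by
      ext y
      simp
    rw [h6] at h5
    rw [inner_grad, inner_grad, h5]
    rfl

theorem iv_a {φ : ℝ → ℝ} (h : MM Ω lam u K π₀) (hr : 0 < r) (hb : closedBall x (2 * r) ⊆ Ω)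
    (hφ : ContDiff ℝ 1 φ) (h1 : ∀ s, |deriv φ s| ≤ 1) (h2 : ∀ s ≤ r, deriv φ s = 0)
    (h3 : ∀ s, 2 * r ≤ s → φ s = 0) (he : ‖e‖ = 1) (ht : |t| ≤ 1 / 2) :
    Lc K x (2 * r) ≤ (μH[1] (Phi x e φ t '' (K ∩ closedBall x (2 * r)))).toReal +
      t * (∫ z in ball x (2 * r), deriv φ ‖z - x‖ *
        (‖gK K u z‖ ^ 2 * ⟪e, (z - x) / ‖z - x‖⟫ -
          2 * ⟪(z - x) / ‖z - x‖, gK K u z⟫ * ⟪e, gK K u z⟫)) +
      2 * t ^ 2 * Dr u K x (2 * r) + 4 * lam * r ^ 2 := by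
  obtain ⟨Φ, hΦ, hL, hL'⟩ := iva_homeo (iva_lip (x := x) hφ h1 he ht)
  have hp := h.pre
  have hK : IsClosed K := hp.2.1
  have hlam : 0 ≤ lam := h.1.1
  have hid : ∀ z ∉ ball x (2 * r), Φ z = z := fun z hz => by
    rw [hΦ]
    unfold Phi
    rw [h3 _ (not_lt.1 fun hc => hz (mem_ball_iff_norm.2 hc))]
    simp
  have hid' : ∀ z ∉ closedBall x (2 * r), Φ.symm z = z := fun z hz =>
    (Φ.symm_apply_eq.2 (hid z fun hc => hz (ball_subset_closedBall hc)).symm)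
  have hΩ := iva_mem hid (ball_subset_closedBall.trans hb)
  have hm : MapsTo Φ.symm (Ω \ Φ '' K) (Ω \ K) := fun z hz =>
    ⟨(hΩ _).1 (by rw [Φ.apply_symm_apply]; exact hz.1),
      fun hc => hz.2 ⟨_, hc, Φ.apply_symm_apply z⟩⟩
  have hc : Comp Ω u K π₀ x (2 * r) (fun y => u (Φ.symm y)) (Φ '' K) (fun y => π₀ (Φ.symm y)) := by
    refine ⟨Φ.isClosedMap _ hK, iva_lipcomp hp.lip hL' hm,
      h.2.1.precomp Φ.symm.continuous.continuousOn hm, fun z hz => ?_, fun z _ hz => ?_⟩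
    · rw [Φ.image_eq_preimage_symm, mem_preimage, hid' z hz]
    · simp only [hid' z hz, and_self]
  have hmin := h.2.2.2 x (2 * r) _ _ _ (by positivity) hb hc
  have hfin := hp.2.2.2 x (2 * r) hb
  rw [hp.En_eq hb] at hmin
  unfold En at hmin
  rw [iva_image (iva_mem hid ball_subset_closedBall), Dn_closedBall, hΦ] at hmin
  have hμ : μH[1] (Phi x e φ t '' (K ∩ closedBall x (2 * r))) ≠ ⊤ := by
    rw [← hΦ]
    refine ne_top_of_le_ne_top ?_ (hL.hausdorffMeasure_image_le zero_le_one _)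
    exact ENNReal.mul_ne_top (by simp) hfin.2
  have hI := (intOn_of_Dn hK (by rw [← Dn_closedBall]; exact hfin.1 :
    Dn u K (ball x (2 * r)) ≠ ⊤)).1
  set J : ℂ → ℝ := fun z => deriv φ ‖z - x‖ *
    (‖gK K u z‖ ^ 2 * ⟪e, (z - x) / ‖z - x‖⟫ -
      2 * ⟪(z - x) / ‖z - x‖, gK K u z⟫ * ⟪e, gK K u z⟫) with hJ
  have hJi : IntegrableOn J (ball x (2 * r)) := by
    have m1 := meas_gK hK u
    have m2 : Measurable fun z : ℂ => (z - x) / (‖z - x‖ : ℂ) := by fun_prop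
    have m3 : Measurable fun z : ℂ => deriv φ ‖z - x‖ := (measurable_deriv φ).comp (by fun_prop)
    have m4 : Measurable J :=
      m3.mul (((m1.norm.pow_const 2).mul (measurable_const.inner m2)).sub
        ((measurable_const.mul (m2.inner m1)).mul (measurable_const.inner m1)))
    refine Integrable.mono' (hI.const_mul 3) m4.aestronglyMeasurable
      (Eventually.of_forall fun z => ?_)
    have n1 := iva_nu x z
    have n0 := norm_nonneg (gK K u z)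
    have a1 := abs_real_inner_le_norm e ((z - x) / ‖z - x‖)
    have a2 := abs_real_inner_le_norm ((z - x) / ‖z - x‖) (gK K u z)
    have a3 := abs_real_inner_le_norm e (gK K u z)
    rw [he, one_mul] at a1 a3
    have a2' : |⟪(z - x) / ‖z - x‖, gK K u z⟫| ≤ ‖gK K u z‖ := a2.trans (by nlinarith)
    have b1 : |‖gK K u z‖ ^ 2 * ⟪e, (z - x) / ‖z - x‖⟫| ≤ ‖gK K u z‖ ^ 2 := by
      rw [abs_mul, abs_of_nonneg (sq_nonneg _)]
      exact mul_le_of_le_one_right (sq_nonneg _) (a1.trans n1)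
    have b2 : |2 * ⟪(z - x) / ‖z - x‖, gK K u z⟫ * ⟪e, gK K u z⟫| ≤ 2 * ‖gK K u z‖ ^ 2 := by
      rw [abs_mul, abs_mul, abs_two, mul_assoc, sq]
      exact mul_le_mul_of_nonneg_left (mul_le_mul a2' a3 (abs_nonneg _) n0) zero_le_two
    rw [Real.norm_eq_abs, hJ]
    simp only
    rw [abs_mul]
    refine (mul_le_of_le_one_left (abs_nonneg _) (h1 _)).trans ((abs_sub _ _).trans ?_)
    linarith
  set E : ℂ → ℝ := fun z => ‖gK K u z‖ ^ 2 + t * J z + 2 * t ^ 2 * ‖gK K u z‖ ^ 2 with hE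
  have hpt : ∀ z ∈ ball x (2 * r),
      |(ivaD e ((z - x) / ‖z - x‖) (t * deriv φ ‖z - x‖)).det| *
        ‖gK (Φ '' K) (fun y => u (Φ.symm y)) (Φ z)‖ ^ 2 ≤ E z := fun z hz => by
    have hα : |t * deriv φ ‖z - x‖| ≤ |t| := by
      rw [abs_mul]
      exact mul_le_of_le_one_right (abs_nonneg _) (h1 _)
    have := iva_point hp (hb (ball_subset_closedBall hz))
      (by rw [hΦ]; exact iva_deriv hr hφ h2 x e t z) hα ht he (iva_nu x z)
    rw [mul_assoc t] at this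
    exact this
  have hE0 : ∀ z ∈ ball x (2 * r), 0 ≤ E z := fun z hz => le_trans (by positivity) (hpt z hz)
  have hEi : IntegrableOn E (ball x (2 * r)) :=
    (Integrable.add hI (hJi.const_mul t)).add (hI.const_mul (2 * t ^ 2))
  have hEv : ∫ z in ball x (2 * r), E z =
      Dr u K x (2 * r) + t * (∫ z in ball x (2 * r), J z) + 2 * t ^ 2 * Dr u K x (2 * r) := by
    rw [Dr_eq hK, ← integral_const_mul, ← integral_const_mul,
      ← integral_add hI (hJi.const_mul t)]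
    exact integral_add (Integrable.add hI (hJi.const_mul t)) (hI.const_mul (2 * t ^ 2))
  have hE1 : 0 ≤ ∫ z in ball x (2 * r), E z := setIntegral_nonneg measurableSet_ball hE0
  have hD : Dn (fun y => u (Φ.symm y)) (Φ '' K) (ball x (2 * r)) ≤
      ENNReal.ofReal (∫ z in ball x (2 * r), E z) := by
    have hB : Φ '' ball x (2 * r) = ball x (2 * r) := by
      have := iva_image (iva_mem hid Subset.rfl) univ
      rw [univ_inter, image_univ, Φ.surjective.range_eq, univ_inter] at this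
      exact this.symm
    unfold Dn
    conv_lhs => rw [← hB]
    rw [lintegral_image_eq_lintegral_abs_det_fderiv_mul volume measurableSet_ball
      (f' := fun z => ivaD e ((z - x) / ‖z - x‖) (t * deriv φ ‖z - x‖))
      (fun z _ => by rw [hΦ]; exact (iva_deriv hr hφ h2 x e t z).hasFDerivWithinAt)
      Φ.injective.injOn,
      ofReal_integral_eq_lintegral_ofReal hEi
        ((ae_restrict_iff' measurableSet_ball).2 (Eventually.of_forall hE0))]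
    refine setLIntegral_mono' measurableSet_ball fun z hz => ?_
    rw [← ofReal_norm, ← ENNReal.ofReal_pow (norm_nonneg _),
      ← ENNReal.ofReal_mul (abs_nonneg _)]
    exact ENNReal.ofReal_le_ofReal (hpt z hz)
  rw [hΦ] at hD
  have hfinal := hmin.trans (add_le_add (add_le_add hD le_rfl) le_rfl)
  rw [← ENNReal.ofReal_toReal hμ, ← ENNReal.ofReal_add hE1 ENNReal.toReal_nonneg,
    ← ENNReal.ofReal_add (by positivity) (by positivity),
    ENNReal.ofReal_le_ofReal_iff (by positivity), hEv] at hfinal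
  linarith

end Vale.Agent.P128
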