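import Vale.Agent.P128.KeyB

/-!
# P128 Key

Moving the piece `A`. Data from `keyA`; `P = gK A (u η)`, `F_n = P - ∇ φ_n → F`. Let
`k z = (z - y)/l`. Competitor in a large ball: crack `K₁ ∪ (l A + y)`, labels from `uni`, function
`(1 - η) u + φ_n + l (η u - φ_n + t ψ) ∘ k` (with `(1 - η) u` set to `0` near `A`), gradient a.e.
`∇u - F_n + (F_n + t gK A ψ) ∘ k`. Expand the square; `∫ ⟪∇u, F_n⟫ = 0` and `∫ ⟪∇u, ∇φ_n ∘ k⟫ = 0` by
`NP.el0`; `∫ ⟪F, ∇φ_n ∘ k⟫ = 0`; let `n → ∞` and change variables (`∫ f ∘ k = l² ∫ f`). The length changes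
by at most `(l - 1) μH[1] A`. Also `∫ ⟪F, P⟫ = ∫ ‖F‖²` and `∫ ⟪∇u, P⟫ = 0` give the first identity.
-/

namespace Vale.Agent.P128

open Set Metric MeasureTheory Filter Topology Complex
open scoped ENNReal ContDiff RealInnerProductSpace Gradient Real ComplexConjugate

variable {Ω K L A S T U O X Γ P M₀ K₀ K₁ : Set ℂ} {u v w g hh ψ η : ℂ → ℝ} {G : ℂ → ℂ}
  {π₀ π₁ : ℂ → Set ℂ} {x y z c p q e a₀ F : ℂ} {lam H r s R a b t M Θ ρ ε δ d : ℝ} {n : ℕ}

theorem key_u1 (h : Pre univ u (A ∪ K₁)) (hA : IsCompact A) (hδ : 0 < δ)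
    (hη : ContDiff ℝ 1 η) (hη1 : ∀ z ∈ thickening (δ / 2) A, η z = 1) :
    ContDiffOn ℝ 1 (Aᶜ.indicator fun w => u w - u w * η w) K₁ᶜ := by
  intro z hz
  refine ContDiffAt.contDiffWithinAt ?_
  by_cases h1 : z ∈ A
  · refine (contDiffAt_const (c := (0 : ℝ))).congr_of_eventuallyEq ?_
    filter_upwards [isOpen_thickening.mem_nhds (self_subset_thickening (half_pos hδ) A h1)]
      with w hw
    exact indicator_apply_eq_zero.2 fun _ => by rw [hη1 w hw, mul_one, sub_self]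
  · have h2 : ContDiffAt ℝ 1 u z :=
      h.2.2.1.contDiffAt (h.isOpen.mem_nhds ⟨mem_univ _, fun h3 => h3.elim h1 hz⟩)
    refine (h2.sub (h2.mul hη.contDiffAt)).congr_of_eventuallyEq ?_
    filter_upwards [hA.isClosed.isOpen_compl.mem_nhds h1] with w hw
    exact indicator_of_mem hw _

theorem key_ae_grad (h : Pre univ u (A ∪ K₁)) (hA : IsCompact A) (hη : ContDiff ℝ 1 η)
    (hS : IsClosed S) (hl : μH[1] S ≠ ⊤) (hψ : Test univ S ψ) :
    ∀ᵐ z : ℂ, gK (K₁ ∪ S) (fun z => Aᶜ.indicator (fun w => u w - u w * η w) z + ψ z) z =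
      gK (A ∪ K₁) u z + (gK S ψ z - gK A (fun w => u w * η w) z) := by
  have h1 : ∀ᵐ z : ℂ, z ∉ (A ∪ K₁) ∩ univ := measure_eq_zero_iff_ae_notMem.1 h.null
  have h2 : ∀ᵐ z : ℂ, z ∉ S := measure_eq_zero_iff_ae_notMem.1 (vol_null hl)
  filter_upwards [h1, h2, ae_diff (isOpen_univ.sdiff hS) hψ.1] with z h3 h4 h5
  rw [inter_univ] at h3
  have h6 : z ∉ A := fun h7 => h3 (Or.inl h7)
  have h7 := h.diff (z := z) ⟨mem_univ _, h3⟩
  have h8 := h7.mul (hη.differentiable one_ne_zero z)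
  have h9 : (fun z => Aᶜ.indicator (fun w => u w - u w * η w) z + ψ z) =ᶠ[𝓝 z]
      fun w => (u w - u w * η w) + ψ w := by
    filter_upwards [hA.isClosed.isOpen_compl.mem_nhds h6] with w hw
    rw [indicator_of_mem hw]
  rw [gK_of_notMem _ (fun h10 => h10.elim (fun h11 => h3 (Or.inr h11)) h4), gK_of_notMem _ h3,
    gK_of_notMem _ h4, gK_of_notMem _ h6, h9.gradient_eq,
    grad_add (u := fun w => u w - u w * η w) (h7.sub h8) (h5 ⟨mem_univ _, h4⟩),
    grad_sub (v := fun w => u w * η w) h7 h8]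
  ring

theorem key_off (hη0 : tsupport η ⊆ thickening δ A) (hR : thickening δ A ⊆ closedBall 0 R) :
    ∀ z ∉ closedBall (0 : ℂ) R, u z * η z = 0 := fun z hz => by
  rw [image_eq_zero_of_notMem_tsupport fun h => hz (hR (hη0 h)), mul_zero]

theorem key_g (h : Pre univ u K) (R : ℝ) :
    MemLp (gK K u) 2 (volume.restrict (closedBall 0 R)) :=
  (intOn_of_Dn h.2.1 (h.2.2.2 0 R (subset_univ _)).1).2

theorem key_comp (h : MM univ 0 u (A ∪ K₁) π₀) (hA : IsCompact A) (hK : IsClosed K₁) (hδ : 0 < δ)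
    (hd : Disjoint A K₁) (hη : ContDiff ℝ 1 η) (hη1 : ∀ z ∈ thickening (δ / 2) A, η z = 1)
    (hη0 : tsupport η ⊆ thickening δ A) (hP : MemLp (gK A fun w => u w * η w) 2 volume)
    (hS : IsCompact S) (hl : μH[1] S ≠ ⊤) (hψ : Test univ S ψ) :
    0 ≤ 2 * (∫ z, ⟪gK (A ∪ K₁) u z, gK S ψ z - gK A (fun w => u w * η w) z⟫) +
      (∫ z, ‖gK S ψ z - gK A (fun w => u w * η w) z‖ ^ 2) + (μH[1] S).toReal -
        (μH[1] A).toReal := by
  have hp := h.pre
  obtain ⟨R₀, hR₀⟩ := key_ball hψ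
  obtain ⟨R, hR1, hR⟩ := ((hA.isBounded.thickening (δ := δ)).union
    hS.isBounded).subset_closedBall_lt (max R₀ 0) 0
  have hR0 : 0 < R := (le_max_right _ _).trans_lt hR1
  have hψ0 := hR₀ R ((le_max_left _ _).trans hR1.le)
  have hRA : thickening δ A ⊆ closedBall 0 R := subset_union_left.trans hR
  have hRA' : A ⊆ closedBall 0 R := (self_subset_thickening hδ A).trans hRA
  have hRS : S ⊆ closedBall 0 R := subset_union_right.trans hR
  obtain ⟨σ, hσ, hσ'⟩ := uni hA hK hd (compl_eq_univ_sdiff (A ∪ K₁) ▸ h.2.1 :) hRA'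
  have h1 := h.2.2.2 0 R (fun z => Aᶜ.indicator (fun w => u w - u w * η w) z + ψ z) (K₁ ∪ S) σ hR0
    (subset_univ _) ⟨hK.union hS.isClosed,
      lip_add ((lip_of_contDiffOn hK.isOpen_compl (key_u1 hp hA hδ hη hη1)).mono
        fun z hz h2 => hz.2 (Or.inl h2)) (hψ.1.mono fun z hz => ⟨hz.1, fun h2 => hz.2 (Or.inr h2)⟩),
      hσ.mono fun z hz h2 => hz.2 (Or.inl h2),
      fun z hz => ⟨fun h2 => h2.elim Or.inr fun h3 => absurd (hRS h3) hz,
        fun h2 => h2.elim (fun h3 => absurd (hRA' h3) hz) Or.inl⟩,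
      fun z hz h2 => ⟨by
        beta_reduce
        rw [indicator_of_mem (show z ∈ Aᶜ from fun h3 => hz.2 (Or.inl h3)), hψ0 z h2,
          key_off hη0 hRA z h2, sub_zero, add_zero], hσ' z (fun h3 => hz.2 (Or.inr h3)) h2⟩⟩
  have hD : MemLp (fun z => gK S ψ z - gK A (fun w => u w * η w) z) 2 volume :=
    (hψ.memLp hS.isClosed).sub hP
  have hD0 : ∀ z ∉ closedBall (0 : ℂ) R, gK S ψ z - gK A (fun w => u w * η w) z = 0 :=
    fun z hz => by rw [gK_eq_zero_off hψ0 hz, gK_eq_zero_off (key_off hη0 hRA) hz, sub_self]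
  have hg := key_g hp R
  have hgD : MemLp (fun z => gK (A ∪ K₁) u z + (gK S ψ z - gK A (fun w => u w * η w) z)) 2
      (volume.restrict (closedBall 0 R)) := hg.add (hD.restrict _)
  have h2 : Dn (fun z => Aᶜ.indicator (fun w => u w - u w * η w) z + ψ z) (K₁ ∪ S)
      (closedBall 0 R) = ENNReal.ofReal (∫ z in closedBall 0 R,
        ‖gK (A ∪ K₁) u z + (gK S ψ z - gK A (fun w => u w * η w) z)‖ ^ 2) := by
    rw [← key_ofReal hgD]
    refine lintegral_congr_ae (ae_restrict_of_ae ?_)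
    filter_upwards [key_ae_grad hp hA hη hS.isClosed hl hψ] with z hz
    rw [hz]
  have h3 : μH[1] ((A ∪ K₁) ∩ closedBall 0 R) = μH[1] A + μH[1] (K₁ ∩ closedBall 0 R) := by
    rw [union_inter_distrib_right, inter_eq_left.2 hRA',
      measure_union (hd.mono_right inter_subset_left)
        (hK.inter isClosed_closedBall).measurableSet]
  have h4 : μH[1] ((K₁ ∪ S) ∩ closedBall 0 R) ≤ μH[1] (K₁ ∩ closedBall 0 R) + μH[1] S := by
    rw [union_inter_distrib_right, inter_eq_left.2 hRS]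
    exact measure_union_le _ _
  have h5 := (hp.2.2.2 0 R (subset_univ _)).2
  rw [h3, ENNReal.add_ne_top] at h5
  rw [En, En, h2, h3, Dn, key_ofReal hg, zero_mul, ENNReal.ofReal_zero, add_zero] at h1
  have h6 := ENNReal.toReal_mono (ENNReal.add_ne_top.2 ⟨ENNReal.ofReal_ne_top,
    ENNReal.add_ne_top.2 ⟨h5.2, hl⟩⟩) (h1.trans (add_le_add_right h4 _))
  rw [ENNReal.toReal_add ENNReal.ofReal_ne_top (ENNReal.add_ne_top.2 h5),
    ENNReal.toReal_add ENNReal.ofReal_ne_top (ENNReal.add_ne_top.2 ⟨h5.2, hl⟩),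
    ENNReal.toReal_add h5.1 h5.2, ENNReal.toReal_add h5.2 hl,
    ENNReal.toReal_ofReal (integral_nonneg fun z => by positivity),
    ENNReal.toReal_ofReal (integral_nonneg fun z => by positivity), key_energy hg hD hD0] at h6
  linarith

theorem key_el (h : NP univ 0 u K) (hψ : Test univ ∅ ψ) :
    Integrable (fun z => ⟪gK K u z, ∇ ψ z⟫) ∧ ∫ z, ⟪gK K u z, ∇ ψ z⟫ = 0 := by
  have h1 : (fun z => ⟪gK K u z, ∇ ψ z⟫) = fun z => ⟪gK K u z, gK K ψ z⟫ := by
    funext z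
    by_cases hz : z ∈ K
    · rw [gK_of_mem u hz, inner_zero_left, inner_zero_left]
    · rw [gK_of_notMem ψ hz]
  rw [h1]
  exact ⟨h.pre.inner_int (hψ.mono (empty_subset K)), h.el0 (hψ.mono (empty_subset K))⟩

theorem key_scale0 {l : ℝ} (hl : 0 < l) (y : ℂ) (hψ : Test univ ∅ ψ) :
    Test univ ∅ (fun w => l * ψ (keyK l y w)) := by
  simpa only [image_empty] using key_test hl y isClosed_empty hψ

theorem key_three (hS : IsClosed S) (hl : μH[1] S ≠ ⊤) (hψ : Test univ S ψ) (hv : Test univ ∅ v)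
    (hw : Test univ ∅ w) : ∃ χ, Test univ S χ ∧
      ∀ᵐ z : ℂ, gK S χ z = gK S ψ z + ∇ v z - ∇ w z := by
  obtain ⟨h1, h2⟩ := hψ.add hS (hv.mono (empty_subset S))
  obtain ⟨h3, h4⟩ := h1.add hS ((hw.mono (empty_subset S)).smul (-1))
  refine ⟨_, h3, ?_⟩
  filter_upwards [h2, h4, measure_eq_zero_iff_ae_notMem.1 (vol_null hl)] with z h5 h6 h7
  rw [h6, h5, gK_of_notMem v h7, gK_of_notMem (fun z => -1 * w z) h7, grad_smul]
  push_cast
  ring

theorem key_FP {F Q : ℂ → ℂ} {Z : ℕ → ℂ → ℂ} (hF : MemLp F 2 volume) (hG : MemLp G 2 volume)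
    (hQ : MemLp Q 2 volume) (hZ : ∀ n, MemLp (Z n) 2 volume)
    (h0 : Tendsto (fun n => ∫ z, ‖Q z - Z n z - G z‖ ^ 2) atTop (𝓝 0))
    (hZ0 : ∀ n, ∫ z, ⟪F z, Z n z⟫ = 0) : ∫ z, ⟪F z, Q z⟫ = ∫ z, ⟪F z, G z⟫ := by
  have h1 := key_lim hF (E := fun n z => Q z - Z n z - G z) (fun n => (hQ.sub (hZ n)).sub hG) h0
  have h2 : ∀ n, ∫ z, ⟪F z, Q z - Z n z - G z⟫ = (∫ z, ⟪F z, Q z⟫) - ∫ z, ⟪F z, G z⟫ := by
    intro n
    have h3 : Integrable (fun z => ⟪F z, Q z⟫ - ⟪F z, Z n z⟫) := (key_ii hF hQ).sub (key_ii hF (hZ n))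
    simp only [inner_sub_right]
    rw [integral_sub h3 (key_ii hF hG), integral_sub (key_ii hF hQ) (key_ii hF (hZ n)), hZ0,
      sub_zero]
  simp only [h2, tendsto_const_nhds_iff] at h1
  linarith

theorem key (h : MM univ 0 u (A ∪ K₁) π₀) (hA : IsCompact A) (hK : IsClosed K₁) (hδ : 0 < δ)
    (hd : Disjoint (thickening (3 * δ) A) K₁) (hM : ∀ z ∈ thickening δ A \ A, |u z| ≤ M)
    (hη : ContDiff ℝ 1 η) (hη1 : ∀ z ∈ thickening (δ / 2) A, η z = 1)
    (hη0 : tsupport η ⊆ thickening δ A) :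
    ∃ f F : ℂ → ℂ, DifferentiableOn ℂ f K₁ᶜ ∧ MemLp F 2 volume ∧
      (∫ z, f z * gK A (fun w => u w * η w) z).re = -∫ z, ‖F z‖ ^ 2 ∧
      ∀ (l : ℝ) (y : ℂ) (t : ℝ) (ψ : ℂ → ℝ), 0 < l → Test univ A ψ →
        tsupport ψ ⊆ thickening δ A → (∀ z ∈ thickening δ A, l * z + y ∈ thickening (2 * δ) A) →
        0 ≤ 2 * l ^ 2 * (∫ z, f (l * z + y) * (gK A (fun w => u w * η w) z + t * gK A ψ z)).re +
          l ^ 2 * (∫ z, ‖F z + t * gK A ψ z‖ ^ 2) + (∫ z, ‖F z‖ ^ 2) +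
          (l - 1) * (μH[1] A).toReal := by
  obtain ⟨f, F, φ, hf, hF, hφ, hlim, horth, hfF⟩ := keyA h.1 hA hK hδ hd hM hη hη1 hη0
  have hp := h.pre
  obtain ⟨ht0, -, he1, he2⟩ := test_mul hp hA hK hd hδ hM hη hη0
  have hP : MemLp (gK A fun w => u w * η w) 2 volume := he1 ▸ ht0.memLp hA.isClosed
  have hgP : ∫ z, ⟪gK (A ∪ K₁) u z, gK A (fun w => u w * η w) z⟫ = 0 :=
    he2 ▸ h.1.el0 (ht0.mono subset_union_left)
  have hgPi : Integrable fun z => ⟪gK (A ∪ K₁) u z, gK A (fun w => u w * η w) z⟫ :=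
    he2 ▸ hp.inner_int (ht0.mono subset_union_left)
  have hφ2 : ∀ n, MemLp (∇ (φ n)) 2 volume := fun n =>
    key_gK_empty (φ n) ▸ (hφ n).memLp isClosed_empty
  have hd' : Disjoint A K₁ := hd.mono_left (self_subset_thickening (by positivity) A)
  obtain ⟨R₁, hR₁⟩ := (hA.isBounded.thickening (δ := δ)).subset_closedBall 0
  have hlA : μH[1] A ≠ ⊤ := ne_top_of_le_ne_top (hp.2.2.2 0 R₁ (subset_univ _)).2 (measure_mono
    (subset_inter subset_union_left ((self_subset_thickening hδ A).trans hR₁)))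
  refine ⟨f, F, hf, hF, ?_, fun l y t ψ hl hψ _ _ => ?_⟩
  · rw [key_re (key_g hp R₁) hF hfF hP fun z hz => gK_eq_zero_off (key_off hη0 hR₁) hz, hgP,
      key_FP hF hF hP hφ2 hlim fun n => horth _ (hφ n)]
    simp only [real_inner_self_eq_norm_sq, zero_sub]
  have hT : MemLp (fun z => (t : ℂ) * gK A ψ z) 2 volume := (hψ.memLp hA.isClosed).const_mul _
  obtain ⟨hθ, hθ'⟩ := ht0.add hA.isClosed (hψ.smul t)
  have hθ2 : ∀ᵐ z : ℂ, gK A (fun z => Aᶜ.indicator (fun w => u w * η w) z + t * ψ z) z =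
      gK A (fun w => u w * η w) z + t * gK A ψ z := by
    filter_upwards [hθ'] with z hz
    rw [hz, he1]
    by_cases h1 : z ∈ A
    · rw [gK_of_mem ψ h1, gK_of_mem (fun z => t * ψ z) h1, mul_zero]
    · rw [gK_of_notMem ψ h1, gK_of_notMem (fun z => t * ψ z) h1, grad_smul]
  have hθt := key_test hl y hA.isClosed hθ
  have hS : IsCompact ((fun z : ℂ => l * z + y) '' A) := hA.image (by fun_prop)
  have hlen := key_len hl y A
  have hlS := ne_top_of_le_ne_top (ENNReal.mul_ne_top ENNReal.ofReal_ne_top hlA) hlen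
  have hlen' := ENNReal.toReal_mono (ENNReal.mul_ne_top ENNReal.ofReal_ne_top hlA) hlen
  rw [ENNReal.toReal_mul, ENNReal.toReal_ofReal hl.le] at hlen'
  obtain ⟨R, hR⟩ := key_ball hθt
  have hQ0 := fun z hz => gK_eq_zero_off (K := (fun z : ℂ => l * z + y) '' A) (z := z)
    (hR R le_rfl) hz
  have hQm := hθt.memLp hS.isClosed
  have hQe := (Eventually.of_forall (key_gK hl y A _)).mp ((key_ae hl y hθ2).mono
    fun z h1 h2 => h2.trans h1)
  have hcomp := fun n => (key_three hS.isClosed hlS hθt (hφ n) (key_scale0 hl y (hφ n))).imp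
    fun χ hχ => And.intro hχ.2 (key_comp h hA hK hδ hd' hη hη1 hη0 hP hS hlS hχ.1)
  have hel1 := fun n => key_el h.1 (hφ n)
  have hel2 := fun n => key_el h.1 (key_scale0 hl y (hφ n))
  have hor2 := fun n => horth _ (key_scale0 hl y (hφ n))
  simp only [key_grad hl] at hcomp hel2 hor2
  have hg := key_g hp R
  generalize gK ((fun z : ℂ => l * z + y) '' A) (fun w => l * (Aᶜ.indicator
    (fun w => u w * η w) (keyK l y w) + t * ψ (keyK l y w))) = Q at hQ0 hQm hQe hcomp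
  generalize gK (A ∪ K₁) u = g at hfF hgP hgPi hcomp hel1 hel2 hg
  generalize gK A (fun w => u w * η w) = P at hlim hP hgP hgPi hQe hcomp ⊢
  have hgQ := key_loc' hg hQm hQ0
  have hFT : MemLp (fun z => F z + t * gK A ψ z) 2 volume := hF.add hT
  have hFk := key_memLp hl y hFT
  have hE : ∀ n, MemLp (fun z => P z - ∇ (φ n) z - F z) 2 volume :=
    fun n => (hP.sub (hφ2 n)).sub hF
  have hsq : ∀ X : ℂ → ℂ, ∫ z, ‖X (keyK l y z)‖ ^ 2 = l ^ 2 * ∫ z, ‖X z‖ ^ 2 :=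
    fun X => key_int hl y fun z => ‖X z‖ ^ 2
  have hlimk : Tendsto (fun n => ∫ z, ‖P (keyK l y z) - ∇ (φ n) (keyK l y z) - F (keyK l y z)‖ ^ 2)
      atTop (𝓝 0) := by
    have h1 := hlim.const_mul (l ^ 2)
    rw [mul_zero] at h1
    exact h1.congr fun n => (hsq fun z => P z - ∇ (φ n) z - F z).symm
  have hD : MemLp (fun z => -F z + (F (keyK l y z) + t * gK A ψ (keyK l y z))) 2 volume :=
    hF.neg.add hFk
  have h1 := key_lim2 hD (E := fun n z => (P (keyK l y z) - ∇ (φ n) (keyK l y z) -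
    F (keyK l y z)) - (P z - ∇ (φ n) z - F z)) (fun n => (key_memLp hl y (hE n)).sub (hE n))
    (key_lim3 (fun n => key_memLp hl y (hE n)) hE hlimk hlim)
  have h2 : 0 ≤ 2 * (∫ z, ⟪g z, Q z⟫) +
      (∫ z, ‖-F z + (F (keyK l y z) + t * gK A ψ (keyK l y z))‖ ^ 2) +
      (l - 1) * (μH[1] A).toReal := by
    refine ge_of_tendsto' ((h1.const_add _).add_const _) fun n => ?_
    obtain ⟨χ, h3, h4⟩ := hcomp n
    have h5 : ∫ z, ⟪g z, gK ((fun z : ℂ => l * z + y) '' A) χ z - P z⟫ = ∫ z, ⟪g z, Q z⟫ := by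
      have h6 : Integrable fun z => ⟪g z, Q z⟫ + ⟪g z, ∇ (φ n) z⟫ := hgQ.add (hel1 n).1
      have h7 : Integrable fun z => ⟪g z, Q z⟫ + ⟪g z, ∇ (φ n) z⟫ -
          ⟪g z, ∇ (φ n) (keyK l y z)⟫ := h6.sub (hel2 n).1
      rw [integral_congr_ae (g := fun z => ⟪g z, Q z⟫ + ⟪g z, ∇ (φ n) z⟫ -
          ⟪g z, ∇ (φ n) (keyK l y z)⟫ - ⟪g z, P z⟫) (h3.mono fun z hz => by
            simp only [hz, inner_sub_right, inner_add_right]),
        integral_sub h7 hgPi, integral_sub h6 (hel2 n).1, integral_add hgQ (hel1 n).1, hgP,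
        (hel1 n).2, (hel2 n).2]
      ring
    have h6 : ∫ z, ‖gK ((fun z : ℂ => l * z + y) '' A) χ z - P z‖ ^ 2 =
        ∫ z, ‖-F z + (F (keyK l y z) + t * gK A ψ (keyK l y z)) + (P (keyK l y z) -
          ∇ (φ n) (keyK l y z) - F (keyK l y z) - (P z - ∇ (φ n) z - F z))‖ ^ 2 := by
      refine integral_congr_ae ?_
      filter_upwards [h3, hQe] with z h7 h8
      rw [h7, h8]
      congr 2
      ring
    rw [h5, h6] at h4
    linarith
  have h3 : ∫ z, ⟪F z, Q z⟫ = ∫ z, ⟪F z, F (keyK l y z) + t * gK A ψ (keyK l y z)⟫ := by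
    refine key_FP hF hFk hQm (fun n => key_memLp hl y (hφ2 n)) (hlimk.congr fun n => ?_) hor2
    refine integral_congr_ae ?_
    filter_upwards [hQe] with z h8
    rw [h8]
    congr 2
    ring
  have h4 : (∫ z, f z * Q z).re = l ^ 2 * (∫ z, f (l * z + y) * (P z + t * gK A ψ z)).re := by
    rw [← smul_eq_mul, ← Complex.smul_re,
      ← key_int hl y fun z => f (l * z + y) * (P z + t * gK A ψ z)]
    congr 1
    refine integral_congr_ae ?_
    filter_upwards [hQe] with z h8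
    rw [h8, key_right hl]
  rw [key_re hg hF hfF hQm hQ0, h3] at h4
  rw [key_add (X := fun z => -F z) hF.neg hFk, hsq fun z => F z + t * gK A ψ z] at h2
  simp only [norm_neg, inner_neg_left, integral_neg] at h2
  linarith

end Vale.Agent.P128
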