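import Vale.Agent.P128.Basic

/-!
# P128 Proj

Riesz representation on the closure of the gradients of test functions. Work in
`Lp ℂ 2 volume` as a real inner product space: the gradients form a `Submodule ℝ` `W` (`Test.add`,
`Test.smul`); either minimize `‖Ψ‖² - 2 ℓ ψ` (a minimizing sequence is Cauchy by the parallelogram law)
or extend the well defined bounded functional (`LinearMap.mkContinuous`, Hahn-Banach
`exists_extension_norm_eq`), represent it (`InnerProductSpace.toDual`) and project on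
`W.topologicalClosure`.
-/

namespace Vale.Agent.P128

open Set Metric MeasureTheory Filter Topology Complex
open scoped ENNReal ContDiff RealInnerProductSpace Gradient Real ComplexConjugate

variable {Ω K L A S T U O X Γ P M₀ K₀ K₁ : Set ℂ} {u v w g hh ψ η : ℂ → ℝ} {G : ℂ → ℂ}
  {π₀ π₁ : ℂ → Set ℂ} {x y z c p q e a₀ F : ℂ} {lam H r s R a b t M Θ ρ ε δ d : ℝ} {n : ℕ}

theorem proj_abs {E ι : Type*} [NormedAddCommGroup E] [InnerProductSpace ℝ E] [CompleteSpace E]
    (T : ι → E) (l : ι → ℝ) {B : ℝ} (hB0 : 0 ≤ B) (i₀ : ι)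
    (hadd : ∀ i j, ∃ k, T k = T i + T j ∧ l k = l i + l j)
    (hsm : ∀ (t : ℝ) i, ∃ k, T k = t • T i ∧ l k = t * l i)
    (hb : ∀ i, |l i| ≤ B * ‖T i‖) :
    ∃ (Φ : E) (s : ℕ → ι), ‖Φ‖ ≤ B ∧ Tendsto (fun n => T (s n)) atTop (𝓝 Φ) ∧
      ∀ i, ⟪Φ, T i⟫ = l i := by
  have hwd : ∀ i j, T i = T j → l i = l j := by
    intro i j hij
    obtain ⟨k, hk, hk'⟩ := hsm (-1) j
    obtain ⟨m, hm, hm'⟩ := hadd i k
    have h0 : T m = 0 := by rw [hm, hk, hij]; simp
    have h1 := hb m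
    rw [h0, norm_zero, mul_zero, abs_nonpos_iff] at h1
    linarith
  let W : Submodule ℝ E :=
    { carrier := range T
      add_mem' := by
        rintro _ _ ⟨i, rfl⟩ ⟨j, rfl⟩
        obtain ⟨k, hk, -⟩ := hadd i j
        exact ⟨k, hk⟩
      zero_mem' := by
        obtain ⟨k, hk, -⟩ := hsm 0 i₀
        exact ⟨k, by rw [hk, zero_smul]⟩
      smul_mem' := by
        rintro t _ ⟨i, rfl⟩
        obtain ⟨k, hk, -⟩ := hsm t i
        exact ⟨k, hk⟩ }
  have hW : ∀ w : W, ∃ i, T i = w := fun w => w.2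
  choose σ hσ using hW
  let f₀ : W →ₗ[ℝ] ℝ :=
    { toFun := fun w => l (σ w)
      map_add' := by
        intro a b
        obtain ⟨k, hk, hk'⟩ := hadd (σ a) (σ b)
        rw [← hk']
        apply hwd
        rw [hk, hσ, hσ, hσ]; rfl
      map_smul' := by
        intro t a
        obtain ⟨k, hk, hk'⟩ := hsm t (σ a)
        simp only [RingHom.id_apply, smul_eq_mul]
        rw [← hk']
        apply hwd
        rw [hk, hσ, hσ]; rfl }
  have hf₀ : ∀ w : W, ‖f₀ w‖ ≤ B * ‖w‖ := by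
    intro w
    have h1 := hb (σ w)
    rw [hσ] at h1
    exact h1
  let f : W →L[ℝ] ℝ := f₀.mkContinuous B hf₀
  have hf : ‖f‖ ≤ B := f₀.mkContinuous_norm_le hB0 hf₀
  obtain ⟨g, hg, hgn⟩ := exists_extension_norm_eq W f
  let y : E := (InnerProductSpace.toDual ℝ E).symm g
  have hy : ‖y‖ = ‖g‖ := (InnerProductSpace.toDual ℝ E).symm.norm_map g
  have hyv : ∀ v, ⟪y, v⟫ = g v := fun v => InnerProductSpace.toDual_symm_apply
  let V : Submodule ℝ E := W.topologicalClosure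
  have : CompleteSpace V := (W.isClosed_topologicalClosure).completeSpace_coe
  have hmem : V.starProjection y ∈ closure (range T) := V.starProjection_apply_mem y
  obtain ⟨x, hx, hxl⟩ := mem_closure_iff_seq_limit.1 hmem
  choose s hs using hx
  refine ⟨V.starProjection y, s, ?_, ?_, ?_⟩
  · exact (V.norm_starProjection_apply_le y).trans (by rw [hy, hgn]; exact hf)
  · simpa only [hs] using hxl
  · intro i
    have hi : T i ∈ W := ⟨i, rfl⟩
    have hiV : T i ∈ V := W.le_topologicalClosure hi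
    have h1 : ⟪y - V.starProjection y, T i⟫ = 0 := V.starProjection_inner_eq_zero y _ hiV
    rw [inner_sub_left, sub_eq_zero] at h1
    rw [← h1, hyv]
    have h2 := hg ⟨T i, hi⟩
    simp only at h2
    rw [h2]
    exact hwd _ _ (hσ ⟨T i, hi⟩)

theorem proj_norm_sq (f : Lp ℂ 2 (volume : Measure ℂ)) : ∫ z, ‖f z‖ ^ 2 = ‖f‖ ^ 2 := by
  rw [← real_inner_self_eq_norm_sq, L2.inner_def]
  simp only [real_inner_self_eq_norm_sq]

theorem proj_int (hK : IsClosed K) (hG : ∀ R, MemLp G 2 (volume.restrict (closedBall 0 R)))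
    (h : Test univ K ψ) : Integrable (fun z => ⟪G z, gK K ψ z⟫) := by
  obtain ⟨x, r, -, h0⟩ := h.2.2.1
  have hsub : closedBall x r ⊆ closedBall 0 (‖x‖ + r) := by
    intro z hz
    rw [mem_closedBall, dist_eq_norm] at hz
    rw [mem_closedBall_zero_iff]
    calc ‖z‖ = ‖x + (z - x)‖ := by ring_nf
      _ ≤ ‖x‖ + ‖z - x‖ := norm_add_le _ _
      _ ≤ ‖x‖ + r := by linarith
  have h1 := hG (‖x‖ + r)
  have h2 : MemLp (gK K ψ) 2 (volume.restrict (closedBall 0 (‖x‖ + r))) :=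
    (h.memLp hK).restrict _
  have h3 : IntegrableOn (fun z => ⟪G z, gK K ψ z⟫) (closedBall 0 (‖x‖ + r)) := by
    refine (h1.norm.integrable_mul h2.norm).mono' (h1.1.inner h2.1) ?_
    exact Eventually.of_forall fun z => norm_inner_le_norm _ _
  refine h3.integrable_of_forall_notMem_eq_zero fun z hz => ?_
  rw [gK_eq_zero_off h0 fun hz' => hz (hsub hz'), inner_zero_right]

theorem proj_gK_smul (K : Set ℂ) (t : ℝ) (ψ : ℂ → ℝ) (z : ℂ) :
    gK K (fun z => t * ψ z) z = t • gK K ψ z := by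
  by_cases hz : z ∈ K
  · rw [gK_of_mem _ hz, gK_of_mem _ hz, smul_zero]
  · rw [gK_of_notMem _ hz, gK_of_notMem _ hz, grad_smul, real_smul]

theorem proj {B : ℝ} (hK : IsClosed K) (hG : ∀ R, MemLp G 2 (volume.restrict (closedBall 0 R)))
    (hB0 : 0 ≤ B)
    (hB : ∀ ψ, Test univ K ψ → |∫ z, ⟪G z, gK K ψ z⟫| ≤ B * √(∫ z, ‖gK K ψ z‖ ^ 2)) :
    ∃ (Φ : ℂ → ℂ) (ψ : ℕ → ℂ → ℝ), MemLp Φ 2 volume ∧ ∫ z, ‖Φ z‖ ^ 2 ≤ B ^ 2 ∧
      (∀ n, Test univ K (ψ n)) ∧
      Tendsto (fun n => ∫ z, ‖gK K (ψ n) z - Φ z‖ ^ 2) atTop (𝓝 0) ∧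
      ∀ χ, Test univ K χ → ∫ z, ⟪Φ z, gK K χ z⟫ = ∫ z, ⟪G z, gK K χ z⟫ := by
  let T : {ψ // Test univ K ψ} → Lp ℂ 2 (volume : Measure ℂ) := fun i => (i.2.memLp hK).toLp _
  have hT : ∀ i, T i =ᵐ[volume] gK K i.1 := fun i => MemLp.coeFn_toLp _
  let l : {ψ // Test univ K ψ} → ℝ := fun i => ∫ z, ⟪G z, gK K i.1 z⟫
  have h0 : Test univ K (fun _ => 0) :=
    test_of_contDiff (x := 0) (r := 0) contDiff_const (subset_univ _) fun _ _ => rfl
  have hn : ∀ i, ∫ z, ‖gK K i.1 z‖ ^ 2 = ‖T i‖ ^ 2 := by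
    intro i
    rw [← proj_norm_sq]
    exact integral_congr_ae ((hT i).mono fun z hz => by simp only [hz])
  obtain ⟨Φ, s, hΦ, hs, hr⟩ := proj_abs T l hB0 ⟨_, h0⟩ (by
      intro i j
      obtain ⟨h1, h2⟩ := i.2.add hK j.2
      refine ⟨⟨_, h1⟩, ?_, ?_⟩
      · refine Lp.ext ?_
        filter_upwards [hT ⟨_, h1⟩, hT i, hT j, h2, Lp.coeFn_add (T i) (T j)] with z a b c d e
        rw [a, e, Pi.add_apply, b, c, d]
      · simp only [l]
        rw [← integral_add (proj_int hK hG i.2) (proj_int hK hG j.2)]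
        refine integral_congr_ae (h2.mono fun z hz => ?_)
        simp only [hz, inner_add_right])
    (by
      intro t i
      refine ⟨⟨_, i.2.smul t⟩, ?_, ?_⟩
      · refine Lp.ext ?_
        filter_upwards [hT ⟨_, i.2.smul t⟩, hT i, Lp.coeFn_smul t (T i)] with z a b c
        rw [a, c, Pi.smul_apply, b, proj_gK_smul]
      · simp only [l]
        rw [← integral_const_mul]
        refine integral_congr_ae (Eventually.of_forall fun z => ?_)
        simp only [proj_gK_smul, real_inner_smul_right])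
    (by
      intro i
      have h1 := hB i.1 i.2
      rwa [hn, Real.sqrt_sq (norm_nonneg _)] at h1)
  refine ⟨Φ, fun n => (s n).1, Lp.memLp Φ, ?_, fun n => (s n).2, ?_, ?_⟩
  · rw [proj_norm_sq]
    exact pow_le_pow_left₀ (norm_nonneg _) hΦ 2
  · have h1 : Tendsto (fun n => ‖T (s n) - Φ‖ ^ 2) atTop (𝓝 0) := by
      simpa using (tendsto_iff_norm_sub_tendsto_zero.1 hs).pow 2
    refine h1.congr fun n => ?_
    rw [← proj_norm_sq]
    refine integral_congr_ae ?_
    filter_upwards [hT (s n), Lp.coeFn_sub (T (s n)) Φ] with z a b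
    rw [b, Pi.sub_apply, a]
  · intro χ hχ
    have h1 := hr ⟨χ, hχ⟩
    rw [L2.inner_def] at h1
    refine Eq.trans (integral_congr_ae ?_) h1
    filter_upwards [hT ⟨χ, hχ⟩] with z a
    rw [a]

end Vale.Agent.P128
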