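import Vale.Agent.P128.TMul
import Vale.Agent.P128.Proj
import Vale.Agent.P128.Wey
import Vale.Agent.P128.LipWG

/-!
# P128 KeyA

Projection step. `P = gK A (u η)` is the gradient of the test function `Aᶜ.indicator (u η)`. Apply
`proj` with `K = ∅`, `G = P`; `F = P - Φ`. The field `gK K u - F` equals `∇ ((1 - η) u) + Φ` a.e., where
`(1 - η) u` (set to `0` near `A`) is locally Lipschitz on `K₁ᶜ`; so it is weakly curl free on `K₁ᶜ`
(`curl0`, `lipWG`, `L²` limit) and weakly divergence free (`NP.el0`); conclude with `wey`.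
-/

namespace Vale.Agent.P128

open Set Metric MeasureTheory Filter Topology Complex
open scoped ENNReal ContDiff RealInnerProductSpace Gradient Real ComplexConjugate

variable {Ω K L A S T U O X Γ P M₀ K₀ K₁ : Set ℂ} {u v w g hh ψ η : ℂ → ℝ} {G : ℂ → ℂ}
  {π₀ π₁ : ℂ → Set ℂ} {x y z c p q e a₀ F : ℂ} {lam H r s R a b t M Θ ρ ε δ d : ℝ} {n : ℕ}

theorem keyA_int {f k : ℂ → ℂ} (hf : MemLp f 2 volume) (hk : MemLp k 2 volume) :
    Integrable (fun z => ‖f z‖ * ‖k z‖) := by
  have := MemLp.integrable_mul (p := 2) (q := 2) hf.norm hk.norm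
  exact this

theorem keyA_inner {f k : ℂ → ℂ} (hf : MemLp f 2 volume) (hk : MemLp k 2 volume) :
    Integrable (fun z => ⟪f z, k z⟫) := by
  refine (keyA_int hf hk).mono' (hf.1.inner hk.1) (Eventually.of_forall fun z => ?_)
  exact norm_inner_le_norm _ _

theorem keyA_cs {f k : ℂ → ℂ} (hf : MemLp f 2 volume) (hk : MemLp k 2 volume) :
    |∫ z, ⟪f z, k z⟫| ≤ √(∫ z, ‖f z‖ ^ 2) * √(∫ z, ‖k z‖ ^ 2) := by
  have h2 : (ENNReal.ofReal 2) = 2 := by simp
  have h := integral_mul_norm_le_Lp_mul_Lq (μ := volume) (f := f) (g := k)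
    Real.HolderConjugate.two_two (by rw [h2]; exact hf) (by rw [h2]; exact hk)
  simp only [Real.rpow_two] at h
  rw [Real.sqrt_eq_rpow, Real.sqrt_eq_rpow]
  refine le_trans ?_ h
  rw [← Real.norm_eq_abs]
  refine norm_integral_le_of_norm_le (keyA_int hf hk) (Eventually.of_forall fun z => ?_)
  exact norm_inner_le_norm _ _

theorem keyA_gK0 (χ : ℂ → ℝ) : gK ∅ χ = ∇ χ := by
  simp [gK]

theorem keyA_test {φ : ℂ → ℝ} (hφ : ContDiff ℝ ∞ φ) (hc : HasCompactSupport φ) (K : Set ℂ) :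
    Test univ K φ := by
  obtain ⟨r, hr⟩ := hc.isCompact.isBounded.subset_closedBall (0 : ℂ)
  refine test_of_contDiff (x := 0) (r := r) (hφ.of_le (by exact_mod_cast le_top))
    (subset_univ _) fun z hz => ?_
  exact image_eq_zero_of_notMem_tsupport fun h => hz (hr h)

theorem keyA_im (a b : ℂ) : (conj a * b).im = ⟪a, -I * b⟫ := by
  rw [← conj_mul_re]
  simp [mul_re, mul_im]
  ring

/-- The curl of the gradient of a locally Lipschitz function vanishes, in inner product form. -/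
theorem keyA_curl (hO : IsOpen O) (hn : volume Oᶜ = 0) (hw : LocallyLipschitzOn O w)
    {φ : ℂ → ℝ} (hφ : ContDiff ℝ ∞ φ) (hc : HasCompactSupport φ) (hs : tsupport φ ⊆ O)
    (hi : Integrable (fun z => conj (∇ w z) * ∇ φ z)) :
    ∫ z, ⟪∇ w z, -I * ∇ φ z⟫ = 0 := by
  have h := curl0 hO (lipWG hO hw) hφ hc hs
  have hO' : ∀ᵐ z : ℂ, z ∈ O := by
    rw [ae_iff]
    exact hn
  rw [Measure.restrict_eq_self_of_ae_mem hO'] at h
  have h2 := integral_im hi
  simp only [RCLike.im_to_complex] at h2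
  rw [← h2] at h
  simpa only [keyA_im] using h

theorem keyA_imul {f k : ℂ → ℂ} (hk : MemLp k 2 volume)
    (hR : ∀ z ∉ closedBall (0 : ℂ) R, k z = 0)
    (hf2 : MemLp f 2 (volume.restrict (closedBall 0 R))) :
    Integrable (fun z => ‖f z‖ * ‖k z‖) := by
  have h1 : IntegrableOn (fun z => ‖f z‖ * ‖k z‖) (closedBall 0 R) := by
    have := MemLp.integrable_mul (p := 2) (q := 2) hf2.norm (hk.restrict _).norm
    exact this
  refine (integrableOn_iff_integrable_of_support_subset ?_).1 h1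
  intro z hz
  by_contra h
  exact hz (by simp [hR z h])

theorem keyA (h : NP univ 0 u (A ∪ K₁)) (hA : IsCompact A) (hK : IsClosed K₁) (hδ : 0 < δ)
    (hd : Disjoint (thickening (3 * δ) A) K₁) (hM : ∀ z ∈ thickening δ A \ A, |u z| ≤ M)
    (hη : ContDiff ℝ 1 η) (hη1 : ∀ z ∈ thickening (δ / 2) A, η z = 1)
    (hη0 : tsupport η ⊆ thickening δ A) :
    ∃ (f F : ℂ → ℂ) (φ : ℕ → ℂ → ℝ), DifferentiableOn ℂ f K₁ᶜ ∧ MemLp F 2 volume ∧
      (∀ n, Test univ ∅ (φ n)) ∧
      Tendsto (fun n => ∫ z, ‖gK A (fun w => u w * η w) z - ∇ (φ n) z - F z‖ ^ 2) atTop (𝓝 0) ∧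
      (∀ χ, Test univ ∅ χ → ∫ z, ⟪F z, ∇ χ z⟫ = 0) ∧
      ∀ᵐ z : ℂ, conj (f z) = gK (A ∪ K₁) u z - F z := by
  have hp := h.pre
  have hKc : IsClosed (A ∪ K₁) := hp.2.1
  obtain ⟨ht, -, he, -⟩ := test_mul hp hA hK hd hδ hM hη hη0
  set P : ℂ → ℂ := gK A (fun w => u w * η w) with hP
  have hPm : MemLp P 2 volume := by
    rw [← he]
    exact ht.memLp hA.isClosed
  have hT : ∀ χ, Test univ ∅ χ → MemLp (∇ χ) 2 volume := fun χ hχ => by
    rw [← keyA_gK0]
    exact hχ.memLp isClosed_empty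
  obtain ⟨Φ, φ, hΦ, -, hφ, hl, hχ⟩ := proj (K := ∅) (G := P) (B := √(∫ z, ‖P z‖ ^ 2))
    isClosed_empty (fun R => hPm.restrict _) (Real.sqrt_nonneg _)
    (fun ψ hψ => keyA_cs hPm (hψ.memLp isClosed_empty))
  simp only [keyA_gK0] at hl hχ
  have hF : MemLp (fun z => P z - Φ z) 2 volume := hPm.sub hΦ
  have hF0 : ∀ χ, Test univ ∅ χ → ∫ z, ⟪P z - Φ z, ∇ χ z⟫ = 0 := fun χ hχ' => by
    simp only [inner_sub_left]
    rw [integral_sub (keyA_inner hPm (hT χ hχ')) (keyA_inner hΦ (hT χ hχ')), hχ χ hχ', sub_self]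
  have hnull : volume (A ∪ K₁) = 0 := by simpa using hp.null
  have hae : ∀ᵐ z : ℂ, z ∉ A ∪ K₁ := measure_eq_zero_iff_ae_notMem.1 hnull
  have hn1 : volume K₁ᶜᶜ = 0 := by
    rw [compl_compl]
    exact measure_mono_null subset_union_right hnull
  have hae1 : ∀ᵐ z : ℂ, z ∈ K₁ᶜ := hae.mono fun z hz h => hz (Or.inr h)
  have hu2 : ∀ x r, MemLp (gK (A ∪ K₁) u) 2 (volume.restrict (closedBall x r)) := fun x r =>
    (intOn_of_Dn hKc (hp.2.2.2 x r (subset_univ _)).1).2
  have hmeas : AEStronglyMeasurable (gK (A ∪ K₁) u) volume := (meas_gK hKc u).aestronglyMeasurable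
  -- the auxiliary function
  set v : ℂ → ℝ := fun w => (1 - η w) * u w with hv
  have hvl : LocallyLipschitzOn K₁ᶜ v := by
    intro z hz
    by_cases hzA : z ∈ A
    · refine ⟨0, thickening (δ / 2) A, mem_nhdsWithin_of_mem_nhds
        (isOpen_thickening.mem_nhds (self_subset_thickening (by linarith) A hzA)), ?_⟩
      refine LipschitzOnWith.of_dist_le_mul fun a ha b hb => ?_
      simp [hv, hη1 a ha, hη1 b hb]
    · have hz' : z ∈ univ \ (A ∪ K₁) := ⟨mem_univ _, fun h => h.elim hzA hz⟩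
      have h1 : ContDiffOn ℝ 1 v (univ \ (A ∪ K₁)) :=
        (contDiffOn_const.sub hη.contDiffOn).mul hp.2.2.1
      obtain ⟨k, s, hs, hl⟩ := lip_of_contDiffOn hp.isOpen h1 hz'
      refine ⟨k, s, mem_nhdsWithin_of_mem_nhds ?_, hl⟩
      rwa [hp.isOpen.nhdsWithin_eq hz'] at hs
  have hvg : ∀ᵐ z : ℂ, ∇ v z = gK (A ∪ K₁) u z - P z := by
    filter_upwards [hae] with z hz
    have hz' : z ∈ univ \ (A ∪ K₁) := ⟨mem_univ _, hz⟩
    have hud := hp.diff hz'
    have hηd : DifferentiableAt ℝ η z := hη.differentiable (by simp) z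
    rw [gK_of_notMem u hz, hP, gK_of_notMem _ (fun h => hz (Or.inl h)),
      ← grad_sub (v := fun w => u w * η w) hud (hud.mul hηd)]
    congr 1
    funext w
    simp only [hv]
    ring
  obtain ⟨k, hk, hke⟩ := wey (U := K₁ᶜ)
    (f := fun z => conj (gK (A ∪ K₁) u z - (P z - Φ z))) hK.isOpen_compl
    (by
      have h1 : LocallyIntegrable (gK (A ∪ K₁) u) volume := fun x =>
        ⟨closedBall x 1, closedBall_mem_nhds x one_pos, by
          have : IsFiniteMeasure (volume.restrict (closedBall x 1)) :=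
            isFiniteMeasure_restrict.2 measure_closedBall_lt_top.ne
          exact (hu2 x 1).integrable one_le_two⟩
      have h2 := h1.sub (hF.locallyIntegrable one_le_two)
      refine LocallyIntegrable.locallyIntegrableOn (fun x => ?_) _
      obtain ⟨s, hs, hi⟩ := h2 x
      exact ⟨s, hs, (conjCLE : ℂ →L[ℝ] ℂ).integrable_comp hi⟩)
    (by
      intro χ hχ1 hχc hχs
      rw [Measure.restrict_eq_self_of_ae_mem hae1]
      have hχT := keyA_test hχ1 hχc ∅
      have hχ2 := hT χ hχT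
      have hχ3 : MemLp (fun z => -I * ∇ χ z) 2 volume := hχ2.const_mul _
      obtain ⟨R, hR⟩ := hχc.isCompact.isBounded.subset_closedBall (0 : ℂ)
      have hR0 : ∀ z ∉ closedBall (0 : ℂ) R, ∇ χ z = 0 := fun z hz => by
        rw [← keyA_gK0]
        exact gK_eq_zero_off (x := 0) (r := R)
          (fun w hw => image_eq_zero_of_notMem_tsupport fun h => hw (hR h)) hz
      have hcm : ∀ f : ℂ → ℂ, AEStronglyMeasurable f volume →
          MemLp f 2 (volume.restrict (closedBall 0 R)) →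
          Integrable (fun z => conj (f z) * ∇ χ z) := fun f hf hf2 => by
        refine (keyA_imul hχ2 hR0 hf2).mono'
          ((continuous_conj.comp_aestronglyMeasurable hf).mul hχ2.1)
          (Eventually.of_forall fun z => ?_)
        simp
      have hi := hcm (fun z => gK (A ∪ K₁) u z - (P z - Φ z)) (hmeas.sub hF.1)
        ((hu2 0 R).sub (hF.restrict _))
      apply Complex.ext
      · have h2 := integral_re hi
        simp only [RCLike.re_to_complex] at h2
        rw [← h2]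
        simp only [conj_mul_re, inner_sub_left (𝕜 := ℝ) (gK (A ∪ K₁) u _), zero_re]
        have hT' := keyA_test hχ1 hχc (A ∪ K₁)
        have h3 : ∀ᵐ z : ℂ, ⟪gK (A ∪ K₁) u z, gK (A ∪ K₁) χ z⟫ = ⟪gK (A ∪ K₁) u z, ∇ χ z⟫ := by
          filter_upwards [hae] with z hz
          rw [gK_of_notMem χ hz]
        rw [integral_sub ((hp.inner_int hT').congr h3) (keyA_inner hF hχ2), hF0 χ hχT,
          ← integral_congr_ae h3, h.el0 hT', sub_self]
      · have h2 := integral_im hi
        simp only [RCLike.im_to_complex] at h2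
        rw [← h2]
        simp only [keyA_im, zero_im]
        have hvm : MemLp (∇ v) 2 (volume.restrict (closedBall 0 R)) :=
          ((hu2 0 R).sub (hPm.restrict _)).ae_eq (ae_restrict_of_ae (hvg.mono fun z hz => hz.symm))
        have hiv := hcm (∇ v) (meas_grad v).aestronglyMeasurable hvm
        have h3 := keyA_curl hK.isOpen_compl hn1 hvl hχ1 hχc hχs hiv
        have h4 : ∀ n, ∫ z, ⟪∇ (φ n) z, -I * ∇ χ z⟫ = 0 := fun n =>
          keyA_curl hK.isOpen_compl hn1 ((hφ n).1.mono (by simp)) hχ1 hχc hχs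
            (hcm _ (hT _ (hφ n)).1 ((hT _ (hφ n)).restrict _))
        have h5 : ∫ z, ⟪Φ z, -I * ∇ χ z⟫ = 0 := by
          have h6 : ∀ n, |∫ z, ⟪Φ z, -I * ∇ χ z⟫| ≤
              √(∫ z, ‖∇ (φ n) z - Φ z‖ ^ 2) * √(∫ z, ‖-I * ∇ χ z‖ ^ 2) := fun n => by
            refine le_trans (le_of_eq ?_) (keyA_cs ((hT _ (hφ n)).sub hΦ) hχ3)
            simp only [inner_sub_left]
            rw [integral_sub (keyA_inner (hT _ (hφ n)) hχ3) (keyA_inner hΦ hχ3), h4 n, zero_sub,
              abs_neg]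
          have h7 := (hl.sqrt).mul_const (√(∫ z, ‖-I * ∇ χ z‖ ^ 2))
          rw [Real.sqrt_zero, zero_mul] at h7
          exact abs_nonpos_iff.1 (ge_of_tendsto' h7 h6)
        have hiv' : Integrable (fun z => ⟪∇ v z, -I * ∇ χ z⟫) := by
          have := hiv.im
          simpa only [RCLike.im_to_complex, keyA_im] using this
        have h8 : ∀ᵐ z : ℂ, ⟪gK (A ∪ K₁) u z - (P z - Φ z), -I * ∇ χ z⟫ =
            ⟪∇ v z, -I * ∇ χ z⟫ + ⟪Φ z, -I * ∇ χ z⟫ := by
          filter_upwards [hvg] with z hz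
          rw [hz, ← inner_add_left]
          congr 1
          ring
        rw [integral_congr_ae h8, integral_add hiv' (keyA_inner hΦ hχ3), h3, h5, add_zero])
  refine ⟨k, fun z => P z - Φ z, φ, hk, hF, hφ, ?_, hF0, ?_⟩
  · refine hl.congr fun n => ?_
    congr 1
    funext z
    rw [← norm_neg]
    congr 2
    ring
  · filter_upwards [hke, hae1] with z hz hz1
    rw [← hz hz1, conj_conj]

end Vale.Agent.P128
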