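import Vale.Agent.P128.Basic0

/-!
# P128 Uni

Labels extend across a compact isolated piece. Claim: if `z₁, z₂ ∉ K₁` are outside the ball and in the
same component of `K₁ᶜ` then `σ z₁ = σ z₂`. Let `h = 1` where `σ = σ z₁`, else `0`; `χ` continuous, `0`
near `K₁`, `1` near `A`; `exp (2π i χ h)` extends continuously by `1` to the plane and lifts to
`exp (2π i θ)` (`Complex.isCoveringMap_exp` or `isCoveringMap_circleExp`,
`IsCoveringMap.existsUnique_continuousMap_lifts`, the plane is simply connected). Then `θ - χ h` extends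
to a continuous integer valued function on `Aᶜ` and `θ + (1 - χ) h` to one on `K₁ᶜ`; their difference is
`h`; the complement of the ball is connected. Define `σ₁ z = σ z₀` for a chosen `z₀` outside the ball in
the component of `z` if there is one, else a fixed value.
-/

namespace Vale.Agent.P128

open Set Metric MeasureTheory Filter Topology Complex
open scoped ENNReal ContDiff RealInnerProductSpace Gradient Real ComplexConjugate

variable {Ω K L A S T U O X Γ P M₀ K₀ K₁ : Set ℂ} {u v w g hh ψ η : ℂ → ℝ} {G : ℂ → ℂ}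
  {π₀ π₁ : ℂ → Set ℂ} {x y z c p q e a₀ F : ℂ} {lam H r s R a b t M Θ ρ ε δ d : ℝ} {n : ℕ}

theorem uni_pre (R : ℝ) : IsPreconnected (closedBall (0 : ℂ) R)ᶜ := by
  have e : (closedBall (0 : ℂ) R)ᶜ =
      (fun a : ℝ × ℝ => (a.1 : ℂ) * cexp (a.2 * I)) '' ((Ioi R ∩ Ici 0) ×ˢ univ) := by
    ext z
    simp only [mem_compl_iff, mem_closedBall, dist_zero_right, not_le, mem_image, mem_prod,
      mem_inter_iff, mem_Ioi, mem_Ici, mem_univ, and_true]
    constructor
    · intro h
      exact ⟨(‖z‖, arg z), ⟨h, norm_nonneg z⟩, Complex.norm_mul_exp_arg_mul_I z⟩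
    · rintro ⟨a, ⟨h1, h2⟩, rfl⟩
      rw [norm_mul, Complex.norm_exp_ofReal_mul_I, mul_one, Complex.norm_real,
        Real.norm_of_nonneg h2]
      exact h1
  rw [e]
  refine IsPreconnected.image (IsPreconnected.prod ?_ isPreconnected_univ) _ (by fun_prop)
  exact (ordConnected_Ioi.inter ordConnected_Ici).isPreconnected

theorem uni_const {f : ℂ → ℂ} (hS : IsPreconnected S) (hf : ContinuousOn f S)
    (he : ∀ z ∈ S, cexp (f z) = 1) (hp : p ∈ S) (hq : q ∈ S) : f p = f q :=
  Complex.isCoveringMap_exp.constOn_of_comp hS hf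
    (fun a ha a' ha' => Subtype.ext ((he a ha).trans (he a' ha').symm)) hp hq

theorem uni_lift {E : ℂ → ℂ} (hE : Continuous E) (h0 : ∀ z, E z ≠ 0) :
    ∃ θ : ℂ → ℂ, Continuous θ ∧ ∀ z, cexp (θ z) = E z := by
  obtain ⟨θ, ⟨_, h⟩, _⟩ := Complex.isCoveringMap_exp.existsUnique_continuousMap_lifts
    (⟨fun z => ⟨E z, h0 z⟩, hE.subtype_mk _⟩ : C(ℂ, {z : ℂ // z ≠ 0})) 0 (Complex.log (E 0))
    (Subtype.ext (Complex.exp_log (h0 0)))
  exact ⟨θ, θ.continuous, fun z => congrArg Subtype.val (congrFun h z)⟩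

theorem uni_key {k : ℂ → ℂ} (hA : IsCompact A) (hK : IsClosed K₁) (hd : Disjoint A K₁)
    (hk : LC (A ∪ K₁)ᶜ k) (h01 : ∀ z, k z = 0 ∨ k z = 1) (hR : A ⊆ closedBall 0 R)
    (hS : IsPreconnected S) (hSK : S ⊆ K₁ᶜ) (hp : p ∈ S) (hq : q ∈ S)
    (hp' : p ∉ closedBall 0 R) (hq' : q ∉ closedBall 0 R) : k p = k q := by
  obtain ⟨δ, hδ, hdd⟩ := hd.exists_cthickenings hA hK
  obtain ⟨χ, h0, h1, _⟩ := exists_continuous_zero_one_of_isClosed
    (isClosed_cthickening (δ := δ) (E := K₁)) (isClosed_cthickening (δ := δ) (E := A)) hdd.symm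
  have hχ : Continuous fun z => ((χ z : ℝ) : ℂ) := Complex.continuous_ofReal.comp χ.continuous
  have n0 : ∀ z ∈ K₁, ∀ᶠ w in 𝓝 z, ((χ w : ℝ) : ℂ) = 0 := by
    intro z hz
    filter_upwards [isOpen_thickening.mem_nhds (self_subset_thickening hδ K₁ hz)] with w hw
    rw [h0 (thickening_subset_cthickening δ K₁ hw)]
    simp
  have n1 : ∀ z ∈ A, ∀ᶠ w in 𝓝 z, ((χ w : ℝ) : ℂ) = 1 := by
    intro z hz
    filter_upwards [isOpen_thickening.mem_nhds (self_subset_thickening hδ A hz)] with w hw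
    rw [h1 (thickening_subset_cthickening δ A hw)]
    simp
  have ck : ∀ z, z ∉ A → z ∉ K₁ → ContinuousAt k z := by
    intro z h1 h2
    have hz : z ∈ (A ∪ K₁)ᶜ := fun h => h.elim h1 h2
    have := hk z hz
    rw [(hA.isClosed.union hK).isOpen_compl.nhdsWithin_eq hz] at this
    exact continuousAt_const.congr (this.mono fun w hw => hw.symm)
  have ek : ∀ z, cexp (2 * π * I * k z) = 1 := by
    intro z
    rcases h01 z with h | h <;> rw [h]
    · simp
    · rw [mul_one, Complex.exp_two_pi_mul_I]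
  have c1 : ∀ z, z ∉ A → ContinuousAt (fun w => 2 * π * I * (((χ w : ℝ) : ℂ) * k w)) z := by
    intro z hz
    by_cases h2 : z ∈ K₁
    · refine (continuousAt_const (y := (0 : ℂ))).congr ((n0 z h2).mono fun w hw => ?_)
      simp [hw]
    · exact continuousAt_const.mul (hχ.continuousAt.mul (ck z hz h2))
  have c2 : ∀ z, z ∉ K₁ → ContinuousAt (fun w => 2 * π * I * ((1 - ((χ w : ℝ) : ℂ)) * k w)) z := by
    intro z hz
    by_cases h2 : z ∈ A
    · refine (continuousAt_const (y := (0 : ℂ))).congr ((n1 z h2).mono fun w hw => ?_)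
      simp [hw]
    · exact continuousAt_const.mul ((continuousAt_const.sub hχ.continuousAt).mul (ck z h2 hz))
  have cE : Continuous fun w => cexp (2 * π * I * (((χ w : ℝ) : ℂ) * k w)) := by
    refine continuous_iff_continuousAt.2 fun z => ?_
    by_cases h2 : z ∈ A
    · refine (continuousAt_const (y := (1 : ℂ))).congr ((n1 z h2).mono fun w hw => ?_)
      simp only [hw, one_mul]
      exact (ek w).symm
    · exact (c1 z h2).cexp
  obtain ⟨θ, cθ, eθ⟩ := uni_lift cE fun z => Complex.exp_ne_zero _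
  have a1 := uni_const (f := fun w => θ w - 2 * π * I * (((χ w : ℝ) : ℂ) * k w)) (uni_pre R)
    (fun z hz => (cθ.continuousAt.sub (c1 z fun h => hz (hR h))).continuousWithinAt)
    (fun z _ => by rw [Complex.exp_sub, eθ, div_self (Complex.exp_ne_zero _)]) hp' hq'
  have a2 := uni_const (f := fun w => θ w + 2 * π * I * ((1 - ((χ w : ℝ) : ℂ)) * k w)) hS
    (fun z hz => (cθ.continuousAt.add (c2 z (hSK hz))).continuousWithinAt)
    (fun z _ => by
      rw [Complex.exp_add, eθ, ← Complex.exp_add]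
      refine Eq.trans (congrArg cexp ?_) (ek z)
      ring) hp hq
  have a3 : 2 * π * I * k p = 2 * π * I * k q := by linear_combination a2 - a1
  exact mul_left_cancel₀ Complex.two_pi_I_ne_zero a3

theorem uni {β : Type} {σ : ℂ → β} (hA : IsCompact A) (hK : IsClosed K₁) (hd : Disjoint A K₁)
    (hσ : LC (A ∪ K₁)ᶜ σ) (hR : A ⊆ closedBall 0 R) :
    ∃ σ₁ : ℂ → β, LC K₁ᶜ σ₁ ∧ ∀ z ∉ K₁, z ∉ closedBall 0 R → σ₁ z = σ z := by
  classical
  refine ⟨_, (lc_cc hK).comp (fun S : Set ℂ => if h : ∃ w ∈ S, w ∉ closedBall (0 : ℂ) R then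
    σ h.choose else σ 0), fun z hz hz' => ?_⟩
  have hm : z ∈ cc K₁ z := mem_connectedComponentIn hz
  have hex : ∃ w ∈ cc K₁ z, w ∉ closedBall (0 : ℂ) R := ⟨z, hm, hz'⟩
  simp only [dif_pos hex]
  have key := uni_key (k := fun w => if σ w = σ z then 1 else 0) hA hK hd
    (hσ.comp fun b => if b = σ z then (1 : ℂ) else 0)
    (fun w => by by_cases h : σ w = σ z <;> simp [h]) hR isPreconnected_connectedComponentIn
    (connectedComponentIn_subset _ _) hex.choose_spec.1 hm hex.choose_spec.2 hz'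
  by_contra hne
  simp only [if_neg hne, if_true] at key
  exact zero_ne_one key

end Vale.Agent.P128
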