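import Vale.Agent.P128.KeyA
import Vale.Agent.P128.Uni

/-!
# P128 KeyB

Square integrable fields and homotheties, for `Key`.
-/

namespace Vale.Agent.P128

open Set Metric MeasureTheory Filter Topology Complex
open scoped ENNReal ContDiff RealInnerProductSpace Gradient Real ComplexConjugate

variable {A : Set ℂ} {ψ : ℂ → ℝ} {y : ℂ} {l R : ℝ} {μ : Measure ℂ} {X Y g : ℂ → ℂ}

theorem key_ii (hX : MemLp X 2 μ) (hY : MemLp Y 2 μ) : Integrable (fun z => ⟪X z, Y z⟫) μ := by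
  refine (L2.integrable_inner (𝕜 := ℝ) (hX.toLp X) (hY.toLp Y)).congr ?_
  filter_upwards [hX.coeFn_toLp, hY.coeFn_toLp] with z h1 h2
  rw [h1, h2]

theorem key_sq (hX : MemLp X 2 μ) : Integrable (fun z => ‖X z‖ ^ 2) μ :=
  (memLp_two_iff_integrable_sq_norm hX.1).1 hX

theorem key_inner (hX : MemLp X 2 μ) (hY : MemLp Y 2 μ) :
    ∫ z, ⟪X z, Y z⟫ ∂μ = ⟪hX.toLp X, hY.toLp Y⟫ := by
  rw [L2.inner_def]
  refine integral_congr_ae ?_
  filter_upwards [hX.coeFn_toLp, hY.coeFn_toLp] with z h1 h2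
  rw [h1, h2]

theorem key_cs (hX : MemLp X 2 μ) (hY : MemLp Y 2 μ) :
    |∫ z, ⟪X z, Y z⟫ ∂μ| ≤ √(∫ z, ‖X z‖ ^ 2 ∂μ) * √(∫ z, ‖Y z‖ ^ 2 ∂μ) := by
  simp only [← real_inner_self_eq_norm_sq]
  rw [key_inner hX hY, key_inner hX hX, key_inner hY hY, ← norm_eq_sqrt_real_inner,
    ← norm_eq_sqrt_real_inner]
  exact abs_real_inner_le_norm _ _

theorem key_add (hX : MemLp X 2 μ) (hY : MemLp Y 2 μ) :
    ∫ z, ‖X z + Y z‖ ^ 2 ∂μ =
      (∫ z, ‖X z‖ ^ 2 ∂μ) + 2 * (∫ z, ⟪X z, Y z⟫ ∂μ) + ∫ z, ‖Y z‖ ^ 2 ∂μ := by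
  have h1 : Integrable (fun z => 2 * ⟪X z, Y z⟫) μ := (key_ii hX hY).const_mul 2
  have h2 : Integrable (fun z => ‖X z‖ ^ 2 + 2 * ⟪X z, Y z⟫) μ := (key_sq hX).add h1
  simp only [norm_add_sq_real]
  rw [integral_add h2 (key_sq hY), integral_add (key_sq hX) h1, integral_const_mul]

theorem key_lim (hX : MemLp X 2 μ) {E : ℕ → ℂ → ℂ} (hE : ∀ n, MemLp (E n) 2 μ)
    (h0 : Tendsto (fun n => ∫ z, ‖E n z‖ ^ 2 ∂μ) atTop (𝓝 0)) :
    Tendsto (fun n => ∫ z, ⟪X z, E n z⟫ ∂μ) atTop (𝓝 0) := by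
  have h1 := (h0.sqrt).const_mul (√(∫ z, ‖X z‖ ^ 2 ∂μ))
  rw [Real.sqrt_zero, mul_zero] at h1
  exact squeeze_zero_norm (fun n => key_cs hX (hE n)) h1

theorem key_lim2 (hX : MemLp X 2 μ) {E : ℕ → ℂ → ℂ} (hE : ∀ n, MemLp (E n) 2 μ)
    (h0 : Tendsto (fun n => ∫ z, ‖E n z‖ ^ 2 ∂μ) atTop (𝓝 0)) :
    Tendsto (fun n => ∫ z, ‖X z + E n z‖ ^ 2 ∂μ) atTop (𝓝 (∫ z, ‖X z‖ ^ 2 ∂μ)) := by
  have h1 := (((key_lim hX hE h0).const_mul 2).const_add (∫ z, ‖X z‖ ^ 2 ∂μ)).add h0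
  simp only [mul_zero, add_zero] at h1
  exact h1.congr fun n => (key_add hX (hE n)).symm

theorem key_lim3 {E E' : ℕ → ℂ → ℂ} (hE : ∀ n, MemLp (E n) 2 μ) (hE' : ∀ n, MemLp (E' n) 2 μ)
    (h0 : Tendsto (fun n => ∫ z, ‖E n z‖ ^ 2 ∂μ) atTop (𝓝 0))
    (h0' : Tendsto (fun n => ∫ z, ‖E' n z‖ ^ 2 ∂μ) atTop (𝓝 0)) :
    Tendsto (fun n => ∫ z, ‖E n z - E' n z‖ ^ 2 ∂μ) atTop (𝓝 0) := by
  have h1 := (h0.const_mul 2).add (h0'.const_mul 2)
  simp only [mul_zero, add_zero] at h1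
  refine squeeze_zero (fun n => integral_nonneg fun z => by positivity) (fun n => ?_) h1
  have h2 : Integrable (fun z => 2 * ‖E n z‖ ^ 2) μ := (key_sq (hE n)).const_mul 2
  have h3 : Integrable (fun z => 2 * ‖E' n z‖ ^ 2) μ := (key_sq (hE' n)).const_mul 2
  rw [← integral_const_mul, ← integral_const_mul, ← integral_add h2 h3]
  refine integral_mono (key_sq ((hE n).sub (hE' n))) (h2.add h3) fun z => ?_
  have h4 := pow_le_pow_left₀ (norm_nonneg _) (norm_sub_le (E n z) (E' n z)) 2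
  change ‖E n z - E' n z‖ ^ 2 ≤ 2 * ‖E n z‖ ^ 2 + 2 * ‖E' n z‖ ^ 2
  nlinarith [sq_nonneg (‖E n z‖ - ‖E' n z‖)]

theorem key_ofReal (hX : MemLp X 2 μ) :
    ∫⁻ z, ‖X z‖ₑ ^ 2 ∂μ = ENNReal.ofReal (∫ z, ‖X z‖ ^ 2 ∂μ) := by
  rw [ofReal_integral_eq_lintegral_ofReal (key_sq hX) (Eventually.of_forall fun z => by positivity)]
  refine lintegral_congr fun z => ?_
  rw [ENNReal.ofReal_pow (norm_nonneg _), ofReal_norm]

theorem key_loc (hg : MemLp g 2 (volume.restrict (closedBall 0 R))) (hX : MemLp X 2 volume)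
    (h0 : ∀ z ∉ closedBall (0 : ℂ) R, X z = 0) : Integrable (fun z => conj (g z) * X z) := by
  have h1 : MemLp ((closedBall (0 : ℂ) R).indicator g) 2 volume :=
    (memLp_indicator_iff_restrict measurableSet_closedBall).2 hg
  have h2 : MemLp (fun z => conj ((closedBall (0 : ℂ) R).indicator g z)) 2 volume :=
    h1.of_le (Complex.continuous_conj.comp_aestronglyMeasurable h1.1)
      (Eventually.of_forall fun z => (Complex.norm_conj _).le)
  refine (h2.integrable_mul hX).congr (Eventually.of_forall fun z => ?_)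
  by_cases hz : z ∈ closedBall (0 : ℂ) R
  · simp only [Pi.mul_apply, indicator_of_mem hz]
  · simp only [Pi.mul_apply, h0 z hz, mul_zero]

theorem key_loc' (hg : MemLp g 2 (volume.restrict (closedBall 0 R))) (hX : MemLp X 2 volume)
    (h0 : ∀ z ∉ closedBall (0 : ℂ) R, X z = 0) : Integrable (fun z => ⟪g z, X z⟫) := by
  simpa only [RCLike.re_to_complex, conj_mul_re] using (key_loc hg hX h0).re

theorem key_re {f F : ℂ → ℂ} (hg : MemLp g 2 (volume.restrict (closedBall 0 R)))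
    (hF : MemLp F 2 volume) (hf : ∀ᵐ z : ℂ, conj (f z) = g z - F z) (hX : MemLp X 2 volume)
    (h0 : ∀ z ∉ closedBall (0 : ℂ) R, X z = 0) :
    (∫ z, f z * X z).re = (∫ z, ⟪g z, X z⟫) - ∫ z, ⟪F z, X z⟫ := by
  have h1 := key_loc hg hX h0
  have h2 := key_loc (hF.restrict (closedBall 0 R)) hX h0
  have h3 : ∫ z, f z * X z = ∫ z, (conj (g z) * X z - conj (F z) * X z) := by
    refine integral_congr_ae ?_
    filter_upwards [hf] with z hz
    rw [← sub_mul, ← map_sub, ← hz, Complex.conj_conj]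
  have h4 := integral_re h1
  have h5 := integral_re h2
  simp only [RCLike.re_to_complex, conj_mul_re] at h4 h5
  rw [h3, integral_sub h1 h2, Complex.sub_re, h4, h5]

theorem key_energy (hg : MemLp g 2 (volume.restrict (closedBall 0 R))) (hX : MemLp X 2 volume)
    (h0 : ∀ z ∉ closedBall (0 : ℂ) R, X z = 0) :
    ∫ z in closedBall 0 R, ‖g z + X z‖ ^ 2 =
      (∫ z in closedBall 0 R, ‖g z‖ ^ 2) + 2 * (∫ z, ⟪g z, X z⟫) + ∫ z, ‖X z‖ ^ 2 := by
  rw [key_add hg (hX.restrict _),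
    setIntegral_eq_integral_of_forall_compl_eq_zero (f := fun z => ⟪g z, X z⟫)
      fun z hz => by simp only [h0 z hz, inner_zero_right],
    setIntegral_eq_integral_of_forall_compl_eq_zero (f := fun z => ‖X z‖ ^ 2)
      fun z hz => by simp [h0 z hz]]

/-- The inverse homothety. -/
noncomputable def keyK (l : ℝ) (y z : ℂ) : ℂ := l⁻¹ • (z - y)

theorem key_left (hl : 0 < l) (y z : ℂ) : keyK l y (l * z + y) = z := by
  rw [keyK, add_sub_cancel_right, ← Complex.real_smul, inv_smul_smul₀ hl.ne']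

theorem key_right (hl : 0 < l) (y z : ℂ) : l * keyK l y z + y = z := by
  rw [keyK, ← Complex.real_smul, smul_inv_smul₀ hl.ne', sub_add_cancel]

theorem key_mem (hl : 0 < l) {z : ℂ} : z ∈ (fun z : ℂ => l * z + y) '' A ↔ keyK l y z ∈ A :=
  ⟨fun ⟨w, hw, e⟩ => by rw [← e, key_left hl]; exact hw, fun h => ⟨_, h, key_right hl y z⟩⟩

theorem key_mp (hl : 0 < l) (y : ℂ) :
    MeasurePreserving (keyK l y) volume (ENNReal.ofReal (l ^ 2) • volume) := by
  have h1 : MeasurePreserving (fun z : ℂ => l⁻¹ • z) volume (ENNReal.ofReal (l ^ 2) • volume) := by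
    refine ⟨measurable_const_smul _, ?_⟩
    rw [Measure.map_addHaar_smul volume (inv_pos.2 hl).ne', Complex.finrank_real_complex, inv_pow,
      inv_inv, abs_of_pos (by positivity)]
  exact h1.comp (measurePreserving_sub_right volume y)

theorem key_memLp (hl : 0 < l) (y : ℂ) (hX : MemLp X 2 volume) :
    MemLp (fun z => X (keyK l y z)) 2 volume :=
  (hX.smul_measure ENNReal.ofReal_ne_top).comp_measurePreserving (key_mp hl y)

theorem key_ae (hl : 0 < l) (y : ℂ) {p : ℂ → Prop} (h : ∀ᵐ z : ℂ, p z) :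
    ∀ᵐ z : ℂ, p (keyK l y z) :=
  (key_mp hl y).quasiMeasurePreserving.ae (Measure.ae_smul_measure h _)

theorem key_int {E : Type} [NormedAddCommGroup E] [NormedSpace ℝ E] (hl : 0 < l) (y : ℂ)
    (f : ℂ → E) : ∫ z, f (keyK l y z) = l ^ 2 • ∫ z, f z := by
  have h1 := integral_sub_right_eq_self (μ := volume) (fun z : ℂ => f (l⁻¹ • z)) y
  rw [Measure.integral_comp_inv_smul_of_nonneg volume f hl.le, Complex.finrank_real_complex] at h1
  exact h1

theorem key_grad (hl : 0 < l) (y : ℂ) (ψ : ℂ → ℝ) (z : ℂ) :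
    ∇ (fun w => l * ψ (keyK l y w)) z = ∇ ψ (keyK l y z) := by
  have h1 : fderiv ℝ (fun w => ψ (keyK l y w)) z = l⁻¹ • fderiv ℝ ψ (keyK l y z) :=
    (fderiv_comp_sub (𝕜 := ℝ) (f := fun w => ψ (l⁻¹ • w)) y).trans (fderiv_comp_smul l⁻¹)
  rw [grad_smul, grad_eq, grad_eq, h1]
  simp only [smul_apply, smul_eq_mul]
  have h2 : (l : ℂ) ≠ 0 := by exact_mod_cast hl.ne'
  push_cast
  field_simp

theorem key_gK (hl : 0 < l) (y : ℂ) (A : Set ℂ) (ψ : ℂ → ℝ) (z : ℂ) :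
    gK ((fun z : ℂ => l * z + y) '' A) (fun w => l * ψ (keyK l y w)) z =
      gK A ψ (keyK l y z) := by
  by_cases hz : keyK l y z ∈ A
  · rw [gK_of_mem _ hz, gK_of_mem _ ((key_mem hl).2 hz)]
  · rw [gK_of_notMem _ hz, gK_of_notMem _ (fun h => hz ((key_mem hl).1 h)), key_grad hl]

theorem key_lipK (hl : 0 < l) (y : ℂ) : LipschitzWith ⟨l⁻¹, (inv_pos.2 hl).le⟩ (keyK l y) := by
  refine LipschitzWith.of_dist_le_mul fun z w => le_of_eq ?_
  rw [keyK, keyK, dist_smul₀, dist_sub_right, Real.norm_of_nonneg (inv_pos.2 hl).le]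
  rfl

theorem key_len (hl : 0 < l) (y : ℂ) (A : Set ℂ) :
    μH[1] ((fun z : ℂ => l * z + y) '' A) ≤ ENNReal.ofReal l * μH[1] A := by
  have h1 : LipschitzWith l.toNNReal fun z : ℂ => l * z + y := by
    refine LipschitzWith.of_dist_le_mul fun z w => le_of_eq ?_
    rw [dist_add_right, ← Complex.real_smul, ← Complex.real_smul, dist_smul₀,
      Real.norm_of_nonneg hl.le, Real.coe_toNNReal _ hl.le]
  have h2 := h1.hausdorffMeasure_image_le zero_le_one A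
  rwa [ENNReal.rpow_one] at h2

theorem key_test (hl : 0 < l) (y : ℂ) (hA : IsClosed A) (hψ : Test univ A ψ) :
    Test univ ((fun z : ℂ => l * z + y) '' A) (fun w => l * ψ (keyK l y w)) := by
  have hm := hψ.memLp hA
  obtain ⟨h1, ⟨M, h2⟩, ⟨x, r, -, h3⟩, -⟩ := hψ
  refine ⟨fun z hz => ?_, ⟨l * M, fun z => ?_⟩, ⟨l * x + y, l * r, subset_univ _, fun z hz => ?_⟩,
    ?_⟩
  · obtain ⟨C, t, ht, hC⟩ := h1 (x := keyK l y z) ⟨mem_univ _, fun h => hz.2 ((key_mem hl).2 h)⟩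
    have h4 : Tendsto (keyK l y) (𝓝[univ \ (fun z : ℂ => l * z + y) '' A] z)
        (𝓝[univ \ A] (keyK l y z)) :=
      (key_lipK hl y).continuous.continuousWithinAt.tendsto_nhdsWithin
        fun w hw => ⟨mem_univ _, fun h => hw.2 ((key_mem hl).2 h)⟩
    have h5 : LipschitzWith ⟨l, hl.le⟩ fun s : ℝ => l * s := by
      refine LipschitzWith.of_dist_le_mul fun s s' => le_of_eq ?_
      rw [Real.dist_eq, Real.dist_eq, ← mul_sub, abs_mul, abs_of_pos hl]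
      rfl
    exact ⟨_, keyK l y ⁻¹' t, h4 ht, h5.comp_lipschitzOnWith
      (hC.comp (key_lipK hl y).lipschitzOnWith (mapsTo_preimage _ _))⟩
  · rw [abs_mul, abs_of_pos hl]
    exact mul_le_mul_of_nonneg_left (h2 _) hl.le
  · beta_reduce
    rw [h3 _ fun h => hz ?_, mul_zero]
    rw [← key_right hl y z, mem_closedBall, dist_add_right, ← Complex.real_smul,
      ← Complex.real_smul, dist_smul₀, Real.norm_of_nonneg hl.le]
    exact mul_le_mul_of_nonneg_left h hl.le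
  · simp only [Dn, key_gK hl, Measure.restrict_univ]
    rw [key_ofReal (key_memLp hl y hm)]
    exact ENNReal.ofReal_ne_top

theorem key_ball (hψ : Test univ A ψ) : ∃ R₀, ∀ R ≥ R₀, ∀ z ∉ closedBall (0 : ℂ) R, ψ z = 0 := by
  obtain ⟨-, -, ⟨x, r, -, h3⟩, -⟩ := hψ
  obtain ⟨R₀, h⟩ := (isBounded_closedBall (x := x) (r := r)).subset_closedBall 0
  exact ⟨R₀, fun R hR z hz => h3 z fun h4 => hz (closedBall_subset_closedBall hR (h h4))⟩

theorem key_gK_empty (ψ : ℂ → ℝ) : gK ∅ ψ = ∇ ψ :=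
  funext fun z => gK_of_notMem _ (notMem_empty z)

end Vale.Agent.P128
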