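import Vale.Agent.P128.G1

/-!
# P128 LCon

Uniform local connectedness by contradiction. For `M_j = j + 1`, `ε_j = 1/(2 M_j + 1)` take bad `p, q`;
`sep` on `X = K ∩ closedBall p (M ‖p - q‖)`, then `pick` with `T = M_j` gives `a, b`. Rescale at `a` by
`‖a - b‖` (`sq_scale`, `cpt`); along a subsequence the rescaled `b` tends to `b₀ ∈ K₀`; `g1` gives a continuum
`Γ ⊆ K₀` from `0` to `b₀`. For one large `j` the closed sets of points of `Γ` within `1/8` of the rescaled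
`U`, resp. `V`, cover `Γ`, are disjoint and nonempty.
-/

namespace Vale.Agent.P128

open Set Metric MeasureTheory Filter Topology Complex
open scoped ENNReal ContDiff RealInnerProductSpace Gradient Real ComplexConjugate

variable {Ω K L A S T U O X Γ P M₀ K₀ K₁ : Set ℂ} {u v w g hh ψ η : ℂ → ℝ} {G : ℂ → ℂ}
  {π₀ π₁ : ℂ → Set ℂ} {x y z c p q e a₀ F : ℂ} {lam H r s R a b t M Θ ρ ε δ d : ℝ} {n : ℕ}

/-- Data of a badly connected configuration. -/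
def lcon_Bad (Ω : Set ℂ) (lam : ℝ) (K : Set ℂ) (a : ℂ) (r M : ℝ) : Prop :=
  0 < r ∧ closedBall a (M * r) ⊆ Ω ∧ 0 ≤ lam * r ∧ lam * r ≤ 1 / M ∧
    ∃ U V : Set ℂ, ∃ b : ℂ, ‖b‖ = 1 ∧ (0 : ℂ) ∈ U ∧ b ∈ V ∧ (0 : ℂ) ∈ sc a r K ∧ b ∈ sc a r K ∧
      sc a r K ∩ closedBall 0 M ⊆ U ∪ V ∧
      ∀ a' ∈ U ∩ closedBall 0 (M / 2), ∀ b' ∈ V, 1 / 2 ≤ ‖a' - b'‖

theorem lcon_bad (hM : 1 ≤ M) (h : MM Ω lam u K π₀) (hA : Adm Ω lam x R (1 / (2 * M + 1)))
    (hn : ¬ LCn K (closedBall x R) M) : ∃ a r, lcon_Bad Ω lam K a r M := by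
  have hK : IsClosed K := by
    obtain ⟨⟨_, _, _, hNH, _⟩, _⟩ := h
    exact hNH.1.2.1
  have hlam : 0 ≤ lam := h.1.1
  obtain ⟨hR, hΩ, hl⟩ := hA
  unfold LCn at hn
  push Not at hn
  obtain ⟨p, ⟨hpK, hpx⟩, q, ⟨hqK, hqx⟩, hJ⟩ := hn
  have hpq0 : 0 ≤ ‖p - q‖ := norm_nonneg _
  have hX : IsCompact (K ∩ closedBall p (M * ‖p - q‖)) :=
    (isCompact_closedBall _ _).inter_left hK
  have hpX : p ∈ K ∩ closedBall p (M * ‖p - q‖) := ⟨hpK, mem_closedBall_self (by positivity)⟩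
  have hqX : q ∈ K ∩ closedBall p (M * ‖p - q‖) := by
    refine ⟨hqK, ?_⟩
    rw [mem_closedBall, dist_comm, dist_eq_norm]
    nlinarith
  have hJ' : ¬ Join (K ∩ closedBall p (M * ‖p - q‖)) univ p q := by
    rintro ⟨Γ, h1, h2, h3, h4, h5⟩
    exact hJ ⟨Γ, h1, h2, fun z hz => (h3 hz).1, h4, h5⟩
  obtain ⟨U, V, hU, hV, hd, hUV, hpU, hqV⟩ := sep hX hpX hqX hJ'
  have hUX : U ⊆ K ∩ closedBall p (M * ‖p - q‖) := hUV ▸ subset_union_left
  have hVX : V ⊆ K ∩ closedBall p (M * ‖p - q‖) := hUV ▸ subset_union_right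
  obtain ⟨a, haU, b, hbV, hab, hball, hsep⟩ :=
    pick (T := M) (R := M * ‖p - q‖) hU hV hd (fun z hz => (hUX hz).2) hpU hqV (by linarith) le_rfl
  have hne : a ≠ b := fun h => (Set.disjoint_left.1 hd haU) (h ▸ hbV)
  have hr : 0 < ‖a - b‖ := norm_pos_iff.2 (sub_ne_zero.2 hne)
  have hpq : ‖p - q‖ ≤ 2 * R := by
    have := dist_triangle_right p q x
    rw [mem_closedBall] at hpx hqx
    rw [← dist_eq_norm]
    linarith
  set r := ‖a - b‖ with hrdef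
  have hrc : (r : ℂ) ≠ 0 := by exact_mod_cast hr.ne'
  have hnorm : ∀ z w : ℂ, ‖(a + r * z) - (a + r * w)‖ = r * ‖z - w‖ := by
    intro z w
    rw [add_sub_add_left_eq_sub, ← mul_sub, norm_mul, Complex.norm_real, Real.norm_of_nonneg hr.le]
  have hb' : a + r * ((b - a) / r) = b := by field_simp; ring
  refine ⟨a, r, hr, hball.trans (subset_trans ?_ hΩ), by positivity, ?_,
    sc a r U, sc a r V, (b - a) / r, ?_, ?_, ?_, ?_, ?_, ?_, ?_⟩
  · refine closedBall_subset_closedBall' ?_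
    rw [mem_closedBall] at hpx
    have : R / (1 / (2 * M + 1)) = (2 * M + 1) * R := by field_simp
    rw [this]
    nlinarith
  · have h1 : lam * r ≤ 2 * (lam * R) := by nlinarith
    have h2 : 2 * (1 / (2 * M + 1)) ^ 2 ≤ 1 / M := by
      rw [div_pow, mul_div_assoc', div_le_div_iff₀ (by positivity) (by positivity)]
      nlinarith
    linarith
  · rw [norm_div, Complex.norm_real, Real.norm_of_nonneg hr.le, norm_sub_rev, ← hrdef,
      div_self hr.ne']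
  · simpa [sc] using haU
  · show a + r * ((b - a) / r) ∈ V
    rw [hb']
    exact hbV
  · simpa [sc] using (hUX haU).1
  · show a + r * ((b - a) / r) ∈ K
    rw [hb']
    exact (hVX hbV).1
  · rintro z ⟨hz1, hz2⟩
    have : a + r * z ∈ U ∪ V := by
      rw [hUV]
      refine ⟨hz1, hball ?_⟩
      have h1 := hnorm z 0
      rw [mul_zero, add_zero, sub_zero] at h1
      rw [mem_closedBall, dist_eq_norm, h1]
      rw [mem_closedBall, dist_zero_right] at hz2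
      nlinarith
    exact this
  · rintro a' ⟨ha1, ha2⟩ b' hb1
    have h0 : a + r * a' ∈ closedBall a (M * r / 2) := by
      have h1 := hnorm a' 0
      rw [mul_zero, add_zero, sub_zero] at h1
      rw [mem_closedBall, dist_eq_norm, h1]
      rw [mem_closedBall, dist_zero_right] at ha2
      nlinarith
    have h2 := hsep _ ⟨ha1, h0⟩ _ hb1
    rw [hnorm] at h2
    nlinarith

theorem lcon_mem {K : ℕ → Set ℂ} (hK₀ : IsClosed K₀) (h : HC K K₀) {ψ : ℕ → ℕ}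
    (hψ : StrictMono ψ) {b : ℕ → ℂ} (hb : ∀ j, b j ∈ K (ψ j)) (hlim : Tendsto b atTop (𝓝 c)) :
    c ∈ K₀ := by
  rw [← hK₀.closure_eq, Metric.mem_closure_iff]
  intro ε hε
  have h1 := hψ.tendsto_atTop.eventually (h (‖c‖ + ε) (ε / 3) (by positivity))
  have h2 := (Metric.tendsto_nhds.1 hlim) (ε / 3) (by positivity)
  obtain ⟨j, hj1, hj2⟩ := (h1.and h2).exists
  have hj3 : b j ∈ closedBall (0 : ℂ) (‖c‖ + ε) := by
    have := dist_triangle (b j) c 0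
    rw [mem_closedBall]
    rw [dist_zero_right c] at this
    linarith
  obtain ⟨z, hz, hz'⟩ := hj1.2 _ ⟨hb j, hj3⟩
  refine ⟨z, hz, ?_⟩
  have := dist_triangle_left c z (b j)
  rw [← dist_eq_norm] at hz'
  linarith

theorem lcon : ∃ M ε : ℝ, 1 ≤ M ∧ 0 < ε ∧ (2 * M + 1) * ε ≤ 1 ∧
    ∀ {Ω lam u K π₀ x R}, MM Ω lam u K π₀ → Adm Ω lam x R ε → LCn K (closedBall x R) M := by
  by_contra hcon
  have key : ∀ j : ℕ, ∃ Ω lam u K π₀ a r, MM Ω lam u K π₀ ∧ lcon_Bad Ω lam K a r ((j : ℝ) + 1) := by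
    intro j
    by_contra hj
    have hj0 : (0 : ℝ) ≤ j := Nat.cast_nonneg j
    refine hcon ⟨(j : ℝ) + 1, 1 / (2 * ((j : ℝ) + 1) + 1), by linarith, by positivity,
      le_of_eq (by field_simp), fun {Ω lam u K π₀ x R} h hA => ?_⟩
    by_contra hn
    obtain ⟨a, r, hb⟩ := lcon_bad (by linarith) h hA hn
    exact hj ⟨Ω, lam, u, K, π₀, a, r, h, hb⟩
  choose Ω lam u K π₀ a r hMM hr hΩ hl0 hl1 U V b hb1 hU hV h0K hbK hcov hsep using key
  have hT : Tendsto (fun j : ℕ => (j : ℝ) + 1) atTop atTop :=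
    tendsto_atTop_add_const_right _ _ tendsto_natCast_atTop_atTop
  have hl : Tendsto (fun j => lam j * r j) atTop (𝓝 0) :=
    squeeze_zero hl0 hl1 tendsto_one_div_add_atTop_nhds_zero_nat
  obtain ⟨φ, hφ, u₀, K₀, h₀, hHC, -⟩ := cpt (sq_scale hMM hr hT (Eventually.of_forall hΩ) hl)
  have hK₀ : IsClosed K₀ := by
    obtain ⟨⟨_, _, _, hNH, _⟩, _⟩ := h₀
    exact hNH.1.2.1
  obtain ⟨c, -, ψ, hψ, hlim⟩ := (isCompact_sphere (0 : ℂ) 1).tendsto_subseq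
    (x := fun j => b (φ j)) (fun j => by simpa using hb1 (φ j))
  have hc : c ∈ K₀ := lcon_mem hK₀ hHC hψ (fun j => hbK (φ (ψ j))) hlim
  have h0 : (0 : ℂ) ∈ K₀ :=
    lcon_mem hK₀ hHC hψ (b := fun _ => 0) (fun j => h0K (φ (ψ j))) tendsto_const_nhds
  obtain ⟨Γ, hΓc, hΓ, hΓK, hΓ0, hΓb⟩ := g1 h₀ 0 h0 c hc
  obtain ⟨ρ, hρ⟩ := hΓc.isBounded.subset_closedBall 0
  have e1 := hψ.tendsto_atTop.eventually (hHC ρ (1 / 8) (by norm_num))
  have e2 := (Metric.tendsto_nhds.1 hlim) (1 / 8) (by norm_num)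
  have e3 := ((hT.comp hφ.tendsto_atTop).comp hψ.tendsto_atTop).eventually_ge_atTop (2 * ρ + 1)
  obtain ⟨j, hj1, hj2, hj3⟩ := (e1.and (e2.and e3)).exists
  simp only [Function.comp] at hj2 hj3
  set i := φ (ψ j) with hi
  have hi0 : (0 : ℝ) ≤ i := Nat.cast_nonneg i
  have hA : IsOpen (⋃ w ∈ U i ∩ closedBall 0 (((i : ℝ) + 1) / 2), ball w (1 / 4)) :=
    isOpen_biUnion fun _ _ => isOpen_ball
  have hB : IsOpen (⋃ w ∈ V i, ball w (1 / 4)) := isOpen_biUnion fun _ _ => isOpen_ball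
  have hcv : Γ ⊆ (⋃ w ∈ U i ∩ closedBall 0 (((i : ℝ) + 1) / 2), ball w (1 / 4)) ∪
      ⋃ w ∈ V i, ball w (1 / 4) := by
    intro z hz
    obtain ⟨w, hw, hwz⟩ := hj1.1 z ⟨(hΓK hz).1, hρ hz⟩
    have hz1 := hρ hz
    rw [mem_closedBall] at hz1
    rw [← dist_eq_norm] at hwz
    have hw1 : dist w 0 ≤ ((i : ℝ) + 1) / 2 := by
      have := dist_triangle w z 0
      linarith
    have hzw : z ∈ ball w (1 / 4) := by
      rw [mem_ball, dist_comm]
      linarith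
    rcases hcov i ⟨hw, show dist w 0 ≤ (i : ℝ) + 1 by linarith⟩ with h | h
    · exact Or.inl (mem_iUnion₂.2 ⟨w, ⟨h, hw1⟩, hzw⟩)
    · exact Or.inr (mem_iUnion₂.2 ⟨w, h, hzw⟩)
  have hcB : c ∈ ⋃ w ∈ V i, ball w (1 / 4) := by
    refine mem_iUnion₂.2 ⟨b i, hV i, ?_⟩
    rw [mem_ball, dist_comm]
    linarith
  obtain ⟨z, -, hzA, hzB⟩ := hΓ _ _ hA hB hcv ⟨0, hΓ0, mem_iUnion₂.2
    ⟨0, ⟨hU i, mem_closedBall_self (by positivity)⟩, mem_ball_self (by norm_num)⟩⟩ ⟨c, hΓb, hcB⟩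
  obtain ⟨w, hw, hzw⟩ := mem_iUnion₂.1 hzA
  obtain ⟨w', hw', hzw'⟩ := mem_iUnion₂.1 hzB
  have h1 := hsep i w hw w' hw'
  have h2 := dist_triangle_left w w' z
  rw [mem_ball] at hzw hzw'
  rw [← dist_eq_norm] at h1
  linarith

end Vale.Agent.P128
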