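import Vale.Agent.P128.Cone
import Vale.Agent.P128.Gr

/-!
# P128 LMono

Monotonicity. For a.e. `s ≤ R`: `bon` with radius `(2M + 1) s` (from `lcon`, `Join.mono`) or `bon0`
gives `Dr ≤ (Θ/(2π)) E2 + C lam s² (Nn + 2)`; `gr` with `f = E2/s`, `β = 1` resp. `β = 4/3` (`two_gap`);
`∫ Nn ≤ Lr ≤ 8 s` (`Nn_int`, `ub8`), for `β = 4/3` use `dyad` with `α = 1`, `β = 1/3`.
`lmono`: `cone_all` gives `Lr + 2 Dr ≤ s (Nn + 2 E2/s) + Dr + lam s²`.
-/

namespace Vale.Agent.P128

open Set Metric MeasureTheory Filter Topology Complex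
open scoped ENNReal ContDiff RealInnerProductSpace Gradient Real ComplexConjugate

variable {Ω K L A S T U O X Γ P M₀ K₀ K₁ : Set ℂ} {u v w g hh ψ η : ℂ → ℝ} {G : ℂ → ℂ}
  {π₀ π₁ : ℂ → Set ℂ} {x y z c p q e a₀ F : ℂ} {lam H r s R a b t M Θ ρ ε δ d : ℝ} {n : ℕ}

theorem lmono (h : MM Ω lam u K π₀) (hb : closedBall x b ⊆ Ω) (ha : 0 < a) (hab : a ≤ b) :
    IntervalIntegrable (fun s => Dr u K x s / s ^ 2) volume a b ∧
      (Lr K x a + 2 * Dr u K x a) / a ≤
        (Lr K x b + 2 * Dr u K x b) / b + (∫ s in a..b, Dr u K x s / s ^ 2) + lam * b := by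
  have hp := h.pre
  have hlam : 0 ≤ lam := h.1.1
  have hfin := (hp.2.2.2 x b hb).2
  have hc : ContinuousOn (Dr u K x) (uIcc a b) := by
    rw [uIcc_of_le hab]
    exact (hp.Dr_cont hb).mono (Icc_subset_Icc_left ha.le)
  have hne : ∀ s ∈ uIcc a b, s ^ 2 ≠ 0 := fun s hs => by
    rw [uIcc_of_le hab] at hs
    exact pow_ne_zero 2 (ha.trans_le hs.1).ne'
  have hi : IntervalIntegrable (fun s => Dr u K x s / s ^ 2) volume a b :=
    (hc.div (by fun_prop) hne).intervalIntegrable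
  refine ⟨hi, ?_⟩
  have h1 := gr (F := fun s => Lr K x s + 2 * Dr u K x s)
    (f := fun s => (Nn K x s : ℝ) + 2 * (E2 u K x s / s)) (h := fun s => Dr u K x s + lam * s ^ 2)
    ha hab one_pos ((Nn_int hfin hp.2.1 ha.le hab le_rfl).1.add
      ((hp.Dr_sub hb ha.le hab le_rfl).1.const_mul 2))
    (hc.add (by fun_prop)).intervalIntegrable (fun t ht => by
      obtain ⟨i1, j1⟩ := Nn_int hfin hp.2.1 ha.le ht.1 ht.2
      obtain ⟨i2, j2⟩ := hp.Dr_sub hb ha.le ht.1 ht.2
      rw [intervalIntegral.integral_add i1 (i2.const_mul 2), intervalIntegral.integral_const_mul]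
      linarith) (by
      filter_upwards [hp.ae_good hb] with s hs hs'
      have hs0 : 0 < s := ha.trans hs'.1
      have h2 := cone_all h ((closedBall_subset_closedBall hs'.2.le).trans hb) (hs ⟨hs0, hs'.2⟩)
      have h3 := (A2_nonneg u K x s).2
      have h4 : s * (E2 u K x s / s) = A2 u K x s + B2 u K x s := mul_div_cancel₀ _ hs0.ne'
      nlinarith)
  have h2 : ∫ s in a..b, (Dr u K x s + lam * s ^ 2) / s ^ ((1 : ℝ) + 1) =
      (∫ s in a..b, Dr u K x s / s ^ 2) + ∫ _ in a..b, lam := by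
    rw [← intervalIntegral.integral_add hi intervalIntegrable_const]
    refine intervalIntegral.integral_congr fun s hs => ?_
    have h3 := hne s hs
    simp only [one_add_one_eq_two, Real.rpow_two]
    rw [add_div, mul_div_cancel_right₀ _ h3]
  rw [h2, Real.rpow_one, Real.rpow_one, intervalIntegral.integral_const, smul_eq_mul] at h1
  nlinarith [mul_nonneg ha.le hlam]

end Vale.Agent.P128
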