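import Vale.Agent.P128.Eil0

/-!
# P128 Len0

Length of `C¹` curves. Upper bound: on compact subintervals cut into short pieces where `‖γ'‖` is
almost constant and use `LipschitzOnWith.hausdorffMeasure_image_le`. Lower bound: the images of disjoint
short pieces are disjoint measurable sets, each of length `≥` the chord (`dist_le_len`), and the chord is
almost `∫ ‖γ'‖`. One can also compare the two measures `J ↦ μH[1] (γ '' J)` and `∫⁻_J ‖γ'‖`.
-/

namespace Vale.Agent.P128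

open Set Metric MeasureTheory Filter Topology Complex
open scoped ENNReal ContDiff RealInnerProductSpace Gradient Real ComplexConjugate

variable {Ω K L A S T U O X Γ P M₀ K₀ K₁ : Set ℂ} {u v w g hh ψ η : ℂ → ℝ} {G : ℂ → ℂ}
  {π₀ π₁ : ℂ → Set ℂ} {x y z c p q e a₀ F : ℂ} {lam H r s R a b t M Θ ρ ε δ d : ℝ} {n : ℕ}

theorem len0_exh (a b : ℝ) : ∃ I : ℕ → Set ℝ, Monotone I ∧ ⋃ n, I n = Ioo a b ∧
    ∀ n, I n = ∅ ∨ ∃ c d, a < c ∧ c ≤ d ∧ d < b ∧ I n = Icc c d := by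
  have hp : ∀ n : ℕ, (0 : ℝ) < 1 / (n + 1) := fun n => by positivity
  refine ⟨fun n => Icc (a + 1 / (n + 1)) (b - 1 / (n + 1)), fun m n h => ?_, ?_, fun n => ?_⟩
  · have := Nat.one_div_le_one_div (α := ℝ) h
    exact Icc_subset_Icc (by linarith) (by linarith)
  · refine Subset.antisymm (iUnion_subset fun n t ht => ⟨by linarith [ht.1, hp n],
      by linarith [ht.2, hp n]⟩) fun t ht => ?_
    obtain ⟨n, hn⟩ := exists_nat_one_div_lt (lt_min (sub_pos.2 ht.1) (sub_pos.2 ht.2))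
    rw [lt_min_iff] at hn
    exact mem_iUnion.2 ⟨n, by linarith [hn.1], by linarith [hn.2]⟩
  · rcases le_or_gt (a + 1 / (n + 1)) (b - 1 / (n + 1)) with h | h
    · exact Or.inr ⟨_, _, by linarith [hp n], h, by linarith [hp n], rfl⟩
    · exact Or.inl (Icc_eq_empty_of_lt h)

theorem len0_int {γ' : ℝ → ℂ} (hc : ContinuousOn γ' (Ioo a b)) {s t : ℝ} (hs : s ∈ Ioo a b)
    (ht : t ∈ Ioo a b) : IntervalIntegrable γ' volume s t :=
  (hc.mono (ordConnected_Ioo.uIcc_subset hs ht)).intervalIntegrable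

theorem len0_le {γ γ' : ℝ → ℂ} (hd : ∀ s ∈ Ioo a b, HasDerivAt γ (γ' s) s)
    (hc : ContinuousOn γ' (Ioo a b)) {c d : ℝ} (h1 : a < c) (h2 : c ≤ d) (h3 : d < b) :
    μH[1] (γ '' Icc c d) ≤ ENNReal.ofReal (∫ s in c..d, ‖γ' s‖) := by
  have hm : ∀ t ∈ Icc c d, t ∈ Ioo a b := fun t ht => ⟨h1.trans_le ht.1, ht.2.trans_lt h3⟩
  have hc0 := hm c ⟨le_rfl, h2⟩
  obtain ⟨σ, hσ⟩ : ∃ σ : ℝ → ℝ, ∀ t, σ t = ∫ s in c..t, ‖γ' s‖ := ⟨_, fun _ => rfl⟩
  have e1 : ∀ t ∈ Icc c d, ∀ t' ∈ Icc c d, σ t' - σ t = ∫ s in t..t', ‖γ' s‖ :=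
    fun t ht t' ht' => by
      rw [hσ, hσ, intervalIntegral.integral_interval_sub_left (len0_int hc hc0 (hm t' ht')).norm
        (len0_int hc hc0 (hm t ht)).norm]
  have key : ∀ t ∈ Icc c d, ∀ t' ∈ Icc c d, ‖γ t' - γ t‖ ≤ |σ t' - σ t| := fun t ht t' ht' => by
    rw [e1 t ht t' ht', ← intervalIntegral.integral_eq_sub_of_hasDerivAt
      (fun s hs => hd s (ordConnected_Ioo.uIcc_subset (hm t ht) (hm t' ht') hs))
      (len0_int hc (hm t ht) (hm t' ht'))]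
    exact intervalIntegral.norm_integral_le_abs_integral_norm
  have hl : LipschitzOnWith 1 (fun y => γ (Function.invFunOn σ (Icc c d) y)) (σ '' Icc c d) := by
    refine LipschitzOnWith.of_dist_le_mul fun y hy y' hy' => ?_
    have := key _ (Function.invFunOn_mem hy') _ (Function.invFunOn_mem hy)
    rw [Function.invFunOn_eq hy, Function.invFunOn_eq hy'] at this
    rwa [NNReal.coe_one, one_mul, dist_eq_norm, Real.dist_eq]
  have s1 : γ '' Icc c d ⊆ (fun y => γ (Function.invFunOn σ (Icc c d) y)) '' (σ '' Icc c d) := by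
    rintro _ ⟨t, ht, rfl⟩
    have hy : σ t ∈ σ '' Icc c d := ⟨t, ht, rfl⟩
    have := key t ht _ (Function.invFunOn_mem hy)
    rw [Function.invFunOn_eq hy, sub_self, abs_zero, norm_le_zero_iff, sub_eq_zero] at this
    exact ⟨σ t, hy, this⟩
  have s2 : σ '' Icc c d ⊆ Icc 0 (σ d) := by
    rintro _ ⟨t, ht, rfl⟩
    refine ⟨?_, ?_⟩
    · rw [hσ]
      exact intervalIntegral.integral_nonneg ht.1 fun _ _ => norm_nonneg _
    · rw [← sub_nonneg, e1 t ht d ⟨h2, le_rfl⟩]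
      exact intervalIntegral.integral_nonneg ht.2 fun _ _ => norm_nonneg _
  have h4 := hl.hausdorffMeasure_image_le zero_le_one
  rw [ENNReal.coe_one, ENNReal.one_rpow, one_mul, hausdorffMeasure_real] at h4
  refine (measure_mono s1).trans (h4.trans ((measure_mono s2).trans ?_))
  rw [Real.volume_Icc, sub_zero, hσ]

theorem len0_ge {γ γ' : ℝ → ℂ} (hd : ∀ s ∈ Ioo a b, HasDerivAt γ (γ' s) s)
    (hc : ContinuousOn γ' (Ioo a b)) (hi : InjOn γ (Ioo a b)) {c d : ℝ} (h1 : a < c) (h2 : c ≤ d)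
    (h3 : d < b) : ENNReal.ofReal (∫ s in c..d, ‖γ' s‖) ≤ μH[1] (γ '' Icc c d) := by
  have : NullSingletonClass (μH[1] : Measure ℂ) := Measure.nullSingletonClass_hausdorff ℂ one_pos
  have hm : ∀ t ∈ Icc c d, t ∈ Ioo a b := fun t ht => ⟨h1.trans_le ht.1, ht.2.trans_lt h3⟩
  have hc0 := hm c ⟨le_rfl, h2⟩
  have hγ : ContinuousOn γ (Ioo a b) := fun s hs => (hd s hs).continuousAt.continuousWithinAt
  have hf : ∀ s t, a < s → s ≤ t → t < b → μH[1] (γ '' Icc s t) ≠ ⊤ := fun s t a1 a2 a3 =>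
    ((len0_le hd hc a1 a2 a3).trans_lt ENNReal.ofReal_lt_top).ne
  obtain ⟨m, hM⟩ : ∃ m : ℝ → ℝ, ∀ t, m t = (μH[1] (γ '' Icc c t)).toReal := ⟨_, fun _ => rfl⟩
  obtain ⟨σ, hσ⟩ : ∃ σ : ℝ → ℝ, σ = fun t => ∫ s in c..t, ‖γ' s‖ := ⟨_, rfl⟩
  have e1 : ∀ t ∈ Icc c d, ∀ t' ∈ Icc c d, σ t' - σ t = ∫ s in t..t', ‖γ' s‖ :=
    fun t ht t' ht' => by
      rw [hσ]
      exact intervalIntegral.integral_interval_sub_left (len0_int hc hc0 (hm t' ht')).norm
        (len0_int hc hc0 (hm t ht)).norm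
  have e2 : ∀ t ∈ Icc c d, ∀ t' ∈ Icc c d, t ≤ t' →
      m t' - m t = (μH[1] (γ '' Icc t t')).toReal := fun t ht t' ht' h => by
    have b1 : Icc c t ⊆ Ioo a b := fun s hs => hm s ⟨hs.1, hs.2.trans ht.2⟩
    have b2 : Icc t t' ⊆ Ioo a b := fun s hs => hm s ⟨ht.1.trans hs.1, hs.2.trans ht'.2⟩
    have h4 := measure_union_add_inter (μ := μH[1]) (γ '' Icc c t)
      (isCompact_Icc.image_of_continuousOn (hγ.mono b2)).isClosed.measurableSet
    rw [← image_union, Icc_union_Icc_eq_Icc ht.1 h, ← hi.image_inter b1 b2,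
      Icc_inter_Icc_eq_singleton ht.1 h, image_singleton, measure_singleton, add_zero] at h4
    rw [hM, hM, h4, ENNReal.toReal_add (hf _ _ h1 ht.1 (hm t ht).2)
      (hf _ _ (hm t ht).1 h (hm t' ht').2), add_sub_cancel_left]
  have e3 : ∀ t ∈ Icc c d, ∀ t' ∈ Icc c d, t ≤ t' →
      ‖γ t' - γ t‖ ≤ m t' - m t ∧ m t' - m t ≤ σ t' - σ t := fun t ht t' ht' h => by
    have b2 : Icc t t' ⊆ Ioo a b := fun s hs => hm s ⟨ht.1.trans hs.1, hs.2.trans ht'.2⟩
    rw [e2 t ht t' ht' h, e1 t ht t' ht']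
    refine ⟨(ENNReal.ofReal_le_iff_le_toReal (hf _ _ (hm t ht).1 h (hm t' ht').2)).1
      (dist_le_len (isPreconnected_Icc.image γ (hγ.mono b2)) ⟨t', ⟨h, le_rfl⟩, rfl⟩
        ⟨t, ⟨le_rfl, h⟩, rfl⟩), ENNReal.toReal_le_of_le_ofReal
      (intervalIntegral.integral_nonneg h fun _ _ => norm_nonneg _)
      (len0_le hd hc (hm t ht).1 h (hm t' ht').2)⟩
  have dσ : ∀ t ∈ Icc c d, HasDerivAt σ ‖γ' t‖ t := fun t ht => by
    rw [hσ]
    exact intervalIntegral.integral_hasDerivAt_right (len0_int hc hc0 (hm t ht)).norm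
      (hc.norm.stronglyMeasurableAtFilter isOpen_Ioo t (hm t ht))
      (hc.norm.continuousAt (isOpen_Ioo.mem_nhds (hm t ht)))
  have cσ : ContinuousOn σ (Icc c d) := fun t ht => (dσ t ht).continuousAt.continuousWithinAt
  have cm : ContinuousOn m (Icc c d) := by
    rw [Metric.continuousOn_iff] at cσ ⊢
    intro t ht ε hε
    obtain ⟨δ, hδ, h⟩ := cσ t ht ε hε
    refine ⟨δ, hδ, fun s hs hst => lt_of_le_of_lt ?_ (h s hs hst)⟩
    rw [Real.dist_eq, Real.dist_eq, abs_le]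
    rcases le_total s t with k | k
    · obtain ⟨k1, k2⟩ := e3 s hs t ht k
      exact ⟨by linarith [neg_abs_le (σ s - σ t)],
        by linarith [norm_nonneg (γ t - γ s), abs_nonneg (σ s - σ t)]⟩
    · obtain ⟨k1, k2⟩ := e3 t ht s hs k
      exact ⟨by linarith [norm_nonneg (γ s - γ t), abs_nonneg (σ s - σ t)],
        by linarith [le_abs_self (σ s - σ t)]⟩
  have h5 := image_le_of_liminf_slope_right_le_deriv_boundary (f := fun t => -m t)
    (B := fun t => -σ t) (B' := fun t => -‖γ' t‖) cm.neg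
    (by simp only [hσ, hM, intervalIntegral.integral_same, neg_le_neg_iff, ENNReal.toReal_nonneg])
    cσ.neg (fun t ht => (dσ t (Ico_subset_Icc_self ht)).neg.hasDerivWithinAt)
    (fun t ht r hr => ?_) (x := d) ⟨h2, le_rfl⟩
  · rw [neg_le_neg_iff, hM, hσ] at h5
    exact (ENNReal.ofReal_le_iff_le_toReal (hf _ _ h1 h2 h3)).2 h5
  · have ht' := Ico_subset_Icc_self ht
    have t1 := ((hd t (hm t ht')).tendsto_slope.mono_left (nhdsGT_le_nhdsNE t)).norm.neg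
    refine Eventually.frequently ?_
    filter_upwards [t1.eventually (gt_mem_nhds hr), Ioo_mem_nhdsGT ht.2] with z hz hz'
    refine lt_of_le_of_lt ?_ hz
    have k := (e3 t ht' z ⟨ht.1.trans hz'.1.le, hz'.2.le⟩ hz'.1.le).1
    have k0 : 0 < (z - t)⁻¹ := inv_pos.2 (sub_pos.2 hz'.1)
    rw [slope_def_module, slope_def_module, norm_smul, Real.norm_of_nonneg k0.le, smul_eq_mul]
    nlinarith [mul_le_mul_of_nonneg_left k k0.le]

theorem len0_eq {γ' : ℝ → ℂ} (hc : ContinuousOn γ' (Ioo a b)) {c d : ℝ} (h1 : a < c) (h2 : c ≤ d)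
    (h3 : d < b) : ENNReal.ofReal (∫ s in c..d, ‖γ' s‖) = ∫⁻ s in Icc c d, ‖γ' s‖ₑ := by
  rw [intervalIntegral.integral_of_le h2, ofReal_integral_norm_eq_lintegral_enorm
    (len0_int hc ⟨h1, h2.trans_lt h3⟩ ⟨h1.trans_le h2, h3⟩).1,
    setLIntegral_congr Ioc_ae_eq_Icc]

theorem len_le {γ γ' : ℝ → ℂ} (hd : ∀ s ∈ Ioo a b, HasDerivAt γ (γ' s) s)
    (hc : ContinuousOn γ' (Ioo a b)) : μH[1] (γ '' Ioo a b) ≤ ∫⁻ s in Ioo a b, ‖γ' s‖ₑ := by
  obtain ⟨I, hI, hu, h⟩ := len0_exh a b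
  have hm : Monotone fun n => γ '' I n := fun m n k => image_mono (hI k)
  rw [← hu, image_iUnion, hm.measure_iUnion]
  refine iSup_le fun n => le_trans ?_ (lintegral_mono_set (subset_iUnion I n))
  rcases h n with h0 | ⟨c, d, h1, h2, h3, h0⟩
  · simp [h0]
  · rw [h0, ← len0_eq hc h1 h2 h3]
    exact len0_le hd hc h1 h2 h3

theorem len_ge {γ γ' : ℝ → ℂ} (hd : ∀ s ∈ Ioo a b, HasDerivAt γ (γ' s) s)
    (hc : ContinuousOn γ' (Ioo a b)) (hi : InjOn γ (Ioo a b)) :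
    ∫⁻ s in Ioo a b, ‖γ' s‖ₑ ≤ μH[1] (γ '' Ioo a b) := by
  obtain ⟨I, hI, hu, h⟩ := len0_exh a b
  rw [← hu, setLIntegral_iUnion_of_directed _ hI.directed_le]
  refine iSup_le fun n => le_trans ?_ (measure_mono (image_mono (subset_iUnion I n)))
  rcases h n with h0 | ⟨c, d, h1, h2, h3, h0⟩
  · simp [h0]
  · rw [h0, ← len0_eq hc h1 h2 h3]
    exact len0_ge hd hc hi h1 h2 h3

end Vale.Agent.P128
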