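import Vale.Agent.P128.Defs

/-!
# P128 LogEx

Parity functions. If `b = a + 2π` take `ζi = 1`, `ζo = 0`. Otherwise `p ≠ q`, `g z = (z-p)/(z-q)`.
`log_ex`: for `τ > 0` take a chain `p = p₀, ..., p_m = q` in `Γ` with steps `< τ` (preconnected); then
`∑ log ((z - p_i)/(z - p_(i+1)))` is a continuous logarithm of `g` on `{τ < infDist z Γ}`. On a component
`V` of `Γᶜ` fix a base point, let `W_n` be its component in `{1/n < infDist}`, normalize the logarithms
at the base point; they agree on `W_n` and `V = ⋃ W_n`. `par`: `g = c g₁`, `‖c‖ = 1`, with `g₁` positive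
on the complementary arc, negative on the arc `(a, b)`, and `Im g₁` of one sign inside and the other
sign outside. `S_in = exp ((log (∓ i g₁) ± iπ/2 + log c)/2)`, `S_out` with opposite signs,
`S₁ = exp (L/2)`; `ζ = (1 - re (S₁/S))/2`. Change the sign of `S₁` globally so that `ζo = 0` on the
connected set `(closedBall x R)ᶜ`.
-/

namespace Vale.Agent.P128

open Set Metric MeasureTheory Filter Topology Complex
open scoped ENNReal ContDiff RealInnerProductSpace Gradient Real ComplexConjugate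

variable {Ω K L A S T U O X Γ P M₀ K₀ K₁ : Set ℂ} {u v w g hh ψ η : ℂ → ℝ} {G : ℂ → ℂ}
  {π₀ π₁ : ℂ → Set ℂ} {x y z c p q e a₀ F : ℂ} {lam H r s R a b t M Θ ρ ε δ d : ℝ} {n : ℕ}

theorem logex_const {W : Set ℂ} (hW : IsPreconnected W) {f : ℂ → ℂ} (hf : ContinuousOn f W)
    (he : ∀ z ∈ W, cexp (f z) = 1) {a b : ℂ} (ha : a ∈ W) (hb : b ∈ W) : f a = f b :=
  isCoveringMap_exp.constOn_of_comp hW hf
    (fun y hy y' hy' => Subtype.ext ((he y hy).trans (he y' hy').symm)) ha hb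

theorem logex_far (hc : IsPreconnected Γ) (hp : p ∈ Γ) (hq : q ∈ Γ) {τ : ℝ} (hτ : 0 < τ) :
    ∃ Lg : ℂ → ℂ, ContinuousOn Lg {z | τ < infDist z Γ} ∧
      ∀ z ∈ {z | τ < infDist z Γ}, cexp (Lg z) = (z - p) / (z - q) := by
  have hne : ∀ a ∈ Γ, ∀ z ∈ {z | τ < infDist z Γ}, τ < ‖z - a‖ := fun a ha z hz => by
    rw [← dist_eq_norm]
    exact lt_of_lt_of_le hz (infDist_le_dist_of_mem ha)
  have hne' : ∀ a ∈ Γ, ∀ z ∈ {z | τ < infDist z Γ}, z - a ≠ 0 := fun a ha z hz =>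
    norm_pos_iff.1 (hτ.trans (hne a ha z hz))
  have near : ∀ a ∈ Γ, ∀ b ∈ Γ, ‖b - a‖ < τ → ∃ Lg : ℂ → ℂ,
      ContinuousOn Lg {z | τ < infDist z Γ} ∧
        ∀ z ∈ {z | τ < infDist z Γ}, cexp (Lg z) = (z - a) / (z - b) := by
    intro a ha b hb hab
    have hs : ∀ z ∈ {z | τ < infDist z Γ}, (z - a) / (z - b) ∈ slitPlane := fun z hz => by
      have h1 := hne' b hb z hz
      have h2 : (z - a) / (z - b) = 1 + (b - a) / (z - b) := by
        field_simp
        ring
      rw [h2]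
      refine mem_slitPlane_of_norm_lt_one ?_
      rw [norm_div, div_lt_one (norm_pos_iff.2 h1)]
      exact hab.trans (hne b hb z hz)
    refine ⟨fun z => log ((z - a) / (z - b)), ContinuousOn.clog ?_ hs, fun z hz =>
      exp_log (slitPlane_ne_zero (hs z hz))⟩
    exact ContinuousOn.div (by fun_prop) (by fun_prop) (hne' b hb)
  refine hc.induction₂' (fun a b => ∃ Lg : ℂ → ℂ, ContinuousOn Lg {z | τ < infDist z Γ} ∧
    ∀ z ∈ {z | τ < infDist z Γ}, cexp (Lg z) = (z - a) / (z - b)) ?_ ?_ hp hq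
  · intro a ha
    filter_upwards [self_mem_nhdsWithin, nhdsWithin_le_nhds (ball_mem_nhds a hτ)] with b hb hab
    rw [mem_ball, dist_eq_norm] at hab
    exact ⟨near a ha b hb hab, near b hb a ha (by rwa [norm_sub_rev])⟩
  · rintro a b c - hb - ⟨L₁, c₁, e₁⟩ ⟨L₂, c₂, e₂⟩
    refine ⟨fun z => L₁ z + L₂ z, c₁.add c₂, fun z hz => ?_⟩
    have h1 := hne' b hb z hz
    rw [exp_add, e₁ z hz, e₂ z hz, div_mul_div_cancel₀ h1]

theorem logex_join (hΓ : IsCompact Γ) (hp : p ∈ Γ) {y z : ℂ}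
    (hy : y ∈ connectedComponentIn Γᶜ z) :
    ∃ τ : ℝ, 0 < τ ∧ z ∈ connectedComponentIn {w | τ < infDist w Γ} y := by
  have hz : z ∈ Γᶜ := connectedComponentIn_nonempty_iff.1 ⟨y, hy⟩
  have ho : IsOpen (connectedComponentIn Γᶜ z) := hΓ.isClosed.isOpen_compl.connectedComponentIn
  have hpc := ho.isConnected_iff_isPathConnected.1 (isConnected_connectedComponentIn_iff.2 hz)
  obtain ⟨γ, hγ⟩ := hpc.joinedIn y hy z (mem_connectedComponentIn hz)
  have hK : IsCompact (range γ) := isCompact_range γ.continuous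
  obtain ⟨w, hw, hmin⟩ := hK.exists_isMinOn (range_nonempty γ)
    (continuous_infDist_pt Γ).continuousOn
  have hw0 : 0 < infDist w Γ := by
    obtain ⟨t, rfl⟩ := hw
    exact (hΓ.isClosed.notMem_iff_infDist_pos ⟨p, hp⟩).1 (connectedComponentIn_subset _ _ (hγ t))
  refine ⟨infDist w Γ / 2, by positivity, ?_⟩
  refine (isPreconnected_range γ.continuous).subset_connectedComponentIn ⟨0, γ.source⟩ ?_
    ⟨1, γ.target⟩
  intro v hv
  have h1 : infDist w Γ ≤ infDist v Γ := hmin hv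
  change infDist w Γ / 2 < infDist v Γ
  linarith

theorem log_ex (hΓ : IsCompact Γ) (hc : IsPreconnected Γ) (hp : p ∈ Γ) (hq : q ∈ Γ) :
    ∃ Lg : ℂ → ℂ, ContinuousOn Lg Γᶜ ∧ ∀ z ∉ Γ, cexp (Lg z) = (z - p) / (z - q) := by
  have hL : ∀ τ : ℝ, ∃ Lg : ℂ → ℂ, 0 < τ → ContinuousOn Lg {z | τ < infDist z Γ} ∧
      ∀ z ∈ {z | τ < infDist z Γ}, cexp (Lg z) = (z - p) / (z - q) := fun τ => by
    by_cases hτ : 0 < τ
    · obtain ⟨Lg, h⟩ := logex_far hc hp hq hτ
      exact ⟨Lg, fun _ => h⟩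
    · exact ⟨0, fun h => absurd h hτ⟩
  choose Lt hLt using hL
  have hne : ∀ z ∉ Γ, (z - p) / (z - q) ≠ 0 := fun z hz =>
    div_ne_zero (sub_ne_zero.2 fun h => hz (h ▸ hp)) (sub_ne_zero.2 fun h => hz (h ▸ hq))
  have hsub : ∀ τ : ℝ, 0 < τ → {z | τ < infDist z Γ} ⊆ Γᶜ := fun τ hτ z hz hz' => by
    have h1 : τ < infDist z Γ := hz
    rw [infDist_zero_of_mem hz'] at h1
    linarith
  have key0 : ∀ (τ σ : ℝ) (y z : ℂ), 0 < τ → τ ≤ σ →
      z ∈ connectedComponentIn {w | σ < infDist w Γ} y → Lt τ z - Lt τ y = Lt σ z - Lt σ y := by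
    intro τ σ y z hτ hτσ hz
    have hσ := hτ.trans_le hτσ
    have s1 := connectedComponentIn_subset {w | σ < infDist w Γ} y
    have s2 : {w | σ < infDist w Γ} ⊆ {w | τ < infDist w Γ} := fun w hw => hτσ.trans_lt hw
    have h1 := logex_const (f := fun w => Lt τ w - Lt σ w) isPreconnected_connectedComponentIn
      (((hLt τ hτ).1.mono (s1.trans s2)).sub ((hLt σ hσ).1.mono s1)) (fun w hw => by
        rw [exp_sub, (hLt τ hτ).2 w (s2 (s1 hw)), (hLt σ hσ).2 w (s1 hw),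
          div_self (hne w (hsub σ hσ (s1 hw)))]) hz
      (mem_connectedComponentIn (connectedComponentIn_nonempty_iff.1 ⟨z, hz⟩))
    linear_combination h1
  have key : ∀ (τ σ : ℝ) (y z : ℂ), 0 < τ → 0 < σ →
      z ∈ connectedComponentIn {w | τ < infDist w Γ} y →
      z ∈ connectedComponentIn {w | σ < infDist w Γ} y → Lt τ z - Lt τ y = Lt σ z - Lt σ y := by
    intro τ σ y z hτ hσ h1 h2
    rcases le_total τ σ with h | h
    · exact key0 τ σ y z hτ h h2
    · exact (key0 σ τ y z hσ h h1).symm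
  have hβ : ∀ V : Set ℂ, ∃ y : ℂ, V.Nonempty → y ∈ V := fun V => by
    by_cases h : V.Nonempty
    · exact ⟨h.some, fun _ => h.some_mem⟩
    · exact ⟨0, fun h' => absurd h' h⟩
  choose β hβ using hβ
  have hN : ∀ z : ℂ, ∃ τ : ℝ, z ∉ Γ → 0 < τ ∧
      z ∈ connectedComponentIn {w | τ < infDist w Γ} (β (connectedComponentIn Γᶜ z)) := by
    intro z
    by_cases hz : z ∈ Γ
    · exact ⟨0, fun h => absurd hz h⟩
    · obtain ⟨τ, h⟩ := logex_join hΓ hp (hβ _ ⟨z, mem_connectedComponentIn (F := Γᶜ) hz⟩)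
      exact ⟨τ, fun _ => h⟩
  choose N hN using hN
  refine ⟨fun z => Lt (N z) z - Lt (N z) (β (connectedComponentIn Γᶜ z)) +
    log ((β (connectedComponentIn Γᶜ z) - p) / (β (connectedComponentIn Γᶜ z) - q)), ?_, ?_⟩
  · intro z hz
    obtain ⟨hτ, hW⟩ := hN z hz
    have ho : IsOpen {w | N z < infDist w Γ} := isOpen_lt continuous_const (continuous_infDist_pt Γ)
    have s1 := connectedComponentIn_subset {w | N z < infDist w Γ} (β (connectedComponentIn Γᶜ z))
    have hc1 : ContinuousAt (Lt (N z)) z := (hLt _ hτ).1.continuousAt (ho.mem_nhds (s1 hW))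
    have hc2 : ContinuousAt (fun w => Lt (N z) w - Lt (N z) (β (connectedComponentIn Γᶜ z)) +
        log ((β (connectedComponentIn Γᶜ z) - p) / (β (connectedComponentIn Γᶜ z) - q))) z :=
      (hc1.sub continuousAt_const).add continuousAt_const
    refine (hc2.congr ?_).continuousWithinAt
    filter_upwards [ho.connectedComponentIn.mem_nhds hW] with w hw
    have hw' : w ∉ Γ := hsub _ hτ (s1 hw)
    have e1 : connectedComponentIn Γᶜ z = connectedComponentIn Γᶜ w :=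
      connectedComponentIn_eq (isPreconnected_connectedComponentIn.subset_connectedComponentIn hW
        (s1.trans (hsub _ hτ)) hw)
    obtain ⟨hσ, hW'⟩ := hN w hw'
    rw [← e1] at hW' ⊢
    rw [key _ _ _ _ hτ hσ hw hW']
  · intro z hz
    obtain ⟨hτ, hW⟩ := hN z hz
    have h1 := connectedComponentIn_subset _ _ hW
    have h2 := connectedComponentIn_nonempty_iff.1 ⟨z, hW⟩
    have h3 := hne _ (hsub _ hτ h2)
    rw [exp_add, exp_sub, (hLt _ hτ).2 _ h1, (hLt _ hτ).2 _ h2, exp_log h3, div_mul_cancel₀ _ h3]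

end Vale.Agent.P128
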