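import Vale.Agent.P128.TipA

/-!
# P128 Tip

Direction rate at a tip. With `δ s` as in `tipP`, `gr` applied with `F = Dr`, `f = E2/s`, `β = 1`,
`h = Dr - E2` gives `∫_{ρ/2}^{ρ} (E2 - Dr)/s² ≤ Dr ρ/ρ - Dr (ρ/2)/(ρ/2)`, so `∫ δ/s² ≤ C ρ^γ` (`tipA`). The
derivative of `(p s - x)/s` is `(p' s - (p s - x)/s)/s`; Cauchy-Schwarz (`cs_int`) and `iv` bound the
integral of its norm over `[ρ/2, ρ]` by `C ρ^(γ/2)`.
-/

namespace Vale.Agent.P128

open Set Metric MeasureTheory Filter Topology Complex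
open scoped ENNReal ContDiff RealInnerProductSpace Gradient Real ComplexConjugate

variable {Ω K L A S T U O X Γ P M₀ K₀ K₁ : Set ℂ} {u v w g hh ψ η : ℂ → ℝ} {G : ℂ → ℂ}
  {π₀ π₁ : ℂ → Set ℂ} {x y z c p q e a₀ F : ℂ} {lam H r s R a b t M Θ ρ ε δ d : ℝ} {n : ℕ}

theorem tip_osc {k k' : ℝ → ℂ} {α β : ℝ} (hd : ∀ s ∈ Icc α β, HasDerivAt k (k' s) s)
    (hc : ContinuousOn k' (Icc α β)) (ha : a ∈ Icc α β) (hb : b ∈ Icc α β) :
    ‖k a - k b‖ ≤ ∫ s in α..β, ‖k' s‖ := by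
  have hαβ : α ≤ β := ha.1.trans ha.2
  have hi : IntervalIntegrable (fun s => ‖k' s‖) volume α β :=
    (hc.norm.mono (by rw [uIcc_of_le hαβ])).intervalIntegrable
  have key : ∀ a ∈ Icc α β, ∀ b ∈ Icc α β, a ≤ b → ‖k b - k a‖ ≤ ∫ s in α..β, ‖k' s‖ := by
    intro a ha b hb hab
    have hs : uIcc a b ⊆ Icc α β := by
      rw [uIcc_of_le hab]; exact Icc_subset_Icc ha.1 hb.2
    rw [← intervalIntegral.integral_eq_sub_of_hasDerivAt (fun s hs' => hd s (hs hs'))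
      (hc.mono hs).intervalIntegrable]
    refine (intervalIntegral.norm_integral_le_integral_norm hab).trans ?_
    exact intervalIntegral.integral_mono_interval ha.1 hab hb.2
      (Eventually.of_forall fun s => norm_nonneg _) hi
  rcases le_total a b with hab | hab
  · rw [norm_sub_rev]; exact key a ha b hb hab
  · exact key b hb a ha hab

theorem tip_def (h : Pre Ω u K) (hR : closedBall x R ⊆ Ω) (hρ : 0 < ρ) (hρR : ρ ≤ R) :
    IntervalIntegrable (fun s => (E2 u K x s - Dr u K x s) / s ^ 2) volume (ρ / 2) ρ ∧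
      ∫ s in ρ / 2..ρ, (E2 u K x s - Dr u K x s) / s ^ 2 ≤
        Dr u K x ρ / ρ - Dr u K x (ρ / 2) / (ρ / 2) := by
  have h2 : 0 < ρ / 2 := by positivity
  have hle : ρ / 2 ≤ ρ := by linarith
  have hu : uIcc (ρ / 2) ρ = Icc (ρ / 2) ρ := uIcc_of_le hle
  have hE := (h.Dr_sub hR h2.le hle hρR).1
  have hD : IntervalIntegrable (Dr u K x) volume (ρ / 2) ρ :=
    ((h.Dr_cont hR).mono (by rw [hu]; exact Icc_subset_Icc h2.le hρR)).intervalIntegrable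
  have hE' : IntervalIntegrable (E2 u K x) volume (ρ / 2) ρ := by
    refine (hE.mul_continuousOn (g := fun s => s) continuousOn_id).congr ?_
    intro s hs
    rw [uIoc_of_le hle] at hs
    have : s ≠ 0 := by linarith [hs.1]
    simp only
    field_simp
  have hinv : ContinuousOn (fun s : ℝ => (s ^ 2)⁻¹) (uIcc (ρ / 2) ρ) := by
    rw [hu]
    refine ContinuousOn.inv₀ (by fun_prop) fun s hs => ?_
    have : 0 < s := by linarith [hs.1]
    positivity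
  refine ⟨((hE'.sub hD).mul_continuousOn hinv).congr fun s _ => by simp [div_eq_mul_inv], ?_⟩
  have hg := gr (F := Dr u K x) (f := fun s => E2 u K x s / s)
    (h := fun s => Dr u K x s - E2 u K x s) (β := 1) h2 hle one_pos hE (hD.sub hE')
    (fun t ht => ((h.Dr_sub hR h2.le ht.1 (ht.2.trans hρR)).2).le)
    (Eventually.of_forall fun s hs => by
      have : s ≠ 0 := by linarith [hs.1]
      rw [mul_div_cancel₀ _ this]
      linarith)
  have he : ∫ s in ρ / 2..ρ, (Dr u K x s - E2 u K x s) / s ^ ((1 : ℝ) + 1) =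
      -∫ s in ρ / 2..ρ, (E2 u K x s - Dr u K x s) / s ^ 2 := by
    rw [← intervalIntegral.integral_neg]
    congr 1
    funext s
    rw [one_add_one_eq_two, Real.rpow_two]
    ring
  rw [he, Real.rpow_one, Real.rpow_one] at hg
  linarith

theorem tip_pt {C Y N τ : ℝ} (hC : 0 ≤ C) (hY : 0 ≤ Y) (hτ : 0 < τ) (hρ : 0 < ρ)
    (hs : ρ / 2 ≤ s) (hδ : 0 ≤ δ) (h : N ≤ C * (Y + √(δ / s) + δ / s)) :
    N / s ≤ C * (2 / ρ * Y + τ / ρ + (1 / (2 * τ) + 1) * (δ / s ^ 2)) := by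
  have hs0 : 0 < s := by linarith
  have h1 : √(δ / s) ≤ τ / 2 + 1 / (2 * τ) * (δ / s) := by
    have hq : 0 ≤ δ / s := by positivity
    have h2 := Real.sq_sqrt hq
    have h3 : τ / 2 + 1 / (2 * τ) * (δ / s) - √(δ / s) = (τ - √(δ / s)) ^ 2 / (2 * τ) := by
      rw [sub_sq, h2]; field_simp; ring
    have h4 : 0 ≤ (τ - √(δ / s)) ^ 2 / (2 * τ) := by positivity
    linarith
  have h5 : 1 / s ≤ 2 / ρ := by
    rw [div_le_div_iff₀ hs0 hρ]; linarith
  have h6 : Y / s ≤ 2 / ρ * Y := by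
    rw [div_eq_mul_one_div, mul_comm]; exact mul_le_mul_of_nonneg_right h5 hY
  have h7 : τ / 2 / s ≤ τ / ρ := by
    have : τ / 2 / s = τ / 2 * (1 / s) := by ring
    have h8 : τ / ρ = τ / 2 * (2 / ρ) := by ring
    rw [this, h8]
    exact mul_le_mul_of_nonneg_left h5 (by positivity)
  calc N / s ≤ C * (Y + (τ / 2 + 1 / (2 * τ) * (δ / s)) + δ / s) / s := by
        refine div_le_div_of_nonneg_right (h.trans ?_) hs0.le
        exact mul_le_mul_of_nonneg_left (by linarith) hC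
    _ = C * (Y / s + τ / 2 / s + (1 / (2 * τ) + 1) * (δ / s ^ 2)) := by
        field_simp; ring
    _ ≤ _ := mul_le_mul_of_nonneg_left (by linarith) hC

theorem tip_num {C₁ C₂ C₃ τ I₁ I₂ : ℝ} (h₁ : 0 ≤ C₁) (h₂ : 0 ≤ C₂) (h₃ : 0 ≤ C₃) (hl : 0 ≤ lam)
    (hτ : 0 < τ) (hτ1 : τ ≤ 1) (hρ : 0 < ρ) (hρτ : ρ ≤ τ ^ 2)
    (hI₁ : I₁ ≤ C₂ * (ρ / 2) * √(lam * (ρ / 2))) (hI₂ : I₂ ≤ 2 * C₃ * τ ^ 2) :
    C₁ * (2 / ρ * I₁ + τ / ρ * (ρ - ρ / 2) + (1 / (2 * τ) + 1) * (I₂ + 4 * lam * π * (ρ - ρ / 2))) ≤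
      C₁ * (C₂ * √lam + 1 / 2 + 3 / 2 * (2 * C₃ + 2 * lam * π)) * τ := by
  have h4 : √(lam * (ρ / 2)) ≤ √lam * τ := by
    rw [Real.sqrt_mul hl]
    refine mul_le_mul_of_nonneg_left ?_ (Real.sqrt_nonneg _)
    rw [Real.sqrt_le_left hτ.le]
    linarith
  have h5 : 2 / ρ * I₁ ≤ C₂ * √lam * τ := by
    calc 2 / ρ * I₁ ≤ 2 / ρ * (C₂ * (ρ / 2) * (√lam * τ)) := by
          refine mul_le_mul_of_nonneg_left (hI₁.trans ?_) (by positivity)
          exact mul_le_mul_of_nonneg_left h4 (by positivity)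
      _ = C₂ * √lam * τ := by field_simp
  have h6 : τ / ρ * (ρ - ρ / 2) = 1 / 2 * τ := by field_simp; ring
  have hp := Real.pi_pos
  have h7 : I₂ + 4 * lam * π * (ρ - ρ / 2) ≤ (2 * C₃ + 2 * lam * π) * τ ^ 2 := by
    have : 2 * lam * π * ρ ≤ 2 * lam * π * τ ^ 2 := mul_le_mul_of_nonneg_left hρτ (by positivity)
    nlinarith
  have h8 : (1 / (2 * τ) + 1) * (I₂ + 4 * lam * π * (ρ - ρ / 2)) ≤
      3 / 2 * (2 * C₃ + 2 * lam * π) * τ := by
    have hA : 0 ≤ 2 * C₃ + 2 * lam * π := by positivity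
    calc _ ≤ (1 / (2 * τ) + 1) * ((2 * C₃ + 2 * lam * π) * τ ^ 2) :=
          mul_le_mul_of_nonneg_left h7 (by positivity)
      _ = (2 * C₃ + 2 * lam * π) * τ * (1 / 2 + τ) := by field_simp
      _ ≤ (2 * C₃ + 2 * lam * π) * τ * (3 / 2) :=
          mul_le_mul_of_nonneg_left (by linarith) (by positivity)
      _ = _ := by ring
  rw [mul_assoc C₁]
  refine mul_le_mul_of_nonneg_left ?_ h₁
  rw [h6]
  nlinarith

theorem tip {r₀ : ℝ} {p p' : ℝ → ℂ} (h : MM Ω lam u K π₀) (hx : x ∈ Ω)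
    (hD : Tendsto (fun r => Dr u K x r / r) (𝓝[>] 0) (𝓝 1)) (hr : 0 < r₀)
    (hR : Rad K x 0 r₀ p p') :
    ∃ r w γ : ℝ, 0 < r ∧ 0 < w ∧ 0 < γ ∧ ∀ ρ, 0 < ρ → ρ ≤ r → Rd K x ρ (w * (ρ / r) ^ γ) := by
  obtain ⟨C₁, hC₁, hP⟩ := tipP
  obtain ⟨C₂, hC₂, hV⟩ := iv
  obtain ⟨r₁, C₃, γ, hr₁, hC₃, hγ, hγ1, hA⟩ := tipA h hx hD hr hR
  have hpre := h.pre
  have hl : 0 ≤ lam := h.1.1
  have hev : ∀ᶠ s in 𝓝[>] (0 : ℝ), closedBall x s ⊆ Ω ∧ Dr u K x s / s < 8 ∧ s < r₁ ∧ s < r₀ ∧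
      s < 1 ∧ lam * s < 1 := by
    have e1 : ∀ᶠ s in 𝓝[>] (0 : ℝ), closedBall x s ⊆ Ω :=
      nhdsWithin_le_nhds (eventually_closedBall_subset (hpre.1.mem_nhds hx))
    have e2 := hD.eventually_lt_const (show (1 : ℝ) < 8 by norm_num)
    have e3 : ∀ c : ℝ, 0 < c → ∀ᶠ s in 𝓝[>] (0 : ℝ), s < c := fun c hc =>
      nhdsWithin_le_nhds (Iio_mem_nhds hc)
    have e4 : ∀ᶠ s in 𝓝[>] (0 : ℝ), lam * s < 1 := by
      have : Tendsto (fun s : ℝ => lam * s) (𝓝 0) (𝓝 (lam * 0)) := tendsto_id.const_mul lam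
      rw [mul_zero] at this
      exact nhdsWithin_le_nhds (this.eventually_lt_const one_pos)
    filter_upwards [e1, e2, e3 r₁ hr₁, e3 r₀ hr, e3 1 one_pos, e4] with s a1 a2 a3 a4 a5 a6
    exact ⟨a1, a2, a3, a4, a5, a6⟩
  obtain ⟨r, hr0, hsm⟩ := (nhdsGT_basis_Ioc (0 : ℝ)).eventually_iff.1 hev
  have hp := Real.pi_pos
  set W : ℝ := C₁ * (C₂ * √lam + 1 / 2 + 3 / 2 * (2 * C₃ + 2 * lam * π)) with hW
  have hW0 : 0 < W := by
    have : 0 < C₁ := by linarith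
    positivity
  refine ⟨r, W * r ^ (γ / 2), γ / 2, hr0, by positivity, by positivity, ?_⟩
  intro ρ hρ hρr
  obtain ⟨hB, -, hρ1, hρ0, hρone, hlam⟩ := hsm ⟨hρ, hρr⟩
  set τ : ℝ := ρ ^ (γ / 2) with hτ
  have hτ0 : 0 < τ := Real.rpow_pos_of_pos hρ _
  have hτ1 : τ ≤ 1 := Real.rpow_le_one hρ.le hρone.le (by positivity)
  have hτ2 : τ ^ 2 = ρ ^ γ := by
    rw [hτ, ← Real.rpow_natCast, ← Real.rpow_mul hρ.le]
    congr 1
    push_cast
    ring
  have hρτ : ρ ≤ τ ^ 2 := by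
    rw [hτ2]
    calc ρ = ρ ^ (1 : ℝ) := (Real.rpow_one ρ).symm
      _ ≤ ρ ^ γ := Real.rpow_le_rpow_of_exponent_ge hρ hρone.le (by linarith)
  have hw : W * r ^ (γ / 2) * (ρ / r) ^ (γ / 2) = W * τ := by
    rw [mul_assoc, ← Real.mul_rpow hr0.le (by positivity), mul_div_cancel₀ _ hr0.ne']
  rw [hw]
  have h2 : 0 < ρ / 2 := by positivity
  have hle : ρ / 2 ≤ ρ := by linarith
  have hI : ∀ s ∈ Icc (ρ / 2) ρ, s ∈ Ioo 0 r₀ := fun s hs =>
    ⟨by linarith [hs.1], by linarith [hs.2]⟩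
  have hpc : ContinuousOn p (Icc (ρ / 2) ρ) := fun s hs =>
    (hR.2 s (hI s hs)).2.1.continuousAt.continuousWithinAt
  have hne : ∀ s ∈ Icc (ρ / 2) ρ, (s : ℂ) ≠ 0 := fun s hs =>
    Complex.ofReal_ne_zero.2 (hI s hs).1.ne'
  have hder : ∀ s ∈ Icc (ρ / 2) ρ, HasDerivAt (fun s : ℝ => (p s - x) / s)
      ((p' s - (p s - x) / s) / s) s := by
    intro s hs
    have h1 := ((hR.2 s (hI s hs)).2.1.sub_const x).div (Complex.ofRealCLM.hasDerivAt (x := s))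
      (hne s hs)
    refine HasDerivAt.congr_deriv h1 ?_
    have := hne s hs
    simp only [Complex.ofRealCLM_apply, Complex.ofReal_one]
    field_simp
  have hco : ContinuousOn (fun s : ℝ => (s : ℂ)) (Icc (ρ / 2) ρ) :=
    Complex.continuous_ofReal.continuousOn
  have hcont : ContinuousOn (fun s : ℝ => (p' s - (p s - x) / s) / s) (Icc (ρ / 2) ρ) :=
    ((hR.1.mono hI).sub ((hpc.sub continuousOn_const).div hco hne)).div hco hne
  have hρρ : 2 * (ρ / 2) = ρ := by ring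
  have hY := hV h h2 (by rw [hρρ]; exact hB) (by linarith) (hR.mono h2.le (by linarith))
  rw [hρρ] at hY
  obtain ⟨hi, hdef⟩ := tip_def hpre hB hρ le_rfl
  have hI₂ : ∫ s in ρ / 2..ρ, (E2 u K x s - Dr u K x s) / s ^ 2 ≤ 2 * C₃ * τ ^ 2 := by
    have a1 := abs_le.1 (hA ρ hρ hρ1.le)
    have a2 := abs_le.1 (hA (ρ / 2) h2 (by linarith))
    have a3 : (ρ / 2) ^ γ ≤ ρ ^ γ := Real.rpow_le_rpow h2.le hle hγ.le
    have a4 := mul_le_mul_of_nonneg_left a3 hC₃.le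
    rw [hτ2]
    linarith [a1.2, a2.1]
  have hbound : ∫ s in ρ / 2..ρ, ‖(p' s - (p s - x) / s) / s‖ ≤ W * τ := by
    have j1 := hY.1.norm.const_mul (2 / ρ)
    have j2 : IntervalIntegrable (fun _ : ℝ => τ / ρ) volume (ρ / 2) ρ := intervalIntegrable_const
    have j3 : IntervalIntegrable (fun _ : ℝ => 4 * lam * π) volume (ρ / 2) ρ :=
      intervalIntegrable_const
    have j4 := (hi.add j3).const_mul (1 / (2 * τ) + 1)
    have hmono : ∫ s in ρ / 2..ρ, ‖(p' s - (p s - x) / s) / s‖ ≤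
        ∫ s in ρ / 2..ρ, C₁ * (2 / ρ * ‖Yv u K x p' s‖ + τ / ρ +
          (1 / (2 * τ) + 1) * ((E2 u K x s - Dr u K x s) / s ^ 2 + 4 * lam * π)) := by
      refine intervalIntegral.integral_mono_ae_restrict hle
        (hcont.norm.mono (by rw [uIcc_of_le hle])).intervalIntegrable
        (((j1.add j2).add j4).const_mul C₁) ?_
      have hne' : ∀ᵐ s : ℝ, s ≠ ρ := by
        simp [ae_iff]
      refine (ae_restrict_iff' measurableSet_Icc).2 ?_
      filter_upwards [hpre.ae_good hB, hne'] with s hg hsρ hs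
      have hs0 := (hI s hs).1
      have hslt : s < ρ := lt_of_le_of_ne hs.2 hsρ
      obtain ⟨b1, b2, -⟩ := hsm ⟨hs0, hs.2.trans hρr⟩
      rw [div_lt_iff₀ hs0] at b2
      obtain ⟨c1, -, c3⟩ := hP h.1 b1 (hg ⟨hs0, hslt⟩) hR le_rfl (hI s hs) b2.le rfl
      have c4 := tip_pt (by linarith) (norm_nonneg _) hτ0 hρ hs.1 c1 c3
      rw [norm_div, Complex.norm_real, Real.norm_of_nonneg hs0.le]
      refine c4.trans (le_of_eq ?_)
      congr 3
      field_simp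
    rw [intervalIntegral.integral_const_mul, intervalIntegral.integral_add (j1.add j2) j4,
      intervalIntegral.integral_add j1 j2, intervalIntegral.integral_const_mul,
      intervalIntegral.integral_const_mul, intervalIntegral.integral_add hi j3,
      intervalIntegral.integral_const, intervalIntegral.integral_const, smul_eq_mul, smul_eq_mul,
      mul_comm (ρ - ρ / 2), mul_comm (ρ - ρ / 2)] at hmono
    exact hmono.trans (tip_num (by linarith) hC₂.le hC₃.le hl hτ0 hτ1 hρ hρτ hY.2 hI₂)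
  intro a ha b hb z hz hza
  have hzp : z = p a := by
    have : z ∈ K ∩ sphere x a := ⟨hz, by rwa [mem_sphere, dist_eq_norm]⟩
    rw [(hR.2 a (hI a ha)).1] at this
    exact this
  obtain ⟨d1, d2, -⟩ := hR.pt le_rfl (hI b hb)
  refine ⟨p b, d1, d2, ?_⟩
  rw [hzp]
  exact (tip_osc hder hcont ha hb).trans hbound

end Vale.Agent.P128
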