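import Vale.Agent.P128.Rad1
import Vale.Agent.P128.Tip
import Vale.Agent.P128.Fin
import Vale.Agent.P128.Br1

/-!
# P128 Main

Final assembly.
-/

namespace Vale.Agent.P128

open Set Metric MeasureTheory Filter Topology Complex
open scoped ENNReal ContDiff RealInnerProductSpace Gradient Real ComplexConjugate

variable {Ω K L A S T U O X Γ P M₀ K₀ K₁ : Set ℂ} {u v w g hh ψ η : ℂ → ℝ} {G : ℂ → ℂ}
  {π₀ π₁ : ℂ → Set ℂ} {x y z c p q e a₀ F : ℂ} {lam H r s R a b t M Θ ρ ε δ d : ℝ} {n : ℕ}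

theorem loc_of_mm (h : MM Ω lam u K π₀) (hx : x ∈ K) (hΩ : x ∈ Ω) : Loc Ω K x := by
  obtain ⟨n, hB⟩ := blow h hx hΩ
  obtain ⟨κ, ρ, hκ, hκ1, hρ, hT⟩ := tg_near h hΩ hB
  have hn : Ω ∈ 𝓝 x := h.pre.1.mem_nhds hΩ
  by_cases h1 : n = 1
  · subst h1
    obtain ⟨r₀, p, p', hr₀, hR⟩ := rad1 h hΩ hB
    obtain ⟨r, w, γ, hr, hw, hγ, hd⟩ := tip h hΩ (by simpa using hB.2.1) hr₀ hR
    obtain ⟨C, -, hC⟩ := rate hγ
    obtain ⟨e, he⟩ := hC hr hw hd hB.2.2.2.1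
    exact fin hB.1 hx hn hr hγ he hκ hκ1 hρ hT
  · obtain ⟨r, e, w, hr, he⟩ := sr23 h hx hΩ hB h1
    exact fin hB.1 hx hn hr (by norm_num) he hκ hκ1 hρ hT

theorem main (hΩ : IsOpen Ω) (hg : MemLp g ⊤ (volume.restrict Ω)) (h : Minimizer Ω g u G K)
    (hr : Reduced Ω K) (hx : x ∈ K) : Loc Ω K x := by
  obtain ⟨R, lam, v, hR, hb, hm⟩ := br1 hΩ hg h hr hx
  obtain ⟨N, hN, hNs, hl⟩ := loc_of_mm hm ⟨hx, mem_closedBall_self hR.le⟩ (mem_ball_self hR)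
  have he : K ∩ closedBall x R ∩ N = K ∩ N := by
    ext z
    exact ⟨fun hz => ⟨hz.1.1, hz.2⟩, fun hz => ⟨⟨hz.1, ball_subset_closedBall (hNs hz.2)⟩, hz.2⟩⟩
  rw [he] at hl
  exact ⟨N, hN, hNs.trans (ball_subset_closedBall.trans hb), hl⟩

end Vale.Agent.P128
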