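import Vale.Agent.P128.LCon
import Vale.Agent.P128.LMono

/-!
# P128 Mono

Monotonicity. For a.e. `s ≤ R`: `bon` with radius `(2M + 1) s` (from `lcon`, `Join.mono`) or `bon0`
gives `Dr ≤ (Θ/(2π)) E2 + C lam s² (Nn + 2)`; `gr` with `f = E2/s`, `β = 1` resp. `β = 4/3` (`two_gap`);
`∫ Nn ≤ Lr ≤ 8 s` (`Nn_int`, `ub8`), for `β = 4/3` use `dyad` with `α = 1`, `β = 1/3`.
`lmono`: `cone_all` gives `Lr + 2 Dr ≤ s (Nn + 2 E2/s) + Dr + lam s²`.
-/

namespace Vale.Agent.P128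

open Set Metric MeasureTheory Filter Topology Complex
open scoped ENNReal ContDiff RealInnerProductSpace Gradient Real ComplexConjugate

variable {Ω K L A S T U O X Γ P M₀ K₀ K₁ : Set ℂ} {u v w g hh ψ η : ℂ → ℝ} {G : ℂ → ℂ}
  {π₀ π₁ : ℂ → Set ℂ} {x y z c p q e a₀ F : ℂ} {lam H r s R a b t M Θ ρ ε δ d : ℝ} {n : ℕ}

theorem mono_sqrt (u : ℂ → ℝ) (K : Set ℂ) (x : ℂ) (s : ℝ) :
    √(A2 u K x s * B2 u K x s) ≤ E2 u K x s / 2 := by
  obtain ⟨h1, h2⟩ := A2_nonneg u K x s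
  unfold E2
  refine Real.sqrt_le_iff.2 ⟨by positivity, ?_⟩
  nlinarith [sq_nonneg (A2 u K x s - B2 u K x s)]

theorem mono_sub (hM : 1 ≤ M) (hε : 0 < ε) (hMε : (2 * M + 1) * ε ≤ 1) (hA : Adm Ω lam x R ε)
    (hs : 0 ≤ s) (hsR : s ≤ R) : closedBall x ((2 * M + 1) * s) ⊆ Ω := by
  refine (closedBall_subset_closedBall ?_).trans hA.2.1
  rw [le_div_iff₀ hε]
  nlinarith

theorem mono_bon (h : MM Ω lam u K π₀) (hM : 1 ≤ M) (hb : closedBall x ((2 * M + 1) * s) ⊆ Ω)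
    (hL : LCn K (closedBall x R) M) (hsR : s ≤ R) (hg : Good u K x s)
    (hn : (K ∩ sphere x s).Nonempty) (hΘ : MaxGap K x s Θ) :
    Dr u K x s ≤ Θ / (2 * π) * E2 u K x s +
      π * (2 * M + 1) ^ 2 * lam * (s ^ 2 * (Nn K x s + 2)) := by
  have hs := hg.1
  have hl : 0 ≤ lam := h.1.1
  have h1 := bon h.1 hb hg hn (fun p hp q hq => by
    have hp' : ‖p - x‖ = s := mem_sphere_iff_norm.1 hp.2
    have hq' : ‖q - x‖ = s := mem_sphere_iff_norm.1 hq.2
    refine Join.mono (hL p ⟨hp.1, mem_closedBall_iff_norm.2 (hp'.le.trans hsR)⟩ q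
      ⟨hq.1, mem_closedBall_iff_norm.2 (hq'.le.trans hsR)⟩) subset_rfl ?_
    refine closedBall_subset_closedBall' ?_
    have h2 : ‖p - q‖ ≤ 2 * s := by
      have := norm_sub_le (p - x) (q - x)
      rw [show p - x - (q - x) = p - q by ring] at this
      linarith
    rw [dist_eq_norm, hp']
    nlinarith) hΘ
  have hΘ0 := hΘ.pos hs hg.2.1
  have h2 : Θ / π * √(A2 u K x s * B2 u K x s) ≤ Θ / π * (E2 u K x s / 2) := by
    have := Real.pi_pos
    gcongr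
    exact mono_sqrt u K x s
  have h3 : Θ / π * (E2 u K x s / 2) = Θ / (2 * π) * E2 u K x s := by ring
  have h4 : 0 ≤ π * (2 * M + 1) ^ 2 * lam * s ^ 2 := by positivity
  nlinarith

theorem mono_gr {β C : ℝ} (h : Pre Ω u K) (hb : closedBall x b ⊆ Ω) (ha : 0 < a) (hab : a ≤ b)
    (hβ : 0 < β) (hd : ∀ s ∈ Ioo a b, Good u K x s →
      β * Dr u K x s ≤ E2 u K x s + C * (s ^ 2 * (Nn K x s + 2))) :
    Dr u K x a / a ^ β ≤ Dr u K x b / b ^ β +
      C * ∫ s in a..b, ((Nn K x s : ℝ) + 2) / s ^ (β - 1) := by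
  have hN := (Nn_int (h.2.2.2 x b hb).2 h.2.1 ha.le hab le_rfl).1
  have hi : IntervalIntegrable (fun s => C * (s ^ 2 * ((Nn K x s : ℝ) + 2))) volume a b :=
    ((hN.add intervalIntegrable_const).continuousOn_mul (by fun_prop)).const_mul C
  have h1 := gr (F := Dr u K x) (f := fun s => E2 u K x s / s) ha hab hβ
    (h.Dr_sub hb ha.le hab le_rfl).1 hi (fun t ht => (h.Dr_sub hb ha.le ht.1 ht.2).2.le) (by
      filter_upwards [h.ae_good hb] with s hs hs'
      have h0 : 0 < s := ha.trans hs'.1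
      rw [mul_div_cancel₀ _ h0.ne']
      exact hd s hs' (hs ⟨h0, hs'.2⟩))
  refine h1.trans (le_of_eq ?_)
  congr 1
  rw [← intervalIntegral.integral_const_mul]
  refine intervalIntegral.integral_congr fun s hs => ?_
  rw [uIcc_of_le hab] at hs
  have h0 : 0 < s := ha.trans_le hs.1
  have e : s ^ (β + 1) = s ^ 2 * s ^ (β - 1) := by
    rw [← Real.rpow_natCast, ← Real.rpow_add h0]
    congr 1
    push_cast
    ring
  have h2 : 0 < s ^ (β - 1) := Real.rpow_pos_of_pos h0 _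
  simp only [e]
  field_simp

theorem mono_int (h : MM Ω lam u K π₀) (hb : closedBall x b ⊆ Ω) (ha : 0 < a) (hab : a ≤ b)
    (hl : lam * b ≤ 1) : IntervalIntegrable (fun s => (Nn K x s : ℝ) + 2) volume a b ∧
      ∫ s in a..b, ((Nn K x s : ℝ) + 2) ≤ 10 * b := by
  obtain ⟨h1, h2⟩ := Nn_int (h.pre.2.2.2 x b hb).2 h.pre.2.1 ha.le hab le_rfl
  refine ⟨h1.add intervalIntegrable_const, ?_⟩
  rw [intervalIntegral.integral_add h1 intervalIntegrable_const, intervalIntegral.integral_const,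
    smul_eq_mul]
  have h3 := ub8 h (ha.trans_le hab) hb hl
  linarith [Dr_nonneg u K x b, Lr_nonneg K x a]

theorem mono_lam (hM : 1 ≤ M) (hε : 0 < ε) (hMε : (2 * M + 1) * ε ≤ 1) (hA : Adm Ω lam x R ε)
    (hl : 0 ≤ lam) (hb : b ≤ R) : lam * b ≤ 1 := by
  have h1 : ε ≤ 1 := by nlinarith
  have h2 : lam * b ≤ lam * R := by gcongr
  have h3 := hA.2.2
  nlinarith

theorem mono : ∃ ε C : ℝ, 0 < ε ∧ ε ≤ 1 ∧ 0 < C ∧
    ∀ {Ω lam u K π₀ x R}, MM Ω lam u K π₀ → Adm Ω lam x R ε → ∀ a b, 0 < a → a ≤ b → b ≤ R →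
      Dr u K x a / a ≤ Dr u K x b / b + C * lam * b := by
  obtain ⟨M, ε, hM, hε, hMε, H⟩ := lcon
  have hπ := Real.pi_pos
  refine ⟨ε, 10 * (π * (2 * M + 1) ^ 2), hε, by nlinarith, by positivity,
    fun {Ω lam u K π₀ x R} h hA a b ha hab hbR => ?_⟩
  have hl : 0 ≤ lam := h.1.1
  have hb : closedBall x b ⊆ Ω :=
    (closedBall_subset_closedBall (by nlinarith)).trans
      (mono_sub hM hε hMε hA (ha.le.trans hab) hbR)
  have h1 := mono_gr (β := 1) (C := π * (2 * M + 1) ^ 2 * lam) h.pre hb ha hab one_pos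
    (fun s hs hg => by
      have hs0 := hg.1
      have hsR : s ≤ R := hs.2.le.trans hbR
      rw [one_mul]
      rcases (K ∩ sphere x s).eq_empty_or_nonempty with hn | hn
      · have h2 := bon0 h.1 ((closedBall_subset_closedBall hs.2.le).trans hb) hg hn
        have h3 := mono_sqrt u K x s
        obtain ⟨h4, h5⟩ := A2_nonneg u K x s
        have h6 : 0 ≤ E2 u K x s := add_nonneg h4 h5
        have h7 : π * 1 * lam * (s ^ 2 * (0 + 2)) ≤
            π * (2 * M + 1) ^ 2 * lam * (s ^ 2 * (Nn K x s + 2)) := by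
          gcongr
          · nlinarith
          · exact Nat.cast_nonneg _
        linarith
      · have h2 := mono_bon h hM (mono_sub hM hε hMε hA hs0.le hsR) (H h hA) hsR hg hn
          (maxGap_triv K x s)
        rwa [div_self (by positivity), one_mul] at h2)
  simp only [Real.rpow_one, sub_self, Real.rpow_zero, div_one] at h1
  have h2 := (mono_int h hb ha hab (mono_lam hM hε hMε hA hl hbR)).2
  have h3 : π * (2 * M + 1) ^ 2 * lam * ∫ s in a..b, ((Nn K x s : ℝ) + 2) ≤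
      π * (2 * M + 1) ^ 2 * lam * (10 * b) := by gcongr
  linarith

theorem decay : ∃ ε C : ℝ, 0 < ε ∧ ε ≤ 1 ∧ 0 < C ∧
    ∀ {Ω lam u K π₀ x R}, MM Ω lam u K π₀ → Adm Ω lam x R ε → (∀ s, 0 < s → s ≤ R → Two K x s) →
      ∀ a, 0 < a → a ≤ R →
        Dr u K x a ≤ (a / R) ^ (4 / 3 : ℝ) * (Dr u K x R + C * lam * R ^ 2) := by
  obtain ⟨M, ε, hM, hε, hMε, H⟩ := lcon
  have hπ := Real.pi_pos
  have hq : 0 < 1 - (2 : ℝ) ^ (-(1 - (4 / 3 - 1) : ℝ)) :=
    sub_pos.2 (Real.rpow_lt_one_of_one_lt_of_neg (by norm_num) (by norm_num))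
  refine ⟨ε, 4 / 3 * (π * (2 * M + 1) ^ 2) * (20 / (1 - (2 : ℝ) ^ (-(1 - (4 / 3 - 1) : ℝ)))), hε,
    by nlinarith, by positivity, fun {Ω lam u K π₀ x R} h hA hT a ha haR => ?_⟩
  have hl : 0 ≤ lam := h.1.1
  have hR := hA.1
  have hb : closedBall x R ⊆ Ω :=
    (closedBall_subset_closedBall (by nlinarith)).trans (mono_sub hM hε hMε hA hR.le le_rfl)
  have h1 := mono_gr (β := 4 / 3) (C := 4 / 3 * (π * (2 * M + 1) ^ 2) * lam) h.pre hb ha haR
    (by norm_num) (fun s hs hg => by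
      have hs0 := hg.1
      obtain ⟨hn, hΘ⟩ := two_gap hs0 (hT s hs0 hs.2.le)
      have h2 := mono_bon h hM (mono_sub hM hε hMε hA hs0.le hs.2.le) (H h hA) hs.2.le hg hn hΘ
      have e : 3 * π / 2 / (2 * π) = 3 / 4 := by field_simp; norm_num
      rw [e] at h2
      linarith)
  have h2 := dyad (f := fun s => (Nn K x s : ℝ) + 2) (C := 20) (α := 1) (β := 4 / 3 - 1)
    (fun s => by positivity) hR
    (fun a ha haR => (mono_int h hb ha haR (mono_lam hM hε hMε hA hl le_rfl)).1) (by norm_num)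
    (by norm_num) (by norm_num) (fun r hr hrR => by
      have := (mono_int h ((closedBall_subset_closedBall hrR).trans hb) hr (by linarith)
        (mono_lam hM hε hMε hA hl hrR)).2
      rw [Real.rpow_one]
      linarith) ha haR
  set q := 1 - (2 : ℝ) ^ (-(1 - (4 / 3 - 1) : ℝ)) with hqd
  have h3 : 4 / 3 * (π * (2 * M + 1) ^ 2) * lam *
      ∫ s in a..R, ((Nn K x s : ℝ) + 2) / s ^ (4 / 3 - 1 : ℝ) ≤
      4 / 3 * (π * (2 * M + 1) ^ 2) * lam * (20 * R ^ (1 - (4 / 3 - 1) : ℝ) / q) := by gcongr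
  have ha' : 0 < a ^ (4 / 3 : ℝ) := Real.rpow_pos_of_pos ha _
  have hR' : 0 < R ^ (4 / 3 : ℝ) := Real.rpow_pos_of_pos hR _
  have e : R ^ 2 = R ^ (1 - (4 / 3 - 1) : ℝ) * R ^ (4 / 3 : ℝ) := by
    rw [← Real.rpow_add hR, ← Real.rpow_natCast]
    norm_num
  have h4 := h1.trans (add_le_add le_rfl h3)
  rw [div_le_iff₀ ha'] at h4
  refine h4.trans (le_of_eq ?_)
  rw [Real.div_rpow ha.le hR.le, e]
  field_simp

end Vale.Agent.P128
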