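import Vale.Agent.P128.Star

/-!
# P128 Star2

Models seen from one of their points: use `star_len`, `star_len_at`, `star_len_far`, `star_two_move`;
the other rays of a propeller with centre `c` are at distance `≥ (√3/2) ‖y - c‖` from `y`.
-/

namespace Vale.Agent.P128

open Set Metric MeasureTheory Filter Topology Complex
open scoped ENNReal ContDiff RealInnerProductSpace Gradient Real ComplexConjugate

variable {Ω K L A S T U O X Γ P M₀ K₀ K₁ : Set ℂ} {u v w g hh ψ η : ℂ → ℝ} {G : ℂ → ℂ}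
  {π₀ π₁ : ℂ → Set ℂ} {x y z c p q e a₀ F : ℂ} {lam H r s R a b t M Θ ρ ε δ d : ℝ} {n : ℕ}

theorem star2_far {j k : ℕ} {t τ : ℝ} (he : ‖e‖ = 1) (hj : j < 3) (hk : k < 3) (hjk : j ≠ k)
    (ht : 0 ≤ t) (hτ : 0 ≤ τ) : t ≤ ‖(τ : ℂ) * dir 3 e j - t * dir 3 e k‖ := by
  have hi := (dir_sep he le_rfl hj hk hjk).1
  have h1 := dir_norm he 3 j
  have h2 := dir_norm he 3 k
  have e1 : (τ : ℂ) * dir 3 e j = τ • dir 3 e j := by simp
  have e2 : (t : ℂ) * dir 3 e k = t • dir 3 e k := by simp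
  have hsq : ‖(τ : ℂ) * dir 3 e j - t * dir 3 e k‖ ^ 2
      = τ ^ 2 - 2 * (τ * t * ⟪dir 3 e j, dir 3 e k⟫) + t ^ 2 := by
    rw [e1, e2, norm_sub_sq_real, real_inner_smul_left, real_inner_smul_right, norm_smul, norm_smul,
      h1, h2, Real.norm_eq_abs, Real.norm_eq_abs, mul_one, mul_one, sq_abs, sq_abs]
    ring
  have hm : 0 ≤ τ * t := mul_nonneg hτ ht
  refine abs_le_of_sq_le_sq' ?_ (norm_nonneg _) |>.2
  rw [hsq]
  nlinarith [sq_nonneg τ]

theorem mdl_hom {l : ℝ} (h : Mdl M₀) (hy : y ∈ M₀) (hL : ∀ s, 0 < s → Lr M₀ y s = l * s) :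
    ∃ (n : ℕ) (e : ℂ), (n = 2 ∨ n = 3) ∧ ‖e‖ = 1 ∧ l = n ∧ M₀ = star n y e := by
  obtain ⟨c, e, he, rfl | rfl⟩ := h
  · refine ⟨2, e, Or.inl rfl, he, ?_, (star_two_move hy).symm⟩
    have h1 := hL 1 one_pos
    rw [← star_two_move hy, (star_len he (by norm_num) y zero_le_one).1] at h1
    linarith
  · by_cases hyc : y = c
    · subst hyc
      refine ⟨3, e, Or.inr rfl, he, ?_, rfl⟩
      have h1 := hL 1 one_pos
      rw [(star_len he le_rfl y zero_le_one).1] at h1
      linarith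
    · exfalso
      have hd : 0 < ‖y - c‖ := norm_pos_iff.2 (sub_ne_zero.2 hyc)
      have h1 := hL (‖y - c‖ / 2) (by positivity)
      rw [(star_len_at he le_rfl hy (by positivity) (by linarith)).1] at h1
      have hl : l = 2 := by
        have : (l - 2) * ‖y - c‖ = 0 := by linarith
        rcases mul_eq_zero.1 this with h | h
        · linarith
        · exact absurd h hd.ne'
      have h2 := hL (4 * ‖y - c‖) (by positivity)
      have h3 := (star_len_far (n := 3) he le_rfl c y (s := 4 * ‖y - c‖) (by linarith)).1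
      rw [h2, hl] at h3
      push_cast at h3
      linarith

theorem mdl_line (h : Mdl M₀) (hy : y ∈ M₀) (hr : 0 < r) (hL : Lr M₀ y (100 * r) ≤ 251 * r) :
    ∃ e : ℂ, ‖e‖ = 1 ∧ M₀ ∩ closedBall y (3 * r) = star 2 y e ∩ closedBall y (3 * r) := by
  obtain ⟨c, e, he, rfl | rfl⟩ := h
  · exact ⟨e, he, by rw [star_two_move hy]⟩
  · have hd : 16 * r ≤ ‖y - c‖ := by
      by_cases h100 : ‖y - c‖ ≤ 100 * r
      · have h3 := (star_len_far (n := 3) he le_rfl c y h100).1
        push_cast at h3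
        linarith
      · linarith [not_le.1 h100]
    obtain ⟨k, hk, t, ht, rfl⟩ := hy
    have hn := dir_norm he 3 k
    have htn : ‖c + (t : ℂ) * dir 3 e k - c‖ = t := by
      rw [add_sub_cancel_left, norm_mul, hn, mul_one, Complex.norm_real, Real.norm_of_nonneg ht]
    rw [htn] at hd
    refine ⟨dir 3 e k, hn, ?_⟩
    rw [star_two]
    ext z
    simp only [mem_inter_iff, mem_ofPred_eq, mem_closedBall, dist_eq_norm]
    constructor
    · rintro ⟨⟨j, hj, τ, hτ, rfl⟩, hz⟩
      refine ⟨?_, hz⟩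
      by_cases hjk : j = k
      · subst hjk
        exact ⟨τ - t, by push_cast; ring⟩
      · exfalso
        have h1 := star2_far he hj hk hjk ht hτ
        rw [add_sub_add_left_eq_sub] at hz
        linarith
    · rintro ⟨⟨τ, rfl⟩, hz⟩
      refine ⟨⟨k, hk, t + τ, ?_, by push_cast; ring⟩, hz⟩
      rw [add_sub_cancel_left, norm_mul, hn, mul_one, Complex.norm_real, Real.norm_eq_abs] at hz
      linarith [(abs_le.1 hz).1]

end Vale.Agent.P128
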