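import Vale.Agent.P128.Mono
import Vale.Agent.P128.Geo
import Vale.Agent.P128.Star2
import Vale.Agent.P128.Adm

/-!
# P128 NearM

Quiet points are close to a model. `nearM` by contradiction with `ε_j = 1/(j + 1)`: rescale at `y` by `ρ`
(`sq_scale`, `cpt`), the limit is flat (`gK_zero`), contains `0`, so it is a model (`g2`); unscale
(`Mdl.unscale`, `near_scale`, `Lr_scale`). `two`: `nearM`, `lcon`, `two_of_near`. `star2`: `mdl_line`.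
`qdecay`: `two` at all smaller radii and `decay`. `quiet_of`: `mono` at the radius `ε₀ b`, `κ = ε ε₀`.
-/

namespace Vale.Agent.P128

open Set Metric MeasureTheory Filter Topology Complex
open scoped ENNReal ContDiff RealInnerProductSpace Gradient Real ComplexConjugate

variable {Ω K L A S T U O X Γ P M₀ K₀ K₁ : Set ℂ} {u v w g hh ψ η : ℂ → ℝ} {G : ℂ → ℂ}
  {π₀ π₁ : ℂ → Set ℂ} {x y z c p q e a₀ F : ℂ} {lam H r s R a b t M Θ ρ ε δ d : ℝ} {n : ℕ}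

theorem nearM {η : ℝ} (hη : 0 < η) : ∃ ε : ℝ, 0 < ε ∧ ∀ {Ω lam u K π₀ y ρ}, MM Ω lam u K π₀ → y ∈ K →
    Quiet Ω lam u K y ρ ε → ∃ M₀, Mdl M₀ ∧ y ∈ M₀ ∧ Near η y ρ K M₀ ∧
      Lr M₀ y (100 * ρ) ≤ Lr K y (100 * ρ) + ρ := by
  by_contra hcon
  have H : ∀ j : ℕ, ∃ (Ω : Set ℂ) (lam : ℝ) (u : ℂ → ℝ) (K : Set ℂ) (π₀ : ℂ → Set ℂ) (y : ℂ)
      (ρ : ℝ), MM Ω lam u K π₀ ∧ y ∈ K ∧ Quiet Ω lam u K y ρ (1 / ((j : ℝ) + 1)) ∧
        ¬ ∃ M₀, Mdl M₀ ∧ y ∈ M₀ ∧ Near η y ρ K M₀ ∧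
          Lr M₀ y (100 * ρ) ≤ Lr K y (100 * ρ) + ρ := by
    intro j
    by_contra h
    refine hcon ⟨1 / ((j : ℝ) + 1), by positivity, fun {Ω lam u K π₀ y ρ} h1 h2 h3 => ?_⟩
    by_contra h4
    exact h ⟨Ω, lam, u, K, π₀, y, ρ, h1, h2, h3, h4⟩
  choose Ω lam u K π₀ y ρ hM hy hQ hN using H
  have hρ : ∀ j, 0 < ρ j := fun j => (hQ j).1.1
  have hT : Tendsto (fun j : ℕ => (j : ℝ) + 1) atTop atTop :=
    tendsto_atTop_add_const_right _ 1 tendsto_natCast_atTop_atTop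
  have hε : Tendsto (fun j : ℕ => 1 / ((j : ℝ) + 1)) atTop (𝓝 0) :=
    tendsto_one_div_add_atTop_nhds_zero_nat
  have hdiv : ∀ j : ℕ, ρ j / (1 / ((j : ℝ) + 1)) = ((j : ℝ) + 1) * ρ j := fun j => by
    field_simp
  have hS := sq_scale hM (x := y) hρ hT
    (Eventually.of_forall fun j => by rw [← hdiv]; exact (hQ j).1.2.1) (by
      have h2 := hε.pow 2
      rw [zero_pow two_ne_zero] at h2
      exact squeeze_zero (fun j => mul_nonneg (hM j).1.1 (hρ j).le) (fun j => (hQ j).1.2.2) h2)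
  obtain ⟨φ, hφ, u₀, K₀, h0, hHC, hD, hL⟩ := cpt hS
  have hρc : ∀ j, (ρ j : ℂ) ≠ 0 := fun j => Complex.ofReal_ne_zero.2 (hρ j).ne'
  have hnorm : ∀ j, ‖(ρ j : ℂ)‖ = ρ j := fun j => by
    rw [Complex.norm_real, Real.norm_eq_abs, abs_of_pos (hρ j)]
  have hflat : ∀ r, 0 < r → Dr u₀ K₀ 0 r = 0 := by
    intro r hr
    refine le_antisymm ?_ (Dr_nonneg _ _ _ _)
    have h1 := (hε.comp hφ.tendsto_atTop).mul_const r
    rw [zero_mul] at h1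
    refine le_of_tendsto_of_tendsto (hD 0 r) h1 ?_
    filter_upwards [(hT.comp hφ.tendsto_atTop).eventually_ge_atTop r] with j hj
    simp only [Function.comp] at hj ⊢
    rw [Dr_scale (hρc _), hnorm, mul_zero, add_zero, div_le_iff₀ (hρ _)]
    have := (hQ (φ j)).2 (ρ (φ j) * r) (mul_pos (hρ _) hr) (by
      rw [hdiv, mul_comm]
      exact mul_le_mul_of_nonneg_right hj (hρ _).le)
    linarith
  have h00 : (0 : ℂ) ∈ K₀ := hHC.mem h0.pre.2.1 (y := fun _ => 0)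
    (Eventually.of_forall fun j => by simpa [sc] using hy (φ j)) tendsto_const_nhds
  have hMd := g2 h0 (gK_zero h0.pre hflat) ⟨0, h00⟩
  obtain ⟨j, ⟨h1, h2⟩, h3, -⟩ := ((hHC 2 η hη).and (hL 0 100 1 one_pos)).exists
  obtain ⟨M₁, hM₁, e⟩ := hMd.unscale (hρ (φ j)) (y (φ j))
  refine hN (φ j) ⟨M₁, hM₁, ?_, ?_, ?_⟩
  · rw [← e] at h00
    simpa [sc] using h00
  · rw [← near_scale (hρ _), e]
    refine ⟨fun z hz => ?_, fun w hw => ?_⟩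
    · simpa using h2 z (by simpa using hz)
    · simpa using h1 w (by simpa using hw)
  · rw [← e, Lr_scale (hρc _), Lr_scale (hρc _), hnorm, mul_zero, add_zero, mul_comm,
      sub_le_iff_le_add, div_add_one (hρ _).ne', div_le_div_iff_of_pos_right (hρ _)] at h3
    exact h3

theorem two : ∃ ε : ℝ, 0 < ε ∧ ∀ {Ω lam u K π₀ y ρ}, MM Ω lam u K π₀ → y ∈ K →
    Quiet Ω lam u K y ρ ε → Two K y ρ := by
  obtain ⟨M, ε₁, hM, hε₁, -, H₁⟩ := lcon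
  have hη : 0 < 1 / (1000 * (M + 1)) := by positivity
  obtain ⟨ε₂, hε₂, H₂⟩ := nearM hη
  refine ⟨min ε₂ (ε₁ / 3), lt_min hε₂ (by positivity), fun {Ω lam u K π₀ y ρ} h hy hQ => ?_⟩
  have hε : 0 < min ε₂ (ε₁ / 3) := lt_min hε₂ (by positivity)
  have h3 := min_le_right ε₂ (ε₁ / 3)
  have hρ := hQ.1.1
  obtain ⟨M₀, hm, hy0, hN, -⟩ := H₂ h hy (hQ.mono h.1.1 hε (min_le_left _ _) hρ le_rfl)
  have hA : Adm Ω lam y (3 * ρ) ε₁ := hQ.1.mono h.1.1 hε hε₁ (by positivity)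
    (by rw [div_le_div_iff₀ hε₁ hε]; nlinarith)
    (by
      have h1 := hQ.1.2.2
      have h2 : min ε₂ (ε₁ / 3) ^ 2 ≤ (ε₁ / 3) ^ 2 := by gcongr
      nlinarith)
  refine two_of_near (by linarith) hη (le_of_eq ?_) hρ hm hy0 hN (H₁ h hA)
  field_simp

theorem star2 {η : ℝ} (hη : 0 < η) : ∃ ε : ℝ, 0 < ε ∧ ∀ {Ω lam u K π₀ y ρ}, MM Ω lam u K π₀ → y ∈ K →
    Quiet Ω lam u K y ρ ε → Lr K y (100 * ρ) ≤ 250 * ρ →
      ∃ e, ‖e‖ = 1 ∧ Near η y ρ K (star 2 y e) := by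
  obtain ⟨ε, hε, H⟩ := nearM (lt_min hη one_pos)
  refine ⟨ε, hε, fun {Ω lam u K π₀ y ρ} h hy hQ hL => ?_⟩
  have hρ := hQ.1.1
  obtain ⟨M₀, hm, hy0, hN, hL'⟩ := H h hy hQ
  obtain ⟨e, he, hE⟩ := mdl_line hm hy0 hρ (by linarith)
  refine ⟨e, he, Near.mono (η := min η 1) ⟨fun z hz => ?_, fun w hw => ?_⟩ hρ.le (min_le_left _ _)⟩
  · obtain ⟨w, hw, hzw⟩ := hN.1 z hz
    have h1 : min η 1 * ρ ≤ 1 * ρ := by gcongr; exact min_le_right _ _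
    have h2 : w ∈ M₀ ∩ closedBall y (3 * ρ) := ⟨hw, by
      have h3 := mem_closedBall_iff_norm.1 hz.2
      have h4 := norm_sub_le (z - y) (z - w)
      rw [show z - y - (z - w) = w - y by ring] at h4
      exact mem_closedBall_iff_norm.2 (by linarith)⟩
    rw [hE] at h2
    exact ⟨w, h2.1, hzw⟩
  · have h2 : w ∈ star 2 y e ∩ closedBall y (3 * ρ) :=
      ⟨hw.1, closedBall_subset_closedBall (by linarith) hw.2⟩
    rw [← hE] at h2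
    exact hN.2 w ⟨h2.1, hw.2⟩

theorem qdecay : ∃ ε₀ C : ℝ, 0 < ε₀ ∧ ε₀ ≤ 1 ∧ 0 < C ∧ ∀ {Ω lam u K π₀ y R ε}, 0 < ε → ε ≤ ε₀ →
    MM Ω lam u K π₀ → y ∈ K → Quiet Ω lam u K y R ε → ∀ ρ, 0 < ρ → ρ ≤ R →
      Dr u K y ρ ≤ C * ε * (ρ / R) ^ (1 / 3 : ℝ) * ρ := by
  obtain ⟨ε₁, hε₁, H₁⟩ := two
  obtain ⟨ε₂, C, hε₂, hε₂1, hC, H₂⟩ := decay
  refine ⟨min ε₁ ε₂, 1 + C, lt_min hε₁ hε₂, (min_le_right _ _).trans hε₂1, by positivity,
    fun {Ω lam u K π₀ y R ε} hε hε0 h hy hQ ρ hρ hρR => ?_⟩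
  have hR := hQ.1.1
  have hl : 0 ≤ lam := h.1.1
  have h1 : ε ≤ 1 := hε0.trans ((min_le_right _ _).trans hε₂1)
  have h2 := H₂ h (hQ.mono hl hε (hε0.trans (min_le_right _ _)) hR le_rfl).1
    (fun s hs hsR => H₁ h hy (hQ.mono hl hε (hε0.trans (min_le_left _ _)) hs hsR)) ρ hρ hρR
  have h3 := hQ.2 R hR (by rw [le_div_iff₀ hε]; nlinarith)
  have h4 : lam * R ≤ ε := hQ.1.2.2.trans (by nlinarith)
  have h5 : C * lam * R ^ 2 ≤ C * ε * R := by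
    calc C * lam * R ^ 2 = C * (lam * R) * R := by ring
      _ ≤ C * ε * R := by gcongr
  have hq : 0 < ρ / R := div_pos hρ hR
  have e : (ρ / R) ^ (4 / 3 : ℝ) = (ρ / R) ^ (1 / 3 : ℝ) * (ρ / R) := by
    rw [← Real.rpow_add_one hq.ne']
    norm_num
  have h6 : 0 ≤ (ρ / R) ^ (4 / 3 : ℝ) := by positivity
  calc Dr u K y ρ ≤ (ρ / R) ^ (4 / 3 : ℝ) * (ε * R + C * ε * R) := h2.trans (by gcongr)
    _ = (1 + C) * ε * (ρ / R) ^ (1 / 3 : ℝ) * ρ := by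
      rw [e]
      field_simp

theorem quiet_of (hε : 0 < ε) (hε1 : ε ≤ 1) : ∃ δ κ : ℝ, 0 < δ ∧ 0 < κ ∧ κ ≤ 1 ∧
    ∀ {Ω lam u K π₀ y b}, MM Ω lam u K π₀ → 0 < b → closedBall y b ⊆ Ω → lam * b ≤ δ →
      Dr u K y b ≤ δ * b → Quiet Ω lam u K y (κ * b) ε := by
  obtain ⟨ε₀, C, hε₀, hε₀1, hC, H⟩ := mono
  obtain ⟨δ, hδ⟩ : ∃ δ : ℝ, δ = ε * ε₀ / (1 + C) := ⟨_, rfl⟩
  have hδ0 : 0 < δ := by rw [hδ]; positivity
  have hδ1 : δ * (1 + C) = ε * ε₀ := by rw [hδ]; field_simp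
  have hδC : 0 < δ * C := by positivity
  have hδ2 : δ ≤ ε * ε₀ := by linarith
  refine ⟨δ, ε * ε₀, hδ0, by positivity, by nlinarith,
    fun {Ω lam u K π₀ y b} h hb hΩ hl hD => ?_⟩
  have hl0 : 0 ≤ lam := h.1.1
  have e1 : ε * ε₀ * b / ε = ε₀ * b := by field_simp
  have e2 : ε₀ * b / ε₀ = b := by field_simp
  have hb1 : ε₀ * b ≤ b := by nlinarith
  have hA : Adm Ω lam y (ε₀ * b) ε₀ := by
    refine ⟨by positivity, by rwa [e2], ?_⟩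
    have h1 : δ ≤ ε₀ := hδ2.trans (by nlinarith)
    calc lam * (ε₀ * b) = ε₀ * (lam * b) := by ring
      _ ≤ ε₀ * ε₀ := by gcongr; exact hl.trans h1
      _ = ε₀ ^ 2 := by ring
  refine ⟨⟨by positivity, ?_, ?_⟩, fun ρ hρ hρb => ?_⟩
  · rw [e1]
    exact (closedBall_subset_closedBall hb1).trans hΩ
  · have h1 : δ ≤ ε := hδ2.trans (by nlinarith)
    calc lam * (ε * ε₀ * b) = ε * ε₀ * (lam * b) := by ring
      _ ≤ ε * 1 * ε := by gcongr; exact hl.trans h1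
      _ = ε ^ 2 := by ring
  · rw [e1] at hρb
    have h1 := H h hA ρ (ε₀ * b) hρ hρb le_rfl
    have h2 : Dr u K y (ε₀ * b) ≤ Dr u K y b :=
      h.pre.Dr_mono hΩ (ball_subset_closedBall.trans (closedBall_subset_closedBall hb1))
    have h3 : Dr u K y (ε₀ * b) / (ε₀ * b) ≤ δ / ε₀ := by
      rw [div_le_div_iff₀ (by positivity) hε₀]
      nlinarith
    have h4 : C * lam * (ε₀ * b) ≤ C * (δ / ε₀) := by
      have h5 : δ ≤ δ / ε₀ := by rw [le_div_iff₀ hε₀]; nlinarith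
      calc C * lam * (ε₀ * b) ≤ C * lam * b := by gcongr
        _ = C * (lam * b) := by ring
        _ ≤ C * (δ / ε₀) := by gcongr; exact hl.trans h5
    have h6 : δ / ε₀ + C * (δ / ε₀) = ε := by
      rw [hδ]; field_simp
    rw [← div_le_iff₀ hρ]
    linarith

end Vale.Agent.P128
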