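import Vale.Agent.P128.Uni
import Vale.Agent.P128.Basic
import Vale.Agent.P071.Weyl

/-!
# P128 Rem

Removability. Let `B = ball a₀ ρ`. For smooth `φ` supported in `B`, the hypothesis for `φ_x` (real
part) and `φ_y` (imaginary part) gives `∫ u Δφ = -∫ ⟪∇u, ∇φ⟫ = 0` (`NP.el0`), so by
`Vale.Agent.P071.weyl` `u` equals a smooth `k` a.e. on `B`, hence on `B \ A`. Competitor in a large ball:
crack `(A ∪ K₁) \ ball a₀ (ρ/2)`, function `k` on `B`, `u` elsewhere, labels from `uni`. The Dirichlet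
energy is unchanged (`A` is null) and the length drops by a positive amount.
-/

namespace Vale.Agent.P128

open Set Metric MeasureTheory Filter Topology Complex
open scoped ENNReal ContDiff RealInnerProductSpace Gradient Real ComplexConjugate

variable {Ω K L A S T U O X Γ P M₀ K₀ K₁ : Set ℂ} {u v w g hh ψ η : ℂ → ℝ} {G : ℂ → ℂ}
  {π₀ π₁ : ℂ → Set ℂ} {x y z c p q e a₀ F : ℂ} {lam H r s R a b t M Θ ρ ε δ d : ℝ} {n : ℕ}

theorem rem_ae (h : Pre univ u K) : ∀ᵐ z : ℂ, z ∉ K := by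
  have := h.null
  rw [inter_univ] at this
  exact measure_eq_zero_iff_ae_notMem.1 this

theorem rem_int (h : Pre univ u (A ∪ K₁)) (hB : Disjoint (ball a₀ ρ) K₁)
    (hM : ∀ z ∈ ball a₀ ρ \ A, |u z| ≤ M) :
    ContinuousOn u (ball a₀ ρ \ A) ∧ IsOpen (ball a₀ ρ \ A) ∧ IntegrableOn u (ball a₀ ρ) := by
  have hs : ball a₀ ρ \ A = ball a₀ ρ ∩ (univ \ (A ∪ K₁)) := by
    ext z
    constructor
    · rintro ⟨h1, h2⟩
      exact ⟨h1, trivial, fun hh => hh.elim h2 (Set.disjoint_left.1 hB h1)⟩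
    · rintro ⟨h1, _, h2⟩
      exact ⟨h1, fun hh => h2 (Or.inl hh)⟩
  have hc : ContinuousOn u (ball a₀ ρ \ A) :=
    h.2.2.1.continuousOn.mono (by rw [hs]; exact inter_subset_right)
  have ho : IsOpen (ball a₀ ρ \ A) := by
    rw [hs]
    exact isOpen_ball.inter h.isOpen
  refine ⟨hc, ho, ?_⟩
  have h1 : IntegrableOn u (ball a₀ ρ \ A) := by
    refine ⟨hc.aestronglyMeasurable ho.measurableSet, ?_⟩
    have : IsFiniteMeasure (volume.restrict (ball a₀ ρ \ A)) :=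
      isFiniteMeasure_restrict.2 ((measure_mono sdiff_subset).trans_lt measure_ball_lt_top).ne
    refine HasFiniteIntegral.of_bounded (C := M) ?_
    filter_upwards [ae_restrict_mem ho.measurableSet] with z hz
    exact hM z hz
  refine h1.congr_set_ae ?_
  filter_upwards [rem_ae h] with z hz
  exact propext ⟨fun h2 => ⟨h2, fun hh => hz (Or.inl hh)⟩, fun h2 => h2.1⟩

theorem rem_dir (h : Pre univ u (A ∪ K₁)) (hu : IntegrableOn u (ball a₀ ρ))
    (hη : ContDiff ℝ ∞ η) (hc : HasCompactSupport η) (hs : tsupport η ⊆ ball a₀ ρ)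
    (h0 : ∫ z, gK A (fun w => u w * η w) z = 0) (e : ℂ) :
    Integrable (fun z => u z * fderiv ℝ η z e) ∧
      Integrable (fun z => η z * ⟪gK (A ∪ K₁) u z, e⟫) ∧
      ∫ z, u z * fderiv ℝ η z e = -∫ z, η z * ⟪gK (A ∪ K₁) u z, e⟫ := by
  have hd : Differentiable ℝ η := hη.differentiable (by simp)
  have hsb : tsupport η ⊆ closedBall a₀ ρ := hs.trans ball_subset_closedBall
  have cg : Continuous (∇ η) := by
    have : Continuous (fderiv ℝ η) := hη.continuous_fderiv (by simp)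
    have e1 : ∇ η = fun z => ((fderiv ℝ η z 1 : ℝ) : ℂ) + I * (fderiv ℝ η z I : ℝ) :=
      funext fun z => grad_eq η z
    rw [e1]
    fun_prop
  have i1 : Integrable fun z => (u z : ℂ) * ∇ η z := by
    have a1 : IntegrableOn (fun z => (u z : ℂ)) (tsupport η) := (hu.mono_set hs).ofReal
    refine (a1.mul_continuousOn cg.continuousOn hc).integrable_of_forall_notMem_eq_zero ?_
    intro z hz
    have : fderiv ℝ η z = 0 := by
      by_contra hne
      exact hz (support_fderiv_subset ℝ hne)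
    rw [grad_eq, this]
    simp
  have i2 : Integrable fun z => (η z : ℂ) * gK (A ∪ K₁) u z := by
    have a1 := (intOn_of_Dn h.2.1 (h.2.2.2 a₀ ρ (subset_univ _)).1).2
    have : IsFiniteMeasure (volume.restrict (closedBall a₀ ρ)) :=
      isFiniteMeasure_restrict.2 measure_closedBall_lt_top.ne
    have a2 : IntegrableOn (gK (A ∪ K₁) u) (closedBall a₀ ρ) := a1.integrable one_le_two
    have a3 : Continuous fun z => (η z : ℂ) := Complex.continuous_ofReal.comp hη.continuous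
    refine (IntegrableOn.continuousOn_mul a3.continuousOn (a2.mono_set hsb)
      hc).integrable_of_forall_notMem_eq_zero ?_
    intro z hz
    rw [image_eq_zero_of_notMem_tsupport hz]
    simp
  have e1 : ∀ z, ⟪e, (u z : ℂ) * ∇ η z⟫ = u z * fderiv ℝ η z e := by
    intro z
    rw [← inner_grad, real_inner_comm, ← Complex.real_smul, real_inner_smul_left]
  have e2 : ∀ z, ⟪e, (η z : ℂ) * gK (A ∪ K₁) u z⟫ = η z * ⟪gK (A ∪ K₁) u z, e⟫ := by
    intro z
    rw [real_inner_comm, ← Complex.real_smul, real_inner_smul_left]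
  have j1 := i1.const_inner (𝕜 := ℝ) e
  have j2 := i2.const_inner (𝕜 := ℝ) e
  have k1 := integral_inner (𝕜 := ℝ) i1 e
  have k2 := integral_inner (𝕜 := ℝ) i2 e
  simp only [e1] at j1 k1
  simp only [e2] at j2 k2
  refine ⟨j1, j2, ?_⟩
  have k3 : ∫ z, gK A (fun w => u w * η w) z =
      ∫ z, ((u z : ℂ) * ∇ η z + (η z : ℂ) * gK (A ∪ K₁) u z) := by
    refine integral_congr_ae ?_
    filter_upwards [rem_ae h] with z hz
    rw [gK_of_notMem _ (fun hh => hz (Or.inl hh)), gK_of_notMem _ hz,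
      grad_mul (h.diff ⟨trivial, hz⟩) (hd z)]
  rw [h0, integral_add i1 i2] at k3
  rw [k1, k2, eq_neg_iff_add_eq_zero, ← inner_add_right, ← k3, inner_zero_right]

theorem rem_weak (h : NP univ 0 u (A ∪ K₁)) (hu : IntegrableOn u (ball a₀ ρ))
    (h0 : ∀ η : ℂ → ℝ, ContDiff ℝ ∞ η → tsupport η ⊆ ball a₀ ρ →
      ∫ z, gK A (fun w => u w * η w) z = 0)
    (hψ : ContDiff ℝ ∞ ψ) (hc : HasCompactSupport ψ) (hs : tsupport ψ ⊆ ball a₀ ρ) :
    ∫ z in ball a₀ ρ, u z * (P071.lap ψ z + 0 * ψ z) = 0 := by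
  have hsub : ∀ e : ℂ, tsupport (fun y => fderiv ℝ ψ y e) ⊆ tsupport ψ := fun e =>
    tsupport_fderiv_apply_subset ℝ e
  have key := fun e : ℂ => rem_dir h.pre hu (P071.weyl_contDiff_dir hψ e)
    (hc.fderiv_apply ℝ e) ((hsub e).trans hs)
    (h0 _ (P071.weyl_contDiff_dir hψ e) ((hsub e).trans hs)) e
  obtain ⟨a1, a2, a3⟩ := key 1
  obtain ⟨b1, b2, b3⟩ := key I
  have el := h.el0 (test_of_contDiff (K := A ∪ K₁) (hψ.of_le (by simp)) (subset_univ (closedBall a₀ ρ))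
    fun z hz => image_eq_zero_of_notMem_tsupport fun hh => hz (ball_subset_closedBall (hs hh)))
  have e1 : ∀ z, ⟪gK (A ∪ K₁) u z, gK (A ∪ K₁) ψ z⟫ =
      fderiv ℝ ψ z 1 * ⟪gK (A ∪ K₁) u z, 1⟫ + fderiv ℝ ψ z I * ⟪gK (A ∪ K₁) u z, I⟫ := by
    intro z
    by_cases hz : z ∈ A ∪ K₁
    · simp [gK_of_mem _ hz]
    · rw [gK_of_notMem ψ hz, grad_eq ψ z, ← real_inner_smul_right, ← real_inner_smul_right,
        ← inner_add_right]
      congr 1
      simp only [Complex.real_smul]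
      ring
  simp only [e1] at el
  rw [integral_add a2 b2] at el
  have e2 : ∀ z, u z * (P071.lap ψ z + 0 * ψ z) =
      u z * fderiv ℝ (fun y => fderiv ℝ ψ y 1) z 1 + u z * fderiv ℝ (fun y => fderiv ℝ ψ y I) z I := by
    intro z
    rw [zero_mul, add_zero, ← mul_add]
    rfl
  simp only [e2]
  rw [setIntegral_eq_integral_of_forall_compl_eq_zero, integral_add a1 b1]
  · linarith
  · intro z hz
    have : ∀ e : ℂ, fderiv ℝ (fun y => fderiv ℝ ψ y e) z = 0 := by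
      intro e
      by_contra hne
      exact hz (hs (hsub e (support_fderiv_subset ℝ hne)))
    simp [this]

theorem rem (h : MM univ 0 u (A ∪ K₁) π₀) (hA : IsCompact A) (hK : IsClosed K₁)
    (hd : Disjoint A K₁) (ha : a₀ ∈ A) (hρ : 0 < ρ) (hB : Disjoint (ball a₀ ρ) K₁)
    (hM : ∀ z ∈ ball a₀ ρ \ A, |u z| ≤ M)
    (h0 : ∀ η : ℂ → ℝ, ContDiff ℝ ∞ η → tsupport η ⊆ ball a₀ ρ →
      ∫ z, gK A (fun w => u w * η w) z = 0) : False := by
  classical
  have hpre := h.pre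
  obtain ⟨hc, ho, hu⟩ := rem_int hpre hB hM
  obtain ⟨k, hk, hae, _⟩ := P071.weyl (U := ball a₀ ρ) isOpen_ball (le_refl (0 : ℝ))
    hu.locallyIntegrableOn fun φ h1 h2 h3 => rem_weak h.1 hu h0 h1 h2 h3
  have heq : EqOn u k (ball a₀ ρ \ A) :=
    Measure.eqOn_open_of_ae_eq (ae_restrict_of_ae_restrict_of_subset sdiff_subset hae) ho hc
      (hk.continuousOn.mono sdiff_subset)
  obtain ⟨R0, hR0, hA0⟩ := hA.isBounded.subset_closedBall_lt 0 (0 : ℂ)
  have hbR : ball a₀ ρ ⊆ closedBall 0 (R0 + ρ) := by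
    intro z hz
    have h1 := mem_closedBall.1 (hA0 ha)
    have h2 := mem_ball.1 hz
    rw [mem_closedBall]
    linarith [dist_triangle z a₀ 0]
  have hb2 : ball a₀ (ρ / 2) ⊆ ball a₀ ρ := ball_subset_ball (by linarith)
  have hlc : LC (A ∪ K₁)ᶜ π₀ := by
    rw [compl_eq_univ_sdiff]
    exact h.2.1
  obtain ⟨σ₁, hσ1, hσ2⟩ := uni (R := R0 + ρ) hA hK hd hlc
    (hA0.trans (closedBall_subset_closedBall (by linarith)))
  set w : ℂ → ℝ := fun z => if z ∈ ball a₀ ρ then k z else u z with hw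
  have hwu : ∀ z, z ∉ A ∪ K₁ → w z = u z := by
    intro z hz
    by_cases h1 : z ∈ ball a₀ ρ
    · simp only [hw, if_pos h1]
      exact (heq ⟨h1, fun hh => hz (Or.inl hh)⟩).symm
    · simp only [hw, if_neg h1]
  have hev : ∀ z, z ∉ A ∪ K₁ → w =ᶠ[𝓝 z] u := fun z hz => by
    filter_upwards [hpre.2.1.isOpen_compl.mem_nhds hz] with y hy using hwu y hy
  have hLc : IsClosed ((A ∪ K₁) \ ball a₀ (ρ / 2)) := hpre.2.1.sdiff isOpen_ball
  have hcomp : Comp univ u (A ∪ K₁) π₀ 0 (R0 + ρ) w ((A ∪ K₁) \ ball a₀ (ρ / 2)) σ₁ := by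
    refine ⟨hLc, lip_of_contDiffOn (isOpen_univ.sdiff hLc) fun z hz => ?_,
      hσ1.mono fun z hz hh => ?_, fun z hz => ?_, fun z hz hz' => ⟨hwu z hz.2, ?_⟩⟩
    · refine ContDiffAt.contDiffWithinAt ?_
      by_cases h1 : z ∈ ball a₀ ρ
      · refine ((hk.contDiffAt (isOpen_ball.mem_nhds h1)).of_le (by simp)).congr_of_eventuallyEq ?_
        filter_upwards [isOpen_ball.mem_nhds h1] with y hy
        simp only [hw, if_pos hy]
      · have h2 : z ∉ A ∪ K₁ := fun hh => hz.2 ⟨hh, fun h3 => h1 (hb2 h3)⟩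
        exact (hpre.2.2.1.contDiffAt (hpre.isOpen.mem_nhds ⟨trivial, h2⟩)).congr_of_eventuallyEq
          (hev z h2)
    · exact hz.2 ⟨Or.inr hh, fun h3 => Set.disjoint_left.1 hB (hb2 h3) hh⟩
    · exact ⟨fun hh => hh.1, fun hh => ⟨hh, fun h3 => hz (hbR (hb2 h3))⟩⟩
    · exact hσ2 z (fun hh => hz.2 (Or.inr hh)) hz'
  have hE := h.2.2.2 0 (R0 + ρ) w _ σ₁ (by linarith) (subset_univ _) hcomp
  have hD : Dn w ((A ∪ K₁) \ ball a₀ (ρ / 2)) (closedBall 0 (R0 + ρ)) =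
      Dn u (A ∪ K₁) (closedBall 0 (R0 + ρ)) := by
    refine lintegral_congr_ae (ae_restrict_of_ae ?_)
    filter_upwards [rem_ae hpre] with z hz
    rw [gK_of_notMem _ hz, gK_of_notMem _ fun hh => hz hh.1, (hev z hz).gradient_eq]
  obtain ⟨f1, f2⟩ := hpre.2.2.2 0 (R0 + ρ) (subset_univ _)
  unfold En at hE
  rw [hD, zero_mul, ENNReal.ofReal_zero, add_zero, ENNReal.add_le_add_iff_left f1] at hE
  have hsplit : μH[1] ((A ∪ K₁) ∩ closedBall 0 (R0 + ρ)) =
      μH[1] (((A ∪ K₁) \ ball a₀ (ρ / 2)) ∩ closedBall 0 (R0 + ρ)) +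
        μH[1] ((A ∪ K₁) ∩ ball a₀ (ρ / 2)) := by
    rw [← measure_sdiff_add_inter ((A ∪ K₁) ∩ closedBall 0 (R0 + ρ))
      (measurableSet_ball (x := a₀) (ε := ρ / 2))]
    congr 2
    · ext z
      simp only [Set.mem_sdiff, mem_inter_iff]
      tauto
    · ext z
      exact ⟨fun hh => ⟨hh.1.1, hh.2⟩, fun hh => ⟨⟨hh.1, hbR (hb2 hh.2)⟩, hh.2⟩⟩
  have hpos := h.2.2.1 a₀ (Or.inl ha) trivial (ρ / 2) (by linarith)
  have hfin : μH[1] (((A ∪ K₁) \ ball a₀ (ρ / 2)) ∩ closedBall 0 (R0 + ρ)) ≠ ⊤ :=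
    ne_top_of_le_ne_top f2 (measure_mono (inter_subset_inter_left _ sdiff_subset))
  rw [hsplit] at hE
  exact absurd hE (not_le.2 (ENNReal.lt_add_right hfin hpos.ne'))

end Vale.Agent.P128
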