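import Vale.Agent.P128.Glue
import Vale.Agent.P128.Arcs

/-!
# P128 TrickA

`el0`: compare with `u + t ψ`. `parab`: test with `tr M u * χ_R` (indicator off `K`), `χ_R = 1` on
`ball 0 R`, zero off `ball 0 (2R)`, `|∇χ_R| ≤ C/R`; Cauchy-Schwarz gives
`∫_{ball R, |u| < M} ‖∇u‖² ≤ C M (tail energy)^(1/2) → 0`; then `M → ∞` and continuity.
`trickA`: take a good `s > R`, `M` from `circ_bdd`; `glue` with `L = K ∩ closedBall`, `w = tr M u` shows
that `∇ u = 0` a.e., hence everywhere, on the open set `{|u| > M} ∩ ball \ K`, and also a.e. on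
`{|u| = M}`; so `{u > M} ∩ ball \ K` is open and relatively closed (`lc_of_grad`), likewise `{u < -M}`.
Let `v = tr M u` on the ball, `u` outside: near each point off `K`, `v - u` is constant (on the sphere use
a small disc: the part inside the ball is convex and has points with `|u| ≤ M` in its closure), so
`v` is `C¹` with `gK K v = gK K u`. A competitor for `v` is a competitor for `u` in a larger ball.
-/

namespace Vale.Agent.P128

open Set Metric MeasureTheory Filter Topology Complex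
open scoped ENNReal ContDiff RealInnerProductSpace Gradient Real ComplexConjugate

variable {Ω K L A S T U O X Γ P M₀ K₀ K₁ : Set ℂ} {u v w g hh ψ η : ℂ → ℝ} {G : ℂ → ℂ}
  {π₀ π₁ : ℂ → Set ℂ} {x y z c p q e a₀ F : ℂ} {lam H r s R a b t M Θ ρ ε δ d : ℝ} {n : ℕ}

theorem tricka_split (u : ℂ → ℝ) (K S : Set ℂ) (hT : MeasurableSet T) :
    En u K S = En u K (S ∩ T) + En u K (S \ T) := by
  unfold En Dn
  rw [← lintegral_inter_add_sdiff _ S hT, ← measure_inter_add_sdiff (μ := μH[1]) (K ∩ S) hT,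
    inter_assoc, inter_sdiff_assoc]
  ring

theorem tricka_ae (h : MM univ 0 u K π₀) (hs : 0 < s)
    (hM : ∀ z ∈ sphere (0 : ℂ) s \ K, |u z| ≤ M) :
    ∀ᵐ z : ℂ, z ∈ ball (0 : ℂ) s → z ∉ K → M ≤ |u z| → ∇ u z = 0 := by
  have hP := h.pre
  have hK := hP.2.1
  have hsub : closedBall (0 : ℂ) s \ (K ∩ closedBall 0 s) ⊆ univ \ K := fun z hz =>
    ⟨trivial, fun h1 => hz.2 ⟨h1, hz.1⟩⟩
  have h1 := glue (w := fun z => tr M (u z)) (π₁ := π₀) h hs (subset_univ _)
    (hK.inter isClosed_closedBall) inter_subset_right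
    (inter_subset_inter_right _ sphere_subset_closedBall) (lip_tr (hP.lip.mono hsub) M)
    (h.2.1.mono hsub) fun z hz =>
      ⟨tr_eq (hM z ⟨hz.1, fun h1 => hz.2 ⟨h1, sphere_subset_closedBall hz.1⟩⟩), rfl⟩
  obtain ⟨h2, h3⟩ := hP.2.2.2 0 s (subset_univ _)
  rw [En, zero_mul, ENNReal.ofReal_zero, add_zero, ENNReal.add_le_add_iff_right h3,
    Dn_closedBall] at h1
  rw [Dn_closedBall] at h2
  have h4 : ∀ z ∈ ball (0 : ℂ) s, gK (K ∩ closedBall 0 s) (fun z => tr M (u z)) z =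
      if |u z| < M then gK K u z else 0 := by
    intro z hz
    by_cases hk : z ∈ K
    · rw [gK_of_mem _ (show z ∈ K ∩ _ from ⟨hk, ball_subset_closedBall hz⟩), gK_of_mem _ hk,
        ite_self]
    · rw [gK_of_notMem _ fun h5 => hk h5.1, gK_of_notMem _ hk,
        grad_tr (hP.diff ⟨trivial, hk⟩).continuousAt]
  have h5 : ∀ᵐ z ∂(volume.restrict (ball (0 : ℂ) s)),
      ‖gK (K ∩ closedBall 0 s) (fun z => tr M (u z)) z‖ₑ ^ 2 ≤ ‖gK K u z‖ₑ ^ 2 := by
    refine (ae_restrict_iff' measurableSet_ball).2 (ae_of_all _ fun z hz => ?_)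
    rw [h4 z hz]
    split_ifs <;> simp
  have h6 := ae_eq_of_ae_le_of_lintegral_le h5 (ne_top_of_le_ne_top h2 (lintegral_mono_ae h5))
    ((meas_gK hK u).enorm.pow_const 2).aemeasurable h1
  filter_upwards [(ae_restrict_iff' measurableSet_ball).1 h6] with z hz hb hk hm
  have h7 := hz hb
  simp only [h4 z hb, if_neg (not_lt.2 hm), gK_of_notMem _ hk] at h7
  simpa using h7.symm

theorem tricka_lc (h : MM univ 0 u K π₀) (hs : 0 < s)
    (hM : ∀ z ∈ sphere (0 : ℂ) s \ K, |u z| ≤ M) (hz : z ∈ ball (0 : ℂ) s \ K) (hm : M < |u z|) :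
    ∀ᶠ w in 𝓝 z, u w = u z := by
  have hP := h.pre
  have hc : ContinuousOn u (ball 0 s \ K) := fun y hy =>
    (hP.diff ⟨trivial, hy.2⟩).continuousAt.continuousWithinAt
  have hO : IsOpen ((ball (0 : ℂ) s \ K) ∩ (fun z => |u z|) ⁻¹' Ioi M) :=
    hc.abs.isOpen_inter_preimage (isOpen_ball.sdiff hP.2.1) isOpen_Ioi
  have h1 : EqOn (∇ u) (fun _ => 0) ((ball (0 : ℂ) s \ K) ∩ (fun z => |u z|) ⁻¹' Ioi M) := by
    refine Measure.eqOn_open_of_ae_eq (μ := volume) ?_ hO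
      (hP.contGrad.mono fun y hy => ⟨trivial, hy.1.2⟩) continuousOn_const
    refine (ae_restrict_iff' hO.measurableSet).2 ?_
    filter_upwards [tricka_ae h hs hM] with y hy hy1 using hy hy1.1.1 hy1.1.2 (le_of_lt hy1.2)
  have h2 := lc_of_grad hO (fun y hy => (hP.diff ⟨trivial, hy.1.2⟩).differentiableWithinAt) h1 z
    ⟨hz, hm⟩
  rwa [hO.nhdsWithin_eq ⟨hz, hm⟩] at h2

open Classical in
theorem tricka_loc (h : MM univ 0 u K π₀) (hs : 0 < s)
    (hM : ∀ z ∈ sphere (0 : ℂ) s \ K, |u z| ≤ M) (hz : z ∉ K) :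
    ∃ c : ℝ, (fun w => if w ∈ ball (0 : ℂ) s ∧ M < |u w| then 0 else u w) =ᶠ[𝓝 z]
      fun w => u w + c := by
  have hP := h.pre
  obtain ⟨ε, hε, hB⟩ := Metric.isOpen_iff.1 hP.2.1.isOpen_compl z hz
  by_cases hp : ∃ p ∈ ball z ε ∩ ball 0 s, M < |u p|
  swap
  · refine ⟨0, mem_of_superset (ball_mem_nhds z hε) fun w hw => ?_⟩
    simp only [mem_ofPred_eq, add_zero]
    exact if_neg fun h1 => hp ⟨w, ⟨hw, h1.1⟩, h1.2⟩
  obtain ⟨p, hp, hm⟩ := hp
  have hcl : ∀ y ∉ K, ∀ S : Set ℂ, (∀ w ∈ S, u w = u p) → y ∈ closure S → u y = u p :=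
    fun y hy S hS h1 => by
      have h2 := (hP.diff ⟨trivial, hy⟩).continuousAt.continuousWithinAt.mem_closure h1
        (t := {u p}) fun w hw => hS w hw
      rwa [closure_singleton] at h2
  have h1 : ball z ε ∩ ball 0 s ⊆ {y | y ∈ ball (0 : ℂ) s \ K ∧ u y = u p} := by
    refine ((convex_ball z ε).inter (convex_ball 0 s)).isPreconnected.subset_of_closure_inter_subset
      (isOpen_iff_mem_nhds.2 fun y hy => ?_) ⟨p, hp, ⟨hp.2, hB hp.1⟩, rfl⟩ fun y hy =>
      ⟨⟨hy.2.2, hB hy.2.1⟩, hcl y (hB hy.2.1) _ (fun w hw => hw.2) hy.1⟩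
    filter_upwards [tricka_lc h hs hM hy.1 (hy.2 ▸ hm),
      (isOpen_ball.sdiff hP.2.1).mem_nhds hy.1] with w h2 h3 using ⟨h3, h2.trans hy.2⟩
  rcases lt_trichotomy (dist z 0) s with h2 | h2 | h2
  · refine ⟨-u p, mem_of_superset ((isOpen_ball.inter isOpen_ball).mem_nhds
      ⟨mem_ball_self hε, h2⟩) fun w hw => ?_⟩
    simp only [mem_ofPred_eq]
    rw [(h1 hw).2, if_pos ⟨hw.2, hm⟩, add_neg_cancel]
  · have h3 := hcl z hz _ (fun w hw => (h1 hw).2) (isOpen_ball.inter_closure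
      ⟨mem_ball_self hε, (closure_ball (0 : ℂ) hs.ne').symm ▸ h2.le⟩)
    exact absurd (h3 ▸ hM z ⟨h2, hz⟩) (not_le.2 hm)
  · refine ⟨0, mem_of_superset (isClosed_closedBall.isOpen_compl.mem_nhds
      (show z ∉ closedBall 0 s from not_le.2 h2)) fun w hw => ?_⟩
    simp only [mem_ofPred_eq, add_zero]
    exact if_neg fun h3 => hw (ball_subset_closedBall h3.1)

theorem tricka_mm (h : MM univ 0 u K π₀) (h0 : ∀ z ∉ ball (0 : ℂ) s, v z = u z)
    (hv : ∀ z ∉ K, ∃ c : ℝ, v =ᶠ[𝓝 z] fun w => u w + c) : MM univ 0 v K π₀ := by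
  have hP := h.pre
  have hK := hP.2.1
  have hg : gK K v = gK K u := funext fun z => by
    by_cases hz : z ∈ K
    · rw [gK_of_mem _ hz, gK_of_mem _ hz]
    · obtain ⟨c, hc⟩ := hv z hz
      rw [gK_of_notMem _ hz, gK_of_notMem _ hz, hc.gradient_eq, gradient, gradient,
        fderiv_add_const]
  have hE : En v K = En u K := funext fun S => by rw [En, En, Dn, Dn, hg]
  have hPv : Pre univ v K := by
    refine ⟨isOpen_univ, hK, fun z hz => ?_, fun x r hb => ?_⟩
    · obtain ⟨c, hc⟩ := hv z hz.2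
      exact (((hP.2.2.1.contDiffAt (hP.isOpen.mem_nhds hz)).add
        contDiffAt_const).congr_of_eventuallyEq hc).contDiffWithinAt
    · rw [Dn, hg]
      exact hP.2.2.2 x r hb
  refine ⟨⟨le_rfl, fun _ => 0, 0, ⟨hPv, measurable_const, by simp, fun ψ hψ => ?_⟩, by simp,
    by simp⟩, h.2.1, h.2.2.1, fun c r w L π₁ hr _ hc => ?_⟩
  · rw [hg]
    exact h.1.nh0.2.2.2 ψ hψ
  obtain ⟨c1, c2, c3, c4, c5⟩ := hc
  have hr' : r ≤ r + |s| + ‖c‖ := by linarith [abs_nonneg s, norm_nonneg c]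
  have hs1 := closedBall_subset_closedBall (x := c) hr'
  have hs2 : ball (0 : ℂ) s ⊆ closedBall c (r + |s| + ‖c‖) := fun z hz => by
    rw [mem_ball_zero_iff] at hz
    rw [mem_closedBall, dist_eq_norm]
    linarith [norm_sub_le z c, le_abs_self s]
  have h1 := h.2.2.2 c _ w L π₁ (hr.trans_le hr') (subset_univ _) ⟨c1, c2, c3,
    fun z hz => c4 z fun h1 => hz (hs1 h1), fun z hz h1 => by
      rw [← h0 z fun h2 => h1 (hs2 h2)]
      exact c5 z hz fun h2 => h1 (hs1 h2)⟩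
  have h2 : En w L (closedBall c (r + |s| + ‖c‖) \ closedBall c r) =
      En v K (closedBall c (r + |s| + ‖c‖) \ closedBall c r) := by
    have h3 : L ∩ (closedBall c (r + |s| + ‖c‖) \ closedBall c r) =
        K ∩ (closedBall c (r + |s| + ‖c‖) \ closedBall c r) :=
      Set.ext fun z => and_congr_left fun hz => c4 z hz.2
    rw [En, En, h3, Dn, Dn, setLIntegral_congr_fun
      (measurableSet_closedBall.diff measurableSet_closedBall) fun z hz => ?_]
    have h4 : gK L w z = gK K v z := by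
      by_cases hk : z ∈ K
      · rw [gK_of_mem _ hk, gK_of_mem _ ((c4 z hz.2).2 hk)]
      · rw [gK_of_notMem _ hk, gK_of_notMem _ fun h5 => hk ((c4 z hz.2).1 h5)]
        refine EventuallyEq.gradient_eq ?_
        filter_upwards [hK.isOpen_compl.mem_nhds hk,
          isClosed_closedBall.isOpen_compl.mem_nhds hz.2] with y h5 h6 using (c5 y ⟨trivial, h5⟩ h6).1
    simp only [h4]
  have h3 : En v K (closedBall c (r + |s| + ‖c‖) \ closedBall c r) ≠ ⊤ := by
    obtain ⟨h4, h5⟩ := hPv.2.2.2 c (r + |s| + ‖c‖) (subset_univ _)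
    exact ENNReal.add_ne_top.2 ⟨ne_top_of_le_ne_top h4 (Dn_mono_set _ _ sdiff_subset),
      ne_top_of_le_ne_top h5 (measure_mono (inter_subset_inter_right _ sdiff_subset))⟩
  rw [← hE, tricka_split v K _ (measurableSet_closedBall (x := c) (ε := r)),
    tricka_split w L _ (measurableSet_closedBall (x := c) (ε := r)), inter_eq_right.2 hs1, h2,
    zero_mul, ENNReal.ofReal_zero, add_zero, ENNReal.add_le_add_iff_right h3] at h1
  exact h1.trans le_self_add

theorem trickA (h : MM univ 0 u K π₀) (R : ℝ) :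
    ∃ (v : ℂ → ℝ) (M : ℝ), MM univ 0 v K π₀ ∧ ∀ z ∈ ball 0 R \ K, |v z| ≤ M := by
  have h1 := h.pre.ae_good (x := 0) (R := |R| + 1) (subset_univ _)
  obtain ⟨s, hs, hg⟩ := Measure.exists_mem_of_measure_ne_zero_of_ae (μ := volume)
    (s := Ioo |R| (|R| + 1)) (by simp) (ae_restrict_of_ae h1)
  have h2 : 0 < s := (abs_nonneg R).trans_lt hs.1
  obtain ⟨M, hM0, hM⟩ := circ_bdd h.pre (subset_univ _) (hg ⟨h2, hs.2⟩)
  classical
  refine ⟨fun w => if w ∈ ball (0 : ℂ) s ∧ M < |u w| then 0 else u w, M, tricka_mm (s := s) h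
    (fun z hz => if_neg fun h3 => hz h3.1) fun z hz => tricka_loc h h2 hM hz, fun z hz => ?_⟩
  dsimp only
  split_ifs with h3
  · simpa using hM0
  · exact not_lt.1 fun h4 => h3 ⟨ball_subset_ball ((le_abs_self R).trans hs.1.le) hz.1, h4⟩

end Vale.Agent.P128
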