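import Vale.Agent.P128.Key
import Vale.Agent.P128.Rem
import Vale.Agent.P128.TrickA

/-!
# P128 NoIso

No compact isolated piece. Suppose `A ≠ ∅`, `K₁ = K \ A`; choose `δ`, replace `u` by the bounded `v`
of `trickA`, choose `η` (`exists_contDiff_tsupport_subset`-type or `exists_contMDiff_zero_one`).
`holo_shift`: `J_Q y = ∫ f (z + y) Q z` is holomorphic in `‖y‖ < δ` with derivative `∫ f' Q` at `0`. By
`key` (`l = 1`, `t = 0`), `re J_P` has a local minimum at `0`, so `J_P` is constant near `0` (maximum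
modulus for `exp (-J_P)`, `Complex.eventually_eq_of_isLocalMax_norm`). Then for small `y` the quadratic
in `t` vanishes at `t = 0`, so `re J_ψ` is constant near `0` and `∫ f' gK A ψ = 0`. If `f' a₀ ≠ 0` at
`a₀ ∈ A`, use the real and imaginary parts of `u η' / f'` (`test_mul` with `η' re (1/f')`,
`η' im (1/f')`; Cauchy-Riemann for `1/f'`) to get the hypothesis of `rem`. So `f' = 0` on `A`; every
point of `A` is an accumulation point (reduced), so `f' = 0` on each `ball a (2δ)` (identity theorem)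
and `f (l z) = f z` on `thickening δ A` for `l` near `1`. Then `key` with `y = 0`, `t = 0` reads
`0 ≤ (l - 1) (ℓ - (1 + l) ‖F‖²)` for `l` near `1`, which forces `‖F‖ = 0 = ℓ`, contradiction.
-/

namespace Vale.Agent.P128

open Set Metric MeasureTheory Filter Topology Complex
open scoped ENNReal ContDiff RealInnerProductSpace Gradient Real ComplexConjugate

variable {Ω K L A S T U O X Γ P M₀ K₀ K₁ : Set ℂ} {u v w g hh ψ η : ℂ → ℝ} {G : ℂ → ℂ}
  {π₀ π₁ : ℂ → Set ℂ} {x y z c p q e a₀ F : ℂ} {lam H r s R a b t M Θ ρ ε δ d : ℝ} {n : ℕ}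

theorem noiso_mem {z y : ℂ} (hz : z ∈ thickening δ A) (hy : ‖y‖ < δ) :
    z + y ∈ thickening (2 * δ) A := by
  obtain ⟨a, ha, hza⟩ := mem_thickening_iff.1 hz
  refine mem_thickening_iff.2 ⟨a, ha, ?_⟩
  have h1 := dist_triangle (z + y) z a
  have h2 : dist (z + y) z = ‖y‖ := by simp
  linarith

theorem noiso_bound {k : ℂ → ℂ} (hA : IsCompact A) (hδ : 0 < δ)
    (hk : ContinuousOn k (thickening (3 * δ) A)) :
    ∃ C : ℝ, ∀ z ∈ thickening (2 * δ) A, ‖k z‖ ≤ C := by
  have hsub : cthickening (2 * δ) A ⊆ thickening (3 * δ) A :=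
    cthickening_subset_thickening' (by linarith) (by linarith) A
  obtain ⟨C, hC⟩ := hA.cthickening.exists_bound_of_continuousOn (hk.mono hsub)
  exact ⟨C, fun z hz => hC z (thickening_subset_cthickening _ _ hz)⟩

theorem noiso_int {k Q : ℂ → ℂ} (hA : IsCompact A) (hδ : 0 < δ)
    (hk : ContinuousOn k (thickening (3 * δ) A)) (hQ : Integrable Q)
    (h0 : ∀ z ∉ thickening δ A, Q z = 0) (hy : ‖y‖ < δ) :
    Integrable (fun z => k (z + y) * Q z) := by
  obtain ⟨C, hC⟩ := noiso_bound hA hδ hk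
  have hsub : thickening (2 * δ) A ⊆ thickening (3 * δ) A := thickening_mono (by linarith) A
  have hc : ContinuousOn (fun z => k (z + y)) (thickening δ A) :=
    hk.comp (continuous_id.add continuous_const).continuousOn fun z hz => hsub (noiso_mem hz hy)
  have hm : MeasurableSet (thickening δ A) := isOpen_thickening.measurableSet
  have h1 : IntegrableOn (fun z => k (z + y) * Q z) (thickening δ A) := by
    refine Integrable.bdd_mul (c := C) hQ.integrableOn (hc.aestronglyMeasurable hm) ?_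
    filter_upwards [ae_restrict_mem hm] with z hz
    exact hC _ (noiso_mem hz hy)
  refine (integrableOn_iff_integrable_of_support_subset fun z hz => ?_).1 h1
  by_contra hz'
  exact hz (by simp [h0 z hz'])

theorem noiso_deriv {f Q : ℂ → ℂ} (hA : IsCompact A) (hδ : 0 < δ)
    (hf : DifferentiableOn ℂ f (thickening (3 * δ) A)) (hQ : Integrable Q)
    (h0 : ∀ z ∉ thickening δ A, Q z = 0) (hy : y ∈ ball (0 : ℂ) δ) :
    HasDerivAt (fun y => ∫ z, f (z + y) * Q z) (∫ z, deriv f (z + y) * Q z) y := by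
  have hf' : DifferentiableOn ℂ (deriv f) (thickening (3 * δ) A) := hf.deriv isOpen_thickening
  obtain ⟨C, hC⟩ := noiso_bound hA hδ hf'.continuousOn
  have hsub : thickening (2 * δ) A ⊆ thickening (3 * δ) A := thickening_mono (by linarith) A
  have hb : ball (0 : ℂ) δ ∈ 𝓝 y := isOpen_ball.mem_nhds hy
  refine (hasDerivAt_integral_of_dominated_loc_of_deriv_le (μ := volume)
    (F := fun y z => f (z + y) * Q z) (F' := fun y z => deriv f (z + y) * Q z)
    (bound := fun z => C * ‖Q z‖) hb ?_ ?_ ?_ ?_ (hQ.norm.const_mul C) ?_).2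
  · filter_upwards [hb] with y' hy'
    exact (noiso_int hA hδ hf.continuousOn hQ h0 (by simpa using hy')).aestronglyMeasurable
  · exact noiso_int hA hδ hf.continuousOn hQ h0 (by simpa using hy)
  · exact (noiso_int hA hδ hf'.continuousOn hQ h0 (by simpa using hy)).aestronglyMeasurable
  · refine Eventually.of_forall fun z y' hy' => ?_
    by_cases hz : z ∈ thickening δ A
    · rw [norm_mul]
      exact mul_le_mul_of_nonneg_right (hC _ (noiso_mem hz (by simpa using hy'))) (norm_nonneg _)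
    · simp [h0 z hz]
  · refine Eventually.of_forall fun z y' hy' => ?_
    by_cases hz : z ∈ thickening δ A
    · have h1 : DifferentiableAt ℂ f (z + y') :=
        hf.differentiableAt (isOpen_thickening.mem_nhds (hsub (noiso_mem hz (by simpa using hy'))))
      exact (h1.hasDerivAt.comp_const_add z y').mul_const _
    · simp only [h0 z hz, mul_zero]
      exact hasDerivAt_const _ _

theorem holo_shift {f Q : ℂ → ℂ} (hA : IsCompact A) (hδ : 0 < δ)
    (hf : DifferentiableOn ℂ f (thickening (3 * δ) A)) (hQ : Integrable Q)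
    (h0 : ∀ z ∉ thickening δ A, Q z = 0) :
    DifferentiableOn ℂ (fun y => ∫ z, f (z + y) * Q z) (ball 0 δ) ∧
      HasDerivAt (fun y => ∫ z, f (z + y) * Q z) (∫ z, deriv f z * Q z) 0 := by
  refine ⟨fun y hy => (noiso_deriv hA hδ hf hQ h0 hy).differentiableAt.differentiableWithinAt, ?_⟩
  simpa using noiso_deriv hA hδ hf hQ h0 (mem_ball_self hδ)

theorem noiso_re_const {J : ℂ → ℂ} (hδ : 0 < δ) (hJ : DifferentiableOn ℂ J (ball 0 δ))
    (h : ∀ y ∈ ball (0 : ℂ) δ, (J 0).re ≤ (J y).re) : ∀ᶠ y in 𝓝 (0 : ℂ), (J y).re = (J 0).re := by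
  have hb : ball (0 : ℂ) δ ∈ 𝓝 (0 : ℂ) := ball_mem_nhds _ hδ
  have h1 : ∀ᶠ y in 𝓝 (0 : ℂ), DifferentiableAt ℂ (fun y => cexp (-J y)) y := by
    filter_upwards [hb] with y hy
    exact (hJ.differentiableAt (isOpen_ball.mem_nhds hy)).neg.cexp
  have h2 : IsLocalMax (norm ∘ fun y => cexp (-J y)) 0 := by
    filter_upwards [hb] with y hy
    simp only [Function.comp, Complex.norm_exp, neg_re]
    exact Real.exp_le_exp.2 (neg_le_neg (h y hy))
  filter_upwards [Complex.norm_eventually_eq_of_isLocalMax h1 h2] with y hy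
  simpa [Complex.norm_exp] using hy

theorem noiso_deriv_zero {J : ℂ → ℂ} {D : ℂ} (hJ : HasDerivAt J D 0)
    (h : ∀ᶠ y in 𝓝 (0 : ℂ), (J y).re = b) : D = 0 := by
  have h1 : HasFDerivAt (fun y => (J y).re)
      (reCLM.comp ((ContinuousLinearMap.toSpanSingleton ℂ D).restrictScalars ℝ)) 0 :=
    reCLM.hasFDerivAt.comp 0 (hJ.hasFDerivAt.restrictScalars ℝ)
  have h2 : HasFDerivAt (fun y => (J y).re) (0 : ℂ →L[ℝ] ℝ) 0 :=
    (hasFDerivAt_const b (0 : ℂ)).congr_of_eventuallyEq h
  have h3 := h1.unique h2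
  have h4 := congrArg (fun T : ℂ →L[ℝ] ℝ => T 1) h3
  have h5 := congrArg (fun T : ℂ →L[ℝ] ℝ => T I) h3
  simp at h4 h5
  exact Complex.ext h4 h5

theorem noiso_lin (h : ∀ t : ℝ, 0 ≤ t * a + t ^ 2 * b) : a = 0 := by
  by_contra ha
  have hb : 0 < |b| + 1 := by positivity
  have h1 := h (-a / (|b| + 1))
  have h2 : -a / (|b| + 1) * a + (-a / (|b| + 1)) ^ 2 * b =
      a ^ 2 * (b - (|b| + 1)) / (|b| + 1) ^ 2 := by
    field_simp
    ring
  rw [h2] at h1
  have h3 : 0 < a ^ 2 := by positivity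
  have h4 : b - (|b| + 1) < 0 := by linarith [le_abs_self b]
  exact absurd h1 (not_le.2 (div_neg_of_neg_of_pos (mul_neg_of_pos_of_neg h3 h4) (by positivity)))

theorem noiso_sq {F G : ℂ → ℂ} (hF : MemLp F 2 volume) (hG : MemLp G 2 volume) :
    ∃ a b : ℝ, ∀ t : ℝ, ∫ z, ‖F z + t * G z‖ ^ 2 = (∫ z, ‖F z‖ ^ 2) + t * a + t ^ 2 * b := by
  have h1 : Integrable fun z => ‖F z‖ ^ 2 := (memLp_two_iff_integrable_sq_norm hF.1).1 hF
  have h2 : Integrable fun z => ‖G z‖ ^ 2 := (memLp_two_iff_integrable_sq_norm hG.1).1 hG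
  have h3 : Integrable fun z => 2 * ⟪F z, G z⟫ := by
    refine (h1.add h2).mono' ((hF.1.inner hG.1).const_mul 2) (Eventually.of_forall fun z => ?_)
    have := abs_real_inner_le_norm (F z) (G z)
    rw [Real.norm_eq_abs, abs_mul, abs_two, Pi.add_apply]
    nlinarith [sq_nonneg (‖F z‖ - ‖G z‖)]
  refine ⟨∫ z, 2 * ⟪F z, G z⟫, ∫ z, ‖G z‖ ^ 2, fun t => ?_⟩
  have h5 : Integrable fun z => ‖F z‖ ^ 2 + t * (2 * ⟪F z, G z⟫) := h1.add (h3.const_mul t)
  rw [← integral_const_mul, ← integral_const_mul, ← integral_add h1 (h3.const_mul t),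
    ← integral_add h5 (h2.const_mul _)]
  refine integral_congr_ae (Eventually.of_forall fun z => ?_)
  have h4 : (t : ℂ) * G z = t • G z := by simp
  simp only [h4, norm_add_sq_real, inner_smul_right, norm_smul, Real.norm_eq_abs, mul_pow, sq_abs]
  ring

theorem noiso_grad_zero (hz : z ∉ tsupport ψ) : ∇ ψ z = 0 := by
  have h : ψ =ᶠ[𝓝 z] fun _ => 0 := notMem_tsupport_iff_eventuallyEq.1 hz
  rw [h.gradient_eq]
  simp

theorem noiso_test (hA : IsCompact A) (hψ : Test univ A ψ) (hs : tsupport ψ ⊆ thickening δ A) :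
    Integrable (gK A ψ) ∧ ∀ z ∉ thickening δ A, gK A ψ z = 0 := by
  have h0 : ∀ z ∉ thickening δ A, gK A ψ z = 0 := by
    intro z hz
    by_cases hzA : z ∈ A
    · exact gK_of_mem _ hzA
    · rw [gK_of_notMem _ hzA, noiso_grad_zero fun h => hz (hs h)]
  refine ⟨?_, h0⟩
  have hfin : volume (thickening δ A) < ⊤ := hA.isBounded.thickening.measure_lt_top
  have : IsFiniteMeasure (volume.restrict (thickening δ A)) := ⟨by simpa using hfin⟩
  have h1 : IntegrableOn (gK A ψ) (thickening δ A) :=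
    ((hψ.memLp hA.isClosed).restrict _).integrable one_le_two
  refine (integrableOn_iff_integrable_of_support_subset fun z hz => ?_).1 h1
  by_contra hz'
  exact hz (h0 z hz')

theorem noiso_cr {k : ℂ → ℂ} (hk : DifferentiableAt ℂ k z) :
    DifferentiableAt ℝ (fun w => (k w).re) z ∧ DifferentiableAt ℝ (fun w => (k w).im) z ∧
      ∇ (fun w => (k w).re) z + I * ∇ (fun w => (k w).im) z = 0 := by
  have h0 := hk.hasDerivAt.hasFDerivAt.restrictScalars ℝ
  have h1 : HasFDerivAt (fun y => (k y).re) _ z := reCLM.hasFDerivAt.comp z h0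
  have h2 : HasFDerivAt (fun y => (k y).im) _ z := imCLM.hasFDerivAt.comp z h0
  refine ⟨h1.differentiableAt, h2.differentiableAt, ?_⟩
  rw [grad_eq, grad_eq, h1.fderiv, h2.fderiv]
  apply Complex.ext <;> simp

theorem noiso_cd {k : ℂ → ℝ} (hU : IsOpen U) (hη : ContDiff ℝ 1 η) (hs : tsupport η ⊆ U)
    (hk : ContDiffOn ℝ 1 k U) : ContDiff ℝ 1 (fun w => η w * k w) := by
  refine contDiff_iff_contDiffAt.2 fun z => ?_
  by_cases hz : z ∈ U
  · exact hη.contDiffAt.mul (hk.contDiffAt (hU.mem_nhds hz))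
  · have h : η =ᶠ[𝓝 z] fun _ => 0 := notMem_tsupport_iff_eventuallyEq.1 fun h => hz (hs h)
    refine (contDiffAt_const (c := (0 : ℝ))).congr_of_eventuallyEq ?_
    filter_upwards [h] with w hw
    simp [hw]

/-- The derivative of the holomorphic field vanishes on `A`. -/
theorem noiso_zero {f : ℂ → ℂ} (h : MM univ 0 u (A ∪ K₁) π₀) (hA : IsCompact A)
    (hK : IsClosed K₁) (hδ : 0 < δ) (hd : Disjoint (thickening (3 * δ) A) K₁)
    (hM : ∀ z ∈ thickening δ A \ A, |u z| ≤ M) (hf : DifferentiableOn ℂ f (thickening (3 * δ) A))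
    (h0 : ∀ ψ, Test univ A ψ → tsupport ψ ⊆ thickening δ A → ∫ z, deriv f z * gK A ψ z = 0)
    (ha : a₀ ∈ A) : deriv f a₀ = 0 := by
  by_contra hne
  have hf' : DifferentiableOn ℂ (deriv f) (thickening (3 * δ) A) := hf.deriv isOpen_thickening
  have hsub : thickening δ A ⊆ thickening (3 * δ) A := thickening_mono (by linarith) A
  have haδ : a₀ ∈ thickening δ A := self_subset_thickening hδ A ha
  have hev : ∀ᶠ z in 𝓝 a₀, z ∈ thickening δ A ∧ deriv f z ≠ 0 :=
    (isOpen_thickening.eventually_mem haδ).and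
      ((hf'.continuousOn.continuousAt (isOpen_thickening.mem_nhds (hsub haδ))).eventually_ne hne)
  obtain ⟨ρ, hρ, hB⟩ := Metric.eventually_nhds_iff_ball.1 hev
  have hB1 : ball a₀ ρ ⊆ thickening δ A := fun z hz => (hB z hz).1
  have hk : DifferentiableOn ℂ (fun z => (deriv f z)⁻¹) (ball a₀ ρ) :=
    (hf'.mono (hB1.trans hsub)).inv fun z hz => (hB z hz).2
  have hk1 : ContDiffOn ℝ 1 (fun z => (deriv f z)⁻¹) (ball a₀ ρ) :=
    (hk.contDiffOn isOpen_ball).restrict_scalars ℝ
  have hAK : Disjoint A K₁ := hd.mono_left (self_subset_thickening (by linarith) A)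
  refine rem h hA hK hAK ha hρ (hd.mono_left (hB1.trans hsub))
    (fun z hz => hM z ⟨hB1 hz.1, hz.2⟩) fun η hη hs => ?_
  have hη1 : ContDiff ℝ 1 η := hη.of_le (by exact_mod_cast le_top)
  have aux : ∀ k : ℂ → ℝ, ContDiffOn ℝ 1 k (ball a₀ ρ) →
      Integrable (fun z => deriv f z * gK A (fun w => u w * (η w * k w)) z) ∧
        ∫ z, deriv f z * gK A (fun w => u w * (η w * k w)) z = 0 := by
    intro k hk
    obtain ⟨t1, t2, t3, -⟩ := test_mul h.pre hA hK hd hδ hM (noiso_cd isOpen_ball hη1 hs hk)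
      ((tsupport_mul_subset_left.trans hs).trans hB1)
    obtain ⟨i1, i2⟩ := noiso_test hA t1 t2
    have i3 := noiso_int (y := 0) hA hδ hf'.continuousOn i1 i2 (by simpa using hδ)
    have i4 := h0 _ t1 t2
    rw [t3] at i3 i4
    exact ⟨by simpa using i3, i4⟩
  obtain ⟨a1, a2⟩ := aux _ (reCLM.contDiff.comp_contDiffOn hk1)
  obtain ⟨b1, b2⟩ := aux _ (imCLM.contDiff.comp_contDiffOn hk1)
  have hsum := integral_add a1 (b1.const_mul I)
  rw [integral_const_mul, a2, b2, mul_zero, add_zero] at hsum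
  rw [← hsum]
  refine integral_congr_ae (Eventually.of_forall fun z => ?_)
  by_cases hzA : z ∈ A
  · simp [gK_of_mem _ hzA]
  simp only [gK_of_notMem _ hzA]
  by_cases hz : z ∈ ball a₀ ρ
  · have hu : DifferentiableAt ℝ u z := h.pre.diff ⟨mem_univ _, fun hz' => hz'.elim hzA fun hz' =>
      disjoint_left.1 hd (hsub (hB1 hz)) hz'⟩
    have huη : DifferentiableAt ℝ (fun w => u w * η w) z :=
      hu.mul (hη1.differentiable one_ne_zero z)
    obtain ⟨c1, c2, c3⟩ := noiso_cr (hk.differentiableAt (isOpen_ball.mem_nhds hz))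
    have e1 := grad_mul huη c1
    have e2 := grad_mul huη c2
    simp only [mul_assoc] at e1 e2
    simp only [Function.comp, reCLM_apply, imCLM_apply]
    rw [e1, e2]
    have e3 := re_add_im (deriv f z)⁻¹
    have e4 := mul_inv_cancel₀ (hB z hz).2
    linear_combination (-(deriv f z * ((u z * η z : ℝ) : ℂ))) * c3 -
      (deriv f z * ∇ (fun w => u w * η w) z) * e3 - (∇ (fun w => u w * η w) z) * e4
  · have hz' : z ∉ tsupport η := fun h => hz (hs h)
    rw [noiso_grad_zero fun h => hz' (tsupport_mul_subset_right h),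
      noiso_grad_zero fun h => hz' (tsupport_mul_subset_left (tsupport_mul_subset_right h)),
      noiso_grad_zero fun h => hz' (tsupport_mul_subset_left (tsupport_mul_subset_right h))]
    simp

theorem noiso_cut (hδ : 0 < δ) (A : Set ℂ) : ∃ η : ℂ → ℝ, ContDiff ℝ 1 η ∧
    (∀ z ∈ thickening (δ / 2) A, η z = 1) ∧ tsupport η ⊆ thickening δ A := by
  have hd : Disjoint (thickening (3 * δ / 4) A)ᶜ (cthickening (δ / 2) A) :=
    disjoint_compl_left_iff_subset.2
      (cthickening_subset_thickening' (by linarith) (by linarith) A)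
  obtain ⟨f, h0, h1, -⟩ := exists_contMDiffMap_zero_one_of_isClosed (n := 1)
    (modelWithCornersSelf ℝ ℂ) isOpen_thickening.isClosed_compl isClosed_cthickening hd
  refine ⟨f, f.contMDiff.contDiff, fun z hz => h1 (thickening_subset_cthickening _ _ hz), ?_⟩
  have h2 : Function.support f ⊆ cthickening (3 * δ / 4) A := fun z hz => by
    by_contra hz'
    exact hz (h0 fun h => hz' (thickening_subset_cthickening _ _ h))
  exact (closure_minimal h2 isClosed_cthickening).trans
    (cthickening_subset_thickening' hδ (by linarith) A)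

theorem noiso_main (h : MM univ 0 u (A ∪ K₁) π₀) (hA : IsCompact A)
    (hK : IsClosed K₁) (hδ : 0 < δ) (hd : Disjoint (thickening (3 * δ) A) K₁)
    (hM : ∀ z ∈ thickening δ A \ A, |u z| ≤ M) (hR : thickening δ A ⊆ ball 0 R)
    (ha : a₀ ∈ A) : False := by
  obtain ⟨η, hη, hη1, hη0⟩ := noiso_cut hδ A
  obtain ⟨f, F, hf, hF, hid, hkey⟩ := key h hA hK hδ hd hM hη hη1 hη0
  replace hf : DifferentiableOn ℂ f (thickening (3 * δ) A) := hf.mono hd.subset_compl_right
  obtain ⟨t1, t2, t3, -⟩ := test_mul h.pre hA hK hd hδ hM hη hη0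
  obtain ⟨p1, p2⟩ := noiso_test hA t1 t2
  rw [t3] at p1 p2
  set P := gK A fun w => u w * η w with hP
  set N := ∫ z, ‖F z‖ ^ 2 with hN
  have hJ := (holo_shift hA hδ hf p1 p2).1
  have hc : ∀ᶠ y in 𝓝 (0 : ℂ), (∫ z, f (z + y) * P z).re = -N := by
    have := noiso_re_const hδ hJ fun y hy => by
      have := hkey 1 y 0 _ one_pos t1 t2 fun z hz => by
        simpa using noiso_mem hz (by simpa using hy)
      simp only [ofReal_one, one_mul, ofReal_zero, zero_mul, add_zero, one_pow, mul_one,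
        sub_self] at this ⊢
      linarith
    simpa only [add_zero, hid] using this
  have h0 : ∀ ψ, Test univ A ψ → tsupport ψ ⊆ thickening δ A →
      ∫ z, deriv f z * gK A ψ z = 0 := by
    intro ψ hψ hs
    obtain ⟨q1, q2⟩ := noiso_test hA hψ hs
    obtain ⟨a, b, hab⟩ := noiso_sq hF (hψ.memLp hA.isClosed)
    refine noiso_deriv_zero (b := -a / 2) (holo_shift hA hδ hf q1 q2).2 ?_
    filter_upwards [hc, ball_mem_nhds (0 : ℂ) hδ] with y hy1 hy2
    have hy : ‖y‖ < δ := by simpa using hy2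
    have i1 := noiso_int hA hδ hf.continuousOn p1 p2 hy
    have i2 := noiso_int hA hδ hf.continuousOn q1 q2 hy
    have : 2 * (∫ z, f (z + y) * gK A ψ z).re + a = 0 := by
      refine noiso_lin (b := b) fun t => ?_
      have := hkey 1 y t ψ one_pos hψ hs fun z hz => by simpa using noiso_mem hz hy
      have e : ∫ z, f (z + y) * (P z + t * gK A ψ z) =
          (∫ z, f (z + y) * P z) + t * ∫ z, f (z + y) * gK A ψ z := by
        rw [← integral_const_mul, ← integral_add i1 (i2.const_mul _)]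
        exact integral_congr_ae (Eventually.of_forall fun z => by ring)
      simp only [ofReal_one, one_mul, one_pow, mul_one, sub_self, zero_mul, add_zero] at this
      rw [e, hab t, add_re, hy1, re_ofReal_mul] at this
      linarith
    linarith
  have hsub : thickening δ A ⊆ thickening (3 * δ) A := thickening_mono (by linarith) A
  have hball : ∀ a ∈ A, ∀ r, ball a r ⊆ thickening r A := fun a ha r =>
    ball_subset_thickening ha r
  have hpos : ∀ a ∈ A, ∀ r, 0 < r → r ≤ δ → 0 < μH[1] (A ∩ ball a r) := by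
    intro a ha r hr hrδ
    refine (h.2.2.1 a (Or.inl ha) (mem_univ _) r hr).trans_le (measure_mono ?_)
    rintro z ⟨hz | hz, hz'⟩
    · exact ⟨hz, hz'⟩
    · exact absurd hz (disjoint_left.1 hd (hsub (thickening_mono hrδ A (hball a ha r hz'))))
  have hconst : ∀ a ∈ A, ∀ z ∈ ball a (3 * δ), ∀ z' ∈ ball a (3 * δ), f z = f z' := by
    intro a ha z hz z' hz'
    have hfa := hf.mono (hball a ha _)
    have han := (hfa.deriv isOpen_ball).analyticOnNhd isOpen_ball
    refine isOpen_ball.is_const_of_deriv_eq_zero (convex_ball a _).isPreconnected hfa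
      (han.eqOn_zero_of_preconnected_of_frequently_eq_zero (convex_ball a _).isPreconnected
        (mem_ball_self (by linarith)) ?_) hz hz'
    rw [Filter.Frequently, eventually_nhdsWithin_iff, Metric.eventually_nhds_iff_ball]
    rintro ⟨r, hr, hr'⟩
    have h1 := hpos a ha (min r δ) (lt_min hr hδ) (min_le_right _ _)
    have h2 : A ∩ ball a (min r δ) ⊆ {a} := by
      rintro w ⟨hw, hw'⟩
      by_contra hwa
      exact hr' w (ball_subset_ball (min_le_left _ _) hw') hwa
        (noiso_zero h hA hK hδ hd hM hf h0 hw)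
    exact absurd (len_finite ((finite_singleton a).subset h2)) h1.ne'
  have hR0 : 0 < R := by
    have := hR (self_subset_thickening hδ A ha)
    exact (dist_nonneg.trans_lt (mem_ball.1 this))
  have hl : ∀ l : ℝ, 0 < l → |l - 1| * R ≤ δ →
      0 ≤ (l - 1) * ((μH[1] A).toReal - (1 + l) * N) := by
    intro l hl0 hl
    have hmem : ∀ z ∈ thickening δ A, ∃ a ∈ A, z ∈ ball a δ ∧ (l : ℂ) * z ∈ ball a (2 * δ) := by
      intro z hz
      obtain ⟨a, ha, hza⟩ := mem_thickening_iff.1 hz
      refine ⟨a, ha, hza, ?_⟩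
      have h1 := dist_triangle ((l : ℂ) * z) z a
      have h2 : dist ((l : ℂ) * z) z = |l - 1| * ‖z‖ := by
        rw [dist_eq_norm, show (l : ℂ) * z - z = ((l - 1 : ℝ) : ℂ) * z by push_cast; ring, norm_mul,
          Complex.norm_real, Real.norm_eq_abs]
      have h3 : ‖z‖ ≤ R := by simpa using (mem_ball.1 (hR hz)).le
      have h4 := mul_le_mul_of_nonneg_left h3 (abs_nonneg (l - 1))
      rw [mem_ball]
      linarith
    have := hkey l 0 0 _ hl0 t1 t2 fun z hz => by
      obtain ⟨a, ha, -, h2⟩ := hmem z hz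
      simpa using hball a ha _ h2
    have e : ∫ z, f (l * z) * P z = ∫ z, f z * P z := by
      refine integral_congr_ae (Eventually.of_forall fun z => ?_)
      by_cases hz : z ∈ thickening δ A
      · obtain ⟨a, ha, h1, h2⟩ := hmem z hz
        simp only
        rw [hconst a ha _ (ball_subset_ball (by linarith) h2) z (ball_subset_ball (by linarith) h1)]
      · simp [p2 z hz]
    simp only [ofReal_zero, zero_mul, add_zero] at this
    rw [e, hid] at this
    linarith
  have hfin : μH[1] A ≠ ⊤ := by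
    refine ne_top_of_le_ne_top (h.pre.2.2.2 0 R (subset_univ _)).2 (measure_mono fun z hz => ?_)
    exact ⟨Or.inl hz, ball_subset_closedBall (hR (self_subset_thickening hδ A hz))⟩
  have hℓ : 0 < (μH[1] A).toReal :=
    ENNReal.toReal_pos ((hpos a₀ ha δ hδ le_rfl).trans_le (measure_mono inter_subset_left)).ne' hfin
  obtain ⟨s, hs0, hs1, hs2⟩ : ∃ s : ℝ, 0 < s ∧ s < 1 ∧ s * R ≤ δ := by
    refine ⟨min (1 / 2) (δ / R), lt_min one_half_pos (div_pos hδ hR0),
      (min_le_left _ _).trans_lt one_half_lt_one, ?_⟩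
    exact (mul_le_mul_of_nonneg_right (min_le_right _ _) hR0.le).trans_eq
      (div_mul_cancel₀ _ hR0.ne')
  have g1 := hl (1 + s) (by linarith) (by rwa [add_sub_cancel_left, abs_of_pos hs0])
  have g2 := hl (1 - s) (by linarith) (by rwa [sub_sub_cancel_left, abs_neg, abs_of_pos hs0])
  rw [add_sub_cancel_left] at g1
  rw [sub_sub_cancel_left, neg_mul, ← mul_neg] at g2
  have g3 := (mul_nonneg_iff_of_pos_left hs0).1 g1
  have g4 := (mul_nonneg_iff_of_pos_left hs0).1 g2
  have g5 : N ≤ 0 := by nlinarith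
  nlinarith

theorem noiso (h : MM univ 0 u K π₀) : NoIso K := by
  intro A hAK hA hK
  by_contra hne
  obtain ⟨a₀, ha⟩ := nonempty_iff_ne_empty.2 hne
  obtain ⟨d, hd0, hd⟩ := hA.exists_thickening_subset_open hK.isOpen_compl
    (fun z hz hz' => hz'.2 hz)
  obtain ⟨R, hR⟩ := (hA.isBounded.thickening (δ := d / 3)).subset_ball 0
  obtain ⟨v, M, hv, hM⟩ := trickA h R
  have hd' : Disjoint (thickening (3 * (d / 3)) A) (K \ A) := by
    rw [show 3 * (d / 3) = d by ring]
    exact subset_compl_iff_disjoint_right.1 hd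
  have hKe : A ∪ K \ A = K := union_sdiff_cancel hAK
  refine noiso_main (u := v) (π₀ := π₀) (M := M) (by rwa [hKe]) hA hK (by linarith) hd'
    (fun z hz => hM z ⟨hR hz.1, fun hzK => ?_⟩) hR ha
  exact disjoint_left.1 hd' (thickening_mono (by linarith) A hz.1) ⟨hzK, hz.2⟩

end Vale.Agent.P128
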