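import Vale.Agent.P128.Geo

/-!
# P128 TubeA

Pointwise geometry, `η ≤ κ/1000`. For `y ∈ P` of radius `s` with tangent `τ` (`Tg`), the point `z ∈ K` at
distance `κ s` in direction `τ` lies in `P`; `z` and `y` are within `η s` of the line `x + ℝ e`, so
`|im (τ conj e)| ≤ 1/10 + 2η/κ` and `|⟪τ, (y - x)/s⟫| ≥ 0.98`; replace `τ` by `-τ` if needed. Two points
`y ≠ y'` on the same circle are `≤ 2η s` apart, `y' - y` is within `1/10` of `±τ` but almost tangent to the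
circle: impossible. For `|t - s| ≤ κ s/8`, `ρ = ‖p t - p s‖ ≤ κ s`, and
`t² - s² = 2 ⟪p t - p s, p s - x⟫ + ρ²` gives `ρ ≤ 3 |t - s|`.
-/

namespace Vale.Agent.P128

open Set Metric MeasureTheory Filter Topology Complex
open scoped ENNReal ContDiff RealInnerProductSpace Gradient Real ComplexConjugate

variable {Ω K L A S T U O X Γ P M₀ K₀ K₁ : Set ℂ} {u v w g hh ψ η : ℂ → ℝ} {G : ℂ → ℂ}
  {π₀ π₁ : ℂ → Set ℂ} {x y z c p q e a₀ F : ℂ} {lam H r s R a b t M Θ ρ ε δ d : ℝ} {n : ℕ}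

theorem tubea_im (w : ℂ) {τ : ℂ} (hτ : ‖τ‖ = 1) : |(w * conj τ).im| ≤ ‖w‖ := by
  have h := Complex.abs_im_le_norm (w * conj τ)
  rwa [norm_mul, Complex.norm_conj, hτ, mul_one] at h

theorem tubea_re (w : ℂ) {τ : ℂ} (hτ : ‖τ‖ = 1) : |(w * conj τ).re| ≤ ‖w‖ := by
  have h := Complex.abs_re_le_norm (w * conj τ)
  rwa [norm_mul, Complex.norm_conj, hτ, mul_one] at h

theorem tubea_sq (w : ℂ) {τ : ℂ} (hτ : ‖τ‖ = 1) :
    (w * conj τ).re ^ 2 + (w * conj τ).im ^ 2 = ‖w‖ ^ 2 := by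
  have h : ‖w * conj τ‖ = ‖w‖ := by rw [norm_mul, Complex.norm_conj, hτ, mul_one]
  rw [← h, Complex.sq_norm, Complex.normSq_apply]
  ring

theorem tubea_self {τ : ℂ} (hτ : ‖τ‖ = 1) : τ * conj τ = 1 := by
  rw [Complex.mul_conj, Complex.normSq_eq_norm_sq, hτ]
  simp

theorem tubea_chord {a b c d ρ s t : ℝ} (h1 : a ^ 2 + b ^ 2 = ρ ^ 2) (h2 : c ^ 2 + d ^ 2 = s ^ 2)
    (h3 : (a + c) ^ 2 + (b + d) ^ 2 = t ^ 2) (hb : |b| ≤ ρ / 10) (hc : 98 / 100 * s ≤ c)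
    (hρ : 0 ≤ ρ) (hρs : ρ ≤ s / 16) (hs : 0 < s) (ht0 : 0 ≤ t) (ht : t ≤ 33 / 32 * s) :
    ρ ≤ 3 * |t - s| := by
  have hb2 : b ^ 2 ≤ (ρ / 10) ^ 2 := by
    rw [← sq_abs b]
    exact pow_le_pow_left₀ (abs_nonneg b) hb 2
  have hd : |d| ≤ s / 5 := by
    refine abs_le_of_sq_le_sq' ?_ (by positivity) |> abs_le.2
    nlinarith
  have hbd : |b * d| ≤ ρ / 10 * (s / 5) := by
    rw [abs_mul]
    exact mul_le_mul hb hd (abs_nonneg _) (by positivity)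
  have hbd' := abs_le.1 hbd
  have ha : 99 / 100 * ρ ≤ |a| := by
    refine abs_le_of_sq_le_sq' ?_ (abs_nonneg a) |>.2
    rw [sq_abs]
    nlinarith
  have hts : t ^ 2 - s ^ 2 = 2 * (a * c) + 2 * (b * d) + ρ ^ 2 := by nlinarith
  have hkey : 18 / 10 * (ρ * s) ≤ |t ^ 2 - s ^ 2| := by
    have hρ2 : ρ ^ 2 ≤ ρ * s / 16 := by nlinarith
    have hac : 99 / 100 * ρ * (98 / 100 * s) ≤ |a| * c :=
      mul_le_mul ha hc (by positivity) (abs_nonneg _)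
    rcases le_total 0 a with h | h
    · rw [abs_of_nonneg h] at hac
      refine le_trans ?_ (le_abs_self _)
      nlinarith [mul_nonneg hρ hs.le, sq_nonneg ρ]
    · rw [abs_of_nonpos h] at hac
      refine le_trans ?_ (neg_le_abs _)
      nlinarith [mul_nonneg hρ hs.le]
  have hfac : |t ^ 2 - s ^ 2| = |t - s| * (t + s) := by
    rw [show t ^ 2 - s ^ 2 = (t - s) * (t + s) by ring, abs_mul, abs_of_nonneg (by positivity : 0 ≤ t + s)]
  have h5 : |t - s| * (t + s) ≤ |t - s| * (3 * s) :=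
    mul_le_mul_of_nonneg_left (by linarith) (abs_nonneg _)
  have h6 : ρ * s ≤ 3 * |t - s| * s := by nlinarith [mul_nonneg hρ hs.le]
  exact le_of_mul_le_mul_right h6 hs

theorem tubea_pt {κ : ℝ} (hκ : 0 < κ) (hκ1 : κ ≤ 1 / 4) (hs : 0 < s) (hy : y ∈ P)
    (hys : ‖y - x‖ = s) (he : ‖e‖ = 1)
    (hP : ∀ z ∈ P, s / 2 ≤ ‖z - x‖ → ‖z - x‖ ≤ 2 * s → ‖z - x - ‖z - x‖ * e‖ ≤ κ / 1000 * s)
    (hK : K ∩ closedBall y (κ * s) ⊆ P) (hT : Tg K y (κ * s)) :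
    ∃ τ : ℂ, ‖τ‖ = 1 ∧ 98 / 100 * s ≤ ((y - x) * conj τ).re ∧
      ∀ z ∈ K, 0 < ‖z - y‖ → ‖z - y‖ ≤ κ * s →
        |((z - y) * conj τ).im| ≤ 1 / 10 * (‖z - y‖ / (κ * s)) ^ (1 / 6 : ℝ) * ‖z - y‖ := by
  obtain ⟨τ, hτ, hS⟩ := hT
  have hκs : 0 < κ * s := mul_pos hκ hs
  have him : ∀ z ∈ K, 0 < ‖z - y‖ → ‖z - y‖ ≤ κ * s →
      |((z - y) * conj τ).im| ≤ 1 / 10 * (‖z - y‖ / (κ * s)) ^ (1 / 6 : ℝ) * ‖z - y‖ := by
    intro z hz h0 h1
    obtain ⟨k, hk, hb⟩ := (hS _ h0 h1).1 z hz rfl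
    refine le_trans (le_of_eq ?_) ((tubea_im _ hτ).trans hb)
    congr 1
    have hk' : k = 0 ∨ k = 1 := by omega
    rcases hk' with rfl | rfl
    · rw [dir_zero, sub_mul (z - y), mul_assoc, tubea_self hτ]
      simp
    · rw [dir_two, sub_mul (z - y), mul_assoc, neg_mul, tubea_self hτ]
      simp
  obtain ⟨z, hzK, hzy, hb⟩ := (hS _ hκs le_rfl).2 0 (by norm_num)
  rw [dir_zero, div_self hκs.ne', Real.one_rpow, mul_one] at hb
  have hzP : z ∈ P := hK ⟨hzK, by rw [mem_closedBall, dist_eq_norm, hzy]⟩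
  have hκs' : κ * s ≤ s / 4 := by nlinarith
  have h1 : ‖z - x‖ ≤ ‖z - y‖ + ‖y - x‖ := norm_sub_le_norm_sub_add_norm_sub z y x
  have h2 : ‖y - x‖ ≤ ‖y - z‖ + ‖z - x‖ := norm_sub_le_norm_sub_add_norm_sub y z x
  rw [norm_sub_rev y z] at h2
  have hz1 := hP z hzP (by linarith) (by linarith)
  have hy1 := hP y hy (by linarith) (by linarith)
  rw [hys] at hy1
  have e1 := abs_le.1 ((tubea_im _ he).trans hz1)
  have e2 := abs_le.1 ((tubea_im _ he).trans hy1)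
  have e3 := abs_le.1 ((tubea_im _ he).trans hb)
  have e4 : κ * s * (τ * conj e).im = ((z - x - ‖z - x‖ * e) * conj e).im -
      ((y - x - s * e) * conj e).im - ((z - y - (κ * s : ℝ) * τ) * conj e).im := by
    have f1 : (z - x - ‖z - x‖ * e) * conj e - (y - x - s * e) * conj e -
        (z - y - (κ * s : ℝ) * τ) * conj e =
        (κ * s : ℝ) * (τ * conj e) + ((s - ‖z - x‖ : ℝ) : ℂ) * (e * conj e) := by
      push_cast
      ring
    rw [← Complex.sub_im, ← Complex.sub_im, f1, tubea_self he, Complex.add_im, mul_one,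
      Complex.ofReal_im, Complex.im_ofReal_mul, add_zero]
  have e5 : |(τ * conj e).im| ≤ 11 / 100 := by
    rw [abs_le]
    constructor
    · refine le_of_mul_le_mul_left ?_ hκs
      rw [e4]
      nlinarith
    · refine le_of_mul_le_mul_left ?_ hκs
      rw [e4]
      nlinarith
  have e6 := tubea_sq τ he
  rw [hτ] at e6
  have e7 : 99 / 100 ≤ |(τ * conj e).re| := by
    refine abs_le_of_sq_le_sq' ?_ (abs_nonneg _) |>.2
    rw [sq_abs]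
    have := abs_le.1 e5
    nlinarith
  have e8 : ((y - x) * conj τ).re = s * (τ * conj e).re + ((y - x - s * e) * conj τ).re := by
    have f1 : (τ * conj e).re = (e * conj τ).re := by
      rw [← Complex.conj_re (τ * conj e), map_mul, Complex.conj_conj, mul_comm]
    rw [f1, ← Complex.re_ofReal_mul, ← Complex.add_re]
    congr 1
    ring
  have e9 := abs_le.1 ((tubea_re _ hτ).trans hy1)
  have e10 : κ / 1000 * s ≤ s / 1000 := by nlinarith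
  rcases le_total 0 (τ * conj e).re with h | h
  · rw [abs_of_nonneg h] at e7
    refine ⟨τ, hτ, ?_, him⟩
    rw [e8]
    nlinarith
  · rw [abs_of_nonpos h] at e7
    refine ⟨-τ, by rw [norm_neg, hτ], ?_, fun z hz h0 h1 => ?_⟩
    · rw [map_neg, mul_neg, Complex.neg_re, e8]
      nlinarith
    · rw [map_neg, mul_neg, Complex.neg_im, abs_neg]
      exact him z hz h0 h1

theorem tubea_two {κ : ℝ} {τ : ℂ} (hκ : 0 < κ) (hκ1 : κ ≤ 1 / 4) (hs : 0 < s) (hPK : P ⊆ K)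
    (hy : y ∈ P) (hys : ‖y - x‖ = s) (he : ‖e‖ = 1)
    (hP : ∀ z ∈ P, s / 2 ≤ ‖z - x‖ → ‖z - x‖ ≤ 2 * s → ‖z - x - ‖z - x‖ * e‖ ≤ κ / 1000 * s)
    (hτ : ‖τ‖ = 1) (hre : 98 / 100 * s ≤ ((y - x) * conj τ).re)
    (him : ∀ z ∈ K, 0 < ‖z - y‖ → ‖z - y‖ ≤ κ * s →
        |((z - y) * conj τ).im| ≤ 1 / 10 * (‖z - y‖ / (κ * s)) ^ (1 / 6 : ℝ) * ‖z - y‖)
    (hz : z ∈ P) (hzt : ‖z - x‖ = t) (hts : |t - s| ≤ κ * s / 8) :
    ‖z - y‖ ≤ 3 * |t - s| ∧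
      |((z - y) * conj τ).im| ≤ (|t - s| / (κ * s)) ^ (1 / 6 : ℝ) * |t - s| := by
  have hκs : 0 < κ * s := mul_pos hκ hs
  have hκs' : κ * s ≤ s / 4 := by nlinarith
  have hts' := abs_le.1 hts
  rcases (norm_nonneg (z - y)).eq_or_lt with h0 | h0
  · have : z - y = 0 := norm_eq_zero.1 h0.symm
    rw [this]
    simp only [norm_zero, zero_mul, Complex.zero_im, abs_zero]
    exact ⟨by positivity, by positivity⟩
  have hz1 := hP z hz (by linarith) (by linarith)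
  have hy1 := hP y hy (by linarith) (by linarith)
  rw [hys] at hy1
  rw [hzt] at hz1
  have hρ : ‖z - y‖ ≤ κ * s / 4 := by
    have f1 : z - y = (z - x - t * e) - (y - x - s * e) + ((t - s : ℝ) : ℂ) * e := by
      push_cast
      ring
    have f2 : ‖((t - s : ℝ) : ℂ) * e‖ = |t - s| := by
      rw [norm_mul, he, mul_one, Complex.norm_real, Real.norm_eq_abs]
    have f3 := norm_add_le ((z - x - t * e) - (y - x - s * e)) (((t - s : ℝ) : ℂ) * e)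
    have f4 := norm_sub_le (z - x - t * e) (y - x - s * e)
    rw [← f1, f2] at f3
    linarith
  have h1 := him z (hPK hz) h0 (by linarith)
  have h2 : (‖z - y‖ / (κ * s)) ^ (1 / 6 : ℝ) ≤ 1 :=
    Real.rpow_le_one (by positivity) ((div_le_one hκs).2 (by linarith)) (by norm_num)
  have h3 : |((z - y) * conj τ).im| ≤ ‖z - y‖ / 10 := by
    refine h1.trans ?_
    nlinarith
  have h4 : ‖z - y‖ ≤ 3 * |t - s| := by
    have g1 := tubea_sq (z - y) hτ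
    have g2 := tubea_sq (y - x) hτ
    have g3 := tubea_sq (z - x) hτ
    rw [hys] at g2
    rw [hzt, show z - x = (z - y) + (y - x) by ring, add_mul, Complex.add_re, Complex.add_im] at g3
    exact tubea_chord g1 g2 g3 h3 hre h0.le (by linarith) hs (hzt ▸ norm_nonneg _) (by linarith)
  refine ⟨h4, h1.trans ?_⟩
  have h5 : (‖z - y‖ / (κ * s)) ^ (1 / 6 : ℝ) ≤ 3 * (|t - s| / (κ * s)) ^ (1 / 6 : ℝ) := by
    have k1 : ‖z - y‖ / (κ * s) ≤ 3 * (|t - s| / (κ * s)) := by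
      rw [← mul_div_assoc]
      exact div_le_div_of_nonneg_right h4 hκs.le
    refine (Real.rpow_le_rpow (by positivity) k1 (by norm_num)).trans ?_
    rw [Real.mul_rpow (by norm_num) (by positivity)]
    refine mul_le_mul_of_nonneg_right ?_ (by positivity)
    have := Real.rpow_le_rpow_of_exponent_le (x := 3) (by norm_num) (show (1 / 6 : ℝ) ≤ 1 by norm_num)
    rwa [Real.rpow_one] at this
  have h6 : 0 ≤ (|t - s| / (κ * s)) ^ (1 / 6 : ℝ) := by positivity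
  have h7 := mul_le_mul h5 h4 h0.le (by positivity)
  nlinarith [mul_nonneg h6 (abs_nonneg (t - s))]

theorem tubeA {κ : ℝ} (hκ : 0 < κ) (hκ1 : κ ≤ 1 / 4) : ∃ η : ℝ, 0 < η ∧
    ∀ {K P : Set ℂ} {x : ℂ} {r : ℝ}, P ⊆ K → (∀ s ∈ Ioo 0 r, (P ∩ sphere x s).Nonempty) →
      (∀ s ∈ Ioo 0 r, ∃ e : ℂ, ‖e‖ = 1 ∧ ∀ z ∈ P, s / 2 ≤ ‖z - x‖ → ‖z - x‖ ≤ 2 * s →
        ‖z - x - ‖z - x‖ * e‖ ≤ η * s) →
      (∀ y ∈ P, 0 < ‖y - x‖ → ‖y - x‖ < r →
        K ∩ closedBall y (κ * ‖y - x‖) ⊆ P ∧ Tg K y (κ * ‖y - x‖)) →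
      ∃ p τ : ℝ → ℂ, ∀ s ∈ Ioo 0 r, P ∩ sphere x s = {p s} ∧ ‖τ s‖ = 1 ∧
        9 / 10 * s ≤ ⟪τ s, p s - x⟫ ∧ ∀ t ∈ Ioo 0 r, |t - s| ≤ κ * s / 8 →
          ‖p t - p s‖ ≤ 3 * |t - s| ∧
            |((p t - p s) * conj (τ s)).im| ≤ (|t - s| / (κ * s)) ^ (1 / 6 : ℝ) * |t - s| := by
  refine ⟨κ / 1000, by positivity, fun {K P x r} hPK hne hline hT => ?_⟩
  have key : ∀ s ∈ Ioo 0 r, ∃ y τ : ℂ, y ∈ P ∧ ‖y - x‖ = s ∧ ‖τ‖ = 1 ∧
      98 / 100 * s ≤ ((y - x) * conj τ).re ∧ ∀ z ∈ P, ∀ t, ‖z - x‖ = t → |t - s| ≤ κ * s / 8 →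
        ‖z - y‖ ≤ 3 * |t - s| ∧
          |((z - y) * conj τ).im| ≤ (|t - s| / (κ * s)) ^ (1 / 6 : ℝ) * |t - s| := by
    intro s hs
    obtain ⟨y, hy, hys⟩ := hne s hs
    rw [mem_sphere, dist_eq_norm] at hys
    obtain ⟨e, he, hP⟩ := hline s hs
    obtain ⟨h1, h2⟩ := hT y hy (hys ▸ hs.1) (hys ▸ hs.2)
    rw [hys] at h1 h2
    obtain ⟨τ, hτ, hre, him⟩ := tubea_pt hκ hκ1 hs.1 hy hys he hP h1 h2
    exact ⟨y, τ, hy, hys, hτ, hre, fun z hz t hzt hts =>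
      tubea_two hκ hκ1 hs.1 hPK hy hys he hP hτ hre him hz hzt hts⟩
  choose! p τ hp hps hτ hre hz using key
  refine ⟨p, τ, fun s hs => ⟨?_, hτ s hs, ?_, fun t ht hts => hz s hs _ (hp t ht) t (hps t ht) hts⟩⟩
  · refine Set.eq_singleton_iff_unique_mem.2 ⟨⟨hp s hs, ?_⟩, fun z hzs => ?_⟩
    · rw [mem_sphere, dist_eq_norm, hps s hs]
    · have h1 : ‖z - x‖ = s := by rw [← dist_eq_norm]; exact hzs.2
      have h2 := (hz s hs z hzs.1 s h1 (by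
        rw [sub_self, abs_zero]
        have := mul_pos hκ hs.1
        positivity)).1
      rw [sub_self, abs_zero, mul_zero] at h2
      exact sub_eq_zero.1 (norm_le_zero_iff.1 h2)
  · rw [Complex.inner]
    have := hre s hs
    have := hs.1
    linarith

end Vale.Agent.P128
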