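import Vale.Agent.P128.ER2
import Vale.Agent.P128.TubeA
import Vale.Agent.P128.TubeB

/-!
# P128 Rad1

At a tip `K` is a radial curve: `tubeA` with `P = K`; nonempty circles from `cross` (`lcon`,
`adm_small`), closeness to a ray from `near_star_pt` with `Near (η/2)` at scale `s`, tangents from `tg_near`.
-/

namespace Vale.Agent.P128

open Set Metric MeasureTheory Filter Topology Complex
open scoped ENNReal ContDiff RealInnerProductSpace Gradient Real ComplexConjugate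

variable {Ω K L A S T U O X Γ P M₀ K₀ K₁ : Set ℂ} {u v w g hh ψ η : ℂ → ℝ} {G : ℂ → ℂ}
  {π₀ π₁ : ℂ → Set ℂ} {x y z c p q e a₀ F : ℂ} {lam H r s R a b t M Θ ρ ε δ d : ℝ} {n : ℕ}

theorem rad1 (h : MM Ω lam u K π₀) (hΩ : x ∈ Ω) (hB : Bl u K x 1) :
    ∃ (r : ℝ) (p p' : ℝ → ℂ), 0 < r ∧ Rad K x 0 r p p' := by
  obtain ⟨κ, ρ, hκ, hκ1, hρ, hT⟩ := tg_near h hΩ hB
  obtain ⟨η, hη, hA⟩ := tubeA hκ (by linarith)
  obtain ⟨C, hC⟩ := tubeB hκ (by linarith)
  obtain ⟨M, ε, hM, hε, -, hL⟩ := lcon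
  have hη' : 0 < min (η / 2) (1 / 100) := lt_min (half_pos hη) (by norm_num)
  obtain ⟨R, hR⟩ := (adm_small h.pre.1 hΩ lam hε).exists
  have hLc := hL h hR
  obtain ⟨r₁, hr₁, hN⟩ := (mem_nhdsGT_iff_exists_Ioo_subset.1 (hB.2.2.2.1 _ hη'))
  have hr : 0 < min (min ρ r₁) (R / 3) := lt_min (lt_min hρ hr₁) (by linarith [hR.1])
  have hs : ∀ s ∈ Ioo 0 (min (min ρ r₁) (R / 3)), s < r₁ ∧ 3 * s ≤ R := fun s hs =>
    ⟨hs.2.trans_le ((min_le_left _ _).trans (min_le_right _ _)),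
      by linarith [hs.2.trans_le (min_le_right _ _)]⟩
  obtain ⟨p, τ, hp⟩ := hA (K := K) (P := K) (x := x) (r := min (min ρ r₁) (R / 3)) subset_rfl
    (fun s h0 => by
      obtain ⟨e, he, hn⟩ := hN ⟨h0.1, (hs s h0).1⟩
      obtain ⟨z, hz, hz', -⟩ := cross (k := 0) (t := s) (by linarith) hη' (min_le_right _ _) he h0.1
        hn (hLc.mono (closedBall_subset_closedBall (hs s h0).2)) one_pos
        ⟨by linarith [h0.1], by linarith [h0.1]⟩
      exact ⟨z, hz, mem_sphere_iff_norm.2 hz'⟩)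
    (fun s h0 => by
      obtain ⟨e, he, hn⟩ := hN ⟨h0.1, (hs s h0).1⟩
      refine ⟨e, he, fun z hz _ h2 => ?_⟩
      obtain ⟨k, hk, hk'⟩ := near_star_pt he hn hz h2
      obtain rfl : k = 0 := by omega
      rw [dir_zero] at hk'
      refine hk'.trans (mul_le_mul_of_nonneg_right ?_ h0.1.le)
      linarith [min_le_left (η / 2) (1 / 100)])
    (fun y hy h0 h1 => ⟨inter_subset_left,
      hT y hy h0 (h1.trans_le ((min_le_left _ _).trans (min_le_left _ _)))⟩)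
  obtain ⟨p', hp', -⟩ := hC hp
  exact ⟨_, p, p', hr, hp'⟩

end Vale.Agent.P128
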