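import Vale.Agent.P128.RateN
import Vale.Agent.P128.NearM

/-!
# P128 RateA

At all radii `t ≤ R` the circle has `≥ n` points (`cross_card` at scale `t`, `lcon` at scale `3R`). For
`ρ ≤ R/4` the radii in `(2ρ, 4ρ)` with `Nn ≥ n + 1` have measure `≤ 4ρ/5`; `pick_avg` gives a good
`s ∈ (2ρ, 4ρ)` with `Nn = n` and `E2 ≤ 4 Dr (4ρ)`. `cone_all`, `Lr_low` twice and `qdecay` give the excess
`δ ≤ C ε (4ρ/R)^(1/3)`; apply `rateN` with `δ = (w/C)² (4ρ/R)^(1/3)`.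
-/

namespace Vale.Agent.P128

open Set Metric MeasureTheory Filter Topology Complex
open scoped ENNReal ContDiff RealInnerProductSpace Gradient Real ComplexConjugate

variable {Ω K L A S T U O X Γ P M₀ K₀ K₁ : Set ℂ} {u v w g hh ψ η : ℂ → ℝ} {G : ℂ → ℂ}
  {π₀ π₁ : ℂ → Set ℂ} {x y z c p q e a₀ F : ℂ} {lam H r s R a b t M Θ ρ ε δ d : ℝ} {n : ℕ}

theorem ratea_pick (h : Pre Ω u K) (hb : closedBall y R ⊆ Ω) (hρ : 0 < ρ) (hR : 4 * ρ ≤ R)
    (hn : ∀ t, 0 < t → t ≤ R → (n : ℕ∞) ≤ (K ∩ sphere y t).encard)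
    (hL : Lr K y (4 * ρ) ≤ (n + 1 / 5) * (4 * ρ)) {B : ℝ} (hB : 0 < B)
    (hD : Dr u K y (4 * ρ) ≤ B) :
    ∃ s ∈ Ioo (2 * ρ) (4 * ρ), Good u K y s ∧ (Nn K y s : ℝ) ≤ n ∧ A2 u K y s ≤ 4 * B := by
  have hf := (h.2.2.2 y R hb).2
  have hab : 2 * ρ ≤ 4 * ρ := by linarith
  obtain ⟨i1, i2⟩ := Nn_int hf h.2.1 (by linarith : 0 ≤ 2 * ρ) hab hR
  obtain ⟨j1, j2⟩ := h.Dr_sub hb (by linarith : 0 ≤ 2 * ρ) hab hR
  have l1 := Lr_low (n := n) hf h.2.1 le_rfl (by linarith : 0 ≤ 2 * ρ) (by linarith)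
    fun t ht => hn t ht.1 (by linarith [ht.2])
  have l2 := Lr_nonneg K y 0
  have l3 := Dr_nonneg u K y (2 * ρ)
  have k1 : IntervalIntegrable (fun s => ((Nn K y s : ℝ) - n) + 4 * ρ / 5 / B * (E2 u K y s / s))
      volume (2 * ρ) (4 * ρ) := (i1.sub intervalIntegrable_const).add (j1.const_mul _)
  have k2 : ∫ s in Ioo (2 * ρ) (4 * ρ),
      (((Nn K y s : ℝ) - n) + 4 * ρ / 5 / B * (E2 u K y s / s)) ≤ 8 * ρ / 5 := by
    rw [← integral_Ioc_eq_integral_Ioo, ← intervalIntegral.integral_of_le hab,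
      intervalIntegral.integral_add (i1.sub intervalIntegrable_const) (j1.const_mul _),
      intervalIntegral.integral_sub i1 intervalIntegrable_const, intervalIntegral.integral_const,
      intervalIntegral.integral_const_mul, smul_eq_mul]
    have k3 : 4 * ρ / 5 / B * ∫ s in 2 * ρ..4 * ρ, E2 u K y s / s ≤ 4 * ρ / 5 / B * B :=
      mul_le_mul_of_nonneg_left (by linarith) (by positivity)
    rw [div_mul_cancel₀ _ hB.ne'] at k3
    linarith
  obtain ⟨s, hs, hg, hle⟩ := pick_avg (Q := fun s => Good u K y s) (m := 2 * ρ) measurableSet_Ioo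
    ((intervalIntegrable_iff_integrableOn_Ioo_of_le hab).1 k1) k2 (by linarith) (by positivity)
    (by rw [Real.volume_Ioo]; exact ENNReal.ofReal_le_ofReal (by linarith))
    (by filter_upwards [h.ae_good hb] with s h1 h2 using
      h1 ⟨by linarith [h2.1], by linarith [h2.2]⟩)
  have e1 : 8 * ρ / 5 / (2 * ρ) = 4 / 5 := by
    field_simp
    norm_num
  rw [e1] at hle
  have hs0 : 0 < s := hg.1
  obtain ⟨a1, a2⟩ := A2_nonneg u K y s
  have a3 : 0 ≤ 4 * ρ / 5 / B * (E2 u K y s / s) := by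
    unfold E2
    positivity
  have a4 : n ≤ Nn K y s := by
    have a5 := hn s hs0 (by linarith [hs.2])
    rw [← hg.2.1.cast_ncard_eq] at a5
    exact_mod_cast a5
  have a5 : (n : ℝ) ≤ Nn K y s := by exact_mod_cast a4
  refine ⟨s, hs, hg, ?_, ?_⟩
  · have a6 : (Nn K y s : ℝ) < n + 1 := by linarith
    have a7 : Nn K y s < n + 1 := by exact_mod_cast a6
    exact_mod_cast Nat.lt_succ_iff.1 a7
  · have a6 : 4 * ρ / 5 / B * (E2 u K y s / s) ≤ 4 / 5 := by linarith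
    rw [div_mul_div_comm, div_le_iff₀ (by positivity)] at a6
    have a7 : B * s ≤ B * (4 * ρ) := mul_le_mul_of_nonneg_left hs.2.le hB.le
    have a8 : ρ * E2 u K y s ≤ ρ * (4 * B) := by linarith
    have a9 := le_of_mul_le_mul_left a8 hρ
    unfold E2 at a9
    linarith

theorem rateA : ∃ η : ℝ, 0 < η ∧ ∀ w : ℝ, 0 < w → ∃ ε : ℝ, 0 < ε ∧
    ∀ {Ω lam u K π₀ y R} {n : ℕ}, n ≤ 3 → MM Ω lam u K π₀ → y ∈ K → Quiet Ω lam u K y R ε →
      (∀ ρ, 0 < ρ → ρ ≤ R →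
        (∃ e, ‖e‖ = 1 ∧ Near η y ρ K (star n y e)) ∧ Lr K y ρ ≤ (n + 1 / 5) * ρ) →
      ∀ ρ, 0 < ρ → ρ ≤ R / 4 → Rd K y ρ (w * (ρ / (R / 4)) ^ (1 / 6 : ℝ)) := by
  obtain ⟨M, ε1, hM, hε1, -, hlc⟩ := lcon
  obtain ⟨η, C, hη, hη1, hC, hN⟩ := rateN (M := M) (by linarith)
  obtain ⟨ε0, C0, hε0, hε01, hC0, hq⟩ := qdecay
  refine ⟨η, hη, fun w hw => ?_⟩
  obtain ⟨ε, hε, e0, e1, e2⟩ : ∃ ε : ℝ, 0 < ε ∧ ε ≤ ε0 ∧ ε ≤ ε1 / 3 ∧
      ε ≤ (w / C) ^ 2 / (32 * C0 + 4) :=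
    ⟨min ε0 (min (ε1 / 3) ((w / C) ^ 2 / (32 * C0 + 4))), by positivity, min_le_left _ _,
      (min_le_right _ _).trans (min_le_left _ _), (min_le_right _ _).trans (min_le_right _ _)⟩
  rw [le_div_iff₀ (by positivity)] at e2
  refine ⟨ε, hε, fun {Ω lam u K π₀ y R n} hn hm hy hQ hh ρ hρ hρR => ?_⟩
  have hR : 0 < R := hQ.1.1
  have hl : 0 ≤ lam := hm.1.1
  have hlR : lam * R ≤ ε ^ 2 := hQ.1.2.2
  have hε' : ε ≤ 1 := e0.trans hε01
  have hp := hm.pre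
  have hb : closedBall y R ⊆ Ω :=
    (closedBall_subset_closedBall (le_div_self hR.le hε hε')).trans hQ.1.2.1
  have hf := (hp.2.2.2 y R hb).2
  have hL : LCn K (closedBall y (3 * R)) M := by
    refine hlc hm (hQ.1.mono hl hε hε1 (by positivity) ?_ ?_)
    · rw [div_le_div_iff₀ hε1 hε]
      have d1 := mul_le_mul_of_nonneg_left e1 hR.le
      linarith only [d1]
    · have d1 := pow_le_pow_left₀ hε.le e1 2
      have d2 := sq_nonneg ε1
      linarith only [d1, d2, hlR]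
  have hc : ∀ t, 0 < t → t ≤ R → (n : ℕ∞) ≤ (K ∩ sphere y t).encard := by
    intro t ht htR
    obtain ⟨⟨e, he, hNe⟩, -⟩ := hh t ht htR
    exact cross_card (by linarith) hη hη1 he ht hn hNe
      (hL.mono (closedBall_subset_closedBall (by linarith))) ⟨by linarith, by linarith⟩
  have h4 : 4 * ρ ≤ R := by linarith
  have x0 : 0 < 4 * ρ / R := by positivity
  have x1 : 4 * ρ / R ≤ 1 := (div_le_one hR).2 h4
  obtain ⟨θ, hθ⟩ : ∃ θ : ℝ, θ = (4 * ρ / R) ^ (1 / 3 : ℝ) := ⟨_, rfl⟩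
  have hθ0 : 0 < θ := hθ ▸ Real.rpow_pos_of_pos x0 _
  have hθ1 : 4 * ρ / R ≤ θ := by
    rw [hθ]
    exact Real.self_le_rpow_of_le_one x0.le x1 (by norm_num)
  have hD := hq hε e0 hm hy hQ (4 * ρ) (by positivity) h4
  rw [← hθ] at hD
  obtain ⟨s, hs, hg, s1, s2⟩ := ratea_pick hp hb hρ h4 hc (hh _ (by positivity) h4).2
    (by positivity) hD
  have hsR : s ≤ R := by linarith [hs.2]
  have c1 := cone_all hm ((closedBall_subset_closedBall hsR).trans hb) hg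
  have c2 := Lr_low (n := n) hf hp.2.1 (by linarith : 0 ≤ 2 * ρ) hs.1.le hsR
    fun t ht => hc t (by linarith [ht.1]) (by linarith [ht.2])
  have c3 := Lr_low (n := n) hf hp.2.1 le_rfl (by linarith : 0 ≤ ρ / 4) (by linarith)
    fun t ht => hc t ht.1 (by linarith [ht.2])
  have c4 := Lr_nonneg K y 0
  have c5 := Dr_nonneg u K y s
  have c6 : (Nn K y s : ℝ) * s ≤ n * s := mul_le_mul_of_nonneg_right s1 hg.1.le
  have c7 : lam * s ^ 2 ≤ 4 * ε * θ * ρ := by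
    have d1 : s ^ 2 ≤ (4 * ρ) ^ 2 := pow_le_pow_left₀ hg.1.le hs.2.le 2
    have d2 : lam * R ≤ ε := hlR.trans (pow_le_of_le_one hε.le hε' two_ne_zero)
    calc lam * s ^ 2 ≤ lam * (4 * ρ) ^ 2 := mul_le_mul_of_nonneg_left d1 hl
      _ = lam * R * (4 * ρ / R) * (4 * ρ) := by field_simp
      _ ≤ ε * θ * (4 * ρ) := by gcongr
      _ = 4 * ε * θ * ρ := by ring
  have c8 : ε * (32 * C0 + 4) * (θ * ρ) ≤ (w / C) ^ 2 * (θ * ρ) :=
    mul_le_mul_of_nonneg_right e2 (by positivity)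
  obtain ⟨⟨e, he, hNe⟩, -⟩ := hh (2 * ρ) (by positivity) (by linarith)
  have key := hN (δ := (w / C) ^ 2 * θ) hp.2.1 hρ he hn (by positivity)
    (hp.2.2.2 y _ ((closedBall_subset_closedBall (by linarith)).trans hb)).2 hNe
    (hL.mono (closedBall_subset_closedBall (by linarith only [h4, hR])))
    (by linarith only [c1, c2, c3, c4, c5, c6, c7, c8, s2])
  have e3 : C * √((w / C) ^ 2 * θ) = w * (ρ / (R / 4)) ^ (1 / 6 : ℝ) := by
    rw [Real.sqrt_mul (by positivity), Real.sqrt_sq (by positivity), hθ, Real.sqrt_eq_rpow,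
      ← Real.rpow_mul x0.le, show ρ / (R / 4) = 4 * ρ / R by field_simp,
      show (1 / 3 * (1 / 2) : ℝ) = 1 / 6 by norm_num]
    field_simp
  rwa [e3] at key

end Vale.Agent.P128
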