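import Vale.Agent.P128.Top

/-!
# P128 SecC

Small excess gives small angular deviation. For `δ > 1/16` use `cross` and the bound `2`. Otherwise let
`K_k` be the closed set of `z ∈ K` with `ρ/8 ≤ ‖z - y‖ ≤ 4ρ` within `ρ/50` of the point of the `k`-th ray at the
same radius; these sets are disjoint, cover `K` in the annulus (`near_star_pt`) and meet every circle of
radius in `[ρ/4, 3ρ]` (`cross`). By `eil_low` the radii in `(ρ/4, 2ρ)` where `K_k` has two points have measure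
`≤ δ ρ`. For `p, q ∈ K_k` at radii `a ≤ b` in `[ρ/2, ρ]` choose `a'' ∈ (a - 2δρ, a)`, `b'' ∈ (b, b + 2δρ)` with
one point each. `Q = K_k ∩ {a'' ≤ r ≤ b''}` is connected (`sector_conn`). So
`‖p - q‖ ≤ μH[1] Q ≤ (b'' - a'') + δρ` (`dist_le_len`, additivity and `eil_low` for the other pieces), and
`‖p̂ - q̂‖² a b = ‖p - q‖² - (b - a)²`.
`sector_conn`: if `Q = U ⊔ V` (closed, nonempty), the radii of `U` and `V` cover `[a, b]`, so some radius is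
shared by `p ∈ U`, `q ∈ V`; they are joined by a continuum `Γ ⊆ P`; put the part of `Γ` below radius `a` (resp.
above `b`) on the side of the unique point of radius `a` (resp. `b`): this disconnects `Γ`.
-/

namespace Vale.Agent.P128

open Set Metric MeasureTheory Filter Topology Complex
open scoped ENNReal ContDiff RealInnerProductSpace Gradient Real ComplexConjugate

variable {Ω K L A S T U O X Γ P M₀ K₀ K₁ : Set ℂ} {u v w g hh ψ η : ℂ → ℝ} {G : ℂ → ℂ}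
  {π₀ π₁ : ℂ → Set ℂ} {x y z c p q e a₀ F : ℂ} {lam H r s R a b t M Θ ρ ε δ d : ℝ} {n : ℕ}

theorem sector_conn (hP : IsClosed P) (hab : a ≤ b)
    (h1 : ∀ t ∈ Icc a b, (P ∩ sphere y t).Nonempty) (ha : (P ∩ sphere y a).Subsingleton)
    (hb : (P ∩ sphere y b).Subsingleton)
    (hj : ∀ p ∈ P, ∀ q ∈ P, ‖p - y‖ ∈ Icc a b → ‖q - y‖ = ‖p - y‖ → Join P univ p q) :
    IsPreconnected (P ∩ {z | ‖z - y‖ ∈ Icc a b}) := by
  have hr : Continuous fun z : ℂ => ‖z - y‖ := by fun_prop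
  have hQ : IsCompact (P ∩ {z | ‖z - y‖ ∈ Icc a b}) :=
    (isCompact_closedBall y b).of_isClosed_subset (hP.inter (isClosed_Icc.preimage hr))
      fun z hz => mem_closedBall_iff_norm.2 hz.2.2
  set Q := P ∩ {z | ‖z - y‖ ∈ Icc a b} with hQd
  rw [isPreconnected_closed_iff]
  intro u v hu hv hc hU hV
  by_contra hne
  have hd : ∀ z ∈ Q, z ∈ u → z ∈ v → False := fun z h1 h2 h3 => hne ⟨z, h1, h2, h3⟩
  obtain ⟨t, ht, ⟨p, hp, rfl⟩, q, hq, hpq⟩ := isPreconnected_closed_iff.1 isPreconnected_Icc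
    ((fun z : ℂ => ‖z - y‖) '' (Q ∩ u)) ((fun z : ℂ => ‖z - y‖) '' (Q ∩ v))
    ((hQ.inter_right hu).image hr).isClosed ((hQ.inter_right hv).image hr).isClosed
    (fun t ht => by
      obtain ⟨z, hz, hz'⟩ := h1 t ht
      rw [mem_sphere_iff_norm] at hz'
      have hzQ : z ∈ Q := ⟨hz, show ‖z - y‖ ∈ Icc a b from hz'.symm ▸ ht⟩
      exact (hc hzQ).imp (fun h => ⟨z, ⟨hzQ, h⟩, hz'⟩) fun h => ⟨z, ⟨hzQ, h⟩, hz'⟩)
    (hU.elim fun z hz => ⟨_, hz.1.2, z, hz, rfl⟩) (hV.elim fun z hz => ⟨_, hz.1.2, z, hz, rfl⟩)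
  obtain ⟨Γ, -, hΓ, hs, hpΓ, hqΓ⟩ := hj p hp.1.1 q hq.1.1 ht hpq
  have c1 : ∀ (E : Prop), IsClosed {z : ℂ | E ∧ ‖z - y‖ ≤ a} := fun E =>
    isClosed_const.inter (isClosed_le hr continuous_const)
  have c2 : ∀ (E : Prop), IsClosed {z : ℂ | E ∧ b ≤ ‖z - y‖} := fun E =>
    isClosed_const.inter (isClosed_le continuous_const hr)
  have su : ∀ {c : ℝ} {z : ℂ}, (P ∩ sphere y c).Subsingleton → z ∈ P → ‖z - y‖ = c → z ∈ u →
      P ∩ sphere y c ⊆ u := fun h1 h2 h3 h4 w hw =>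
    h1 ⟨h2, mem_sphere_iff_norm.2 h3⟩ hw ▸ h4
  obtain ⟨z, hz, hz1, hz2⟩ := isPreconnected_closed_iff.1 hΓ
    (Q ∩ u ∪ {z | P ∩ sphere y a ⊆ u ∧ ‖z - y‖ ≤ a} ∪ {z | P ∩ sphere y b ⊆ u ∧ b ≤ ‖z - y‖})
    (Q ∩ v ∪ {z | ¬ P ∩ sphere y a ⊆ u ∧ ‖z - y‖ ≤ a} ∪
      {z | ¬ P ∩ sphere y b ⊆ u ∧ b ≤ ‖z - y‖})
    (((hQ.isClosed.inter hu).union (c1 _)).union (c2 _))
    (((hQ.isClosed.inter hv).union (c1 _)).union (c2 _))
    (fun z hz => by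
      rcases le_total ‖z - y‖ a with h | h
      · by_cases hA : P ∩ sphere y a ⊆ u
        · exact Or.inl (Or.inl (Or.inr ⟨hA, h⟩))
        · exact Or.inr (Or.inl (Or.inr ⟨hA, h⟩))
      rcases le_total b ‖z - y‖ with h' | h'
      · by_cases hB : P ∩ sphere y b ⊆ u
        · exact Or.inl (Or.inr ⟨hB, h'⟩)
        · exact Or.inr (Or.inr ⟨hB, h'⟩)
      have hzQ : z ∈ Q := ⟨(hs hz).1, h, h'⟩
      exact (hc hzQ).imp (fun h => Or.inl (Or.inl ⟨hzQ, h⟩)) fun h => Or.inl (Or.inl ⟨hzQ, h⟩))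
    ⟨p, hpΓ, Or.inl (Or.inl hp)⟩ ⟨q, hqΓ, Or.inl (Or.inl hq)⟩
  rcases hz1 with (h | h) | h <;> rcases hz2 with (k | k) | k
  · exact hd z h.1 h.2 k.2
  · exact k.1 (su ha h.1.1 (le_antisymm k.2 h.1.2.1) h.2)
  · exact k.1 (su hb h.1.1 (le_antisymm h.1.2.2 k.2) h.2)
  · exact hd z k.1 (h.1 ⟨k.1.1, mem_sphere_iff_norm.2 (le_antisymm h.2 k.1.2.1)⟩) k.2
  · exact k.1 h.1
  · exact k.1 (le_antisymm hab (k.2.trans h.2) ▸ h.1)
  · exact hd z k.1 (h.1 ⟨k.1.1, mem_sphere_iff_norm.2 (le_antisymm k.1.2.2 h.2)⟩) k.2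
  · exact k.1 (le_antisymm (h.2.trans k.2) hab ▸ h.1)
  · exact k.1 h.1

end Vale.Agent.P128
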