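import Vale.Agent.P128.Geo
import Vale.Agent.P128.Eil
import Vale.Agent.P128.SecC

/-!
# P128 RateN

Small excess of length gives small angular deviation.
-/

namespace Vale.Agent.P128

open Set Metric MeasureTheory Filter Topology Complex
open scoped ENNReal ContDiff RealInnerProductSpace Gradient Real ComplexConjugate

variable {Ω K L A S T U O X Γ P M₀ K₀ K₁ : Set ℂ} {u v w g hh ψ η : ℂ → ℝ} {G : ℂ → ℂ}
  {π₀ π₁ : ℂ → Set ℂ} {x y z c p q e a₀ F : ℂ} {lam H r s R a b t M Θ ρ ε δ d : ℝ} {n : ℕ}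

theorem raten_low (h1 : ∀ t ∈ Ico (ρ / 4) (2 * ρ), (P ∩ sphere y t).Nonempty) {J : Set ℝ}
    (hJ : MeasurableSet J) (hs : J ⊆ Ico (ρ / 4) (2 * ρ)) :
    volume J ≤ μH[1] (P ∩ (fun z => dist z y) ⁻¹' J) := by
  have h := eil_low (n := 1) P (LipschitzWith.dist_left y) hJ (fun t ht => by
    rw [Nat.cast_one, Set.one_le_encard_iff_nonempty]
    exact h1 t (hs ht))
  rwa [Nat.cast_one, one_mul] at h

theorem raten_piece {c' : ℝ} (hρ : 0 < ρ)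
    (h1 : ∀ t ∈ Ico (ρ / 4) (2 * ρ), (P ∩ sphere y t).Nonempty)
    (h2 : μH[1] (P ∩ (fun z => dist z y) ⁻¹' Ico (ρ / 4) (2 * ρ)) ≤
      ENNReal.ofReal (7 / 4 * ρ + δ * ρ))
    (hc : ρ / 4 ≤ c') (hcd : c' ≤ d) (hd : d < 2 * ρ) :
    μH[1] (P ∩ (fun z => dist z y) ⁻¹' Icc c' d) ≤ ENNReal.ofReal (d - c' + δ * ρ) := by
  have hsub : Icc c' d ⊆ Ico (ρ / 4) (2 * ρ) := fun t ht => ⟨hc.trans ht.1, ht.2.trans_lt hd⟩
  have hm : MeasurableSet ((fun z : ℂ => dist z y) ⁻¹' Icc c' d) :=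
    (isClosed_Icc.preimage (continuous_id.dist continuous_const)).measurableSet
  have e := measure_inter_add_diff (μ := μH[1])
    (P ∩ (fun z => dist z y) ⁻¹' Ico (ρ / 4) (2 * ρ)) hm
  have e1 : P ∩ (fun z => dist z y) ⁻¹' Ico (ρ / 4) (2 * ρ) ∩ (fun z => dist z y) ⁻¹' Icc c' d =
      P ∩ (fun z => dist z y) ⁻¹' Icc c' d := by
    ext z
    exact ⟨fun h => ⟨h.1.1, h.2⟩, fun h => ⟨⟨h.1, hsub h.2⟩, h.2⟩⟩
  have e2 : (P ∩ (fun z => dist z y) ⁻¹' Ico (ρ / 4) (2 * ρ)) \ (fun z => dist z y) ⁻¹' Icc c' d =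
      P ∩ (fun z => dist z y) ⁻¹' (Ico (ρ / 4) (2 * ρ) \ Icc c' d) := by
    ext z
    exact ⟨fun h => ⟨h.1.1, h.1.2, h.2⟩, fun h => ⟨⟨h.1, h.2.1⟩, h.2.2⟩⟩
  rw [e1, e2] at e
  have l := raten_low h1 (J := Ico (ρ / 4) (2 * ρ) \ Icc c' d)
    (measurableSet_Ico.diff measurableSet_Icc) diff_subset
  rw [measure_diff hsub measurableSet_Icc.nullMeasurableSet (by simp), Real.volume_Ico,
    Real.volume_Icc, ← ENNReal.ofReal_sub _ (by linarith)] at l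
  have l2 : μH[1] (P ∩ (fun z => dist z y) ⁻¹' Icc c' d) +
      ENNReal.ofReal (2 * ρ - ρ / 4 - (d - c')) ≤ ENNReal.ofReal (7 / 4 * ρ + δ * ρ) := by
    refine le_trans ?_ h2
    rw [← e]
    exact add_le_add le_rfl l
  have l3 := ENNReal.le_sub_of_add_le_right ENNReal.ofReal_ne_top l2
  rw [← ENNReal.ofReal_sub _ (by linarith)] at l3
  refine l3.trans (le_of_eq ?_)
  congr 1
  ring

theorem raten_single {c' : ℝ} (hρ : 0 < ρ) (hδ : 0 < δ)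
    (h1 : ∀ t ∈ Ico (ρ / 4) (2 * ρ), (P ∩ sphere y t).Nonempty)
    (h2 : μH[1] (P ∩ (fun z => dist z y) ⁻¹' Ico (ρ / 4) (2 * ρ)) ≤
      ENNReal.ofReal (7 / 4 * ρ + δ * ρ))
    (hc : ρ / 4 ≤ c') (hd : c' + 2 * (δ * ρ) < 2 * ρ) :
    ∃ t ∈ Icc c' (c' + 2 * (δ * ρ)), (P ∩ sphere y t).Subsingleton := by
  have hp : 0 < δ * ρ := mul_pos hδ hρ
  by_contra hcon
  push Not at hcon
  have h := eil_low (n := 2) P (LipschitzWith.dist_left y)
    (J := Icc c' (c' + 2 * (δ * ρ))) measurableSet_Icc (fun t ht => by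
      have h3 := Set.one_lt_encard_iff_nontrivial.2 (hcon t ht)
      exact Order.add_one_le_of_lt h3)
  have h4 := h.trans (raten_piece hρ h1 h2 hc (by linarith) hd)
  rw [Real.volume_Icc, ← ENNReal.ofReal_natCast, ← ENNReal.ofReal_mul (by positivity),
    ENNReal.ofReal_le_ofReal_iff (by linarith)] at h4
  push_cast at h4
  linarith

theorem raten_dist (hP : IsClosed P) (hρ : 0 < ρ) (hδ : 0 < δ) (hδ1 : δ ≤ 1 / 16)
    (h1 : ∀ t ∈ Ico (ρ / 4) (2 * ρ), (P ∩ sphere y t).Nonempty)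
    (h2 : μH[1] (P ∩ (fun z => dist z y) ⁻¹' Ico (ρ / 4) (2 * ρ)) ≤
      ENNReal.ofReal (7 / 4 * ρ + δ * ρ))
    (hj : ∀ p ∈ P, ∀ q ∈ P, ‖p - y‖ ∈ Icc (ρ / 4) (2 * ρ) → ‖q - y‖ = ‖p - y‖ → Join P univ p q)
    (hp : p ∈ P) (hq : q ∈ P) (ha : ρ / 2 ≤ ‖p - y‖) (hab : ‖p - y‖ ≤ ‖q - y‖)
    (hb : ‖q - y‖ ≤ ρ) : ‖p - q‖ ≤ ‖q - y‖ - ‖p - y‖ + 5 * (δ * ρ) := by
  have h0 : 0 < δ * ρ := mul_pos hδ hρ
  have h16 : δ * ρ ≤ 1 / 16 * ρ := mul_le_mul_of_nonneg_right hδ1 hρ.le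
  obtain ⟨a', ha', sa⟩ := raten_single (c' := ‖p - y‖ - 2 * (δ * ρ)) hρ hδ h1 h2 (by linarith)
    (by linarith)
  obtain ⟨b', hb', sb⟩ := raten_single (c' := ‖q - y‖) hρ hδ h1 h2 (by linarith) (by linarith)
  have a1 := ha'.1
  have a2 := ha'.2
  have b1 := hb'.1
  have b2 := hb'.2
  have hc := sector_conn (y := y) (a := a') (b := b') hP (by linarith)
    (fun t ht => h1 t ⟨by linarith [ht.1], by linarith [ht.2]⟩) sa sb
    (fun p hp q hq h3 h4 => hj p hp q hq ⟨by linarith [h3.1], by linarith [h3.2]⟩ h4)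
  have hl := dist_le_len (p := p) (q := q) hc ⟨hp, by linarith, by linarith⟩
    ⟨hq, by linarith, by linarith⟩
  have hm := raten_piece (c' := a') (d := b') hρ h1 h2 (by linarith) (by linarith) (by linarith)
  have e : P ∩ {z | ‖z - y‖ ∈ Icc a' b'} = P ∩ (fun z => dist z y) ⁻¹' Icc a' b' := by
    ext z
    simp only [mem_inter_iff, mem_setOf_eq, mem_preimage, dist_eq_norm]
  rw [e] at hl
  have h5 := hl.trans hm
  rw [ENNReal.ofReal_le_ofReal_iff (by linarith)] at h5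
  linarith

theorem raten_id {u v : ℂ} (ha : 0 < a) (hb : 0 < b) (hu : ‖u‖ = a) (hv : ‖v‖ = b) :
    ‖u / a - v / b‖ ^ 2 * (a * b) = ‖u - v‖ ^ 2 - (b - a) ^ 2 := by
  have e1 : u.re ^ 2 + u.im ^ 2 = a ^ 2 := by
    rw [← hu, Complex.sq_norm, Complex.normSq_apply]; ring
  have e2 : v.re ^ 2 + v.im ^ 2 = b ^ 2 := by
    rw [← hv, Complex.sq_norm, Complex.normSq_apply]; ring
  rw [Complex.sq_norm, Complex.sq_norm, Complex.normSq_apply, Complex.normSq_apply]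
  simp only [Complex.sub_re, Complex.sub_im, Complex.div_ofReal_re, Complex.div_ofReal_im]
  field_simp
  linear_combination (b ^ 2 - a * b) * e1 + (a ^ 2 - a * b) * e2

theorem raten_ang {u v : ℂ} (hρ : 0 < ρ) (hδ : 0 < δ) (hδ1 : δ ≤ 1 / 16) (ha : ρ / 2 ≤ a)
    (hab : a ≤ b) (hb : b ≤ ρ) (hu : ‖u‖ = a) (hv : ‖v‖ = b)
    (h : ‖u - v‖ ≤ b - a + 5 * (δ * ρ)) : ‖u / a - v / b‖ ≤ 8 * √δ := by
  have ha0 : 0 < a := by linarith
  have hb0 : 0 < b := by linarith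
  have e := raten_id ha0 hb0 hu hv
  have h0 : 0 < δ * ρ := mul_pos hδ hρ
  have h16 : δ * ρ ≤ 1 / 16 * ρ := mul_le_mul_of_nonneg_right hδ1 hρ.le
  have h1 : ‖u - v‖ ^ 2 ≤ (b - a + 5 * (δ * ρ)) ^ 2 := pow_le_pow_left₀ (norm_nonneg _) h 2
  have h2 : (b - a + 5 * (δ * ρ)) ^ 2 - (b - a) ^ 2 ≤ 7 * (δ * ρ) * ρ := by nlinarith
  have h3 : ρ ^ 2 / 4 ≤ a * b := by nlinarith
  have h4 : ‖u / a - v / b‖ ^ 2 * (ρ ^ 2 / 4) ≤ 7 * (δ * ρ) * ρ :=
    (mul_le_mul_of_nonneg_left h3 (sq_nonneg _)).trans (by linarith)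
  have h5 : ‖u / a - v / b‖ ^ 2 ≤ 28 * δ := by
    have hρ2 : 0 < ρ ^ 2 / 4 := by positivity
    refine le_of_mul_le_mul_right (h4.trans (le_of_eq ?_)) hρ2
    ring
  refine (pow_le_pow_iff_left₀ (norm_nonneg _) (by positivity) two_ne_zero).1 ?_
  rw [mul_pow, Real.sq_sqrt hδ.le]
  linarith

/-- The part of `K` along the `k`-th ray. -/
def ratenP (K : Set ℂ) (y e : ℂ) (ρ : ℝ) (n k : ℕ) : Set ℂ :=
  {z | z ∈ K ∧ ρ / 8 ≤ ‖z - y‖ ∧ ‖z - y‖ ≤ 4 * ρ ∧ ‖z - y - ‖z - y‖ * dir n e k‖ ≤ ρ / 50}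

theorem raten_closed (hK : IsClosed K) (y e : ℂ) (ρ : ℝ) (n k : ℕ) :
    IsClosed (ratenP K y e ρ n k) := by
  have c1 : Continuous fun z : ℂ => ‖z - y‖ := by fun_prop
  have c2 : Continuous fun z : ℂ => ‖z - y - ‖z - y‖ * dir n e k‖ := by fun_prop
  exact hK.inter ((isClosed_le continuous_const c1).inter
    ((isClosed_le c1 continuous_const).inter (isClosed_le c2 continuous_const)))

theorem raten_disj {j k : ℕ} (hρ : 0 < ρ) (he : ‖e‖ = 1) (hn : n ≤ 3) (hj : j < n) (hk : k < n)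
    (h1 : z ∈ ratenP K y e ρ n j) (h2 : z ∈ ratenP K y e ρ n k) : j = k := by
  by_contra hjk
  have hs := (dir_sep he hn hj hk hjk).1
  have e1 := norm_sub_sq_real (dir n e j) (dir n e k)
  rw [dir_norm he, dir_norm he] at e1
  have e2 : 1 ≤ ‖dir n e j - dir n e k‖ := by
    refine (pow_le_pow_iff_left₀ zero_le_one (norm_nonneg _) two_ne_zero).1 ?_
    rw [e1]
    linarith
  have e3 : (‖z - y‖ : ℂ) * (dir n e j - dir n e k) =
      (z - y - ‖z - y‖ * dir n e k) - (z - y - ‖z - y‖ * dir n e j) := by ring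
  have e4 := norm_sub_le (z - y - ‖z - y‖ * dir n e k) (z - y - ‖z - y‖ * dir n e j)
  rw [← e3, norm_mul, Complex.norm_real, norm_norm] at e4
  have e5 := h1.2.1
  have e6 := h1.2.2.2
  have e7 := h2.2.2.2
  nlinarith

theorem raten_fine {η : ℝ} {k : ℕ} (hρ : 0 < ρ) (he : ‖e‖ = 1) (hn : n ≤ 3) (hk : k < n)
    (hη : η ≤ 1 / 1000) (hN : Near η y (2 * ρ) K (star n y e)) (hz : z ∈ ratenP K y e ρ n k) :
    ‖z - y - ‖z - y‖ * dir n e k‖ ≤ 4 * (η * ρ) := by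
  obtain ⟨j, hj, h⟩ := near_star_pt he hN hz.1 (by linarith [hz.2.2.1])
  have h1 : η * ρ ≤ 1 / 1000 * ρ := mul_le_mul_of_nonneg_right hη hρ.le
  have hjk : j = k := raten_disj hρ he hn hj hk ⟨hz.1, hz.2.1, hz.2.2.1, by linarith⟩ hz
  rw [← hjk]
  linarith

theorem raten_join {η : ℝ} {k : ℕ} (hM : 0 ≤ M) (hρ : 0 < ρ) (he : ‖e‖ = 1) (hn : n ≤ 3)
    (hk : k < n) (hη0 : 0 < η) (hη : (M + 1) * η ≤ 1 / 1000)
    (hN : Near η y (2 * ρ) K (star n y e)) (hL : LCn K (closedBall y (6 * ρ)) M)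
    (hp : p ∈ ratenP K y e ρ n k) (hq : q ∈ ratenP K y e ρ n k)
    (ht : ‖p - y‖ ∈ Icc (ρ / 4) (2 * ρ)) (hpq : ‖q - y‖ = ‖p - y‖) :
    Join (ratenP K y e ρ n k) univ p q := by
  have hMη : 0 ≤ M * η := mul_nonneg hM hη0.le
  have hη1 : η ≤ 1 / 1000 := by nlinarith
  have f1 := raten_fine hρ he hn hk hη1 hN hp
  have f2 := raten_fine hρ he hn hk hη1 hN hq
  rw [hpq] at f2
  have f3 : ‖p - q‖ ≤ 8 * (η * ρ) := by
    have e0 : p - q = (p - y - ‖p - y‖ * dir n e k) - (q - y - ‖p - y‖ * dir n e k) := by ring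
    rw [e0]
    exact (norm_sub_le _ _).trans (by linarith)
  have f4 : M * ‖p - q‖ ≤ 8 * (M * η * ρ) :=
    (mul_le_mul_of_nonneg_left f3 hM).trans (le_of_eq (by ring))
  have f5 : M * η * ρ + η * ρ ≤ 1 / 1000 * ρ := by
    have := mul_le_mul_of_nonneg_right hη hρ.le
    linarith
  have f6 : 0 ≤ η * ρ := by positivity
  have f7 : 0 ≤ M * η * ρ := by positivity
  obtain ⟨Γ, c1, c2, c3, c4, c5⟩ := hL p ⟨hp.1, by
    rw [mem_closedBall, dist_eq_norm]; linarith [hp.2.2.1]⟩ q ⟨hq.1, by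
    rw [mem_closedBall, dist_eq_norm]; linarith [hq.2.2.1]⟩
  refine ⟨Γ, c1, c2, fun z hz => ⟨?_, mem_univ _⟩, c4, c5⟩
  have g1 := (c3 hz).2
  rw [mem_closedBall, dist_eq_norm] at g1
  have g2 : |‖z - y‖ - ‖p - y‖| ≤ ‖z - p‖ := by
    have := abs_norm_sub_norm_le (z - y) (p - y)
    rwa [sub_sub_sub_cancel_right] at this
  have g3 := abs_le.1 g2
  refine ⟨(c3 hz).1, by linarith [ht.1, g3.1], by linarith [ht.2, g3.2], ?_⟩
  have e0 : z - y - ‖z - y‖ * dir n e k = (z - p) + (p - y - ‖p - y‖ * dir n e k) -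
      ((‖z - y‖ - ‖p - y‖ : ℝ) : ℂ) * dir n e k := by
    push_cast
    ring
  rw [e0]
  have g4 := norm_sub_le ((z - p) + (p - y - ‖p - y‖ * dir n e k))
    (((‖z - y‖ - ‖p - y‖ : ℝ) : ℂ) * dir n e k)
  have g5 := norm_add_le (z - p) (p - y - ‖p - y‖ * dir n e k)
  rw [norm_mul, dir_norm he, mul_one, Complex.norm_real, Real.norm_eq_abs] at g4
  linarith

theorem raten_cross {η : ℝ} {k : ℕ} (hM : 0 ≤ M) (hρ : 0 < ρ) (he : ‖e‖ = 1)
    (hk : k < n) (hη0 : 0 < η) (hη : (M + 1) * η ≤ 1 / 1000)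
    (hN : Near η y (2 * ρ) K (star n y e)) (hL : LCn K (closedBall y (6 * ρ)) M)
    (ht : t ∈ Ico (ρ / 4) (2 * ρ)) : (ratenP K y e ρ n k ∩ sphere y t).Nonempty := by
  have hMη : 0 ≤ M * η := mul_nonneg hM hη0.le
  have hL' : LCn K (closedBall y (3 * (2 * ρ))) M := by
    rwa [show 3 * (2 * ρ) = 6 * ρ by ring]
  obtain ⟨z, hz, h1, h2⟩ := cross (t := t) hM hη0 (by nlinarith) he (by linarith) hN hL' hk
    ⟨by linarith [ht.1], by linarith [ht.2]⟩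
  refine ⟨z, ⟨hz, by linarith [ht.1], by linarith [ht.2], ?_⟩, by
    rw [mem_sphere, dist_eq_norm, h1]⟩
  rw [h1]
  have := mul_le_mul_of_nonneg_right hη hρ.le
  linarith

theorem raten_ann (hρ : 0 < ρ) (hf : μH[1] (K ∩ closedBall y (2 * ρ)) ≠ ⊤)
    (h : Lr K y (2 * ρ) ≤ Lr K y (ρ / 4) + d) :
    μH[1] (K ∩ (fun z => dist z y) ⁻¹' Ico (ρ / 4) (2 * ρ)) ≤ ENNReal.ofReal d := by
  have e := measure_inter_add_diff (μ := μH[1]) (K ∩ ball y (2 * ρ))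
    (measurableSet_ball (x := y) (ε := ρ / 4))
  have e1 : K ∩ ball y (2 * ρ) ∩ ball y (ρ / 4) = K ∩ ball y (ρ / 4) := by
    ext z
    exact ⟨fun h => ⟨h.1.1, h.2⟩, fun h => ⟨⟨h.1, ball_subset_ball (by linarith) h.2⟩, h.2⟩⟩
  have e2 : (K ∩ ball y (2 * ρ)) \ ball y (ρ / 4) =
      K ∩ (fun z => dist z y) ⁻¹' Ico (ρ / 4) (2 * ρ) := by
    ext z
    simp only [mem_diff, mem_inter_iff, mem_ball, mem_preimage, mem_Ico, not_lt]
    tauto
  rw [e1, e2] at e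
  have t0 : μH[1] (K ∩ ball y (2 * ρ)) ≠ ⊤ :=
    ne_top_of_le_ne_top hf (measure_mono (inter_subset_inter_right _ ball_subset_closedBall))
  rw [← e] at t0
  obtain ⟨t1, t2⟩ := ENNReal.add_ne_top.1 t0
  unfold Lr at h
  rw [← e, ENNReal.toReal_add t1 t2] at h
  rw [← ENNReal.ofReal_toReal t2]
  exact ENNReal.ofReal_le_ofReal (by linarith)

theorem raten_one {k : ℕ} (hK : IsClosed K) (hρ : 0 < ρ) (he : ‖e‖ = 1) (hn : n ≤ 3) (hk : k < n)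
    (h1 : ∀ j < n, ∀ t ∈ Ico (ρ / 4) (2 * ρ), (ratenP K y e ρ n j ∩ sphere y t).Nonempty)
    (h : μH[1] (K ∩ (fun z => dist z y) ⁻¹' Ico (ρ / 4) (2 * ρ)) ≤
      ENNReal.ofReal ((7 / 4 * n + δ) * ρ)) :
    μH[1] (ratenP K y e ρ n k ∩ (fun z => dist z y) ⁻¹' Ico (ρ / 4) (2 * ρ)) ≤
      ENNReal.ofReal (7 / 4 * ρ + δ * ρ) := by
  have hm : MeasurableSet ((fun z : ℂ => dist z y) ⁻¹' Ico (ρ / 4) (2 * ρ)) :=
    measurableSet_Ico.preimage (continuous_id.dist continuous_const).measurable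
  have e0 := measure_biUnion_finset (μ := μH[1]) (s := Finset.range n)
    (f := fun j => ratenP K y e ρ n j ∩ (fun z => dist z y) ⁻¹' Ico (ρ / 4) (2 * ρ))
    (fun i hi j hj hij => Set.disjoint_left.2 fun z h1 h2 => hij (raten_disj hρ he hn
      (Finset.mem_range.1 hi) (Finset.mem_range.1 hj) h1.1 h2.1))
    (fun j _ => (raten_closed hK y e ρ n j).measurableSet.inter hm)
  have l1 : μH[1] (⋃ j ∈ Finset.range n,
      ratenP K y e ρ n j ∩ (fun z => dist z y) ⁻¹' Ico (ρ / 4) (2 * ρ)) ≤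
      ENNReal.ofReal ((7 / 4 * n + δ) * ρ) := by
    refine le_trans (measure_mono (iUnion₂_subset ?_)) h
    exact fun j _ z hz => ⟨hz.1.1, hz.2⟩
  rw [e0, ← Finset.add_sum_erase _ _ (Finset.mem_range.2 hk)] at l1
  have l2 := Finset.card_nsmul_le_sum ((Finset.range n).erase k)
    (fun j => μH[1] (ratenP K y e ρ n j ∩ (fun z => dist z y) ⁻¹' Ico (ρ / 4) (2 * ρ)))
    (ENNReal.ofReal (2 * ρ - ρ / 4)) (fun j hj => by
      rw [← Real.volume_Ico]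
      exact raten_low (h1 j (Finset.mem_range.1 (Finset.mem_of_mem_erase hj))) measurableSet_Ico
        subset_rfl)
  obtain ⟨m, rfl⟩ : ∃ m, n = m + 1 := ⟨n - 1, by omega⟩
  rw [Finset.card_erase_of_mem (Finset.mem_range.2 hk), Finset.card_range, Nat.add_sub_cancel,
    nsmul_eq_mul, ← ENNReal.ofReal_natCast, ← ENNReal.ofReal_mul (by positivity)] at l2
  have l3 := ENNReal.le_sub_of_add_le_right ENNReal.ofReal_ne_top
    ((add_le_add le_rfl l2).trans l1)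
  rw [← ENNReal.ofReal_sub _ (mul_nonneg (by positivity) (by linarith))] at l3
  refine l3.trans (le_of_eq ?_)
  congr 1
  push_cast
  ring

theorem rateN (hM : 0 ≤ M) : ∃ η C : ℝ, 0 < η ∧ (M + 1) * η ≤ 1 / 1000 ∧ 0 < C ∧
    ∀ {K : Set ℂ} {y e : ℂ} {ρ δ : ℝ} {n : ℕ}, IsClosed K → 0 < ρ → ‖e‖ = 1 → n ≤ 3 → 0 < δ →
      μH[1] (K ∩ closedBall y (2 * ρ)) ≠ ⊤ → Near η y (2 * ρ) K (star n y e) →
      LCn K (closedBall y (6 * ρ)) M →
      Lr K y (2 * ρ) ≤ Lr K y (ρ / 4) + (7 / 4 * n + δ) * ρ → Rd K y ρ (C * √δ) := by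
  obtain ⟨η, hη0, hη⟩ : ∃ η : ℝ, 0 < η ∧ (M + 1) * η ≤ 1 / 1000 :=
    ⟨1 / (1000 * (M + 1)), by positivity, le_of_eq (by field_simp)⟩
  refine ⟨η, 8, hη0, hη, by norm_num, ?_⟩
  intro K y e ρ δ n hK hρ he hn hδ hf hN hL hl a ha b hb z hz hza
  have hMη : 0 ≤ M * η := mul_nonneg hM hη0.le
  have hη1 : η ≤ 1 / 1000 := by nlinarith
  have hηρ : η * ρ ≤ 1 / 1000 * ρ := mul_le_mul_of_nonneg_right hη1 hρ.le
  obtain ⟨k, hk, h0⟩ := near_star_pt he hN hz (by linarith [ha.2])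
  have hzP : z ∈ ratenP K y e ρ n k :=
    ⟨hz, by linarith [ha.1], by linarith [ha.2], by linarith⟩
  have h1 : ∀ j < n, ∀ t ∈ Ico (ρ / 4) (2 * ρ), (ratenP K y e ρ n j ∩ sphere y t).Nonempty :=
    fun j hj t ht => raten_cross hM hρ he hj hη0 hη hN hL ht
  obtain ⟨z', hz', hzb⟩ := h1 k hk b ⟨by linarith [hb.1], by linarith [hb.2]⟩
  rw [mem_sphere, dist_eq_norm] at hzb
  refine ⟨z', hz'.1, hzb, ?_⟩
  have ha0 : 0 < a := by linarith [ha.1]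
  have hb0 : 0 < b := by linarith [hb.1]
  rcases le_or_gt δ (1 / 16) with hδ1 | hδ1
  · have h2 := raten_one hK hρ he hn hk h1 (raten_ann hρ hf hl)
    have hj : ∀ p ∈ ratenP K y e ρ n k, ∀ q ∈ ratenP K y e ρ n k,
        ‖p - y‖ ∈ Icc (ρ / 4) (2 * ρ) → ‖q - y‖ = ‖p - y‖ →
        Join (ratenP K y e ρ n k) univ p q :=
      fun p hp q hq ht hpq => raten_join hM hρ he hn hk hη0 hη hN hL hp hq ht hpq
    rcases le_total a b with hab | hab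
    · have h3 := raten_dist (raten_closed hK y e ρ n k) hρ hδ hδ1 (h1 k hk) h2 hj hzP hz'
        (by linarith [ha.1]) (by linarith) (by linarith [hb.2])
      refine raten_ang hρ hδ hδ1 ha.1 hab hb.2 hza hzb ?_
      rw [sub_sub_sub_cancel_right]
      linarith
    · have h3 := raten_dist (raten_closed hK y e ρ n k) hρ hδ hδ1 (h1 k hk) h2 hj hz' hzP
        (by linarith [hb.1]) (by linarith) (by linarith [ha.2])
      rw [norm_sub_rev]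
      refine raten_ang hρ hδ hδ1 hb.1 hab ha.2 hzb hza ?_
      rw [sub_sub_sub_cancel_right]
      linarith
  · have s1 : 1 / 4 ≤ √δ := Real.le_sqrt_of_sq_le (by linarith)
    have s2 := norm_sub_le ((z - y) / a) ((z' - y) / b)
    rw [norm_div, norm_div, Complex.norm_real, Complex.norm_real, Real.norm_of_nonneg ha0.le,
      Real.norm_of_nonneg hb0.le, hza, hzb, div_self ha0.ne', div_self hb0.ne'] at s2
    linarith

end Vale.Agent.P128
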