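import Vale.Agent.P128.Glue0

/-!
# P128 Rp

Radial projection on the circle.
-/

namespace Vale.Agent.P128

open Set Metric MeasureTheory Filter Topology Complex
open scoped ENNReal ContDiff RealInnerProductSpace Gradient Real ComplexConjugate

variable {Ω K L A S T U O X Γ P M₀ K₀ K₁ : Set ℂ} {u v w g hh ψ η : ℂ → ℝ} {G : ℂ → ℂ}
  {π₀ π₁ : ℂ → Set ℂ} {x y z c p q e a₀ F : ℂ} {lam H r s R a b t M Θ ρ ε δ d : ℝ} {n : ℕ}

theorem rp_cd (s : ℝ) (hz : z ≠ x) : ContDiffAt ℝ 1 (rp x s) z := by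
  have h0 : z - x ≠ 0 := sub_ne_zero.2 hz
  have h1 : ContDiffAt ℝ 1 (fun w : ℂ => w - x) z := contDiffAt_id.sub contDiffAt_const
  have h2 : ContDiffAt ℝ 1 (fun w : ℂ => s / ‖w - x‖) z :=
    contDiffAt_const.div (h1.norm ℝ h0) (norm_ne_zero_iff.2 h0)
  exact contDiffAt_const.add ((ofRealCLM.contDiff.contDiffAt.comp z h2).mul h1)

theorem rp_facts (hs : 0 < s) (hT : T ⊆ sphere x s) :
    ContinuousOn (rp x s) {x}ᶜ ∧ LocallyLipschitzOn {x}ᶜ (rp x s) ∧
      MapsTo (rp x s) (closedBall x s \ cone x T) (sphere x s \ T) ∧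
      ∀ z ∈ sphere x s, rp x s z = z := by
  refine ⟨fun z hz => (rp_cd s hz).continuousAt.continuousWithinAt, fun z hz => ?_,
    fun z hz => ?_, fun z hz => ?_⟩
  · obtain ⟨k, t, ht, hl⟩ := (rp_cd s hz).exists_lipschitzOnWith
    exact ⟨k, t, mem_nhdsWithin_of_mem_nhds ht, hl⟩
  · have hzx : z ≠ x := fun e => hz.2 (Or.inl e)
    have h0 : 0 < ‖z - x‖ := norm_pos_iff.2 (sub_ne_zero.2 hzx)
    have h1 : ‖z - x‖ ≤ s := mem_closedBall_iff_norm.1 hz.1
    refine ⟨?_, fun h => hz.2 (Or.inr (mem_iUnion₂.2 ⟨_, h, ?_⟩))⟩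
    · rw [mem_sphere_iff_norm, rp, add_sub_cancel_left, norm_mul, norm_real,
        Real.norm_of_nonneg (by positivity), div_mul_cancel₀ _ h0.ne']
    · rw [segment_eq_image']
      refine ⟨‖z - x‖ / s, ⟨by positivity, (div_le_one hs).2 h1⟩, ?_⟩
      have h2 : (‖z - x‖ : ℂ) ≠ 0 := by exact_mod_cast h0.ne'
      have h3 : (s : ℂ) ≠ 0 := by exact_mod_cast hs.ne'
      simp only [rp, add_sub_cancel_left, real_smul]
      push_cast
      field_simp
      ring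
  · rw [rp, mem_sphere_iff_norm.1 hz, div_self hs.ne']
    simp

theorem lc_rp {β : Type*} {σ : ℂ → β} (hs : 0 < s) (hT : T ⊆ sphere x s)
    (hσ : LC (sphere x s \ T) σ) : LC (closedBall x s \ cone x T) (fun z => σ (rp x s z)) := by
  obtain ⟨h1, -, h2, -⟩ := rp_facts hs hT
  exact hσ.precomp (h1.mono fun z hz e => hz.2 (Or.inl e)) h2

end Vale.Agent.P128
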