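import Vale.Agent.P128.Basic

/-!
# P128 Scale0

Invariance under the similarity `z ↦ x + a z`. `μH[1]` scales by `‖a‖`
(`Measure.hausdorffMeasure_smul₀`, isometries), volume by `‖a‖ ^ 2`
(`Complex.det_...` or `Measure.addHaar_preimage_linearMap`, or `lintegral` change of variables for
`z ↦ x + a z`). New right side: `h' z = ‖a‖ ^ (3/2) * h (x + a z)`, `H' = ‖a‖ ^ (3/2) * H`. Pull test
functions and competitors back by the inverse similarity.
-/

namespace Vale.Agent.P128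

open Set Metric MeasureTheory Filter Topology Complex
open scoped ENNReal ContDiff RealInnerProductSpace Gradient Real ComplexConjugate

variable {Ω K L A S T U O X Γ P M₀ K₀ K₁ : Set ℂ} {u v w g hh ψ η : ℂ → ℝ} {G : ℂ → ℂ}
  {π₀ π₁ : ℂ → Set ℂ} {x y z c p q e a₀ F : ℂ} {lam H r s R a b t M Θ ρ ε δ d : ℝ} {n : ℕ}

/-- The similarity as a homeomorphism. -/
noncomputable def scale0_h (x : ℂ) (ha : a₀ ≠ 0) : ℂ ≃ₜ ℂ :=
  (Homeomorph.mulLeft₀ a₀ ha).trans (Homeomorph.addLeft x)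

theorem scale0_h_apply (x : ℂ) (ha : a₀ ≠ 0) (z : ℂ) : scale0_h x ha z = x + a₀ * z := rfl

theorem scale0_fderiv (ha : a₀ ≠ 0) (x : ℂ) (u : ℂ → ℝ) (z v : ℂ) :
    fderiv ℝ (fun z => u (x + a₀ * z)) z v = fderiv ℝ u (x + a₀ * z) (a₀ * v) := by
  let e : ℂ ≃L[ℝ] ℂ := (ContinuousLinearEquiv.unitsEquivAut ℂ (Units.mk0 a₀ ha)).restrictScalars ℝ
  have he : ∀ w, e w = a₀ * w := fun w => by simp [e, mul_comm]
  have h1 : (fun z => u (x + a₀ * z)) = (fun w => u (x + w)) ∘ e := by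
    funext w
    simp [he]
  rw [h1, e.comp_right_fderiv, fderiv_comp_add_left]
  simp [he]

theorem gK_scale (ha : a₀ ≠ 0) (x : ℂ) (u : ℂ → ℝ) (K : Set ℂ) (z : ℂ) :
    gK (sc x a₀ K) (su x a₀ u) z = conj a₀ / (√‖a₀‖ : ℝ) * gK K u (x + a₀ * z) := by
  by_cases hz : x + a₀ * z ∈ K
  · rw [gK_of_mem u hz, gK_of_mem _ (show z ∈ sc x a₀ K from hz), mul_zero]
  · rw [gK_of_notMem u hz, gK_of_notMem _ (show z ∉ sc x a₀ K from hz)]
    have h1 : su x a₀ u = fun z => (√‖a₀‖)⁻¹ * u (x + a₀ * z) := by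
      funext w
      simp [su, div_eq_inv_mul]
    rw [h1, grad_smul, div_eq_inv_mul, mul_assoc, Complex.ofReal_inv]
    congr 1
    refine ext_inner_right ℝ fun v => ?_
    rw [inner_grad, scale0_fderiv ha, ← inner_grad]
    generalize ∇ u (x + a₀ * z) = b
    simp only [Complex.inner, map_mul, Complex.conj_conj]
    ring_nf

theorem scale0_dist (x a₀ y z : ℂ) : dist (x + a₀ * z) (x + a₀ * y) = ‖a₀‖ * dist z y := by
  rw [dist_eq_norm, dist_eq_norm, ← norm_mul]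
  congr 1
  ring

theorem sc_closedBall (ha : a₀ ≠ 0) (x y : ℂ) (r : ℝ) :
    sc x a₀ (closedBall (x + a₀ * y) (‖a₀‖ * r)) = closedBall y r := by
  ext z
  simp only [sc, mem_preimage, mem_closedBall, scale0_dist]
  exact mul_le_mul_iff_right₀ (norm_pos_iff.2 ha)

theorem sc_ball (ha : a₀ ≠ 0) (x y : ℂ) (r : ℝ) :
    sc x a₀ (ball (x + a₀ * y) (‖a₀‖ * r)) = ball y r := by
  ext z
  simp only [sc, mem_preimage, mem_ball, scale0_dist]
  exact mul_lt_mul_iff_right₀ (norm_pos_iff.2 ha)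

open scoped Pointwise in
theorem len_sc (ha : a₀ ≠ 0) (x : ℂ) (S : Set ℂ) :
    μH[1] S = ENNReal.ofReal ‖a₀‖ * μH[1] (sc x a₀ S) := by
  have h1 : S = (fun w => x + w) '' (a₀ • sc x a₀ S) := by
    have h2 := (scale0_h x ha).surjective.image_preimage S
    rw [← image_smul, image_image]
    exact h2.symm
  conv_lhs => rw [h1]
  rw [(isometry_add_left x).hausdorffMeasure_image (Or.inl zero_le_one),
    Measure.hausdorffMeasure_smul₀ zero_le_one ha, NNReal.rpow_one, ofReal_norm]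
  rfl

theorem scale0_map (ha : a₀ ≠ 0) (x : ℂ) :
    (volume : Measure ℂ) = ENNReal.ofReal (‖a₀‖ ^ 2) • Measure.map (scale0_h x ha) volume := by
  have hd : LinearMap.det (LinearMap.mul ℝ ℂ a₀) = ‖a₀‖ ^ 2 := by
    rw [← Complex.normSq_eq_norm_sq, ← Algebra.norm_complex_apply, Algebra.norm_apply]
    rfl
  have hp : 0 < ‖a₀‖ ^ 2 := pow_pos (norm_pos_iff.2 ha) 2
  have h1 := Measure.map_linearMap_addHaar_eq_smul_addHaar (volume : Measure ℂ)
    (f := LinearMap.mul ℝ ℂ a₀) (by rw [hd]; exact hp.ne')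
  have h2 : (scale0_h x ha : ℂ → ℂ) = (fun w => x + w) ∘ LinearMap.mul ℝ ℂ a₀ := rfl
  rw [h2, ← Measure.map_map (measurable_const_add x)
    (LinearMap.continuous_of_finiteDimensional _).measurable, h1, Measure.map_smul,
    map_add_left_eq_self, smul_smul, hd, ← ENNReal.ofReal_mul hp.le, abs_of_pos (inv_pos.2 hp),
    mul_inv_cancel₀ hp.ne', ENNReal.ofReal_one, one_smul]

theorem scale0_lint (ha : a₀ ≠ 0) (x : ℂ) (f : ℂ → ℝ≥0∞) (S : Set ℂ) :
    ∫⁻ z in S, f z = ENNReal.ofReal (‖a₀‖ ^ 2) * ∫⁻ z in sc x a₀ S, f (x + a₀ * z) := by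
  conv_lhs => rw [scale0_map ha x]
  rw [Measure.restrict_smul, lintegral_smul_measure,
    (scale0_h x ha).measurableEmbedding.restrict_map,
    (scale0_h x ha).measurableEmbedding.lintegral_map]
  rfl

theorem Dn_sc (ha : a₀ ≠ 0) (x : ℂ) (u : ℂ → ℝ) (K S : Set ℂ) :
    Dn u K S = ENNReal.ofReal ‖a₀‖ * Dn (su x a₀ u) (sc x a₀ K) (sc x a₀ S) := by
  have hp : 0 < ‖a₀‖ := norm_pos_iff.2 ha
  have h1 : ‖conj a₀ / (√‖a₀‖ : ℝ)‖ₑ ^ 2 = ENNReal.ofReal ‖a₀‖ := by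
    rw [← ofReal_norm, ← ENNReal.ofReal_pow (norm_nonneg _), norm_div, div_pow, Complex.norm_real,
      Real.norm_of_nonneg (Real.sqrt_nonneg _), Real.sq_sqrt hp.le, Complex.norm_conj]
    congr 1
    field_simp
  unfold Dn
  simp only [gK_scale ha, enorm_mul, mul_pow, h1]
  rw [lintegral_const_mul' _ _ ENNReal.ofReal_ne_top, scale0_lint ha x, ← mul_assoc,
    ← ENNReal.ofReal_mul hp.le, sq]

theorem Dr_scale (ha : a₀ ≠ 0) (x y : ℂ) (u : ℂ → ℝ) (K : Set ℂ) (r : ℝ) :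
    Dr (su x a₀ u) (sc x a₀ K) y r = Dr u K (x + a₀ * y) (‖a₀‖ * r) / ‖a₀‖ := by
  have hp : 0 < ‖a₀‖ := norm_pos_iff.2 ha
  unfold Dr
  rw [Dn_sc ha x u K, sc_ball ha, ENNReal.toReal_mul, ENNReal.toReal_ofReal hp.le,
    mul_div_cancel_left₀ _ hp.ne']

theorem Lr_scale (ha : a₀ ≠ 0) (x y : ℂ) (K : Set ℂ) (r : ℝ) :
    Lr (sc x a₀ K) y r = Lr K (x + a₀ * y) (‖a₀‖ * r) / ‖a₀‖ := by
  have hp : 0 < ‖a₀‖ := norm_pos_iff.2 ha
  unfold Lr
  rw [len_sc ha x (K ∩ _), ENNReal.toReal_mul, ENNReal.toReal_ofReal hp.le,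
    mul_div_cancel_left₀ _ hp.ne', ← sc_ball ha x y r]
  rfl

theorem scale0_near (hr : 0 < r) (x : ℂ) (K M : Set ℂ) (η : ℝ) :
    (∀ z ∈ sc x r K ∩ closedBall 0 (2 * 1), ∃ w ∈ sc x r M, ‖z - w‖ ≤ η * 1) ↔
      ∀ z ∈ K ∩ closedBall x (2 * r), ∃ w ∈ M, ‖z - w‖ ≤ η * r := by
  have ha : (r : ℂ) ≠ 0 := by exact_mod_cast hr.ne'
  have hn : ‖(r : ℂ)‖ = r := by rw [Complex.norm_real, Real.norm_of_nonneg hr.le]
  have hb : sc x r (closedBall x (2 * r)) = closedBall 0 (2 * 1) := by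
    rw [← sc_closedBall ha x 0, hn, mul_zero, add_zero, mul_one, mul_comm]
  have hd : ∀ z w : ℂ, ‖z - w‖ ≤ η * 1 ↔ ‖x + r * z - (x + r * w)‖ ≤ η * r := by
    intro z w
    rw [← dist_eq_norm (x + r * z), scale0_dist, hn, dist_eq_norm, mul_one, mul_comm η]
    exact (mul_le_mul_iff_right₀ hr).symm
  rw [← hb]
  constructor
  · intro h z hz
    obtain ⟨z, rfl⟩ := (scale0_h x ha).surjective z
    obtain ⟨w, hw, hw'⟩ := h z hz
    exact ⟨x + r * w, hw, (hd z w).1 hw'⟩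
  · intro h z hz
    obtain ⟨w, hw, hw'⟩ := h (x + r * z) hz
    obtain ⟨w, rfl⟩ := (scale0_h x ha).surjective w
    exact ⟨w, hw, (hd z w).2 hw'⟩

theorem near_scale (hr : 0 < r) (x : ℂ) (K M : Set ℂ) (η : ℝ) :
    Near η 0 1 (sc x r K) (sc x r M) ↔ Near η x r K M := by
  refine and_congr (scale0_near hr x K M η) ?_
  simpa only [norm_sub_rev] using scale0_near hr x M K η

theorem sc_star (hr : 0 < r) (n : ℕ) (x c e : ℂ) :
    sc x r (star n (x + r * c) e) = star n c e := by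
  have ha : (r : ℂ) ≠ 0 := by exact_mod_cast hr.ne'
  ext z
  constructor
  · rintro ⟨k, hk, t, ht, h⟩
    refine ⟨k, hk, t / r, div_nonneg ht hr.le, ?_⟩
    have h' : x + r * z = x + r * c + t * dir n e k := h
    push_cast
    field_simp
    linear_combination h'
  · rintro ⟨k, hk, t, ht, rfl⟩
    refine ⟨k, hk, r * t, mul_nonneg hr.le ht, ?_⟩
    push_cast
    ring

theorem Mdl.unscale (h : Mdl M₀) (hr : 0 < r) (x : ℂ) : ∃ M₁, Mdl M₁ ∧ sc x r M₁ = M₀ := by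
  obtain ⟨c, e, he, h | h⟩ := h
  · exact ⟨_, ⟨x + r * c, e, he, Or.inl rfl⟩, by rw [sc_star hr, h]⟩
  · exact ⟨_, ⟨x + r * c, e, he, Or.inr rfl⟩, by rw [sc_star hr, h]⟩

end Vale.Agent.P128
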