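import Vale.Agent.P128.Top
import Vale.Agent.P128.Basic0

/-!
# P128 Star0

Elementary facts on directions and stars.
-/

namespace Vale.Agent.P128

open Set Metric MeasureTheory Filter Topology Complex
open scoped ENNReal ContDiff RealInnerProductSpace Gradient Real ComplexConjugate

variable {Ω K L A S T U O X Γ P M₀ K₀ K₁ : Set ℂ} {u v w g hh ψ η : ℂ → ℝ} {G : ℂ → ℂ}
  {π₀ π₁ : ℂ → Set ℂ} {x y z c p q e a₀ F : ℂ} {lam H r s R a b t M Θ ρ ε δ d : ℝ} {n : ℕ}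

theorem star0_dir (n : ℕ) (e : ℂ) (k : ℕ) : dir n e k = e * ex (2 * π / n) ^ k := by
  unfold dir ex
  rw [← Complex.exp_nat_mul]
  congr 2
  push_cast
  ring

theorem star0_w2 : ex (2 * π / (2 : ℕ)) = -1 := by
  unfold ex
  rw [← Complex.exp_pi_mul_I]
  congr 2
  push_cast
  ring

theorem star0_w3 : ex (2 * π / (3 : ℕ)) = ⟨-1 / 2, √3 / 2⟩ := by
  have h : (2 * π / (3 : ℕ) : ℝ) = π - π / 3 := by
    push_cast
    ring
  unfold ex
  apply Complex.ext
  · rw [Complex.exp_ofReal_mul_I_re, h, Real.cos_pi_sub, Real.cos_pi_div_three]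
    norm_num
  · rw [Complex.exp_ofReal_mul_I_im, h, Real.sin_pi_sub, Real.sin_pi_div_three]

theorem star0_s3 : √3 * √3 = (3 : ℝ) := Real.mul_self_sqrt (by norm_num)

theorem star0_w3sq : ex (2 * π / (3 : ℕ)) ^ 2 = ⟨-1 / 2, -(√3 / 2)⟩ := by
  have h := star0_s3
  rw [star0_w3, sq]
  apply Complex.ext
  · rw [Complex.mul_re]
    dsimp only
    linarith
  · rw [Complex.mul_im]
    dsimp only
    ring

theorem star0_w3cube : ex (2 * π / (3 : ℕ)) ^ 3 = 1 := by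
  have h := star0_s3
  rw [pow_succ, star0_w3sq, star0_w3]
  apply Complex.ext
  · rw [Complex.mul_re, Complex.one_re]
    dsimp only
    linarith
  · rw [Complex.mul_im, Complex.one_im]
    dsimp only
    ring

theorem star0_self (he : ‖e‖ = 1) : e * conj e = 1 := by
  rw [Complex.mul_conj, Complex.normSq_eq_norm_sq, he]
  simp

theorem star0_inner (he : ‖e‖ = 1) (p q : ℂ) : ⟪e * p, e * q⟫ = q.re * p.re + q.im * p.im := by
  have h : e * q * conj (e * p) = q * conj p * (e * conj e) := by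
    rw [map_mul]
    ring
  rw [Complex.inner, h, star0_self he, mul_one, Complex.mul_re, Complex.conj_re, Complex.conj_im]
  ring

theorem star0_d31 (e : ℂ) : dir 3 e 1 = e * ⟨-1 / 2, √3 / 2⟩ := by
  rw [star0_dir, pow_one, star0_w3]

theorem star0_d32 (e : ℂ) : dir 3 e 2 = e * ⟨-1 / 2, -(√3 / 2)⟩ := by
  rw [star0_dir, star0_w3sq]

theorem star0_ray (x v : ℂ) : IsClosed {z : ℂ | ∃ t : ℝ, 0 ≤ t ∧ z = x + t * v} := by
  rcases eq_or_ne v 0 with rfl | hv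
  · have : {z : ℂ | ∃ t : ℝ, 0 ≤ t ∧ z = x + t * 0} = {x} := by
      ext z
      simp only [mul_zero, add_zero, mem_setOf_eq, mem_singleton_iff]
      exact ⟨fun ⟨_, _, h⟩ => h, fun h => ⟨0, le_rfl, h⟩⟩
    rw [this]
    exact isClosed_singleton
  · have : {z : ℂ | ∃ t : ℝ, 0 ≤ t ∧ z = x + t * v} =
        {z : ℂ | ((z - x) / v).im = 0} ∩ {z : ℂ | 0 ≤ ((z - x) / v).re} := by
      ext z
      simp only [mem_setOf_eq, mem_inter_iff]
      constructor
      · rintro ⟨t, ht, rfl⟩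
        rw [add_sub_cancel_left, mul_div_cancel_right₀ _ hv]
        exact ⟨Complex.ofReal_im t, ht⟩
      · rintro ⟨h1, h2⟩
        refine ⟨_, h2, ?_⟩
        have h3 : ((((z - x) / v).re : ℝ) : ℂ) = (z - x) / v :=
          Complex.ext (Complex.ofReal_re _) (by rw [Complex.ofReal_im, h1])
        rw [h3, div_mul_cancel₀ _ hv]
        ring
    rw [this]
    exact (isClosed_eq (by fun_prop) continuous_const).inter
      (isClosed_le continuous_const (by fun_prop))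

theorem dir_norm (he : ‖e‖ = 1) (n k : ℕ) : ‖dir n e k‖ = 1 := by
  rw [dir, norm_mul, he, ex_norm, mul_one]

theorem dir_zero (n : ℕ) (e : ℂ) : dir n e 0 = e := by
  rw [star0_dir, pow_zero, mul_one]

theorem dir_two (e : ℂ) : dir 2 e 1 = -e := by
  rw [star0_dir, pow_one, star0_w2, mul_neg_one]

theorem dir_sep {j k : ℕ} (he : ‖e‖ = 1) (hn : n ≤ 3) (hj : j < n) (hk : k < n) (hjk : j ≠ k) :
    ⟪dir n e j, dir n e k⟫ ≤ -1 / 2 ∧ (n = 3 → ⟪dir n e j, dir n e k⟫ = -1 / 2) := by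
  have h3 := star0_s3
  have d0 : ∀ m, dir m e 0 = e * 1 := fun m => by rw [dir_zero, mul_one]
  have d1 : dir 2 e 1 = e * (-1) := by rw [dir_two, mul_neg_one]
  have hn2 : n = 2 ∨ n = 3 := by omega
  rcases hn2 with rfl | rfl
  · refine ⟨?_, fun h => absurd h (by norm_num)⟩
    have : (j = 0 ∧ k = 1) ∨ (j = 1 ∧ k = 0) := by omega
    rcases this with ⟨rfl, rfl⟩ | ⟨rfl, rfl⟩ <;>
    · rw [d0, d1, star0_inner he]
      norm_num
  · suffices h : ⟪dir 3 e j, dir 3 e k⟫ = -1 / 2 from ⟨h.le, fun _ => h⟩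
    have : (j = 0 ∧ k = 1) ∨ (j = 1 ∧ k = 0) ∨ (j = 0 ∧ k = 2) ∨ (j = 2 ∧ k = 0) ∨
      (j = 1 ∧ k = 2) ∨ (j = 2 ∧ k = 1) := by omega
    rcases this with ⟨rfl, rfl⟩ | ⟨rfl, rfl⟩ | ⟨rfl, rfl⟩ | ⟨rfl, rfl⟩ | ⟨rfl, rfl⟩ | ⟨rfl, rfl⟩ <;>
    · simp only [d0, star0_d31, star0_d32, star0_inner he, Complex.one_re, Complex.one_im]
      linarith

theorem dir_three_sum (e : ℂ) : dir 3 e 0 + dir 3 e 1 + dir 3 e 2 = 0 := by
  have h : (1 : ℂ) + ⟨-1 / 2, √3 / 2⟩ + ⟨-1 / 2, -(√3 / 2)⟩ = 0 := by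
    apply Complex.ext
    · simp only [Complex.add_re, Complex.one_re, Complex.zero_re]
      norm_num
    · simp only [Complex.add_im, Complex.one_im, Complex.zero_im]
      ring
  rw [dir_zero, star0_d31, star0_d32]
  linear_combination e * h

theorem star_closed (n : ℕ) (x e : ℂ) : IsClosed (star n x e) := by
  have : star n x e = ⋃ k ∈ {k | k < n}, {z : ℂ | ∃ t : ℝ, 0 ≤ t ∧ z = x + t * dir n e k} := by
    ext z
    simp only [star, mem_setOf_eq, mem_iUnion, exists_prop]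
  rw [this]
  exact (finite_lt_nat n).isClosed_biUnion fun k _ => star0_ray x _

theorem star_mem (hn : 0 < n) (x e : ℂ) : x ∈ star n x e := ⟨0, hn, 0, le_rfl, by simp⟩

theorem star_cc (n : ℕ) (x e : ℂ) : CC (star n x e) := by
  have key : ∀ p ∈ star n x e, Join (star n x e) univ x p := by
    rintro p ⟨k, hk, t, ht, rfl⟩
    refine ⟨(fun θ : ℝ => x + θ * dir n e k) '' Icc 0 t, isCompact_Icc.image (by fun_prop),
      isPreconnected_Icc.image _ (by fun_prop), ?_, ⟨0, ⟨le_rfl, ht⟩, by simp⟩,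
      ⟨t, ⟨ht, le_rfl⟩, rfl⟩⟩
    rintro _ ⟨θ, hθ, rfl⟩
    exact ⟨⟨k, hk, θ, hθ.1, rfl⟩, mem_univ _⟩
  exact fun p hp q hq => (key p hp).symm.trans (key q hq)

theorem Mdl.cc (h : Mdl M₀) : CC M₀ := by
  obtain ⟨c, e, -, rfl | rfl⟩ := h <;> exact star_cc _ _ _

theorem star_two (x e : ℂ) : star 2 x e = {z | ∃ t : ℝ, z = x + t * e} := by
  ext z
  constructor
  · rintro ⟨k, hk, t, -, rfl⟩
    have : k = 0 ∨ k = 1 := by omega
    rcases this with rfl | rfl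
    · exact ⟨t, by rw [dir_zero]⟩
    · exact ⟨-t, by rw [dir_two]; push_cast; ring⟩
  · rintro ⟨t, rfl⟩
    rcases le_total 0 t with ht | ht
    · exact ⟨0, by norm_num, t, ht, by rw [dir_zero]⟩
    · exact ⟨1, by norm_num, -t, by linarith, by rw [dir_two]; push_cast; ring⟩

theorem star_two_move (hy : y ∈ star 2 x e) : star 2 y e = star 2 x e := by
  rw [star_two] at hy
  obtain ⟨s, rfl⟩ := hy
  rw [star_two, star_two]
  ext z
  constructor
  · rintro ⟨t, rfl⟩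
    exact ⟨s + t, by push_cast; ring⟩
  · rintro ⟨t, rfl⟩
    exact ⟨t - s, by push_cast; ring⟩

theorem star_three_rot (x e : ℂ) (k : ℕ) : star 3 x (dir 3 e k) = star 3 x e := by
  have h1 : ∀ j, dir 3 (dir 3 e k) j = dir 3 e ((k + j) % 3) := fun j => by
    rw [star0_dir, star0_dir, star0_dir, ← pow_eq_pow_mod _ star0_w3cube, pow_add, mul_assoc]
  ext z
  constructor
  · rintro ⟨j, -, t, ht, rfl⟩
    exact ⟨(k + j) % 3, Nat.mod_lt _ (by norm_num), t, ht, by rw [h1]⟩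
  · rintro ⟨j, hj, t, ht, rfl⟩
    refine ⟨(j + 2 * k) % 3, Nat.mod_lt _ (by norm_num), t, ht, ?_⟩
    rw [h1, show (k + (j + 2 * k) % 3) % 3 = j by omega]

theorem three_dir {e₁ e₂ : ℂ} (he : ‖e‖ = 1) (h₁ : ‖e₁‖ = 1) (h₂ : ‖e₂‖ = 1)
    (i₁ : ⟪e, e₁⟫ ≤ -1 / 2) (i₂ : ⟪e, e₂⟫ ≤ -1 / 2) (i₃ : ⟪e₁, e₂⟫ ≤ -1 / 2) :
    ({e₁, e₂} : Set ℂ) = {dir 3 e 1, dir 3 e 2} := by
  have h3 := star0_s3
  have k₁ : e₁ = e * (e₁ * conj e) := by linear_combination (-e₁) * star0_self he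
  have k₂ : e₂ = e * (e₂ * conj e) := by linear_combination (-e₂) * star0_self he
  have n₁ : ‖e₁ * conj e‖ = 1 := by rw [norm_mul, Complex.norm_conj, he, h₁, mul_one]
  have n₂ : ‖e₂ * conj e‖ = 1 := by rw [norm_mul, Complex.norm_conj, he, h₂, mul_one]
  rw [Complex.inner] at i₁ i₂
  generalize e₁ * conj e = a at k₁ n₁ i₁
  generalize e₂ * conj e = b at k₂ n₂ i₂
  subst k₁ k₂
  rw [star0_inner he] at i₃
  have m₁ : a.re * a.re + a.im * a.im = 1 := by
    rw [← Complex.normSq_apply, Complex.normSq_eq_norm_sq, n₁, one_pow]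
  have m₂ : b.re * b.re + b.im * b.im = 1 := by
    rw [← Complex.normSq_apply, Complex.normSq_eq_norm_sq, n₂, one_pow]
  have q₁ := sq_nonneg (1 + a.re + b.re)
  have q₂ := sq_nonneg (a.im + b.im)
  have r₁ : a.re = -1 / 2 := by nlinarith
  have r₂ : b.re = -1 / 2 := by nlinarith
  have r₃ : b.im = -a.im := by
    have : (a.im + b.im) ^ 2 = 0 := by nlinarith
    have := pow_eq_zero_iff (two_ne_zero) |>.1 this
    linarith
  have r₄ : (a.im - √3 / 2) * (a.im + √3 / 2) = 0 := by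
    rw [r₁] at m₁
    nlinarith
  rw [star0_d31, star0_d32]
  rcases mul_eq_zero.1 r₄ with h | h
  · have ha : a = ⟨-1 / 2, √3 / 2⟩ := Complex.ext r₁ (by dsimp only; linarith)
    have hb : b = ⟨-1 / 2, -(√3 / 2)⟩ := Complex.ext r₂ (by dsimp only; linarith)
    rw [ha, hb]
  · have ha : a = ⟨-1 / 2, -(√3 / 2)⟩ := Complex.ext r₁ (by dsimp only; linarith)
    have hb : b = ⟨-1 / 2, √3 / 2⟩ := Complex.ext r₂ (by dsimp only; linarith)
    rw [ha, hb, pair_comm]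

theorem near_star_pt {η : ℝ} (he : ‖e‖ = 1) (h : Near η x r K (star n x e)) (hz : z ∈ K)
    (hzr : ‖z - x‖ ≤ 2 * r) : ∃ k < n, ‖z - x - ‖z - x‖ * dir n e k‖ ≤ 2 * η * r := by
  obtain ⟨w, ⟨k, hk, t, ht, rfl⟩, hw⟩ := h.1 z ⟨hz, by rwa [mem_closedBall, dist_eq_norm]⟩
  refine ⟨k, hk, ?_⟩
  have hd := dir_norm he n k
  have h1 : ‖(t : ℂ) * dir n e k‖ = t := by
    rw [norm_mul, hd, mul_one, Complex.norm_real, Real.norm_eq_abs, abs_of_nonneg ht]
  have h2 := abs_norm_sub_norm_le ((t : ℂ) * dir n e k) (z - x)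
  rw [h1, norm_sub_rev ((t : ℂ) * dir n e k), sub_sub] at h2
  have h3 : z - x - ‖z - x‖ * dir n e k =
      (z - (x + t * dir n e k)) + ((t - ‖z - x‖ : ℝ) : ℂ) * dir n e k := by
    push_cast
    ring
  have h4 := norm_add_le (z - (x + t * dir n e k)) (((t - ‖z - x‖ : ℝ) : ℂ) * dir n e k)
  rw [← h3, norm_mul, hd, mul_one, Complex.norm_real, Real.norm_eq_abs] at h4
  linarith

end Vale.Agent.P128
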