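import Vale.Agent.P128.Star0

/-!
# P128 Star3

Models seen from one of their points. For a propeller with centre `c` and `y = c + d e₁` (after
`star_three_rot`), the unit speed path from `y` to `c` and then along the ray `e_k`, `k = 2, 3`, has
distance to `y` increasing at rate `≥ 1/2` (`‖-d e₁ + t e_k‖² = d² + d t + t²`). The three points at
distance `r` (outer point and the two paths) have `0` in the convex hull of their differences with `y`,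
so one of them has `⟪z - y, v⟫ ≥ 0`; move by `2 h` backwards and forwards along the path.
-/

namespace Vale.Agent.P128

open Set Metric MeasureTheory Filter Topology Complex
open scoped ENNReal ContDiff RealInnerProductSpace Gradient Real ComplexConjugate

variable {Ω K L A S T U O X Γ P M₀ K₀ K₁ : Set ℂ} {u v w g hh ψ η : ℂ → ℝ} {G : ℂ → ℂ}
  {π₀ π₁ : ℂ → Set ℂ} {x y z c p q e a₀ F : ℂ} {lam H r s R a b t M Θ ρ ε δ d : ℝ} {n : ℕ}

theorem star3_inner (s : ℝ) (a v : ℂ) : ⟪(s : ℂ) * a, v⟫ = s * ⟪a, v⟫ := by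
  rw [← real_inner_smul_left, real_smul]

theorem star3_norm (he : ‖e‖ = 1) (hs : 0 ≤ s) : ‖(s : ℂ) * e‖ = s := by
  rw [norm_mul, he, mul_one, norm_real, Real.norm_of_nonneg hs]

theorem star3_ray {v : ℂ} (he : ‖e‖ = 1) (hv : 0 ≤ ⟪e, v⟫) (ht : 0 < t) (hr : 2 * t ≤ r)
    (h : ∀ s : ℝ, 0 ≤ s → s ≤ r + t → y + s * e ∈ M₀) :
    ∃ w₁ ∈ M₀, ∃ w₂ ∈ M₀, ‖w₁ - y‖ ≤ r - t ∧ r + t ≤ ‖w₂ - y‖ ∧ ‖w₂ - y‖ ≤ r + 2 * t ∧
      ‖w₁ - w₂‖ ≤ 4 * t ∧ -(2 * t) ≤ ⟪w₁ - y, v⟫ := by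
  have h1 : 0 ≤ r - t := by linarith
  have h2 : 0 ≤ r + t := by linarith
  refine ⟨_, h _ h1 (by linarith), _, h _ h2 le_rfl, ?_⟩
  have h3 : y + ((r + t : ℝ) : ℂ) * e - (y + ((r - t : ℝ) : ℂ) * e) = ((2 * t : ℝ) : ℂ) * e := by
    push_cast
    ring
  rw [norm_sub_rev (y + _) (y + _), h3, add_sub_cancel_left, add_sub_cancel_left, star3_norm he h1,
    star3_norm he h2, star3_norm he (by linarith), star3_inner]
  refine ⟨le_rfl, le_rfl, by linarith, by linarith, ?_⟩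
  linarith [mul_nonneg h1 hv]

theorem star3_sol (hd : 0 ≤ d) (h : d ≤ ρ) : ∃ τ : ℝ, 0 ≤ τ ∧ d ^ 2 + d * τ + τ ^ 2 = ρ ^ 2 := by
  have h1 : d ^ 2 ≤ 4 * ρ ^ 2 - 3 * d ^ 2 := by nlinarith
  have h2 := Real.sq_sqrt ((sq_nonneg d).trans h1)
  have h3 := Real.le_sqrt_of_sq_le h1
  exact ⟨(√(4 * ρ ^ 2 - 3 * d ^ 2) - d) / 2, by linarith, by nlinarith⟩

theorem star3_dist {τ : ℝ} (hp : ‖p‖ = 1) (hq : ‖q‖ = 1) (hpq : ⟪p, q⟫ = -1 / 2) (hρ : 0 ≤ ρ)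
    (h : d ^ 2 + d * τ + τ ^ 2 = ρ ^ 2) : ‖c + τ * q - (c + d * p)‖ = ρ := by
  refine (sq_eq_sq₀ (norm_nonneg _) hρ).1 ?_
  rw [add_sub_add_left_eq_sub, norm_sub_sq_real, star3_inner, real_inner_comm, star3_inner, hpq,
    norm_mul, norm_mul, hp, hq, norm_real, norm_real, mul_one, mul_one, Real.norm_eq_abs,
    Real.norm_eq_abs, sq_abs, sq_abs, ← h]
  ring

theorem star3_path {v : ℂ} (hp : ‖p‖ = 1) (hq : ‖q‖ = 1) (hpq : ⟪p, q⟫ = -1 / 2) (hd : 0 ≤ d)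
    (h1 : ⟪p, v⟫ ≤ 0) (h2 : 0 ≤ ⟪q, v⟫) (ht : 0 < t) (hr : 2 * t ≤ r)
    (m1 : ∀ s : ℝ, 0 ≤ s → c + s * p ∈ M₀) (m2 : ∀ s : ℝ, 0 ≤ s → c + s * q ∈ M₀)
    (hy : y = c + d * p) :
    ∃ w₁ ∈ M₀, ∃ w₂ ∈ M₀, ‖w₁ - y‖ ≤ r - t ∧ r + t ≤ ‖w₂ - y‖ ∧ ‖w₂ - y‖ ≤ r + 2 * t ∧
      ‖w₁ - w₂‖ ≤ 4 * t ∧ -(2 * t) ≤ ⟪w₁ - y, v⟫ := by
  subst hy
  have h3 : 0 ≤ r - t := by linarith
  have h4 : 0 ≤ r + t := by linarith
  rcases le_total (r + t) d with h5 | h5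
  · refine star3_ray (e := -p) (by rwa [norm_neg]) (by rw [inner_neg_left]; linarith) ht hr
      fun s _ hs => ?_
    have h6 := m1 (d - s) (by linarith)
    rwa [show c + ((d - s : ℝ) : ℂ) * p = c + d * p + s * -p by push_cast; ring] at h6
  obtain ⟨τ, k1, k2⟩ := star3_sol hd h5
  have k3 := star3_dist (c := c) hp hq hpq h4 k2
  rcases le_total (r - t) d with h6 | h6
  · refine ⟨_, m1 (d - (r - t)) (by linarith), _, m2 τ k1, ?_, k3.ge, by linarith, ?_, ?_⟩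
    · rw [norm_sub_rev, show c + d * p - (c + ((d - (r - t) : ℝ) : ℂ) * p) =
        ((r - t : ℝ) : ℂ) * p by push_cast; ring, star3_norm hp h3]
    · rw [add_sub_add_left_eq_sub]
      refine (norm_sub_le _ _).trans ?_
      rw [star3_norm hp (by linarith), star3_norm hq k1]
      have k4 : d + τ / 2 ≤ r + t := abs_le_of_sq_le_sq' (by nlinarith) h4 |>.2
      linarith
    · rw [show c + ((d - (r - t) : ℝ) : ℂ) * p - (c + d * p) =
        ((-(r - t) : ℝ) : ℂ) * p by push_cast; ring, star3_inner]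
      nlinarith
  obtain ⟨σ, l1, l2⟩ := star3_sol hd h6
  refine ⟨_, m2 σ l1, _, m2 τ k1, (star3_dist hp hq hpq h3 l2).le, k3.ge, by linarith, ?_, ?_⟩
  · have k4 : r + t ≤ d + τ := abs_le_of_sq_le_sq' (by nlinarith) (by linarith) |>.2
    have k5 : σ ≤ τ := by
      by_contra k5
      nlinarith
    rw [norm_sub_rev, show c + τ * q - (c + σ * q) = ((τ - σ : ℝ) : ℂ) * q by push_cast; ring,
      star3_norm hq (by linarith)]
    by_contra k6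
    nlinarith
  · rw [add_sub_add_left_eq_sub, inner_sub_left, star3_inner, star3_inner]
    nlinarith [mul_nonneg l1 h2, mul_nonneg hd (neg_nonneg.2 h1)]

theorem mdl_two {v : ℂ} (h : Mdl M₀) (hy : y ∈ M₀) (hv : ‖v‖ = 1) (ht : 0 < t) (hr : 2 * t ≤ r) :
    ∃ w₁ ∈ M₀, ∃ w₂ ∈ M₀, ‖w₁ - y‖ ≤ r - t ∧ r + t ≤ ‖w₂ - y‖ ∧ ‖w₂ - y‖ ≤ r + 2 * t ∧
      ‖w₁ - w₂‖ ≤ 4 * t ∧ -(2 * t) ≤ ⟪w₁ - y, v⟫ := by
  obtain ⟨c, e, he, rfl | rfl⟩ := h
  · rw [← star_two_move hy, star_two]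
    rcases le_total 0 ⟪e, v⟫ with h1 | h1
    · exact star3_ray he h1 ht hr fun s _ _ => ⟨s, rfl⟩
    · exact star3_ray (e := -e) (by rwa [norm_neg]) (by rw [inner_neg_left]; linarith) ht hr
        fun s _ _ => ⟨-s, by push_cast; ring⟩
  obtain ⟨k, -, d, hd, rfl⟩ := hy
  rw [← star_three_rot c e k]
  have h1 := dir_norm he 3 k
  generalize dir 3 e k = p at h1 ⊢
  have m : ∀ j < 3, ∀ s : ℝ, 0 ≤ s → c + s * dir 3 p j ∈ star 3 c p := fun j hj s hs =>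
    ⟨j, hj, s, hs, rfl⟩
  have m0 := m 0 (by norm_num)
  rw [dir_zero] at m0
  rcases le_total 0 ⟪p, v⟫ with h2 | h2
  · refine star3_ray h1 h2 ht hr fun s hs _ => ?_
    have h3 := m0 (d + s) (by linarith)
    rwa [show c + ((d + s : ℝ) : ℂ) * p = c + d * p + s * p by push_cast; ring] at h3
  have h3 := congrArg (fun z => ⟪z, v⟫) (dir_three_sum p)
  simp only [inner_add_left, inner_zero_left, dir_zero] at h3
  have h4 : ∀ j < 3, j ≠ 0 → ⟪p, dir 3 p j⟫ = -1 / 2 := fun j hj hj0 => by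
    have h5 := (dir_sep h1 le_rfl (by norm_num) hj hj0.symm).2 rfl
    rwa [dir_zero] at h5
  rcases le_total 0 ⟪dir 3 p 1, v⟫ with h5 | h5
  · exact star3_path h1 (dir_norm h1 3 1) (h4 1 (by norm_num) one_ne_zero) hd h2 h5 ht hr m0
      (m 1 (by norm_num)) rfl
  · exact star3_path h1 (dir_norm h1 3 2) (h4 2 (by norm_num) two_ne_zero) hd h2 (by linarith) ht
      hr m0 (m 2 (by norm_num)) rfl

end Vale.Agent.P128
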