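import Mathlib

/-!
# The Mumford-Shah problem in the plane: statement definitions

The plane is `ℂ` with its Euclidean metric, Lebesgue measure `volume` and `μH[1]`.
-/

namespace Vale.Agent.P128

open Set Metric MeasureTheory Filter Topology
open scoped ENNReal ContDiff RealInnerProductSpace

/-- `G` is the weak gradient of `u` on the open set `O`. -/
def IsWG (O : Set ℂ) (u : ℂ → ℝ) (G : ℂ → ℂ) : Prop :=
  LocallyIntegrableOn u O ∧ LocallyIntegrableOn G O ∧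
    ∀ φ : ℂ → ℝ, ContDiff ℝ ∞ φ → HasCompactSupport φ → tsupport φ ⊆ O → ∀ v : ℂ,
      ∫ z in O, u z * fderiv ℝ φ z v = -∫ z in O, ⟪G z, v⟫ * φ z

/-- Admissible pair `(u, K)` in `Ω`, with `G` the weak gradient of `u` on `Ω \ K`. -/
def Admissible (Ω : Set ℂ) (u : ℂ → ℝ) (G : ℂ → ℂ) (K : Set ℂ) : Prop :=
  K ⊆ Ω ∧ IsOpen (Ω \ K) ∧ μH[1] K < ⊤ ∧ MemLp u 2 (volume.restrict Ω) ∧
    IsWG (Ω \ K) u G ∧ MemLp G 2 (volume.restrict (Ω \ K))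

/-- The Mumford-Shah energy in `V`. -/
noncomputable def Energy (g u : ℂ → ℝ) (G : ℂ → ℂ) (K V : Set ℂ) : ℝ≥0∞ :=
  (∫⁻ z in V \ K, ‖G z‖ₑ ^ 2) + μH[1] (K ∩ V) + ∫⁻ z in V, ‖u z - g z‖ₑ ^ 2

/-- Minimizer: no admissible pair that differs only inside a compact subset of `V` does better. -/
def Minimizer (Ω : Set ℂ) (g u : ℂ → ℝ) (G : ℂ → ℂ) (K : Set ℂ) : Prop :=
  Admissible Ω u G K ∧
    ∀ V : Set ℂ, IsOpen V → IsCompact (closure V) → closure V ⊆ Ω →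
      ∀ (w : ℂ → ℝ) (H : ℂ → ℂ) (L : Set ℂ), Admissible Ω w H L →
        (∃ C : Set ℂ, IsCompact C ∧ C ⊆ V ∧ symmDiff L K ⊆ C ∧
          ∀ᵐ z : ℂ, z ∈ Ω \ C → w z = u z) →
        Energy g u G K V ≤ Energy g w H L V

/-- Every disk centred on `K` and compactly contained in `Ω` meets `K` in positive length. -/
def Reduced (Ω K : Set ℂ) : Prop :=
  ∀ x ∈ K, ∀ r : ℝ, 0 < r → closedBall x r ⊆ Ω → 0 < μH[1] (K ∩ ball x r)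

/-- `γ` on `[0,1]` is an embedded `C^{1,α}` arc with nonvanishing derivative `γ'`. -/
def IsArc (α : ℝ) (γ γ' : ℝ → ℂ) : Prop :=
  InjOn γ (Icc 0 1) ∧
    (∀ t ∈ Icc (0 : ℝ) 1, HasDerivWithinAt γ (γ' t) (Icc 0 1) t ∧ γ' t ≠ 0) ∧
      ∃ C : ℝ, ∀ s ∈ Icc (0 : ℝ) 1, ∀ t ∈ Icc (0 : ℝ) 1, ‖γ' s - γ' t‖ ≤ C * |s - t| ^ α

/-- The local structure of `K` at `x` predicted by the conjecture. -/
def Loc (Ω K : Set ℂ) (x : ℂ) : Prop :=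
  ∃ N ∈ 𝓝 x, N ⊆ Ω ∧ ∃ α : ℝ, 0 < α ∧ α ≤ 1 ∧
    ((∃ γ γ' : ℝ → ℂ, IsArc α γ γ' ∧ K ∩ N = γ '' Icc 0 1 ∧ x ∈ γ '' Ioo 0 1) ∨
      (∃ γ γ' : ℝ → ℂ, IsArc α γ γ' ∧ K ∩ N = γ '' Icc 0 1 ∧ γ 0 = x) ∨
      (∃ γ γ' : Fin 3 → ℝ → ℂ, (∀ i, IsArc α (γ i) (γ' i) ∧ γ i 0 = x) ∧
        K ∩ N = ⋃ i, γ i '' Icc 0 1 ∧
        ∀ i j, i ≠ j → γ i '' Icc 0 1 ∩ γ j '' Icc 0 1 = {x} ∧
          InnerProductGeometry.angle (γ' i 0) (γ' j 0) = 2 * Real.pi / 3))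

/-- `L` separates `a` and `b`: they lie in different connected components of the complement. -/
def Separates (L : Set ℂ) (a b : ℂ) : Prop :=
  a ∉ L ∧ b ∉ L ∧ connectedComponentIn Lᶜ a ≠ connectedComponentIn Lᶜ b

/-- A pair in the whole plane: `K` closed, weak gradient `G` off `K`, finite energy in every disk. -/
def GPair (u : ℂ → ℝ) (G : ℂ → ℂ) (K : Set ℂ) : Prop :=
  IsClosed K ∧ IsWG Kᶜ u G ∧
    ∀ R : ℝ, (∫⁻ z in ball 0 R \ K, ‖G z‖ₑ ^ 2) + μH[1] (K ∩ ball 0 R) < ⊤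

/-- Global minimizer. -/
def GlobalMin (u : ℂ → ℝ) (G : ℂ → ℂ) (K : Set ℂ) : Prop :=
  GPair u G K ∧
    ∀ (c : ℂ) (r : ℝ) (v : ℂ → ℝ) (H : ℂ → ℂ) (L : Set ℂ), GPair v H L →
      (∃ C : Set ℂ, IsCompact C ∧ C ⊆ ball c r ∧ symmDiff L K ⊆ C ∧
        ∀ᵐ z : ℂ, z ∉ C → v z = u z) →
      (∀ a b : ℂ, a ∉ ball c r → b ∉ ball c r → Separates K a b → Separates L a b) →
      (∫⁻ z in ball c r \ K, ‖G z‖ₑ ^ 2) + μH[1] (K ∩ ball c r) ≤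
        (∫⁻ z in ball c r \ L, ‖H z‖ₑ ^ 2) + μH[1] (L ∩ ball c r)

end Vale.Agent.P128
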