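import Vale.Agent.P128.Basic

/-!
# P128 TMul

The product of `u` with a cutoff is a test function for `A`: near `z ∉ A` either
`z ∈ thickening δ A`, where `u` is `C¹`, or `η = 0` near `z`.
-/

namespace Vale.Agent.P128

open Set Metric MeasureTheory Filter Topology Complex
open scoped ENNReal ContDiff RealInnerProductSpace Gradient Real ComplexConjugate

variable {Ω K L A S T U O X Γ P M₀ K₀ K₁ : Set ℂ} {u v w g hh ψ η : ℂ → ℝ} {G : ℂ → ℂ}
  {π₀ π₁ : ℂ → Set ℂ} {x y z c p q e a₀ F : ℂ} {lam H r s R a b t M Θ ρ ε δ d : ℝ} {n : ℕ}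

theorem test_mul (h : Pre univ u (A ∪ K₁)) (hA : IsCompact A) (hK : IsClosed K₁)
    (hd : Disjoint (thickening (3 * δ) A) K₁) (hδ : 0 < δ)
    (hM : ∀ z ∈ thickening δ A \ A, |u z| ≤ M) (hη : ContDiff ℝ 1 η)
    (hη0 : tsupport η ⊆ thickening δ A) :
    Test univ A (Aᶜ.indicator fun w => u w * η w) ∧
      tsupport (Aᶜ.indicator fun w => u w * η w) ⊆ thickening δ A ∧
      gK A (Aᶜ.indicator fun w => u w * η w) = gK A (fun w => u w * η w) ∧
      gK (A ∪ K₁) (Aᶜ.indicator fun w => u w * η w) = gK A (fun w => u w * η w) := by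
  have hzero : ∀ z ∉ tsupport η, (fun w => u w * η w) =ᶠ[𝓝 z] fun _ => (0 : ℝ) := fun z hz => by
    filter_upwards [notMem_tsupport_iff_eventuallyEq.1 hz] with w hw
    simp [hw]
  have hg0 : ∀ z ∉ tsupport η, ∇ (fun w => u w * η w) z = 0 := fun z hz => by
    rw [(hzero z hz).gradient_eq]
    simp
  have hK1 : ∀ z ∈ thickening δ A, z ∉ K₁ := fun z hz =>
    Set.disjoint_left.1 hd (thickening_mono (by linarith) A hz)
  have hmem : ∀ z ∈ thickening δ A, z ∉ A → z ∈ univ \ (A ∪ K₁) := fun z hz hzA =>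
    ⟨trivial, fun hh => hh.elim hzA (hK1 z hz)⟩
  have hc1 : ContDiffOn ℝ 1 (fun w => u w * η w) Aᶜ := fun z hz => by
    by_cases hz' : z ∈ tsupport η
    · have := (h.2.2.1.contDiffAt (h.isOpen.mem_nhds (hmem z (hη0 hz') hz))).mul hη.contDiffAt
      exact this.contDiffWithinAt
    · exact (contDiffAt_const.congr_of_eventuallyEq (hzero z hz')).contDiffWithinAt
  have hbd : Bornology.IsBounded (thickening δ A) := hA.isBounded.thickening
  have hcs : HasCompactSupport η :=
    Metric.isCompact_of_isClosed_isBounded (isClosed_tsupport η) (hbd.subset hη0)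
  obtain ⟨N, hN⟩ := hη.continuous.bounded_above_of_compact_support hcs
  obtain ⟨N', hN'⟩ := (hη.continuous_fderiv one_ne_zero).bounded_above_of_compact_support
    (hcs.fderiv ℝ)
  obtain ⟨r, hr⟩ := hbd.subset_closedBall 0
  have he : gK A (Aᶜ.indicator fun w => u w * η w) = gK A (fun w => u w * η w) :=
    gK_congr hA.isClosed fun z hz => indicator_of_mem (show z ∈ Aᶜ from hz) _
  have hts : tsupport (Aᶜ.indicator fun w => u w * η w) ⊆ tsupport η := by
    refine closure_mono fun z hz => ?_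
    intro h0
    apply hz
    by_cases hzA : z ∈ Aᶜ
    · rw [indicator_of_mem hzA, h0, mul_zero]
    · rw [indicator_of_notMem hzA]
  refine ⟨⟨?_, ⟨|M| * N, fun z => ?_⟩, ⟨0, r, subset_univ _, fun z hz => ?_⟩, ?_⟩,
    hts.trans hη0, he, funext fun z => ?_⟩
  · rw [← compl_eq_univ_diff]
    exact lip_congr (lip_of_contDiffOn hA.isClosed.isOpen_compl hc1)
      fun z hz => indicator_of_mem hz _
  · have hN0 : 0 ≤ N := (norm_nonneg _).trans (hN 0)
    by_cases hz : z ∈ tsupport (Aᶜ.indicator fun w => u w * η w)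
    · by_cases hzA : z ∈ Aᶜ
      · rw [indicator_of_mem hzA, abs_mul]
        exact mul_le_mul ((hM z ⟨hη0 (hts hz), hzA⟩).trans (le_abs_self M)) (hN z) (abs_nonneg _)
          (abs_nonneg _)
      · rw [indicator_of_notMem hzA, abs_zero]
        positivity
    · rw [image_eq_zero_of_notMem_tsupport hz, abs_zero]
      positivity
  · exact image_eq_zero_of_notMem_tsupport fun hh => hz (hr (hη0 (hts hh)))
  · unfold Dn
    rw [he, Measure.restrict_univ]
    have hb : ∀ z, ‖gK A (fun w => u w * η w) z‖ₑ ^ 2 ≤ (closedBall (0 : ℂ) r).indicator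
        (fun z => ENNReal.ofReal (2 * (|M| * N') ^ 2) +
          ENNReal.ofReal (2 * N ^ 2) * ‖gK (A ∪ K₁) u z‖ₑ ^ 2) z := fun z => by
      by_cases hzA : z ∈ A
      · simp [gK_of_mem _ hzA]
      by_cases hz : z ∈ tsupport η
      swap
      · simp [gK_of_notMem _ hzA, hg0 z hz]
      have hm := hmem z (hη0 hz) hzA
      rw [indicator_of_mem (hr (hη0 hz)), gK_of_notMem _ hzA, gK_of_notMem _ hm.2,
        grad_mul (h.diff hm) (hη.differentiable one_ne_zero z)]
      have h1 : ‖(u z : ℂ) * ∇ η z‖ ≤ |M| * N' := by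
        rw [norm_mul, Complex.norm_real, norm_grad]
        exact mul_le_mul ((hM z ⟨hη0 hz, hzA⟩).trans (le_abs_self M)) (hN' z) (norm_nonneg _)
          (abs_nonneg _)
      have h2 : ‖(η z : ℂ) * ∇ u z‖ ≤ N * ‖∇ u z‖ := by
        rw [norm_mul, Complex.norm_real]
        exact mul_le_mul_of_nonneg_right (hN z) (norm_nonneg _)
      have h3 := (norm_add_le _ _).trans (add_le_add h1 h2)
      rw [← ofReal_norm, ← ofReal_norm, ← ENNReal.ofReal_pow (norm_nonneg _),
        ← ENNReal.ofReal_pow (norm_nonneg _), ← ENNReal.ofReal_mul (by positivity),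
        ← ENNReal.ofReal_add (by positivity) (by positivity)]
      refine ENNReal.ofReal_le_ofReal ((pow_le_pow_left₀ (norm_nonneg _) h3 2).trans ?_)
      nlinarith [sq_nonneg (|M| * N' - N * ‖∇ u z‖)]
    refine ne_top_of_le_ne_top ?_ (lintegral_mono hb)
    rw [lintegral_indicator measurableSet_closedBall, lintegral_add_left measurable_const,
      lintegral_const_mul' _ _ ENNReal.ofReal_ne_top, setLIntegral_const]
    exact ENNReal.add_ne_top.2
      ⟨ENNReal.mul_ne_top ENNReal.ofReal_ne_top measure_closedBall_lt_top.ne,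
        ENNReal.mul_ne_top ENNReal.ofReal_ne_top (h.2.2.2 0 r (subset_univ _)).1⟩
  · by_cases hzA : z ∈ A
    · rw [gK_of_mem _ hzA, gK_of_mem _ (Or.inl hzA)]
    by_cases hz : z ∈ K₁
    · rw [gK_of_mem _ (Or.inr hz), gK_of_notMem _ hzA, hg0 z fun hh => hK1 z (hη0 hh) hz]
    · rw [← he, gK_of_notMem _ hzA, gK_of_notMem _ fun hh => hh.elim hzA hz]

end Vale.Agent.P128
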