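import Vale.Agent.P128.TipP
import Vale.Agent.P128.IV
import Vale.Agent.P128.NearM

/-!
# P128 TipA

Energy rate at a tip. With `C ≥ 4` from `tipP`, `γ = 1/C`: `F s = Dr s - s`, `f = E2/s - 1`,
`(1 + γ) F ≤ s f + 4π lam s² + s ‖Yv‖` a.e.; `gr` with `β = 1 + γ`; `∫ ‖Yv‖/s^(1+γ)` is bounded by `dyad`
and `iv` (`α = 3/2`). The lower bound follows from `mono` letting `a → 0`.
-/

namespace Vale.Agent.P128

open Set Metric MeasureTheory Filter Topology Complex
open scoped ENNReal ContDiff RealInnerProductSpace Gradient Real ComplexConjugate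

variable {Ω K L A S T U O X Γ P M₀ K₀ K₁ : Set ℂ} {u v w g hh ψ η : ℂ → ℝ} {G : ℂ → ℂ}
  {π₀ π₁ : ℂ → Set ℂ} {x y z c p q e a₀ F : ℂ} {lam H r s R a b t M Θ ρ ε δ d : ℝ} {n : ℕ}

theorem tipa_int {Y : ℝ → ℂ} (hb : 0 < b)
    (h : ∀ r, 0 < r → 2 * r ≤ b → IntervalIntegrable Y volume r (2 * r)) (ha : 0 < a)
    (hab : a ≤ b) : IntervalIntegrable Y volume a b := by
  have h1 : ∀ n : ℕ, IntervalIntegrable Y volume (b / 2 ^ n) b := by
    intro n
    induction n with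
    | zero => simp
    | succ n ih =>
      have e : 2 * (b / 2 ^ (n + 1)) = b / 2 ^ n := by
        rw [pow_succ]
        field_simp
      have h2 := h (b / 2 ^ (n + 1)) (by positivity)
        (by rw [e]; exact div_le_self hb.le (one_le_pow₀ one_le_two))
      rw [e] at h2
      exact h2.trans ih
  obtain ⟨n, hn⟩ := pow_unbounded_of_one_lt (b / a) (one_lt_two (α := ℝ))
  have h2 : b / 2 ^ n ≤ a := by
    rw [div_le_iff₀ (by positivity), mul_comm]
    exact ((div_lt_iff₀ ha).1 hn).le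
  refine (h1 n).mono_set ?_
  rw [uIcc_of_le hab, uIcc_of_le (h2.trans hab)]
  exact Icc_subset_Icc_left h2

theorem tipa_hint {Y : ℝ → ℂ} (h : IntervalIntegrable Y volume a b) (m : ℝ) :
    IntervalIntegrable (fun s => m * s ^ 2 + |s| * ‖Y s‖) volume a b :=
  (Continuous.intervalIntegrable (by fun_prop) a b).add
    (h.norm.continuousOn_mul continuous_abs.continuousOn)

theorem tipa_dy {Y : ℝ → ℂ} {C : ℝ} (hl : 0 ≤ lam) (hr : 0 < r) (hr1 : r ≤ 1)
    (h : IntervalIntegrable Y volume r (2 * r))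
    (hY : ∫ s in r..2 * r, ‖Y s‖ ≤ C * r * √(lam * r)) :
    ∫ s in r..2 * r, (4 * lam * π * s ^ 2 + |s| * ‖Y s‖) ≤
      (16 * lam * π + 2 * C * √lam) * r ^ (5 / 2 : ℝ) := by
  have h1 : ∫ s in r..2 * r, (4 * lam * π * s ^ 2 + |s| * ‖Y s‖) ≤
      ∫ s in r..2 * r, (16 * lam * π * r ^ 2 + 2 * r * ‖Y s‖) := by
    refine intervalIntegral.integral_mono_on (by linarith) (tipa_hint h _)
      (intervalIntegrable_const.add (h.norm.const_mul _)) fun s hs => ?_
    have h2 : s ^ 2 ≤ 4 * r ^ 2 := by nlinarith [hs.1, hs.2]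
    have h3 := mul_le_mul_of_nonneg_left h2 (by positivity : 0 ≤ 4 * lam * π)
    have h4 : |s| ≤ 2 * r := by
      rw [abs_of_pos (hr.trans_le hs.1)]
      exact hs.2
    have h5 := mul_le_mul_of_nonneg_right h4 (norm_nonneg (Y s))
    linarith
  rw [intervalIntegral.integral_add intervalIntegrable_const (h.norm.const_mul _),
    intervalIntegral.integral_const, intervalIntegral.integral_const_mul, smul_eq_mul] at h1
  have h2 : r ^ (5 / 2 : ℝ) = r ^ 2 * √r := by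
    rw [Real.sqrt_eq_rpow, ← Real.rpow_natCast, ← Real.rpow_add hr]
    norm_num
  have h3 : r ≤ √r := Real.le_sqrt_of_sq_le (by nlinarith)
  rw [Real.sqrt_mul hl] at hY
  have h4 := mul_le_mul_of_nonneg_left hY (by positivity : 0 ≤ 2 * r)
  have h5 := mul_le_mul_of_nonneg_left h3 (by positivity : 0 ≤ 16 * lam * π * r ^ 2)
  rw [h2]
  nlinarith

theorem tipA {r₀ : ℝ} {p p' : ℝ → ℂ} (h : MM Ω lam u K π₀) (hx : x ∈ Ω)
    (hD : Tendsto (fun r => Dr u K x r / r) (𝓝[>] 0) (𝓝 1)) (hr : 0 < r₀)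
    (hR : Rad K x 0 r₀ p p') :
    ∃ r C γ : ℝ, 0 < r ∧ 0 < C ∧ 0 < γ ∧ γ ≤ 1 / 4 ∧
      ∀ ρ, 0 < ρ → ρ ≤ r → |Dr u K x ρ / ρ - 1| ≤ C * ρ ^ γ := by
  obtain ⟨C₁, hC₁, htip⟩ := tipP
  obtain ⟨C₂, hC₂, hiv⟩ := iv
  obtain ⟨ε, C₃, hε, hε1, hC₃, hmono⟩ := mono
  have hpre := h.pre
  have hl : 0 ≤ lam := h.1.1
  have hev : ∀ᶠ s in 𝓝[>] (0 : ℝ), Adm Ω lam x s ε ∧ Dr u K x s / s < 2 ∧ s < r₀ ∧ s < 1 ∧
      lam * s < 1 / 2 := by
    have h1 : Tendsto (fun s : ℝ => lam * s) (𝓝 0) (𝓝 (lam * 0)) :=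
      tendsto_id.const_mul lam
    rw [mul_zero] at h1
    refine (adm_small hpre.1 hx lam hε).and ((hD.eventually (gt_mem_nhds (by norm_num))).and
      (Eventually.filter_mono nhdsWithin_le_nhds ((gt_mem_nhds hr).and
        ((gt_mem_nhds one_pos).and (h1.eventually (gt_mem_nhds (by norm_num)))))))
  obtain ⟨b, hb, hP⟩ := mem_nhdsGT_iff_exists_Ioc_subset.1 hev
  have hb0 : 0 < b := hb
  obtain ⟨hadm, -, hbr, hb1, hbl⟩ := hP ⟨hb0, le_rfl⟩
  have hball : closedBall x b ⊆ Ω :=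
    (closedBall_subset_closedBall (le_div_self hb0.le hε hε1)).trans hadm.2.1
  have hiv' : ∀ r, 0 < r → 2 * r ≤ b → IntervalIntegrable (Yv u K x p') volume r (2 * r) ∧
      ∫ s in r..2 * r, ‖Yv u K x p' s‖ ≤ C₂ * r * √(lam * r) := by
    intro r hr0 hrb
    refine hiv h hr0 ((closedBall_subset_closedBall hrb).trans hball) ?_
      (hR.mono hr0.le (by linarith))
    have := mul_le_mul_of_nonneg_left (by linarith : r ≤ b) hl
    linarith
  have hYi : ∀ a, 0 < a → a ≤ b → IntervalIntegrable (Yv u K x p') volume a b :=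
    fun a ha hab => tipa_int hb0 (fun r h1 h2 => (hiv' r h1 h2).1) ha hab
  obtain ⟨γ, hγ⟩ : ∃ γ : ℝ, γ = 1 / C₁ := ⟨_, rfl⟩
  have hγ0 : 0 < γ := by rw [hγ]; positivity
  have hγ4 : γ ≤ 1 / 4 := by rw [hγ]; exact one_div_le_one_div_of_le (by norm_num) hC₁
  have hγC : γ * C₁ = 1 := by rw [hγ]; field_simp
  obtain ⟨M, hM⟩ : ∃ M : ℝ, ∀ a, 0 < a → a ≤ b → (Dr u K x a - a) / a ^ (1 + γ) ≤ M := by
    refine ⟨(Dr u K x b - b) / b ^ (1 + γ) + (16 * lam * π + 2 * C₂ * √lam) *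
      b ^ (5 / 2 - (1 + γ + 1)) / (1 - (2 : ℝ) ^ (-(5 / 2 - (1 + γ + 1)))), fun a ha hab => ?_⟩
    have h1 := gr (F := fun s => Dr u K x s - s) (f := fun s => E2 u K x s / s - 1)
      (h := fun s => 4 * lam * π * s ^ 2 + |s| * ‖Yv u K x p' s‖) (β := 1 + γ) ha hab
      (by linarith) ((hpre.Dr_sub hball ha.le hab le_rfl).1.sub intervalIntegrable_const)
      (tipa_hint (hYi a ha hab) _) ?_ ?_
    · refine h1.trans (add_le_add le_rfl ?_)
      exact dyad (f := fun s => 4 * lam * π * s ^ 2 + |s| * ‖Yv u K x p' s‖)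
        (fun s => by positivity) hb0 (fun a ha hab => tipa_hint (hYi a ha hab) _)
        (by positivity) (by linarith) (by linarith)
        (fun r h1 h2 => tipa_dy hl h1 (by linarith) (hiv' r h1 h2).1 (hiv' r h1 h2).2) ha hab
    · intro t ht
      obtain ⟨h1, h2⟩ := hpre.Dr_sub hball ha.le ht.1 ht.2
      rw [intervalIntegral.integral_sub h1 intervalIntegrable_const,
        intervalIntegral.integral_const, smul_eq_mul]
      linarith
    · filter_upwards [hpre.ae_good hball] with s hs hsab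
      have hs0 : 0 < s := ha.trans hsab.1
      have h1 := (hP ⟨hs0, hsab.2.le⟩).2.1
      rw [div_lt_iff₀ hs0] at h1
      have h2 := (htip h.1 ((closedBall_subset_closedBall hsab.2.le).trans hball)
        (hs ⟨hs0, hsab.2⟩) hR le_rfl ⟨hs0, hsab.2.trans hbr⟩ (by linarith) rfl).2.1
      have h3 := mul_le_mul_of_nonneg_left ((le_abs_self _).trans h2) hγ0.le
      rw [← mul_assoc, hγC, one_mul] at h3
      have h4 : s * (E2 u K x s / s - 1) = E2 u K x s - s := by field_simp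
      rw [h4, abs_of_pos hs0]
      linarith
  refine ⟨b, |M| + C₃ * lam + 1, γ, hb0, by positivity, hγ0, hγ4, fun ρ hρ hρb => ?_⟩
  have hpow : 0 < ρ ^ γ := Real.rpow_pos_of_pos hρ γ
  have hup : Dr u K x ρ / ρ - 1 ≤ |M| * ρ ^ γ := by
    have h1 := (hM ρ hρ hρb).trans (le_abs_self M)
    rw [Real.rpow_add hρ, Real.rpow_one, div_le_iff₀ (by positivity)] at h1
    rw [div_sub_one hρ.ne', div_le_iff₀ hρ]
    linarith
  have hlow : 1 ≤ Dr u K x ρ / ρ + C₃ * lam * ρ := by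
    refine le_of_tendsto hD ?_
    filter_upwards [Ioc_mem_nhdsGT hρ] with a ha
    exact hmono h hadm a ρ ha.1 ha.2 hρb
  have hρ1 : ρ ≤ ρ ^ γ := by
    have h1 := Real.rpow_le_rpow_of_exponent_ge hρ (by linarith) (by linarith : γ ≤ 1)
    rwa [Real.rpow_one] at h1
  have h1 := mul_le_mul_of_nonneg_left hρ1 (by positivity : 0 ≤ C₃ * lam)
  have h2 : 0 ≤ |M| * ρ ^ γ := by positivity
  have h3 : 0 ≤ C₃ * lam * ρ ^ γ := by positivity
  rw [abs_le]
  constructor <;> nlinarith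

end Vale.Agent.P128
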