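import Vale.Agent.P128.Circ1
import Vale.Agent.P128.Len

/-!
# P128 TipP

Pointwise bounds at a tip. `p s = circleMap x s α`, `ν = ex α`, `τ = p'/‖p'‖`, `τ conj ν = cos φ + i sin φ`
with `cos φ = 1/‖p'‖ ≥ 1/2` (`Rad.pt`), and `τ conj ν = Yv conj ν + conj (Zc ν)`. By `circ1`,
`|sin φ| ≤ ‖Yv‖ + 10 (√(E2 δ) + δ)/s` with `E2 ≤ 8 s + δ`; `1 - cos φ ≤ sin² φ ≤ C (‖Yv‖ + δ/s)` (use
`|sin φ| ≤ 1`); `‖p' - ν‖ = ‖p'‖ |sin φ|`.
-/

namespace Vale.Agent.P128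

open Set Metric MeasureTheory Filter Topology Complex
open scoped ENNReal ContDiff RealInnerProductSpace Gradient Real ComplexConjugate

variable {Ω K L A S T U O X Γ P M₀ K₀ K₁ : Set ℂ} {u v w g hh ψ η : ℂ → ℝ} {G : ℂ → ℂ}
  {π₀ π₁ : ℂ → Set ℂ} {x y z c p q e a₀ F : ℂ} {lam H r s R a b t M Θ ρ ε δ d : ℝ} {n : ℕ}

theorem tipp_sqrt {E : ℝ} (hs : 0 < s) (hδ : 0 ≤ δ) (hE : E ≤ 8 * s + δ) :
    √(E * δ) + δ ≤ s * (3 * √(δ / s) + 2 * (δ / s)) := by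
  have h0 : 0 ≤ δ / s := div_nonneg hδ hs.le
  have h1 : √(δ / s) ^ 2 = δ / s := Real.sq_sqrt h0
  have h2 : 0 ≤ √(δ / s) := Real.sqrt_nonneg _
  have h3 : s * (δ / s) = δ := by field_simp
  have h4 : √(E * δ) ≤ s * (3 * √(δ / s)) + δ := by
    refine Real.sqrt_le_iff.2 ⟨by positivity, ?_⟩
    have h5 : (s * (3 * √(δ / s))) ^ 2 = 9 * s * δ := by
      rw [mul_pow, mul_pow, h1]
      nlinarith
    have h6 : 0 ≤ s * (3 * √(δ / s)) * δ := by positivity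
    have h7 : E * δ ≤ (8 * s + δ) * δ := mul_le_mul_of_nonneg_right hE hδ
    nlinarith [mul_nonneg hs.le hδ]
  nlinarith

theorem tipp_sq {σ y d q : ℝ} (hy : 0 ≤ y) (hd : 0 ≤ d) (hq : q ^ 2 = d)
    (h1 : σ ^ 2 ≤ 1) (h2 : |σ| ≤ y + 30 * q + 20 * d) : σ ^ 2 ≤ 3900 * (y + d) := by
  rcases le_total 1 (y + d) with h | h
  · linarith
  · have h3 : σ ^ 2 ≤ (y + 30 * q + 20 * d) ^ 2 := by
      rw [← sq_abs σ]
      exact pow_le_pow_left₀ (abs_nonneg _) h2 2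
    have h4 : (y + 30 * q + 20 * d) ^ 2 ≤ 3 * (y ^ 2 + 900 * q ^ 2 + 400 * d ^ 2) := by
      nlinarith [sq_nonneg (y - 30 * q), sq_nonneg (y - 20 * d), sq_nonneg (30 * q - 20 * d)]
    have h5 : y ^ 2 ≤ y := by nlinarith
    have h6 : d ^ 2 ≤ d := by nlinarith
    nlinarith

theorem tipp_real {D E N m wr wi yr yi y : ℝ} (hs : 0 < s) (hδ : 0 ≤ δ) (hE : E ≤ 8 * s + δ)
    (hN1 : 1 ≤ N) (hN2 : N ≤ 2) (hm : N ^ 2 = 1 + m ^ 2) (hr : 1 / N = yr + wr)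
    (hi : m / N = yi - wi) (hyr : |yr| ≤ y) (hyi : |yi| ≤ y) (h1 : |D - s * wr| ≤ 10 * δ)
    (h2 : |s * wi| ≤ 10 * (√(E * δ) + δ)) :
    |D - s| ≤ 4000 * (δ + s * y) ∧ |m| ≤ 4000 * (y + √(δ / s) + δ / s) := by
  have h0 : 0 ≤ δ / s := div_nonneg hδ hs.le
  have hq : √(δ / s) ^ 2 = δ / s := Real.sq_sqrt h0
  have hq0 : 0 ≤ √(δ / s) := Real.sqrt_nonneg _
  have h3 : s * (δ / s) = δ := by field_simp
  have hy : 0 ≤ y := (abs_nonneg _).trans hyr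
  have hN : 0 < N := by linarith
  have h4 : |wi| ≤ 30 * √(δ / s) + 20 * (δ / s) := by
    have h5 := tipp_sqrt hs hδ hE
    rw [abs_mul, abs_of_pos hs] at h2
    refine le_of_mul_le_mul_left ?_ hs
    nlinarith
  have h5 : |m / N| ≤ y + 30 * √(δ / s) + 20 * (δ / s) := by
    rw [hi]
    have := abs_sub yi wi
    linarith
  have h6 : (m / N) ^ 2 = 1 - (1 / N) ^ 2 := by
    field_simp
    linarith
  have h7 : 0 < 1 / N := by positivity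
  have h8 : 1 / N ≤ 1 := (div_le_one hN).2 hN1
  have h9 := tipp_sq hy h0 hq (by nlinarith) h5
  constructor
  · have e1 : D - s = (D - s * wr) + s * (wr - 1) := by ring
    have e2 : |wr - 1| ≤ y + 3900 * (y + δ / s) := by
      have e3 : wr - 1 = -yr - (1 - 1 / N) := by linarith
      have e4 : 1 - 1 / N ≤ (m / N) ^ 2 := by nlinarith
      have e5 := abs_sub (-yr) (1 - 1 / N)
      rw [abs_neg, abs_of_nonneg (by linarith : 0 ≤ 1 - 1 / N)] at e5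
      rw [e3]
      linarith
    have e6 := abs_add_le (D - s * wr) (s * (wr - 1))
    rw [abs_mul, abs_of_pos hs] at e6
    have e7 := mul_le_mul_of_nonneg_left e2 hs.le
    have e8 := mul_nonneg hs.le hy
    rw [e1]
    nlinarith
  · rw [abs_div, abs_of_pos hN, div_le_iff₀ hN] at h5
    nlinarith

theorem tipp_cplx {P Z ν : ℂ} {D E : ℝ} (hs : 0 < s) (hδ : 0 ≤ δ) (hE : E ≤ 8 * s + δ)
    (hν : ‖ν‖ = 1) (hP : ⟪P, ν⟫ = 1) (hN1 : 1 ≤ ‖P‖) (hN2 : ‖P‖ ≤ 2)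
    (h1 : |D - s * (Z * ν).re| ≤ 10 * δ) (h2 : |s * (Z * ν).im| ≤ 10 * (√(E * δ) + δ)) :
    |D - s| ≤ 4000 * (δ + s * ‖P / (‖P‖ : ℂ) - conj Z‖) ∧
      ‖P - ν‖ ≤ 4000 * (‖P / (‖P‖ : ℂ) - conj Z‖ + √(δ / s) + δ / s) := by
  have hc : ‖conj ν‖ = 1 := by rw [Complex.norm_conj, hν]
  have hre : (P * conj ν).re = 1 := by
    rw [← hP, real_inner_comm, Complex.inner]
  have hn : ‖P * conj ν‖ = ‖P‖ := by rw [norm_mul, hc, mul_one]
  have hm : ‖P‖ ^ 2 = 1 + (P * conj ν).im ^ 2 := by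
    rw [← hn, Complex.sq_norm, Complex.normSq_apply, hre]
    ring
  have e1 : (P / (‖P‖ : ℂ) - conj Z) * conj ν = P * conj ν / (‖P‖ : ℂ) - conj (Z * ν) := by
    rw [map_mul]
    ring
  have hY : ‖(P / (‖P‖ : ℂ) - conj Z) * conj ν‖ = ‖P / (‖P‖ : ℂ) - conj Z‖ := by
    rw [norm_mul, hc, mul_one]
  have h3 := tipp_real (yr := ((P / (‖P‖ : ℂ) - conj Z) * conj ν).re)
    (yi := ((P / (‖P‖ : ℂ) - conj Z) * conj ν).im) (y := ‖P / (‖P‖ : ℂ) - conj Z‖)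
    hs hδ hE hN1 hN2 hm
    (by rw [e1, Complex.sub_re, Complex.div_ofReal_re, hre, Complex.conj_re]; ring)
    (by rw [e1, Complex.sub_im, Complex.div_ofReal_im, Complex.conj_im]; ring)
    (hY ▸ Complex.abs_re_le_norm _) (hY ▸ Complex.abs_im_le_norm _) h1 h2
  refine ⟨h3.1, le_trans (le_of_eq ?_) h3.2⟩
  have e2 : (P - ν) * conj ν = ((P * conj ν).im : ℂ) * I := by
    have e3 : ν * conj ν = 1 := by
      rw [Complex.mul_conj, Complex.normSq_eq_norm_sq, hν]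
      simp
    rw [sub_mul, e3]
    refine Complex.ext ?_ ?_
    · rw [Complex.sub_re, hre]
      simp
    · rw [Complex.sub_im]
      simp
  have e4 := congrArg norm e2
  rwa [norm_mul, hc, mul_one, norm_mul, Complex.norm_I, mul_one, Complex.norm_real,
    Real.norm_eq_abs] at e4

theorem tipP : ∃ C : ℝ, 4 ≤ C ∧ ∀ {Ω lam u K x a b s δ} {p p' : ℝ → ℂ}, NP Ω lam u K →
    closedBall x s ⊆ Ω → Good u K x s → Rad K x a b p p' → 0 ≤ a → s ∈ Ioo a b →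
    Dr u K x s ≤ 8 * s → δ = E2 u K x s - Dr u K x s + 4 * lam * (π * s ^ 2) →
      0 ≤ δ ∧ |Dr u K x s - s| ≤ C * (δ + s * ‖Yv u K x p' s‖) ∧
        ‖p' s - (p s - x) / s‖ ≤ C * (‖Yv u K x p' s‖ + √(δ / s) + δ / s) := by
  refine ⟨4000, by norm_num, ?_⟩
  intro Ω lam u K x a b s δ p p' h hb hg hR ha hs hD hδ
  have hs0 : 0 < s := hg.1
  obtain ⟨-, h1, h2, h3⟩ := hR.pt ha hs
  obtain ⟨h4, -, h5⟩ := hR.2 s hs
  have hs' : (s : ℂ) ≠ 0 := Complex.ofReal_ne_zero.2 hs0.ne'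
  have hex : p s - x = s * ex (arg (p s - x)) := by
    have := Complex.norm_mul_exp_arg_mul_I (p s - x)
    rw [h1] at this
    exact this.symm
  have hcm : p s = circleMap x s (arg (p s - x)) := by
    rw [circleMap_ex, ← hex]
    ring
  obtain ⟨k0, k1, k2, -⟩ := circ1 (α := arg (p s - x)) h hb hg (by rw [h4, ← hcm]) hδ
  have hν : (p s - x) / s = ex (arg (p s - x)) := by
    rw [div_eq_iff hs', mul_comm]
    exact hex
  have hP : ⟪p' s, ex (arg (p s - x))⟫ = 1 := by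
    have e : (s : ℂ) * ex (arg (p s - x)) = s • ex (arg (p s - x)) := by
      rw [Complex.real_smul]
    rw [hex, e, real_inner_smul_right] at h2
    exact mul_left_cancel₀ hs0.ne' (by rw [h2, mul_one])
  have hE : E2 u K x s ≤ 8 * s + δ := by
    have : 0 ≤ 4 * lam * (π * s ^ 2) := by
      have := h.1
      positivity
    linarith
  rw [hν]
  exact ⟨k0, tipp_cplx hs0 k0 hE (ex_norm _) hP h3 h5 k1 k2⟩

end Vale.Agent.P128
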