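import Vale.Agent.P128.Eil0

/-!
# P128 Top

Plane topology. `sep`: in the compact Hausdorff space `X` components are intersections of clopen
sets (`connectedComponent_eq_iInter_isClopen`). `reach`: otherwise separate the component of `p` in
`K ∩ closedBall p R` from the compact `K ∩ sphere p R` by a clopen set, which is a compact isolated piece.
`pick`: maximize `(R - ‖a - p‖)/‖a - b‖` on `U ×ˢ V`. `classes`: `Join K univ` is an equivalence
relation on `K`; `m` inequivalent points give `m` disjoint continua crossing every sphere of radius in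
`(R₀, R)`, so `m (R - R₀) ≤ 7 R` (`eil_low`), `m ≤ 7`; take a maximal finite family of inequivalent points
and let `S` be the union of the segments from one of them to the others.
-/

namespace Vale.Agent.P128

open Set Metric MeasureTheory Filter Topology Complex
open scoped ENNReal ContDiff RealInnerProductSpace Gradient Real ComplexConjugate

variable {Ω K L A S T U O X Γ P M₀ K₀ K₁ : Set ℂ} {u v w g hh ψ η : ℂ → ℝ} {G : ℂ → ℂ}
  {π₀ π₁ : ℂ → Set ℂ} {x y z c p q e a₀ F : ℂ} {lam H r s R a b t M Θ ρ ε δ d : ℝ} {n : ℕ}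

theorem Join.symm (h : Join K S p q) : Join K S q p := by
  obtain ⟨Γ, h1, h2, h3, h4, h5⟩ := h
  exact ⟨Γ, h1, h2, h3, h5, h4⟩

theorem Join.trans (h : Join K S p q) (h' : Join K S q z) : Join K S p z := by
  obtain ⟨Γ, h1, h2, h3, h4, h5⟩ := h
  obtain ⟨Γ', k1, k2, k3, k4, k5⟩ := h'
  exact ⟨Γ ∪ Γ', h1.union k1, h2.union q h5 k4 k2, union_subset h3 k3, Or.inl h4, Or.inr k5⟩

theorem Join.mono (h : Join K S p q) (hK : K ⊆ L) (hS : S ⊆ T) : Join L T p q := by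
  obtain ⟨Γ, h1, h2, h3, h4, h5⟩ := h
  exact ⟨Γ, h1, h2, h3.trans (inter_subset_inter hK hS), h4, h5⟩

theorem cross_sph (hΓ : IsPreconnected Γ) (hp : p ∈ Γ) (hq : q ∈ Γ) (h1 : ‖p - x‖ ≤ s)
    (h2 : s ≤ ‖q - x‖) : ∃ z ∈ Γ, ‖z - x‖ = s :=
  hΓ.intermediate_value hp hq (f := fun z => ‖z - x‖) (by fun_prop) ⟨h1, h2⟩

theorem CC.preconn (h : CC K) : IsPreconnected K := by
  refine isPreconnected_of_forall_pair fun p hp q hq => ?_
  obtain ⟨Γ, -, h2, h3, h4, h5⟩ := h p hp q hq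
  exact ⟨Γ, h3.trans inter_subset_left, h4, h5, h2⟩

theorem sep (hX : IsCompact X) (hp : p ∈ X) (hq : q ∈ X) (h : ¬ Join X univ p q) :
    ∃ U V : Set ℂ, IsCompact U ∧ IsCompact V ∧ Disjoint U V ∧ U ∪ V = X ∧ p ∈ U ∧ q ∈ V := by
  have hc : CompactSpace X := isCompact_iff_compactSpace.1 hX
  have h1 : (⟨q, hq⟩ : X) ∉ connectedComponent (⟨p, hp⟩ : X) := fun h2 =>
    h ⟨Subtype.val '' connectedComponent (⟨p, hp⟩ : X),
      isClosed_connectedComponent.isCompact.image continuous_subtype_val,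
      isPreconnected_connectedComponent.image _ continuous_subtype_val.continuousOn,
      subset_inter (Subtype.coe_image_subset _ _) (subset_univ _),
      ⟨_, mem_connectedComponent, rfl⟩, ⟨_, h2, rfl⟩⟩
  rw [connectedComponent_eq_iInter_isClopen, mem_iInter, not_forall] at h1
  obtain ⟨⟨Z, hZ, hpZ⟩, hqZ⟩ := h1
  refine ⟨Subtype.val '' Z, Subtype.val '' Zᶜ, hZ.isClosed.isCompact.image continuous_subtype_val,
    hZ.compl.isClosed.isCompact.image continuous_subtype_val,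
    disjoint_image_of_injective Subtype.val_injective disjoint_compl_right, ?_, ⟨_, hpZ, rfl⟩,
    ⟨_, hqZ, rfl⟩⟩
  rw [← image_union, union_compl_self, Subtype.coe_image_univ]

theorem reach (hK : IsClosed K) (hN : NoIso K) (hp : p ∈ K) (hR : 0 < R) :
    ∃ q, ‖q - p‖ = R ∧ Join K univ p q := by
  by_contra hc
  have hX : IsCompact (K ∩ closedBall p R) := (isCompact_closedBall p R).inter_left hK
  have hpX : p ∈ K ∩ closedBall p R := ⟨hp, mem_closedBall_self hR.le⟩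
  have h1 : ∀ q ∈ K ∩ sphere p R, ∃ U V : Set ℂ, IsCompact U ∧ IsCompact V ∧ Disjoint U V ∧
      U ∪ V = K ∩ closedBall p R ∧ p ∈ U ∧ q ∈ V := fun q hq =>
    sep hX hpX ⟨hq.1, sphere_subset_closedBall hq.2⟩ fun hj =>
      hc ⟨q, mem_sphere_iff_norm.1 hq.2, hj.mono inter_subset_left Subset.rfl⟩
  choose! U V hU hV hd hUV hpU hqV using h1
  obtain ⟨F, hF, hFf, hcov⟩ := ((isCompact_sphere p R).inter_left hK).elim_finite_subcover_image
    (b := K ∩ sphere p R) (c := fun q => (U q)ᶜ) (fun q hq => (hU q hq).isClosed.isOpen_compl)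
    (fun q hq => mem_biUnion hq (disjoint_right.1 (hd q hq) (hqV q hq)))
  have h2 : IsCompact ((K ∩ closedBall p R) ∩ ⋂ q ∈ F, U q) :=
    hX.inter_right (isClosed_biInter fun q hq => (hU q (hF hq)).isClosed)
  have h3 : K \ ((K ∩ closedBall p R) ∩ ⋂ q ∈ F, U q) = (K \ ball p R) ∪ ⋃ q ∈ F, V q := by
    ext z
    constructor
    · rintro ⟨hz, hz'⟩
      by_cases hb : z ∈ ball p R
      · have h4 : z ∈ K ∩ closedBall p R := ⟨hz, ball_subset_closedBall hb⟩
        have h5 : ¬ ∀ q ∈ F, z ∈ U q := fun h6 => hz' ⟨h4, mem_iInter₂.2 h6⟩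
        push Not at h5
        obtain ⟨q, hq, hzq⟩ := h5
        rw [← hUV q (hF hq)] at h4
        exact Or.inr (mem_biUnion hq (h4.resolve_left hzq))
      · exact Or.inl ⟨hz, hb⟩
    · rintro (⟨hz, hb⟩ | hz)
      · refine ⟨hz, fun h4 => ?_⟩
        have h5 : z ∈ sphere p R := le_antisymm h4.1.2 (not_lt.1 hb)
        obtain ⟨q, hq, hzq⟩ := mem_iUnion₂.1 (hcov ⟨hz, h5⟩)
        exact hzq (mem_iInter₂.1 h4.2 q hq)
      · obtain ⟨q, hq, hzq⟩ := mem_iUnion₂.1 hz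
        have h4 : z ∈ K ∩ closedBall p R := hUV q (hF hq) ▸ Or.inr hzq
        exact ⟨h4.1, fun h5 => disjoint_left.1 (hd q (hF hq)) (mem_iInter₂.1 h5.2 q hq) hzq⟩
  have h6 := hN _ (inter_subset_left.trans inter_subset_left) h2 (by
    rw [h3]
    exact (hK.sdiff isOpen_ball).union (hFf.isClosed_biUnion fun q hq => (hV q (hF hq)).isClosed))
  exact (eq_empty_iff_forall_notMem.1 h6) p ⟨hpX, mem_iInter₂.2 fun q hq => hpU q (hF hq)⟩

theorem pick {V : Set ℂ} {T : ℝ} (hU : IsCompact U) (hV : IsCompact V) (hd : Disjoint U V)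
    (hUR : U ⊆ closedBall p R) (hp : p ∈ U) (hq : q ∈ V) (hT : 0 < T) (hR : T * ‖p - q‖ ≤ R) :
    ∃ a ∈ U, ∃ b ∈ V, ‖a - b‖ ≤ ‖p - q‖ ∧ closedBall a (T * ‖a - b‖) ⊆ closedBall p R ∧
      ∀ a' ∈ U ∩ closedBall a (T * ‖a - b‖ / 2), ∀ b' ∈ V, ‖a - b‖ / 2 ≤ ‖a' - b'‖ := by
  have hne : ∀ a ∈ U, ∀ b ∈ V, 0 < ‖a - b‖ := fun a ha b hb =>
    norm_pos_iff.2 (sub_ne_zero.2 fun h => disjoint_left.1 hd ha (h ▸ hb))
  obtain ⟨⟨a, b⟩, ⟨ha, hb⟩, hmax⟩ := (hU.prod hV).exists_isMaxOn ⟨(p, q), hp, hq⟩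
    (f := fun w : ℂ × ℂ => (R - ‖w.1 - p‖) / ‖w.1 - w.2‖)
    (ContinuousOn.div (by fun_prop) (by fun_prop) fun w hw => (hne _ hw.1 _ hw.2).ne')
  obtain ⟨f, hf⟩ : ∃ f, f = (R - ‖a - p‖) / ‖a - b‖ := ⟨_, rfl⟩
  have h1 : ∀ a' ∈ U, ∀ b' ∈ V, R - ‖a' - p‖ ≤ f * ‖a' - b'‖ := fun a' ha' b' hb' => by
    rw [← div_le_iff₀ (hne a' ha' b' hb'), hf]
    exact hmax (show (a', b') ∈ U ×ˢ V from ⟨ha', hb'⟩)
  have h2 : f * ‖a - b‖ = R - ‖a - p‖ := by rw [hf, div_mul_cancel₀ _ (hne a ha b hb).ne']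
  have h3 := h1 p hp q hq
  rw [sub_self, norm_zero, sub_zero] at h3
  have h4 : T ≤ f := le_of_mul_le_mul_right (hR.trans h3) (hne p hp q hq)
  have h5 := mul_le_mul_of_nonneg_right h4 (norm_nonneg (a - b))
  have h6 : 0 < f := hT.trans_le h4
  refine ⟨a, ha, b, hb, le_of_mul_le_mul_left (by linarith [norm_nonneg (a - p)]) h6,
    closedBall_subset_closedBall' (by rw [dist_eq_norm]; linarith), fun a' ha' b' hb' => ?_⟩
  have h7 := h1 a' ha'.1 b' hb'
  have h8 := mem_closedBall_iff_norm.1 ha'.2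
  have h9 := norm_sub_le_norm_sub_add_norm_sub a' a p
  exact le_of_mul_le_mul_left (by linarith) h6

end Vale.Agent.P128
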