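import Vale.Agent.P128.Defs

/-!
# P128 Wir0

Elementary facts on primitives and Cauchy-Schwarz.
-/

namespace Vale.Agent.P128

open Set Metric MeasureTheory Filter Topology Complex
open scoped ENNReal ContDiff RealInnerProductSpace Gradient Real ComplexConjugate

variable {Ω K L A S T U O X Γ P M₀ K₀ K₁ : Set ℂ} {u v w g hh ψ η : ℂ → ℝ} {G : ℂ → ℂ}
  {π₀ π₁ : ℂ → Set ℂ} {x y z c p q e a₀ F : ℂ} {lam H r s R a b t M Θ ρ ε δ d : ℝ} {n : ℕ}

theorem Prim.osc {f f' : ℝ → ℝ} (h : Prim f f' a b) (hs : s ∈ Ioo a b) (ht : t ∈ Ioo a b) :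
    |f t - f s| ≤ ∫ τ in a..b, |f' τ| := by
  obtain ⟨hab, h1, -, h3⟩ := h
  have key : ∀ s ∈ Ioo a b, ∀ t ∈ Ioo a b, s ≤ t → |f t - f s| ≤ ∫ τ in a..b, |f' τ| := by
    intro s hs t ht hst
    rw [h3 s hs t ht]
    refine (intervalIntegral.abs_integral_le_integral_abs hst).trans ?_
    exact intervalIntegral.integral_mono_interval hs.1.le hst ht.2.le
      (Eventually.of_forall fun τ => abs_nonneg _) h1.abs
  rcases le_total s t with hst | hst
  · exact key s hs t ht hst
  · rw [abs_sub_comm]; exact key t ht s hs hst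

theorem Prim.cont {f f' : ℝ → ℝ} (h : Prim f f' a b) : ContinuousOn f (Ioo a b) := by
  obtain ⟨hab, h1, -, h3⟩ := h
  have hm : (a + b) / 2 ∈ Ioo a b := ⟨by linarith, by linarith⟩
  have hm' : (a + b) / 2 ∈ uIcc a b := by
    rw [uIcc_of_le hab.le]; exact Ioo_subset_Icc_self hm
  have hc := intervalIntegral.continuousOn_primitive_interval' h1 hm'
  rw [uIcc_of_le hab.le] at hc
  have hc' : ContinuousOn (fun t => f ((a + b) / 2) + ∫ τ in ((a + b) / 2)..t, f' τ) (Ioo a b) :=
    continuousOn_const.add (hc.mono Ioo_subset_Icc_self)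
  refine hc'.congr fun t ht => ?_
  have := h3 _ hm t ht
  simp only
  linarith

theorem wir0_int {k : ℝ → ℝ} (hab : a < b) (hk : ContinuousOn k (Ioo a b))
    (hM : ∀ t ∈ Ioo a b, |k t| ≤ M) : IntervalIntegrable k volume a b := by
  rw [intervalIntegrable_iff_integrableOn_Ioo_of_le hab.le]
  have hfin : IsFiniteMeasure (volume.restrict (Ioo a b)) := ⟨by simp⟩
  refine Integrable.of_bound (hk.aestronglyMeasurable measurableSet_Ioo) M ?_
  exact (ae_restrict_iff' measurableSet_Ioo).2 (Eventually.of_forall hM)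

theorem Prim.int {f f' : ℝ → ℝ} (h : Prim f f' a b) (m : ℝ) :
    IntervalIntegrable f volume a b ∧ IntervalIntegrable (fun t => (f t - m) ^ 2) volume a b := by
  have hab := h.1
  have hm : (a + b) / 2 ∈ Ioo a b := ⟨by linarith, by linarith⟩
  have hb : ∀ t ∈ Ioo a b, |f t| ≤ |f ((a + b) / 2)| + ∫ τ in a..b, |f' τ| := by
    intro t ht
    have h1 := h.osc hm ht
    have h2 := abs_sub_abs_le_abs_sub (f t) (f ((a + b) / 2))
    linarith
  refine ⟨wir0_int hab h.cont hb, wir0_int (M := (|f ((a + b) / 2)| + (∫ τ in a..b, |f' τ|) + |m|) ^ 2)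
    hab ((h.cont.sub continuousOn_const).pow 2) fun t ht => ?_⟩
  rw [abs_pow]
  refine pow_le_pow_left₀ (abs_nonneg _) ?_ 2
  have h1 := hb t ht
  have h2 := abs_sub (f t) m
  linarith

theorem Prim.av_le {f f' : ℝ → ℝ} (h : Prim f f' a b) (hM : ∀ t ∈ Ioo a b, |f t| ≤ M) :
    |av f a b| ≤ M := by
  have hab := h.1
  have hpos : 0 < b - a := by linarith
  unfold av
  rw [abs_div, abs_of_pos hpos, div_le_iff₀ hpos]
  have h1 : ‖∫ t in a..b, f t‖ ≤ M * |b - a| := by
    refine intervalIntegral.norm_integral_le_of_norm_le_const_ae ?_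
    have h2 : ∀ᵐ t : ℝ, t ≠ b := by
      simp [ae_iff]
    filter_upwards [h2] with t ht hI
    rw [uIoc_of_le hab.le] at hI
    exact hM t ⟨hI.1, lt_of_le_of_ne hI.2 ht⟩
  rwa [abs_of_pos hpos] at h1

/-- Cauchy-Schwarz for interval integrals. -/
theorem cs_int {f k : ℝ → ℝ} (hab : a ≤ b) (hf : IntervalIntegrable (fun t => f t ^ 2) volume a b)
    (hk : IntervalIntegrable (fun t => k t ^ 2) volume a b)
    (hf' : AEStronglyMeasurable f (volume.restrict (Ioc a b)))
    (hk' : AEStronglyMeasurable k (volume.restrict (Ioc a b))) :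
    IntervalIntegrable (fun t => f t * k t) volume a b ∧
      |∫ t in a..b, f t * k t| ≤ √((∫ t in a..b, f t ^ 2) * ∫ t in a..b, k t ^ 2) := by
  have hfk : IntervalIntegrable (fun t => f t * k t) volume a b := by
    rw [intervalIntegrable_iff_integrableOn_Ioc_of_le hab] at hf hk ⊢
    exact ((memLp_two_iff_integrable_sq hf').2 hf).integrable_mul
      ((memLp_two_iff_integrable_sq hk').2 hk)
  refine ⟨hfk, Real.abs_le_sqrt ?_⟩
  have hq : ∀ x : ℝ, 0 ≤ (∫ t in a..b, k t ^ 2) * (x * x) +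
      (2 * ∫ t in a..b, f t * k t) * x + ∫ t in a..b, f t ^ 2 := by
    intro x
    have h1 : 0 ≤ ∫ t in a..b, (f t + x * k t) ^ 2 :=
      intervalIntegral.integral_nonneg hab fun t _ => sq_nonneg _
    have h2 : ∫ t in a..b, (f t + x * k t) ^ 2 =
        ∫ t in a..b, ((x * x) * k t ^ 2 + (2 * x) * (f t * k t) + f t ^ 2) := by
      congr 1; funext t; ring
    rw [h2, intervalIntegral.integral_add ((hk.const_mul _).add (hfk.const_mul _)) hf,
      intervalIntegral.integral_add (hk.const_mul _) (hfk.const_mul _),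
      intervalIntegral.integral_const_mul, intervalIntegral.integral_const_mul] at h1
    linarith
  have hd := discrim_le_zero hq
  unfold discrim at hd
  nlinarith

end Vale.Agent.P128
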